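import Crest.Agent.R059.Prod

set_option autoImplicit false

open Crest.CombinatoricsR.UnitInterval

namespace Crest.Agent.R059

variable {n : ℕ}

/-- second type, for Hessenberg functions.  `j, k = j+1` are consecutive vertices with the same left
neighbours, `i > k`; off `j,k` the functions agree; `h0 = (i,i)`, `h1 = (i,i+1)`, `h2 = (i+1,i+1)`
on `(j,k)`. -/
theorem modular_typeII {h0 h1 h2 : Fin n → ℕ} (j k i : Fin n) (hk : k.val = j.val + 1) (hki : k < i)
    (v0j : h0 j = i.val) (v0k : h0 k = i.val) (v1j : h1 j = i.val) (v1k : h1 k = i.val + 1)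
    (v2j : h2 j = i.val + 1) (v2k : h2 k = i.val + 1)
    (off1 : ∀ a, a ≠ j → a ≠ k → h1 a = h0 a) (off2 : ∀ a, a ≠ j → a ≠ k → h2 a = h0 a)
    (hleft : ∀ a : Fin n, h0 a ≠ k.val) (N : ℕ) :
    MvPolynomial.C (1 + Polynomial.X) * chromaticQSym h1 N =
      MvPolynomial.C Polynomial.X * chromaticQSym h0 N + chromaticQSym h2 N := by
  classical
  have hkilt : k.val < i.val := hki
  have hne : j ≠ k := by
    intro h; rw [← h] at hk; omega
  have hij : i ≠ j := by
    intro h; rw [h] at hkilt; omega
  have hik : i ≠ k := by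
    intro h; rw [h] at hkilt; omega
  set E : Finset (Fin n × Fin n) := (edges h0).erase (j, k) with hEdef
  have hjkE : (j, k) ∉ E := by simp [hEdef]
  have hijE : (j, i) ∉ E := by
    simp only [hEdef, Finset.mem_erase, mem_edges, not_and]
    intro _ _
    simp only [v0j]; omega
  have hikE : (k, i) ∉ E := by
    simp only [hEdef, Finset.mem_erase, mem_edges, not_and]
    intro _ _
    simp only [v0k]; omega
  have e0 : insert (j, k) E = edges h0 := by
    rw [hEdef, Finset.insert_erase]
    rw [mem_edges]
    simp only [Fin.lt_def, v0j]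
    omega
  have e1 : insert (j, k) (insert (k, i) E) = edges h1 := by
    ext ⟨a, b⟩
    simp only [Finset.mem_insert, hEdef, Finset.mem_erase, mem_edges, Prod.mk.injEq, ne_eq]
    by_cases ha : a = j
    · rw [ha, v0j, v1j]
      simp only [Fin.lt_def, Fin.ext_iff, true_and]
      omega
    · by_cases ha2 : a = k
      · rw [ha2, v0k, v1k]
        simp only [Fin.lt_def, Fin.ext_iff, true_and]
        omega
      · rw [off1 a ha ha2]
        have ha' : a.val ≠ j.val := fun h => ha (Fin.ext h)
        have ha2' : a.val ≠ k.val := fun h => ha2 (Fin.ext h)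
        simp only [Fin.lt_def, Fin.ext_iff]
        omega
  have e2 : insert (j, k) (insert (k, i) (insert (j, i) E)) = edges h2 := by
    ext ⟨a, b⟩
    simp only [Finset.mem_insert, hEdef, Finset.mem_erase, mem_edges, Prod.mk.injEq, ne_eq]
    by_cases ha : a = j
    · rw [ha, v0j, v2j]
      simp only [Fin.lt_def, Fin.ext_iff, true_and]
      omega
    · by_cases ha2 : a = k
      · rw [ha2, v0k, v2k]
        simp only [Fin.lt_def, Fin.ext_iff, true_and]
        omega
      · rw [off2 a ha ha2]
        have ha' : a.val ≠ j.val := fun h => ha (Fin.ext h)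
        have ha2' : a.val ≠ k.val := fun h => ha2 (Fin.ext h)
        simp only [Fin.lt_def, Fin.ext_iff]
        omega
  have hinv : ∀ p : Fin n × Fin n, p ∈ E → (Equiv.swap j k p.1, Equiv.swap j k p.2) ∈ E := by
    rintro ⟨a, b⟩ hp
    simp only [hEdef, Finset.mem_erase, mem_edges, ne_eq, Prod.mk.injEq] at hp ⊢
    obtain ⟨hp1, hp2, hp3⟩ := hp
    have hp2' : a.val < b.val := hp2
    have hp3' : b.val + 1 ≤ h0 a := hp3
    by_cases haj : a = j
    · subst haj
      have hbk : b ≠ k := by
        intro h; exact hp1 ⟨rfl, h⟩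
      have hbj : b ≠ a := hp2.ne'
      rw [Equiv.swap_apply_left, Equiv.swap_apply_of_ne_of_ne hbj hbk]
      have hbk' : b.val ≠ k.val := fun h => hbk (Fin.ext h)
      refine ⟨?_, ?_, ?_⟩
      · rintro ⟨h, _⟩; exact hne h.symm
      · rw [Fin.lt_def]; omega
      · show b.val + 1 ≤ h0 k
        rw [v0k]; rw [v0j] at hp3'; exact hp3'
    · by_cases hak : a = k
      · subst hak
        have hba : b ≠ a := hp2.ne'
        have hbj : b ≠ j := by
          intro h; rw [h] at hp2'; omega
        rw [Equiv.swap_apply_right, Equiv.swap_apply_of_ne_of_ne hbj hba]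
        refine ⟨?_, ?_, ?_⟩
        · rintro ⟨_, h⟩; exact hba h
        · rw [Fin.lt_def]; omega
        · show b.val + 1 ≤ h0 j
          rw [v0j]; rw [v0k] at hp3'; exact hp3'
      · rw [Equiv.swap_apply_of_ne_of_ne haj hak]
        have haj' : a.val ≠ j.val := fun h => haj (Fin.ext h)
        have hal := hleft a
        by_cases hbj : b = j
        · subst hbj
          rw [Equiv.swap_apply_left]
          refine ⟨?_, ?_, ?_⟩
          · rintro ⟨h, _⟩; exact haj h
          · rw [Fin.lt_def]; omega
          · show k.val + 1 ≤ h0 a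
            omega
        · by_cases hbk : b = k
          · subst hbk
            rw [Equiv.swap_apply_right]
            refine ⟨?_, ?_, ?_⟩
            · rintro ⟨h, _⟩; exact haj h
            · rw [Fin.lt_def]; omega
            · show j.val + 1 ≤ h0 a
              omega
          · rw [Equiv.swap_apply_of_ne_of_ne hbj hbk]
            exact ⟨hp1, hp2, hp3⟩
  rw [chromaticQSym_eq, chromaticQSym_eq, chromaticQSym_eq, ← e0, ← e1, ← e2]
  exact modular2 E i j k hij hik hne hjkE hijE hikE hinv N

end Crest.Agent.R059
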