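import Crest.Agent.R059.Uniq
import Crest.Agent.R059.Modular2

set_option autoImplicit false

open Crest.CombinatoricsR.UnitInterval

namespace Crest.Agent.R059

open Function

/-- a family of polynomials attached to all Hessenberg functions. -/
abbrev HFam : Type := ∀ (n : ℕ), (Fin n → ℕ) → ∀ N : ℕ, MvPolynomial (Fin N) (Polynomial ℤ)

/-- the laws that characterise `chromaticQSym`. -/
structure FLaws (F : HFam) : Prop where
  typeI : ∀ (n : ℕ) (h0 h1 h2 : Fin n → ℕ), IsHessenberg h0 → IsHessenberg h1 → IsHessenberg h2 →
    ∀ i j k : Fin n, k.val = j.val + 1 → h0 i = j.val → h1 i = j.val + 1 → h2 i = j.val + 2 →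
    (∀ a, a ≠ i → h1 a = h0 a) → (∀ a, a ≠ i → h2 a = h0 a) → h0 j = h0 k → ∀ N : ℕ,
    MvPolynomial.C (1 + Polynomial.X) * F n h1 N =
      MvPolynomial.C Polynomial.X * F n h0 N + F n h2 N
  typeII : ∀ (n : ℕ) (h0 h1 h2 : Fin n → ℕ), IsHessenberg h0 → IsHessenberg h1 → IsHessenberg h2 →
    ∀ j k i : Fin n, k.val = j.val + 1 → k < i →
    h0 j = i.val → h0 k = i.val → h1 j = i.val → h1 k = i.val + 1 →
    h2 j = i.val + 1 → h2 k = i.val + 1 →
    (∀ a, a ≠ j → a ≠ k → h1 a = h0 a) → (∀ a, a ≠ j → a ≠ k → h2 a = h0 a) →
    (∀ a : Fin n, h0 a ≠ k.val) → ∀ N : ℕ,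
    MvPolynomial.C (1 + Polynomial.X) * F n h1 N =
      MvPolynomial.C Polynomial.X * F n h0 N + F n h2 N
  cut : ∀ (m k : ℕ) (h : Fin (m + k) → ℕ) (h1 : Fin m → ℕ) (h2 : Fin k → ℕ), 0 < m → 0 < k →
    IsHessenberg h → IsHessenberg h1 → IsHessenberg h2 →
    (∀ a : Fin m, h1 a = h (Fin.castAdd k a)) → (∀ a : Fin k, h2 a + m = h (Fin.natAdd m a)) →
    (∀ a : Fin m, h (Fin.castAdd k a) ≤ m) → ∀ N : ℕ, F (m + k) h N = F m h1 N * F k h2 N
  complete : ∀ (n : ℕ) (h : Fin n → ℕ), (∀ i, h i = n) → ∀ N : ℕ, F n h N = chromaticQSym h N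

/-- `H : ℕ → ℕ` (vertices `1..n`) as a function on `Fin n`. -/
def toFin (n : ℕ) (H : ℕ → ℕ) : Fin n → ℕ := fun a => H (a.val + 1)

theorem toFin_hess {n : ℕ} {H : ℕ → ℕ} (hH : Hs n H) : IsHessenberg (toFin n H) := by
  constructor
  · intro a b hab
    exact hH.mono (by omega) (by have : a.val ≤ b.val := hab; omega) (by have := b.isLt; omega)
  · intro a
    exact hH.1 (a.val + 1) (by omega) (by have := a.isLt; omega)

theorem toFin_update_of_ne {n : ℕ} {H : ℕ → ℕ} {i x : ℕ} (a : Fin n) (h : a.val + 1 ≠ i) :
    toFin n (update H i x) a = H (a.val + 1) := by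
  unfold toFin; rw [update_of_ne h]

theorem toFin_update_eq {n : ℕ} {H : ℕ → ℕ} {i x : ℕ} (a : Fin n) (h : a.val + 1 = i) :
    toFin n (update H i x) a = x := by
  unfold toFin; rw [h, update_self]

/-- back to functions on `ℕ`. -/
def ofFin {n : ℕ} (h : Fin n → ℕ) : ℕ → ℕ := fun v => if hv : v - 1 < n then h ⟨v - 1, hv⟩ else 0

theorem toFin_ofFin {n : ℕ} (h : Fin n → ℕ) : toFin n (ofFin h) = h := by
  funext a
  unfold toFin ofFin
  have : a.val + 1 - 1 < n := by have := a.isLt; omega
  rw [dif_pos this]
  congr 1

theorem Hs_ofFin {n : ℕ} {h : Fin n → ℕ} (hh : IsHessenberg h) : Hs n (ofFin h) := by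
  constructor
  · intro v hv hvn
    unfold ofFin
    rw [dif_pos (by omega)]
    have := hh.2 ⟨v - 1, by omega⟩
    simp only at this
    omega
  · intro v hv hvn
    unfold ofFin
    rw [dif_pos (by omega), dif_pos (by omega)]
    apply hh.1
    rw [Fin.le_def]
    simp only
    omega

theorem laws_of_FLaws {F : HFam} (L : FLaws F) (n N : ℕ)
    (ih : ∀ m, m < n → ∀ h : Fin m → ℕ, IsHessenberg h → F m h N = chromaticQSym h N) :
    Laws n N (fun H => F n (toFin n H) N - chromaticQSym (toFin n H) N) where
  ext := by
    intro H H' hHH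
    have : toFin n H = toFin n H' := by
      funext a
      exact hHH (a.val + 1) (by omega) (by have := a.isLt; omega)
    simp only [this]
  typeI := by
    intro H i j hi hij hjn heq H0 H2
    have H1 : Hs n (update H i j) := by
      constructor
      · intro v hv hvn
        have h0 := H0.1 v hv hvn
        have h2 := H2.1 v hv hvn
        by_cases hvi : v = i
        · subst hvi
          simp only [update_self] at h0 h2 ⊢
          omega
        · rw [update_of_ne hvi] at h0 ⊢
          exact h0
      · intro v hv hvn
        have h0 := H0.2 v hv hvn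
        have h2 := H2.2 v hv hvn
        by_cases hvi : v = i
        · subst hvi
          rw [update_self, update_of_ne (by omega)] at h0 h2 ⊢
          omega
        · by_cases hvi' : v + 1 = i
          · subst hvi'
            rw [update_of_ne hvi, update_self] at h0 h2 ⊢
            omega
          · rw [update_of_ne hvi, update_of_ne hvi'] at h0 ⊢
            exact h0
    have hI := L.typeI n (toFin n (update H i (j - 1))) (toFin n (update H i j))
      (toFin n (update H i (j + 1))) (toFin_hess H0) (toFin_hess H1) (toFin_hess H2)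
      ⟨i - 1, by omega⟩ ⟨j - 1, by omega⟩ ⟨j, by omega⟩ (by simp only; omega)
      (by rw [toFin_update_eq _ (by simp only; omega)])
      (by rw [toFin_update_eq _ (by simp only; omega)]; simp only; omega)
      (by rw [toFin_update_eq _ (by simp only; omega)]; simp only; omega)
      (by
        intro a ha
        have : a.val + 1 ≠ i := fun h => ha (Fin.ext (by simp only; omega))
        rw [toFin_update_of_ne a this, toFin_update_of_ne a this])
      (by
        intro a ha
        have : a.val + 1 ≠ i := fun h => ha (Fin.ext (by simp only; omega))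
        rw [toFin_update_of_ne a this, toFin_update_of_ne a this])
      (by
        rw [toFin_update_of_ne _ (by simp only; omega), toFin_update_of_ne _ (by simp only; omega)]
        simp only
        rw [show j - 1 + 1 = j by omega]
        exact heq) N
    have hX := modular_typeI (h0 := toFin n (update H i (j - 1)))
      (h1 := toFin n (update H i j)) (h2 := toFin n (update H i (j + 1)))
      (toFin_hess H0).1 (toFin_hess H2).1 (fun a => ((toFin_hess H0).2 a).1)
      ⟨i - 1, by omega⟩ ⟨j - 1, by omega⟩ ⟨j, by omega⟩ (by simp only; omega)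
      (by rw [toFin_update_eq _ (by simp only; omega)])
      (by rw [toFin_update_eq _ (by simp only; omega)]; simp only; omega)
      (by rw [toFin_update_eq _ (by simp only; omega)]; simp only; omega)
      (by
        intro a ha
        have : a.val + 1 ≠ i := fun h => ha (Fin.ext (by simp only; omega))
        rw [toFin_update_of_ne a this, toFin_update_of_ne a this])
      (by
        intro a ha
        have : a.val + 1 ≠ i := fun h => ha (Fin.ext (by simp only; omega))
        rw [toFin_update_of_ne a this, toFin_update_of_ne a this])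
      (by
        rw [toFin_update_of_ne _ (by simp only; omega), toFin_update_of_ne _ (by simp only; omega)]
        simp only
        rw [show j - 1 + 1 = j by omega]
        exact heq) N
    rw [mul_sub, mul_sub, hI, hX]
    ring
  typeII := by
    intro H t b ht htb hbn hleft H0 H2
    have H1 : Hs n (update (update H t b) (t + 1) (b + 1)) := by
      constructor
      · intro v hv hvn
        have h0 := H0.1 v hv hvn
        have h2 := H2.1 v hv hvn
        by_cases hv1 : v = t + 1
        · subst hv1
          simp only [update_self] at h0 h2 ⊢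
          omega
        · rw [update_of_ne hv1] at h0 ⊢
          exact h0
      · intro v hv hvn
        have h0 := H0.2 v hv hvn
        have h2 := H2.2 v hv hvn
        by_cases hv1 : v = t + 1
        · subst hv1
          rw [update_self, update_of_ne (by omega), update_of_ne (by omega)] at h2 ⊢
          exact h2
        · by_cases hv2 : v + 1 = t + 1
          · have hvt : v = t := by omega
            subst hvt
            rw [update_of_ne (by omega), update_self, update_self]
            omega
          · rw [update_of_ne hv1, update_of_ne hv2] at h0 ⊢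
            exact h0
    have hlt : ∀ a : Fin n, toFin n (update (update H t b) (t + 1) b) a ≠ t := by
      intro a
      by_cases h1 : a.val + 1 = t + 1
      · rw [toFin_update_eq _ h1]; omega
      · rw [toFin_update_of_ne _ h1]
        by_cases h2 : a.val + 1 = t
        · rw [h2, update_self]; omega
        · rw [update_of_ne h2]
          exact hleft (a.val + 1) (by omega) (by have := a.isLt; omega) h2 h1
    have g1 : ∀ (x y : ℕ) (a : Fin n), a.val + 1 = t →
        toFin n (update (update H t x) (t + 1) y) a = x := by
      intro x y a ha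
      rw [toFin_update_of_ne _ (by omega), ha, update_self]
    have g2 : ∀ (x y : ℕ) (a : Fin n), a.val + 1 = t + 1 →
        toFin n (update (update H t x) (t + 1) y) a = y := by
      intro x y a ha
      rw [toFin_update_eq _ ha]
    have g3 : ∀ (x y : ℕ) (a : Fin n), a.val + 1 ≠ t → a.val + 1 ≠ t + 1 →
        toFin n (update (update H t x) (t + 1) y) a = H (a.val + 1) := by
      intro x y a h1 h2
      rw [toFin_update_of_ne _ h2, update_of_ne h1]
    have hoff : ∀ (x y x' y' : ℕ) (a : Fin n), a ≠ (⟨t - 1, by omega⟩ : Fin n) →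
        a ≠ (⟨t, by omega⟩ : Fin n) →
        toFin n (update (update H t x) (t + 1) y) a =
        toFin n (update (update H t x') (t + 1) y') a := by
      intro x y x' y' a h1 h2
      have h1' : a.val + 1 ≠ t := fun h => h1 (Fin.ext (by simp only; omega))
      have h2' : a.val + 1 ≠ t + 1 := fun h => h2 (Fin.ext (by simp only; omega))
      rw [g3 _ _ _ h1' h2', g3 _ _ _ h1' h2']
    have hI := L.typeII n _ _ _ (toFin_hess H0) (toFin_hess H1) (toFin_hess H2)
      ⟨t - 1, by omega⟩ ⟨t, by omega⟩ ⟨b, by omega⟩ (by simp only; omega)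
      (by rw [Fin.lt_def]; simp only; omega)
      (g1 _ _ _ (by simp only; omega)) (g2 _ _ _ (by simp only))
      (g1 _ _ _ (by simp only; omega)) (g2 _ _ _ (by simp only))
      (g1 _ _ _ (by simp only; omega)) (g2 _ _ _ (by simp only))
      (hoff _ _ _ _) (hoff _ _ _ _) hlt N
    have hX := modular_typeII (h0 := toFin n (update (update H t b) (t + 1) b))
      (h1 := toFin n (update (update H t b) (t + 1) (b + 1)))
      (h2 := toFin n (update (update H t (b + 1)) (t + 1) (b + 1)))
      ⟨t - 1, by omega⟩ ⟨t, by omega⟩ ⟨b, by omega⟩ (by simp only; omega)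
      (by rw [Fin.lt_def]; simp only; omega)
      (g1 _ _ _ (by simp only; omega)) (g2 _ _ _ (by simp only))
      (g1 _ _ _ (by simp only; omega)) (g2 _ _ _ (by simp only))
      (g1 _ _ _ (by simp only; omega)) (g2 _ _ _ (by simp only))
      (hoff _ _ _ _) (hoff _ _ _ _) hlt N
    rw [mul_sub, mul_sub, hI, hX]
    ring
  disc := by
    intro H hH v hv hvn hHv
    obtain ⟨k, rfl⟩ : ∃ k, n = v + k := ⟨n - v, by omega⟩
    have hk : 0 < k := by omega
    have hcut : ∀ a : Fin v, toFin (v + k) H (Fin.castAdd k a) ≤ v := by
      intro a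
      unfold toFin
      have := hH.mono (a := a.val + 1) (b := v) (by omega) (by have := a.isLt; omega) (by omega)
      simp only [Fin.val_castAdd]
      omega
    have h1 : IsHessenberg (fun a : Fin v => toFin (v + k) H (Fin.castAdd k a)) := by
      constructor
      · intro a b hab
        exact (toFin_hess hH).1 hab
      · intro a
        exact ⟨((toFin_hess hH).2 (Fin.castAdd k a)).1, hcut a⟩
    have hge : ∀ a : Fin k, v + a.val + 1 ≤ toFin (v + k) H (Fin.natAdd v a) ∧
        toFin (v + k) H (Fin.natAdd v a) ≤ v + k := by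
      intro a
      have := (toFin_hess hH).2 (Fin.natAdd v a)
      simp only [Fin.val_natAdd] at this
      exact this
    have h2 : IsHessenberg (fun a : Fin k => toFin (v + k) H (Fin.natAdd v a) - v) := by
      constructor
      · intro a b hab
        exact Nat.sub_le_sub_right ((toFin_hess hH).1 (by
          rw [Fin.le_def]; simp only [Fin.val_natAdd]; have : a.val ≤ b.val := hab; omega)) v
      · intro a
        have := hge a
        simp only
        omega
    have e1 := L.cut v k (toFin (v + k) H) _ _ (by omega) hk (toFin_hess hH) h1 h2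
      (fun a => rfl) (fun a => by have := hge a; omega) hcut N
    have e2 := chromatic_cut (toFin (v + k) H) (fun a : Fin v => toFin (v + k) H (Fin.castAdd k a))
      (fun a : Fin k => toFin (v + k) H (Fin.natAdd v a) - v)
      (fun a => rfl) (fun a => by have := hge a; omega) hcut N
    rw [e1, e2, ih v (by omega) _ h1, ih k (by omega) _ h2, sub_self]
  compl := by
    rw [L.complete n (toFin n fun _ => n) (fun i => rfl), sub_self]

/-- the laws characterise the chromatic quasisymmetric function. -/
theorem eq_of_FLaws {F : HFam} (L : FLaws F) (N : ℕ) : ∀ (n : ℕ) (h : Fin n → ℕ),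
    IsHessenberg h → F n h N = chromaticQSym h N := by
  intro n
  induction n using Nat.strong_induction_on with
  | _ n ih =>
    intro h hh
    have := laws_unique (laws_of_FLaws L n N ih) (ofFin h) (Hs_ofFin hh)
    simp only [toFin_ofFin] at this
    exact sub_eq_zero.1 this

/-- the candidate function of a labelling of permutations by partitions (given as multisets). -/
noncomputable def thetaF (θ : ∀ (n : ℕ), (Fin n → ℕ) → Equiv.Perm (Fin n) → Multiset ℕ) : HFam :=
  fun n h N => ∑ σ ∈ descentSet h, MvPolynomial.C (Polynomial.X ^ ginv h σ) *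
    ((θ n h σ).map (fun p => MvPolynomial.esymm (Fin N) (Polynomial ℤ) p)).prod

/-- final reduction: a labelling whose function satisfies the laws proves S0081. -/
theorem main_of_theta (θ : ∀ (n : ℕ), (Fin n → ℕ) → Equiv.Perm (Fin n) → Multiset ℕ)
    (hsum : ∀ (n : ℕ) (h : Fin n → ℕ) (σ : Equiv.Perm (Fin n)), IsHessenberg h →
      σ ∈ descentSet h → (θ n h σ).sum = n)
    (hpos : ∀ (n : ℕ) (h : Fin n → ℕ) (σ : Equiv.Perm (Fin n)), IsHessenberg h →
      σ ∈ descentSet h → ∀ p ∈ θ n h σ, 0 < p)
    (L : FLaws (thetaF θ)) :
    ∀ (n : ℕ) (h : Fin n → ℕ), IsHessenberg h →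
      ∃ θ' : {σ : Equiv.Perm (Fin n) // σ ∈ descentSet h} → Nat.Partition n,
        ∀ N : ℕ, chromaticQSym h N =
          ∑ σ : {σ : Equiv.Perm (Fin n) // σ ∈ descentSet h},
            MvPolynomial.C (Polynomial.X ^ ginv h σ.1) *
              MvPolynomial.esymmPart (Fin N) (Polynomial ℤ) (θ' σ) := by
  intro n h hh
  refine ⟨fun σ => ⟨θ n h σ.1, fun {p} hp => hpos n h σ.1 hh σ.2 p hp, hsum n h σ.1 hh σ.2⟩, ?_⟩
  intro N
  rw [← eq_of_FLaws L N n h hh]
  unfold thetaF
  rw [← Finset.sum_coe_sort]
  rfl

end Crest.Agent.R059
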