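import Crest.Agent.R059.Pieri

set_option autoImplicit false

open Crest.CombinatoricsR.UnitInterval

namespace Crest.Agent.R059.Bridge37

open Crest.Agent.R059.Pieri

variable {n : ℕ}

/-! ### q-integers -/

variable {K : Type*} [Field K]

/-- `[m]_q`. -/
def qi (q : K) (m : ℕ) : K := ∑ i ∈ Finset.range m, q ^ i

/-- `[m]_q!`. -/
def qfac (q : K) (m : ℕ) : K := ∏ i ∈ Finset.range m, qi q (i + 1)

theorem qfac_zero (q : K) : qfac q 0 = 1 := by simp [qfac]

theorem qfac_succ (q : K) (m : ℕ) : qfac q (m + 1) = qfac q m * qi q (m + 1) := by
  unfold qfac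
  rw [Finset.prod_range_succ]

theorem qfac_eq (q : K) {m : ℕ} (hm : 0 < m) : qfac q m = qi q m * qfac q (m - 1) := by
  obtain ⟨k, rfl⟩ : ∃ k, m = k + 1 := ⟨m - 1, by omega⟩
  rw [qfac_succ, Nat.add_sub_cancel, mul_comm]

/-- `∑_{b ∈ A} q^{#{a ∈ A, a < b}} = [#A]_q`. -/
theorem sum_rank (q : K) (A : Finset (Fin n)) :
    ∑ b ∈ A, q ^ (A.filter (fun a => a < b)).card = qi q A.card := by
  classical
  induction A using Finset.induction_on_max with
  | empty => simp [qi]
  | insert a s hs ih =>
    have ha : a ∉ s := fun h => lt_irrefl _ (hs a h)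
    rw [Finset.sum_insert ha, Finset.card_insert_of_notMem ha]
    have e1 : (insert a s).filter (fun x => x < a) = s := by
      ext x
      simp only [Finset.mem_filter, Finset.mem_insert]
      constructor
      · rintro ⟨h1 | h1, h2⟩
        · exact absurd h2 (by simp [h1])
        · exact h1
      · intro h
        exact ⟨Or.inr h, hs x h⟩
    have e2 : ∀ b ∈ s, (insert a s).filter (fun x => x < b) = s.filter (fun x => x < b) := by
      intro b hb
      ext x
      simp only [Finset.mem_filter, Finset.mem_insert]
      constructor
      · rintro ⟨h1 | h1, h2⟩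
        · exact absurd (hs b hb) (by rw [h1] at h2; exact not_lt.2 h2.le)
        · exact ⟨h1, h2⟩
      · rintro ⟨h1, h2⟩
        exact ⟨Or.inr h1, h2⟩
    rw [e1, Finset.sum_congr rfl (fun b hb => by rw [e2 b hb]), ih]
    unfold qi
    rw [Finset.sum_range_succ, add_comm]

/-! ### choosing one element in each class -/

variable {ι : Type*} [DecidableEq ι]

theorem sum_sections (π : Fin n → ι) (U : Finset (Fin n)) (T : Finset ι) (g : Fin n → K) :
    ∑ S ∈ U.powerset.filter (fun S => (∀ a ∈ S, ∀ b ∈ S, π a = π b → a = b) ∧ S.image π = T),
      ∏ b ∈ S, g b = ∏ J ∈ T, ∑ b ∈ U.filter (fun b => π b = J), g b := by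
  classical
  rw [Finset.prod_sum]
  symm
  apply Finset.sum_bij (fun p _ => T.attach.image (fun J => p J.1 J.2))
  · intro p hp
    rw [Finset.mem_pi] at hp
    have hpU : ∀ J hJ, p J hJ ∈ U := fun J hJ => (Finset.mem_filter.1 (hp J hJ)).1
    have hpJ : ∀ J hJ, π (p J hJ) = J := fun J hJ => (Finset.mem_filter.1 (hp J hJ)).2
    rw [Finset.mem_filter, Finset.mem_powerset]
    refine ⟨?_, ?_, ?_⟩
    · intro a ha
      rw [Finset.mem_image] at ha
      obtain ⟨J, _, rfl⟩ := ha
      exact hpU _ _
    · intro a ha b hb hab
      rw [Finset.mem_image] at ha hb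
      obtain ⟨J, _, rfl⟩ := ha
      obtain ⟨J', _, rfl⟩ := hb
      rw [hpJ, hpJ] at hab
      have : J = J' := Subtype.ext hab
      rw [this]
    · ext J
      rw [Finset.mem_image]
      constructor
      · rintro ⟨a, ha, rfl⟩
        rw [Finset.mem_image] at ha
        obtain ⟨J', _, rfl⟩ := ha
        rw [hpJ]
        exact J'.2
      · intro hJ
        exact ⟨p J hJ, Finset.mem_image.2 ⟨⟨J, hJ⟩, Finset.mem_attach _ _, rfl⟩, hpJ J hJ⟩
  · intro p hp p' hp' h
    rw [Finset.mem_pi] at hp hp'
    have hpJ : ∀ J hJ, π (p J hJ) = J := fun J hJ => (Finset.mem_filter.1 (hp J hJ)).2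
    have hpJ' : ∀ J hJ, π (p' J hJ) = J := fun J hJ => (Finset.mem_filter.1 (hp' J hJ)).2
    funext J hJ
    have h1 : p J hJ ∈ T.attach.image (fun J => p' J.1 J.2) := by
      rw [← h]
      exact Finset.mem_image.2 ⟨⟨J, hJ⟩, Finset.mem_attach _ _, rfl⟩
    rw [Finset.mem_image] at h1
    obtain ⟨J', _, h2⟩ := h1
    have h3 : J'.1 = J := by
      have := congrArg π h2
      rwa [hpJ', hpJ] at this
    subst h3
    exact h2.symm
  · intro S hS
    rw [Finset.mem_filter, Finset.mem_powerset] at hS
    obtain ⟨hSU, hinj, himg⟩ := hS
    have hex : ∀ J, J ∈ T → ∃ b, b ∈ S ∧ π b = J := by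
      intro J hJ
      rw [← himg, Finset.mem_image] at hJ
      obtain ⟨b, hb, hbJ⟩ := hJ
      exact ⟨b, hb, hbJ⟩
    choose p hp1 hp2 using hex
    refine ⟨p, ?_, ?_⟩
    · rw [Finset.mem_pi]
      intro J hJ
      exact Finset.mem_filter.2 ⟨hSU (hp1 J hJ), hp2 J hJ⟩
    · ext b
      rw [Finset.mem_image]
      constructor
      · rintro ⟨J, _, rfl⟩
        exact hp1 _ _
      · intro hb
        have hJ : π b ∈ T := by
          rw [← himg]
          exact Finset.mem_image_of_mem _ hb
        refine ⟨⟨π b, hJ⟩, Finset.mem_attach _ _, ?_⟩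
        exact hinj _ (hp1 _ _) _ hb (hp2 _ _)
  · intro p hp
    rw [Finset.mem_pi] at hp
    have hpJ : ∀ J hJ, π (p J hJ) = J := fun J hJ => (Finset.mem_filter.1 (hp J hJ)).2
    rw [Finset.prod_image]
    intro J _ J' _ h
    have := congrArg π h
    rw [hpJ, hpJ] at this
    exact Subtype.ext this


/-! ### the recursion of the weighted sums -/

theorem cross_eq (h : Fin n → ℕ) (T S : Finset (Fin n)) :
    cross h T S = ∑ b ∈ S, (T.filter (fun a => Adj h a b)).card := by
  classical
  unfold cross
  rw [Finset.card_filter, Finset.sum_product_right]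
  apply Finset.sum_congr rfl
  intro b _
  rw [Finset.card_filter]

variable [Fintype ι]

/-- class sizes of `U`. -/
def kU (π : Fin n → ι) (U : Finset (Fin n)) : ι → ℤ :=
  fun J => ((U.filter (fun b => π b = J)).card : ℤ)

/-- the recursion which characterises the weighted sums `W`. -/
structure IsW (A : ι → ι → Prop) [DecidableRel A] (q : K) (x : ℕ → K)
    (W : (ι → ℤ) → ℕ → K) : Prop where
  zero : ∀ k, W k 0 = if k = 0 then 1 else 0
  succ : ∀ k N, W k (N + 1) = ∑ S ∈ Finset.univ.filter
    (fun S : Finset ι => ∀ a ∈ S, ∀ b ∈ S, ¬ A a b),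
    x N ^ S.card * q ^ (∑ b ∈ S, ∑ a ∈ Finset.univ.filter (fun a => A a b), k a) *
      W (fun i => k i - if i ∈ S then 1 else 0) N

/-- the solution of the recursion. -/
noncomputable def WW (A : ι → ι → Prop) [DecidableRel A] (q : K) (x : ℕ → K) :
    ℕ → (ι → ℤ) → K
  | 0, k => if k = 0 then 1 else 0
  | N + 1, k => ∑ S ∈ Finset.univ.filter
    (fun S : Finset ι => ∀ a ∈ S, ∀ b ∈ S, ¬ A a b),
    x N ^ S.card * q ^ (∑ b ∈ S, ∑ a ∈ Finset.univ.filter (fun a => A a b), k a) *
      WW A q x N (fun i => k i - if i ∈ S then 1 else 0)

theorem isW_WW (A : ι → ι → Prop) [DecidableRel A] (q : K) (x : ℕ → K) :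
    IsW A q x (fun k N => WW A q x N k) := by
  refine ⟨fun k => ?_, fun k N => ?_⟩
  · simp only [WW]
  · simp only [WW]

theorem IsW.neg {A : ι → ι → Prop} [DecidableRel A] {q : K} {x : ℕ → K}
    {W : (ι → ℤ) → ℕ → K} (hW : IsW A q x W) (N : ℕ) :
    ∀ k : ι → ℤ, (∃ i, k i < 0) → W k N = 0 := by
  induction N with
  | zero =>
    rintro k ⟨i, hi⟩
    rw [hW.zero, if_neg]
    intro h
    rw [h] at hi
    simp at hi
  | succ N ih =>
    rintro k ⟨i, hi⟩
    rw [hW.succ]
    apply Finset.sum_eq_zero
    intro S _
    rw [ih _ ⟨i, by show k i - (if i ∈ S then 1 else 0) < 0; split_ifs <;> omega⟩, mul_zero]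

/-- **bridge**: the chromatic sum of a blow-up is `∏ [k_J]_q!` times `W`. -/
theorem bridge {A : ι → ι → Prop} [DecidableRel A] {q : K} {x : ℕ → K}
    {W : (ι → ℤ) → ℕ → K} (hW : IsW A q x W) (h : Fin n → ℕ) (π : Fin n → ι)
    (hadj : ∀ a b, Adj h a b ↔ (a < b ∧ π a = π b) ∨ A (π a) (π b))
    (hord : ∀ a b, A (π a) (π b) → a < b) (N : ℕ) :
    ∀ U : Finset (Fin n), chr q x h U N =
      (∏ J, qfac q (U.filter (fun b => π b = J)).card) * W (kU π U) N := by
  classical
  induction N with
  | zero =>
    intro U
    rw [chr_zero, hW.zero]
    by_cases hU : U = ∅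
    · subst hU
      have : kU π (∅ : Finset (Fin n)) = 0 := by
        funext J
        simp [kU]
      rw [if_pos rfl, if_pos this]
      simp [qfac_zero]
    · rw [if_neg hU, if_neg, mul_zero]
      intro h0
      apply hU
      rw [Finset.eq_empty_iff_forall_notMem]
      intro b hb
      have h1 : kU π U (π b) = 0 := by rw [h0]; rfl
      unfold kU at h1
      have h2 : (U.filter (fun c => π c = π b)).card = 0 := by exact_mod_cast h1
      rw [Finset.card_eq_zero] at h2
      have h3 : b ∈ U.filter (fun c => π c = π b) := Finset.mem_filter.2 ⟨hb, rfl⟩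
      rw [h2] at h3
      exact absurd h3 (Finset.notMem_empty _)
  | succ N ih =>
    intro U
    rw [chr_succ, hW.succ]
    rw [← Finset.sum_fiberwise_of_maps_to (s := U.powerset.filter (fun S => Stable h S))
      (t := Finset.univ.filter (fun S : Finset ι => ∀ a ∈ S, ∀ b ∈ S, ¬ A a b))
      (g := fun S => S.image π)]
    · rw [Finset.mul_sum]
      apply Finset.sum_congr rfl
      intro T hT
      rw [Finset.mem_filter] at hT
      have hTst := hT.2
      -- the fibre
      have hfib : (U.powerset.filter (fun S => Stable h S)).filter
          (fun S => S.image π = T) = U.powerset.filter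
          (fun S => (∀ a ∈ S, ∀ b ∈ S, π a = π b → a = b) ∧ S.image π = T) := by
        ext S
        simp only [Finset.mem_filter, Finset.mem_powerset]
        constructor
        · rintro ⟨⟨h1, h2⟩, h3⟩
          refine ⟨h1, ?_, h3⟩
          intro a ha b hb hab
          rcases lt_trichotomy a b with hlt | heq | hgt
          · exact absurd ((hadj a b).2 (Or.inl ⟨hlt, hab⟩)) (h2 a ha b hb)
          · exact heq
          · exact absurd ((hadj b a).2 (Or.inl ⟨hgt, hab.symm⟩)) (h2 b hb a ha)
        · rintro ⟨h1, h2, h3⟩
          refine ⟨⟨h1, ?_⟩, h3⟩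
          intro a ha b hb hab
          rcases (hadj a b).1 hab with h4 | h4
          · exact absurd (h2 a ha b hb h4.2) h4.1.ne
          · refine hTst (π a) ?_ (π b) ?_ h4
            · rw [← h3]; exact Finset.mem_image_of_mem _ ha
            · rw [← h3]; exact Finset.mem_image_of_mem _ hb
      rw [hfib]
      -- the summand
      have hsum : ∀ S ∈ U.powerset.filter
          (fun S => (∀ a ∈ S, ∀ b ∈ S, π a = π b → a = b) ∧ S.image π = T),
          x N ^ S.card * q ^ cross h (U \ S) S * chr q x h (U \ S) N =
          (∏ b ∈ S, q ^ ((U.filter (fun c => π c = π b)).filter (fun a => a < b)).card) *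
          (x N ^ T.card * q ^ (∑ b ∈ T, ∑ a ∈ Finset.univ.filter (fun a => A a b), kU π U a) *
            ((∏ J, qfac q ((U.filter (fun b => π b = J)).card - if J ∈ T then 1 else 0)) *
              W (fun i => kU π U i - if i ∈ T then 1 else 0) N)) := by
        intro S hS
        simp only [Finset.mem_filter, Finset.mem_powerset] at hS
        obtain ⟨hSU, hinj, himg⟩ := hS
        have hSst : Stable h S := by
          have : S ∈ (U.powerset.filter (fun S => Stable h S)).filter
              (fun S => S.image π = T) := by
            rw [hfib]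
            simp only [Finset.mem_filter, Finset.mem_powerset]
            exact ⟨hSU, hinj, himg⟩
          simp only [Finset.mem_filter] at this
          exact this.1.2
        have hinj' : Set.InjOn π (S : Set (Fin n)) := by
          intro a ha b hb hab
          exact hinj a (Finset.mem_coe.1 ha) b (Finset.mem_coe.1 hb) hab
        have hcard : S.card = T.card := by
          rw [← himg, Finset.card_image_of_injOn hinj']
        -- sizes of the classes of `U \ S`
        have hsz : ∀ J, ((U \ S).filter (fun b => π b = J)).card =
            (U.filter (fun b => π b = J)).card - if J ∈ T then 1 else 0 := by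
          intro J
          have e : (U \ S).filter (fun b => π b = J) =
              U.filter (fun b => π b = J) \ S.filter (fun b => π b = J) := by
            ext b
            simp only [Finset.mem_filter, Finset.mem_sdiff]
            tauto
          rw [e, Finset.card_sdiff_of_subset (Finset.filter_subset_filter _ hSU)]
          congr 1
          split_ifs with hJ
          · rw [← himg, Finset.mem_image] at hJ
            obtain ⟨b, hb, rfl⟩ := hJ
            rw [Finset.card_eq_one]
            refine ⟨b, ?_⟩
            ext c
            simp only [Finset.mem_filter, Finset.mem_singleton]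
            constructor
            · rintro ⟨h1, h2⟩
              exact hinj c h1 b hb h2
            · rintro rfl
              exact ⟨hb, rfl⟩
          · rw [Finset.card_eq_zero, Finset.eq_empty_iff_forall_notMem]
            intro c hc
            rw [Finset.mem_filter] at hc
            apply hJ
            rw [← himg, ← hc.2]
            exact Finset.mem_image_of_mem _ hc.1
        have hpos : ∀ J ∈ T, 0 < (U.filter (fun b => π b = J)).card := by
          intro J hJ
          rw [← himg, Finset.mem_image] at hJ
          obtain ⟨b, hb, rfl⟩ := hJ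
          rw [Finset.card_pos]
          exact ⟨b, Finset.mem_filter.2 ⟨hSU hb, rfl⟩⟩
        have hk : kU π (U \ S) = fun i => kU π U i - if i ∈ T then 1 else 0 := by
          funext J
          show (((U \ S).filter (fun b => π b = J)).card : ℤ) =
            ((U.filter (fun b => π b = J)).card : ℤ) - _
          rw [hsz]
          split_ifs with hJ
          · have := hpos J hJ
            omega
          · simp
        -- the exponent
        have hcr : cross h (U \ S) S =
            (∑ b ∈ S, ((U.filter (fun c => π c = π b)).filter (fun a => a < b)).card) +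
            ∑ J ∈ T, ∑ a ∈ Finset.univ.filter (fun a => A a J),
              (U.filter (fun c => π c = a)).card := by
          rw [cross_eq, ← himg, Finset.sum_image hinj, ← Finset.sum_add_distrib]
          apply Finset.sum_congr rfl
          intro b hb
          have e1 : (U \ S).filter (fun a => Adj h a b) =
              (U.filter (fun c => π c = π b)).filter (fun a => a < b) ∪
              U.filter (fun a => A (π a) (π b)) := by
            ext a
            simp only [Finset.mem_filter, Finset.mem_sdiff, Finset.mem_union]
            constructor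
            · rintro ⟨⟨h1, h2⟩, h3⟩
              rcases (hadj a b).1 h3 with h4 | h4
              · exact Or.inl ⟨⟨h1, h4.2⟩, h4.1⟩
              · exact Or.inr ⟨h1, h4⟩
            · intro h1
              have h3 : Adj h a b := by
                rw [hadj]
                rcases h1 with h1 | h1
                · exact Or.inl ⟨h1.2, h1.1.2⟩
                · exact Or.inr h1.2
              have h2 : a ∉ S := fun haS => hSst a haS b hb h3
              rcases h1 with h1 | h1
              · exact ⟨⟨h1.1.1, h2⟩, h3⟩
              · exact ⟨⟨h1.1, h2⟩, h3⟩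
          have d1 : Disjoint ((U.filter (fun c => π c = π b)).filter (fun a => a < b))
              (U.filter (fun a => A (π a) (π b))) := by
            rw [Finset.disjoint_left]
            intro a h1 h2
            simp only [Finset.mem_filter] at h1 h2
            have h3 : A (π b) (π b) := by
              have := h2.2
              rwa [h1.1.2] at this
            exact lt_irrefl b (hord b b h3)
          rw [e1, Finset.card_union_of_disjoint d1]
          congr 1
          rw [Finset.card_eq_sum_card_fiberwise (f := π)
            (t := Finset.univ.filter (fun a => A a (π b)))]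
          · apply Finset.sum_congr rfl
            intro J hJ
            rw [Finset.mem_filter] at hJ
            congr 1
            ext c
            simp only [Finset.mem_filter]
            constructor
            · rintro ⟨⟨h1, h2⟩, h3⟩
              exact ⟨h1, h3⟩
            · rintro ⟨h1, h2⟩
              exact ⟨⟨h1, by rw [h2]; exact hJ.2⟩, h2⟩
          · intro c hc
            simp only [Finset.coe_filter, Set.mem_ofPred_eq, Finset.mem_univ, true_and] at hc ⊢
            exact hc.2
        have hz : q ^ (∑ b ∈ T, ∑ a ∈ Finset.univ.filter (fun a => A a b), kU π U a) =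
            q ^ (∑ J ∈ T, ∑ a ∈ Finset.univ.filter (fun a => A a J),
              (U.filter (fun c => π c = a)).card) := by
          rw [← zpow_natCast]
          congr 1
          push_cast
          rfl
        rw [ih (U \ S), hk, hcard, hcr, pow_add, hz, Finset.prod_pow_eq_pow_sum]
        rw [Finset.prod_congr rfl (fun J _ => by rw [hsz J])]
        ring
      rw [Finset.sum_congr rfl hsum, ← Finset.sum_mul]
      have hsec := sum_sections π U T
        (fun b => q ^ ((U.filter (fun c => π c = π b)).filter (fun a => a < b)).card)
      rw [hsec]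
      have hrk : ∀ J ∈ T, ∑ b ∈ U.filter (fun b => π b = J),
          q ^ ((U.filter (fun c => π c = π b)).filter (fun a => a < b)).card =
          qi q (U.filter (fun b => π b = J)).card := by
        intro J _
        rw [← sum_rank]
        apply Finset.sum_congr rfl
        intro b hb
        rw [(Finset.mem_filter.1 hb).2]
      rw [Finset.prod_congr rfl hrk]
      by_cases hpos : ∀ J ∈ T, 0 < (U.filter (fun b => π b = J)).card
      · have hprod : (∏ J, qfac q (U.filter (fun b => π b = J)).card) =
            (∏ J ∈ T, qi q (U.filter (fun b => π b = J)).card) *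
            ∏ J, qfac q ((U.filter (fun b => π b = J)).card - if J ∈ T then 1 else 0) := by
          have e2 : (∏ J ∈ T, qi q (U.filter (fun b => π b = J)).card) =
              ∏ J, if J ∈ T then qi q (U.filter (fun b => π b = J)).card else 1 := by
            rw [Finset.prod_ite_mem, Finset.univ_inter]
          rw [e2, ← Finset.prod_mul_distrib]
          apply Finset.prod_congr rfl
          intro J _
          split_ifs with hJ
          · exact qfac_eq q (hpos J hJ)
          · simp
        rw [hprod]
        ring
      · push Not at hpos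
        obtain ⟨J, hJ, hJ0⟩ := hpos
        have hJ1 : (U.filter (fun b => π b = J)).card = 0 := by omega
        have hW0 : W (fun i => kU π U i - if i ∈ T then 1 else 0) N = 0 := by
          apply hW.neg N
          refine ⟨J, ?_⟩
          show ((U.filter (fun b => π b = J)).card : ℤ) - (if J ∈ T then 1 else 0) < 0
          rw [if_pos hJ, hJ1]
          norm_num
        rw [hW0]
        ring
    · intro S hS
      rw [Finset.mem_filter] at hS
      rw [Finset.mem_filter]
      refine ⟨Finset.mem_univ _, ?_⟩
      intro J hJ J' hJ' hA
      rw [Finset.mem_image] at hJ hJ'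
      obtain ⟨a, ha, rfl⟩ := hJ
      obtain ⟨b, hb, rfl⟩ := hJ'
      exact hS.2 a ha b hb ((hadj a b).2 (Or.inr hA))

end Crest.Agent.R059.Bridge37
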