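/-
Row 59 (S0081), desk T1: the THICK modular law, pure algebra (helper864).

`A` is an algebra over a field `K`, `q : K`, and `a b : A` satisfy
  (1+q) aba = q aab + baa,      (1+q) bab = q abb + bba
(the two modular laws, `a` = closing steps of a block of left twins, `b` = opening steps of a block
of right twins).  With divided powers, for ALL `α β γ`, with `M = α+γ-β ∈ ℤ`:
  a^(α) b^(β) a^(γ) = ∑_{s ≤ β} q^{s(s+γ-β)} [M choose α-s] b^(β-s) a^(α+γ) b^(s).
-/
import Mathlib

namespace Crest.Agent.R059.ThickAlg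

open Finset

variable {K : Type*} [Field K] {A : Type*} [Ring A] [Algebra K A]

/-- the `q`-integer `(q^x-1)/(q-1)` of an integer `x`. -/
noncomputable def qz (q : K) (x : ℤ) : K := (q ^ x - 1) / (q - 1)

/-- the `q`-factorial. -/
noncomputable def qf (q : K) (n : ℕ) : K := ∏ i ∈ range n, qz q (i + 1)

/-- the generalised `q`-binomial `[x choose j]`, `x` an integer. -/
noncomputable def gb (q : K) (x : ℤ) (j : ℤ) : K :=
  if j < 0 then 0 else (∏ i ∈ range j.toNat, qz q (x - i)) / qf q j.toNat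

/-- divided powers. -/
noncomputable def dp (q : K) (x : A) (n : ℕ) : A := (qf q n)⁻¹ • x ^ n

structure Gen (q : K) : Prop where
  q0 : q ≠ 0
  q1 : q ≠ 1
  qn : ∀ n : ℕ, qz q (n + 1) ≠ 0

lemma qz_zero (q : K) : qz q 0 = 0 := by simp [qz]

lemma qz_one {q : K} (h : q ≠ 1) : qz q 1 = 1 := by
  have : q - 1 ≠ 0 := sub_ne_zero.mpr h
  simp [qz, this]

lemma qf_zero (q : K) : qf q 0 = 1 := by simp [qf]

lemma qf_succ (q : K) (n : ℕ) : qf q (n + 1) = qf q n * qz q (n + 1) := by
  simp [qf, prod_range_succ]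

lemma qf_ne {q : K} (g : Gen q) (n : ℕ) : qf q n ≠ 0 := by
  rw [qf, prod_ne_zero_iff]; intro i _; exact g.qn i

lemma qz_succ {q : K} (g : Gen q) (x : ℤ) : qz q (x + 1) = qz q x + q ^ x := by
  have h1 : q - 1 ≠ 0 := sub_ne_zero.mpr g.q1
  rw [qz, qz, zpow_add_one₀ g.q0]; field_simp; ring

lemma dp_zero (q : K) (x : A) : dp q x 0 = 1 := by simp [dp, qf_zero]

lemma dp_one {q : K} (g : Gen q) (x : A) : dp q x 1 = x := by
  have : qf q 1 = 1 := by
    rw [show (1:ℕ) = 0 + 1 from rfl, qf_succ, qf_zero]; simp [qz_one g.q1]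
  simp [dp, this]

lemma dp_mul_self {q : K} (g : Gen q) (x : A) (n : ℕ) :
    dp q x n * x = qz q (n + 1) • dp q x (n + 1) := by
  have h := qf_ne g n
  have h' := g.qn n
  rw [dp, dp, qf_succ, smul_mul_assoc, ← pow_succ, smul_smul]
  congr 1; field_simp

lemma self_mul_dp {q : K} (g : Gen q) (x : A) (n : ℕ) :
    x * dp q x n = qz q (n + 1) • dp q x (n + 1) := by
  have h := qf_ne g n
  have h' := g.qn n
  rw [dp, dp, qf_succ, mul_smul_comm, ← pow_succ', smul_smul]
  congr 1; field_simp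

/-- `a^n b a`. -/
lemma left_one {q : K} (g : Gen q) {a b : A}
    (hII : (1 + q) • (a * b * a) = q • (a * a * b) + b * a * a) (n : ℕ) :
    qz q (n + 1) • (a ^ n * b * a) = b * a ^ (n + 1) + (q * qz q n) • (a ^ (n + 1) * b) := by
  induction n with
  | zero => simp [qz_one g.q1, qz_zero]
  | succ n ih =>
    -- (1+q) a^{n+1} b a = q a^{n+2} b + (a^n b a) a
    have e1 : (1 + q) • (a ^ (n + 1) * b * a) = q • (a ^ (n + 2) * b) + (a ^ n * b * a) * a := by
      have := congrArg (fun z => a ^ n * z) hII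
      simp only [mul_add, mul_smul_comm] at this
      rw [show a ^ (n + 1) * b * a = a ^ n * (a * b * a) by noncomm_ring,
        show a ^ (n + 2) * b = a ^ n * (a * a * b) by noncomm_ring,
        show (a ^ n * b * a) * a = a ^ n * (b * a * a) by noncomm_ring]
      exact this
    have e2 : qz q (n + 1) • ((a ^ n * b * a) * a) =
        b * a ^ (n + 2) + (q * qz q n) • (a ^ (n + 1) * b * a) := by
      have := congrArg (fun z => z * a) ih
      simp only [add_mul, smul_mul_assoc] at this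
      rw [this]; congr 1; noncomm_ring
    have hs := qz_succ g n
    have hs2 := qz_succ g (n + 1 : ℤ)
    have e3 : (qz q (n + 1) * (1 + q)) • (a ^ (n + 1) * b * a) =
        (q * qz q (n + 1)) • (a ^ (n + 2) * b) + (b * a ^ (n + 2) + (q * qz q n) • (a ^ (n + 1) * b * a)) := by
      rw [mul_smul, e1, smul_add, e2, smul_smul, mul_comm (qz q _) q]
    have hc : qz q (((n + 1 : ℕ) : ℤ) + 1) = qz q (n + 1) * (1 + q) - q * qz q n := by
      push_cast
      rw [hs2, hs, zpow_add_one₀ g.q0]; ring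
    rw [hc, sub_smul, e3]
    have : (((n + 1 : ℕ) : ℤ)) = (n : ℤ) + 1 := by push_cast; ring
    rw [this]; abel

/-- `a b a^m`. -/
lemma right_one {q : K} (g : Gen q) {a b : A}
    (hII : (1 + q) • (a * b * a) = q • (a * a * b) + b * a * a) (m : ℕ) :
    qz q (m + 1) • (a * b * a ^ m) = qz q m • (b * a ^ (m + 1)) + (q ^ m) • (a ^ (m + 1) * b) := by
  induction m with
  | zero => simp [qz_one g.q1, qz_zero]
  | succ m ih =>
    have e1 : (1 + q) • (a * b * a ^ (m + 1)) = q • (a * (a * b * a ^ m)) + b * a ^ (m + 2) := by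
      have := congrArg (fun z => z * a ^ m) hII
      simp only [add_mul, smul_mul_assoc] at this
      rw [show a * b * a ^ (m + 1) = a * b * a * a ^ m by rw [pow_succ']; noncomm_ring,
        show a * (a * b * a ^ m) = a * a * b * a ^ m by noncomm_ring,
        show b * a ^ (m + 2) = b * a * a * a ^ m by
          rw [pow_succ', pow_succ']; noncomm_ring]
      exact this
    have e2 : qz q (m + 1) • (a * (a * b * a ^ m)) =
        qz q m • (a * b * a ^ (m + 1)) + (q ^ m) • (a ^ (m + 2) * b) := by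
      have := congrArg (fun z => a * z) ih
      simp only [mul_add, mul_smul_comm] at this
      rw [this]
      congr 2
      · noncomm_ring
      · rw [pow_succ' a (m + 1)]; noncomm_ring
    have e3 : (qz q (m + 1) * (1 + q)) • (a * b * a ^ (m + 1)) =
        q • (qz q m • (a * b * a ^ (m + 1)) + (q ^ m) • (a ^ (m + 2) * b))
          + qz q (m + 1) • (b * a ^ (m + 2)) := by
      rw [mul_smul, e1, smul_add, smul_smul, mul_comm (qz q _) q, mul_smul, e2]
    have hs := qz_succ g m
    have hs2 := qz_succ g (m + 1 : ℤ)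
    have hc : qz q (((m + 1 : ℕ) : ℤ) + 1) = qz q (m + 1) * (1 + q) - q * qz q m := by
      push_cast
      rw [hs2, hs, zpow_add_one₀ g.q0]; ring
    rw [hc, sub_smul, e3, smul_add, smul_smul, smul_smul, ← pow_succ']
    have : (((m + 1 : ℕ) : ℤ)) = (m : ℤ) + 1 := by push_cast; ring
    rw [this]; abel

/-- `b^m a b` (mirror image of `right_one`). -/
lemma mirror_one {q : K} (g : Gen q) {a b : A}
    (hI : (1 + q) • (b * a * b) = q • (a * b * b) + b * b * a) (m : ℕ) :
    qz q (m + 1) • (b ^ m * a * b) = qz q m • (b ^ (m + 1) * a) + (q ^ m) • (a * b ^ (m + 1)) := by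
  have h := right_one (A := Aᵐᵒᵖ) g (a := MulOpposite.op b) (b := MulOpposite.op a) (by
    apply MulOpposite.unop_injective
    simp only [MulOpposite.unop_smul, MulOpposite.unop_add, MulOpposite.unop_mul,
      MulOpposite.unop_op]
    rw [← mul_assoc, ← mul_assoc, ← mul_assoc]
    exact hI) m
  have h' := congrArg MulOpposite.unop h
  simp only [MulOpposite.unop_smul, MulOpposite.unop_add, MulOpposite.unop_mul,
      MulOpposite.unop_op, MulOpposite.unop_pow] at h'
  rw [← mul_assoc] at h'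
  exact h'

/-- `a b^(m+1) a^(N)`. -/
lemma one_left {q : K} (g : Gen q) {a b : A}
    (hI : (1 + q) • (b * a * b) = q • (a * b * b) + b * b * a)
    (hII : (1 + q) • (a * b * a) = q • (a * a * b) + b * a * a) (m N : ℕ) :
    a * dp q b (m + 1) * dp q a N = qz q (N - m) • (dp q b (m + 1) * dp q a (N + 1))
      + (q ^ ((N : ℤ) - m)) • (dp q b m * dp q a (N + 1) * b) := by
  have hq1 : q - 1 ≠ 0 := sub_ne_zero.mpr g.q1
  induction N with
  | zero =>
    have h := mirror_one g hI m
    rw [dp_zero, mul_one]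
    have e0 : dp q a (0 + 1) = a := by simpa using dp_one g a
    rw [e0]
    have hf := qf_ne g m
    have hn := g.qn m
    have hqm : q ^ m ≠ 0 := pow_ne_zero _ g.q0
    have h2 : a * b ^ (m + 1) = (q ^ m)⁻¹ • (qz q (m + 1) • (b ^ m * a * b) - qz q m • (b ^ (m + 1) * a)) := by
      rw [h, add_sub_cancel_left, smul_smul, inv_mul_cancel₀ hqm, one_smul]
    simp only [dp, mul_smul_comm, smul_mul_assoc]
    rw [h2, smul_sub, smul_sub, smul_smul, smul_smul, smul_smul, smul_smul, smul_smul, smul_smul]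
    have c1 : (qf q (m + 1))⁻¹ * (q ^ m)⁻¹ * qz q (m + 1) = q ^ (((0 : ℕ) : ℤ) - m) * (qf q m)⁻¹ := by
      rw [qf_succ]; push_cast; rw [zero_sub, zpow_neg, zpow_natCast]; field_simp
    have c2 : (qf q (m + 1))⁻¹ * (q ^ m)⁻¹ * qz q m = - (qz q (((0 : ℕ) : ℤ) - m) * (qf q (m + 1))⁻¹) := by
      have : qz q (((0 : ℕ) : ℤ) - m) = - ((q ^ m)⁻¹ * qz q m) := by
        push_cast
        rw [zero_sub, qz, qz, zpow_neg, zpow_natCast]; field_simp; ring
      rw [this]; ring
    rw [c1, c2, neg_smul, sub_neg_eq_add, add_comm]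
  | succ N ih =>
    have h := congrArg (fun z => z * a) ih
    simp only [add_mul, smul_mul_assoc] at h
    have l1 : a * dp q b (m + 1) * dp q a N * a = qz q (N + 1) • (a * dp q b (m + 1) * dp q a (N + 1)) := by
      rw [mul_assoc, dp_mul_self g, mul_smul_comm]
    have l2 : dp q b (m + 1) * dp q a (N + 1) * a
        = qz q ((N + 1 : ℕ) + 1) • (dp q b (m + 1) * dp q a (N + 1 + 1)) := by
      rw [mul_assoc, dp_mul_self g, mul_smul_comm]
    have l3 : dp q a (N + 1) * b * a = b * dp q a (N + 1 + 1) + (q * qz q (N + 1)) • (dp q a (N + 1 + 1) * b) := by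
      have := left_one g hII (N + 1)
      have hf := qf_ne g (N + 1)
      have hn := g.qn (N + 1)
      have h2 : a ^ (N + 1) * b * a = (qz q ((N + 1 : ℕ) + 1))⁻¹ • (b * a ^ (N + 1 + 1) + (q * qz q ((N + 1 : ℕ))) • (a ^ (N + 1 + 1) * b)) := by
        rw [← this, smul_smul, inv_mul_cancel₀ hn, one_smul]
      simp only [dp, smul_mul_assoc, mul_smul_comm]
      rw [h2, smul_smul, smul_add, smul_smul, qf_succ q (N + 1), mul_inv]
      push_cast
      rw [smul_smul]
      congr 2; ring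
    rw [l1, l2] at h
    have l4 : dp q b m * dp q a (N + 1) * b * a
        = qz q (m + 1) • (dp q b (m + 1) * dp q a (N + 1 + 1))
          + (q * qz q (N + 1)) • (dp q b m * dp q a (N + 1 + 1) * b) := by
      rw [mul_assoc, mul_assoc, ← mul_assoc (dp q a (N + 1)), l3, mul_add, mul_smul_comm,
        ← mul_assoc, dp_mul_self g, smul_mul_assoc, ← mul_assoc]
    rw [l4] at h
    have hN := g.qn N
    have key : a * dp q b (m + 1) * dp q a (N + 1) = (qz q (N + 1))⁻¹ • (qz q (N + 1) • (a * dp q b (m + 1) * dp q a (N + 1))) := by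
      rw [smul_smul, inv_mul_cancel₀ hN, one_smul]
    rw [key, h]
    simp only [smul_add, smul_smul]
    rw [← add_assoc, ← add_smul]
    have hid : (qz q (N + 1))⁻¹ * (qz q (N - m) * qz q ((N + 1 : ℕ) + 1)) + (qz q (N + 1))⁻¹ * (q ^ ((N : ℤ) - m) * qz q (m + 1))
        = qz q ((N + 1 : ℕ) - m) := by
      rw [← mul_add, inv_mul_eq_iff_eq_mul₀ hN]
      simp only [qz]
      push_cast
      have z1 : q ^ ((N : ℤ) + 1 + 1) = q ^ (N : ℤ) * q * q := by
        rw [zpow_add_one₀ g.q0, zpow_add_one₀ g.q0]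
      have z2 : q ^ ((N : ℤ) + 1) = q ^ (N : ℤ) * q := zpow_add_one₀ g.q0 _
      have z3 : q ^ ((N : ℤ) - m) = q ^ (N : ℤ) * (q ^ (m : ℤ))⁻¹ := by
        rw [zpow_sub₀ g.q0, div_eq_mul_inv]
      have z4 : q ^ ((N : ℤ) + 1 - m) = q ^ (N : ℤ) * q * (q ^ (m : ℤ))⁻¹ := by
        rw [zpow_sub₀ g.q0, zpow_add_one₀ g.q0, div_eq_mul_inv]
      have z5 : q ^ ((m : ℤ) + 1) = q ^ (m : ℤ) * q := zpow_add_one₀ g.q0 _
      rw [z1, z2, z3, z4, z5]
      have hm : q ^ (m : ℤ) ≠ 0 := zpow_ne_zero _ g.q0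
      generalize q ^ (m : ℤ) = y at *
      generalize q ^ (N : ℤ) = x at *
      field_simp
      ring
    have hid2 : (qz q (N + 1))⁻¹ * (q ^ ((N : ℤ) - m) * (q * qz q (N + 1))) = q ^ (((N + 1 : ℕ) : ℤ) - m) := by
      have : q ^ (((N + 1 : ℕ) : ℤ) - m) = q ^ ((N : ℤ) - m) * q := by
        rw [← zpow_add_one₀ g.q0]; congr 1; push_cast; ring
      rw [this]; field_simp
    refine congrArg₂ (· + ·) (congrArg (· • _) ?_) (congrArg (· • _) ?_)
    · linear_combination hid
    · linear_combination hid2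

lemma gb_neg (q : K) (x : ℤ) {j : ℤ} (h : j < 0) : gb q x j = 0 := by simp [gb, h]

lemma gb_zero (q : K) (x : ℤ) : gb q x 0 = 1 := by simp [gb, qf_zero]

lemma gb_nat (q : K) (x : ℤ) (j : ℕ) :
    gb q x j = (∏ i ∈ range j, qz q (x - i)) / qf q j := by
  simp [gb]

/-- the q-binomial identity of the induction step. -/
lemma gb_step {q : K} (g : Gen q) (M : ℤ) (j : ℤ) (s : ℕ) :
    qz q (j + s) * gb q (M + 1) j
      = gb q M (j - 1) * qz q (M + 1 + s) + q ^ j * gb q M j * qz q s := by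
  have hq1 : q - 1 ≠ 0 := sub_ne_zero.mpr g.q1
  rcases lt_trichotomy j 0 with h | h | h
  · rw [gb_neg q _ h, gb_neg q _ h, gb_neg q _ (by omega)]; ring
  · subst h
    rw [gb_zero, gb_zero, gb_neg q _ (by norm_num)]; simp
  · obtain ⟨k, rfl⟩ : ∃ k : ℕ, j = k + 1 := ⟨(j - 1).toNat, by omega⟩
    have e1 : gb q (M + 1) ((k : ℤ) + 1) = qz q (M + 1) * (∏ i ∈ range k, qz q (M - i)) / qf q (k + 1) := by
      have := gb_nat q (M + 1) (k + 1)
      push_cast at this
      rw [this, prod_range_succ']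
      have : ∀ i ∈ range k, qz q (M + 1 - ((i + 1 : ℕ) : ℤ)) = qz q (M - i) := by
        intro i _; congr 1; push_cast; ring
      rw [prod_congr rfl this]
      simp only [Nat.cast_zero, sub_zero]
      rw [mul_comm (∏ i ∈ range k, qz q (M - i))]
    have e2 : gb q M ((k : ℤ) + 1) = (∏ i ∈ range k, qz q (M - i)) * qz q (M - k) / qf q (k + 1) := by
      have := gb_nat q M (k + 1)
      push_cast at this
      rw [this, prod_range_succ]
    have e3 : gb q M ((k : ℤ) + 1 - 1) = (∏ i ∈ range k, qz q (M - i)) / qf q k := by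
      rw [add_sub_cancel_right]; exact gb_nat q M k
    rw [e1, e2, e3, qf_succ]
    have hf := qf_ne g k
    have hn := g.qn k
    have key : qz q ((k : ℤ) + 1 + s) * qz q (M + 1)
        = qz q ((k : ℤ) + 1) * qz q (M + 1 + s) + q ^ ((k : ℤ) + 1) * qz q (M - k) * qz q s := by
      simp only [qz]
      have z1 : q ^ ((k : ℤ) + 1 + s) = q ^ (k : ℤ) * q * q ^ (s : ℤ) := by
        rw [zpow_add₀ g.q0, zpow_add_one₀ g.q0]
      have z2 : q ^ (M + 1) = q ^ M * q := zpow_add_one₀ g.q0 _
      have z3 : q ^ ((k : ℤ) + 1) = q ^ (k : ℤ) * q := zpow_add_one₀ g.q0 _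
      have z4 : q ^ (M + 1 + s) = q ^ M * q * q ^ (s : ℤ) := by
        rw [zpow_add₀ g.q0, zpow_add_one₀ g.q0]
      have z5 : q ^ (M - k) = q ^ M * (q ^ (k : ℤ))⁻¹ := by
        rw [zpow_sub₀ g.q0, div_eq_mul_inv]
      rw [z1, z2, z3, z4, z5]
      have hk : q ^ (k : ℤ) ≠ 0 := zpow_ne_zero _ g.q0
      generalize q ^ (k : ℤ) = y at *
      generalize q ^ M = x at *
      generalize q ^ (s : ℤ) = z at *
      field_simp
      ring
    generalize (∏ i ∈ range k, qz q (M - i)) = P at *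
    field_simp
    linear_combination P * key

/-- one step: `a` times a term. -/
lemma step_term {q : K} (g : Gen q) {a b : A}
    (hI : (1 + q) • (b * a * b) = q • (a * b * b) + b * b * a)
    (hII : (1 + q) • (a * b * a) = q • (a * a * b) + b * a * a) (β N s : ℕ) (hs : s ≤ β) :
    a * (dp q b (β - s) * dp q a N * dp q b s) =
      qz q ((N : ℤ) + 1 - β + s) • (dp q b (β - s) * dp q a (N + 1) * dp q b s)
      + (if s < β then (q ^ ((N : ℤ) + 1 - β + s) * qz q ((s : ℤ) + 1)) •
          (dp q b (β - (s + 1)) * dp q a (N + 1) * dp q b (s + 1)) else 0) := by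
  split_ifs with h
  · obtain ⟨m, rfl⟩ : ∃ m, β = s + 1 + m := ⟨β - (s + 1), by omega⟩
    have h1 : s + 1 + m - s = m + 1 := by omega
    have h2 : s + 1 + m - (s + 1) = m := by omega
    rw [h1, h2]
    have e := one_left g hI hII m N
    rw [show a * (dp q b (m + 1) * dp q a N * dp q b s) = (a * dp q b (m + 1) * dp q a N) * dp q b s by
      noncomm_ring, e, add_mul, smul_mul_assoc, smul_mul_assoc]
    have e2 : dp q b m * dp q a (N + 1) * b * dp q b s
        = qz q ((s : ℤ) + 1) • (dp q b m * dp q a (N + 1) * dp q b (s + 1)) := by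
      rw [mul_assoc, self_mul_dp g, mul_smul_comm]
    rw [e2, smul_smul]
    have c : (N : ℤ) + 1 - ((s + 1 + m : ℕ) : ℤ) + s = (N : ℤ) - m := by push_cast; ring
    rw [c]
  · have : β = s := by omega
    subst this
    rw [Nat.sub_self, dp_zero, one_mul, one_mul, ← mul_assoc, self_mul_dp g, smul_mul_assoc, add_zero]
    congr 2; ring

/-- THE THICK LAW. -/
theorem thick {q : K} (g : Gen q) {a b : A}
    (hI : (1 + q) • (b * a * b) = q • (a * b * b) + b * b * a)
    (hII : (1 + q) • (a * b * a) = q • (a * a * b) + b * a * a) (α β γ : ℕ) :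
    dp q a α * dp q b β * dp q a γ = ∑ s ∈ range (β + 1),
      (q ^ ((s : ℤ) * (s + γ - β)) * gb q ((α : ℤ) + γ - β) (α - s)) •
        (dp q b (β - s) * dp q a (α + γ) * dp q b s) := by
  induction α with
  | zero =>
    rw [sum_eq_single 0]
    · simp [gb_zero, dp_zero]
    · intro s _ hs
      rw [gb_neg]
      · simp
      · have : 0 < s := Nat.pos_of_ne_zero hs
        push_cast; omega
    · simp
  | succ α ih =>
    have hα := g.qn α
    set c : ℤ → K := fun s => q ^ (s * (s + γ - β)) * gb q ((α : ℤ) + γ - β) (α - s) with hc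
    have h1 : a * (dp q a α * dp q b β * dp q a γ)
        = qz q (α + 1) • (dp q a (α + 1) * dp q b β * dp q a γ) := by
      rw [mul_assoc, ← mul_assoc, self_mul_dp g, smul_mul_assoc, mul_assoc]
    have h2 : a * (dp q a α * dp q b β * dp q a γ) =
        ∑ s ∈ range (β + 1), (c s * qz q (((α + γ : ℕ) : ℤ) + 1 - β + s)
            + c ((s : ℤ) - 1) * (q ^ (((α + γ : ℕ) : ℤ) - β + s) * qz q s)) •
          (dp q b (β - s) * dp q a (α + γ + 1) * dp q b s) := by
      rw [ih, mul_sum]
      have : ∀ s ∈ range (β + 1), a * ((q ^ ((s : ℤ) * (s + γ - β)) * gb q ((α : ℤ) + γ - β) (α - s)) •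
          (dp q b (β - s) * dp q a (α + γ) * dp q b s)) =
          (c s * qz q (((α + γ : ℕ) : ℤ) + 1 - β + s)) • (dp q b (β - s) * dp q a (α + γ + 1) * dp q b s)
          + (if s < β then (c s * (q ^ (((α + γ : ℕ) : ℤ) + 1 - β + s) * qz q ((s : ℤ) + 1))) •
          (dp q b (β - (s + 1)) * dp q a (α + γ + 1) * dp q b (s + 1)) else 0) := by
        intro s hs
        rw [mul_smul_comm, step_term g hI hII β (α + γ) s (by simpa [Nat.lt_succ_iff] using hs),
          smul_add, smul_smul]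
        split_ifs with h
        · rw [smul_smul]
        · rw [smul_zero]
      rw [sum_congr rfl this, sum_add_distrib, sum_range_succ (fun s => if s < β then _ else _)]
      simp only [lt_irrefl, if_false, add_zero]
      have e3 : ∑ s ∈ range β, (if s < β then (c s * (q ^ (((α + γ : ℕ) : ℤ) + 1 - β + s) * qz q ((s : ℤ) + 1))) •
          (dp q b (β - (s + 1)) * dp q a (α + γ + 1) * dp q b (s + 1)) else 0)
          = ∑ s ∈ range (β + 1), (c ((s : ℤ) - 1) * (q ^ (((α + γ : ℕ) : ℤ) - β + s) * qz q s)) •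
          (dp q b (β - s) * dp q a (α + γ + 1) * dp q b s) := by
        rw [sum_range_succ' _ β]
        simp only [Nat.cast_zero, qz_zero, mul_zero, zero_smul, add_zero]
        apply sum_congr rfl
        intro s hs
        rw [if_pos (mem_range.mp hs)]
        have i1 : ((s + 1 : ℕ) : ℤ) - 1 = s := by push_cast; ring
        have i2 : ((α + γ : ℕ) : ℤ) - β + ((s + 1 : ℕ) : ℤ) = ((α + γ : ℕ) : ℤ) + 1 - β + s := by
          push_cast; ring
        rw [i1, i2]; push_cast; rfl
      rw [e3, ← sum_add_distrib]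
      apply sum_congr rfl
      intro s _
      rw [← add_smul]
    have h3 : dp q a (α + 1) * dp q b β * dp q a γ =
        (qz q (α + 1))⁻¹ • (a * (dp q a α * dp q b β * dp q a γ)) := by
      rw [h1, smul_smul, inv_mul_cancel₀ hα, one_smul]
    rw [h3, h2, smul_sum]
    apply sum_congr rfl
    intro s _
    rw [smul_smul]
    have hN : α + 1 + γ = α + γ + 1 := by ring
    rw [hN]
    congr 1
    rw [inv_mul_eq_iff_eq_mul₀ hα]
    have st := gb_step g ((α : ℤ) + γ - β) ((α : ℤ) + 1 - s) s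
    have j1 : (α : ℤ) + 1 - s + s = α + 1 := by ring
    have j2 : (α : ℤ) + 1 - s - 1 = α - s := by ring
    rw [j1, j2] at st
    have k1 : (((α + 1 : ℕ) : ℤ) + γ - β) = (α : ℤ) + γ - β + 1 := by push_cast; ring
    have k2 : (((α + 1 : ℕ) : ℤ) - s) = (α : ℤ) + 1 - s := by push_cast; ring
    have k3 : (((α + γ : ℕ) : ℤ) + 1 - β + s) = (α : ℤ) + γ - β + 1 + s := by push_cast; ring
    have k4 : (α : ℤ) - ((s : ℤ) - 1) = (α : ℤ) + 1 - s := by ring
    have k5 : q ^ (((s : ℤ) - 1) * (((s : ℤ) - 1) + γ - β)) * q ^ (((α + γ : ℕ) : ℤ) - β + s)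
        = q ^ ((s : ℤ) * (s + γ - β)) * q ^ ((α : ℤ) + 1 - s) := by
      rw [← zpow_add₀ g.q0, ← zpow_add₀ g.q0]; congr 1; push_cast; ring
    simp only [hc]
    rw [k1, k2, k3, k4]
    calc _ = q ^ ((s : ℤ) * (s + γ - β)) * (gb q ((α : ℤ) + γ - β) (α - s) * qz q ((α : ℤ) + γ - β + 1 + s))
          + (q ^ (((s : ℤ) - 1) * (((s : ℤ) - 1) + γ - β)) * q ^ (((α + γ : ℕ) : ℤ) - β + s))
            * (gb q ((α : ℤ) + γ - β) ((α : ℤ) + 1 - s) * qz q s) := by ring
      _ = _ := by
        rw [k5]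
        linear_combination (- q ^ ((s : ℤ) * (s + γ - β))) * st

end Crest.Agent.R059.ThickAlg
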