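import Crest.Agent.R059.Defl
import Crest.Agent.R059.ThickAlg

set_option autoImplicit false

/-! Row 59: the vanishing identity (SS) and the cluster resummation. -/

namespace Crest.Agent.R059.Clus

open Crest.Agent.R059 Crest.Agent.R059.Defl Crest.Agent.R059.ThickAlg

variable {F : Type*} [Field F]

/-- the end factor `q^A [A+D-1; A]`. -/
noncomputable def ph (q : F) (A D : ℤ) : F := q ^ A * gb q (A + D - 1) A

theorem ph_neg (q : F) {A : ℤ} (D : ℤ) (h : A < 0) : ph q A D = 0 := by
  rw [ph, gb_neg q _ h, mul_zero]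

theorem ph_zero (q : F) (D : ℤ) : ph q 0 D = 1 := by
  rw [ph, gb_zero, zpow_zero, one_mul]

theorem ph_one {q : F} (g : Gen q) (D : ℤ) : ph q 1 D = q * qz q D := by
  rw [ph]
  have : gb q (1 + D - 1) 1 = qz q D := by
    have h := gb_nat q (1 + D - 1) 1
    rw [Nat.cast_one] at h
    rw [h]
    simp only [Finset.prod_range_one, Nat.cast_zero, sub_zero]
    have h1 : qf q 1 = 1 := by
      rw [show (1 : ℕ) = 0 + 1 from rfl, qf_succ, qf_zero]; simp [qz_one g.q1]
    rw [h1, div_one]
    congr 1
    ring
  rw [this, zpow_one]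

/-- `q`-Pascal for generalised binomials. -/
theorem gb_pascal {q : F} (g : Gen q) (M : ℤ) (j : ℕ) :
    gb q M (j + 1) = gb q (M - 1) (j + 1) + q ^ (M - 1 - j) * gb q (M - 1) j := by
  have h1 := gb_nat q M (j + 1)
  have h2 := gb_nat q (M - 1) (j + 1)
  have h3 := gb_nat q (M - 1) j
  push_cast at h1 h2
  rw [h1, h2, h3, Finset.prod_range_succ (fun i : ℕ => qz q (M - 1 - i)) j,
    Finset.prod_range_succ' (fun i : ℕ => qz q (M - i)) j, qf_succ]
  have hs : ∀ i ∈ Finset.range j, qz q (M - ((i + 1 : ℕ) : ℤ)) = qz q (M - 1 - i) := by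
    intro i _
    congr 1
    push_cast
    ring
  rw [Finset.prod_congr rfl hs]
  have hf := qf_ne g j
  have hn := g.qn j
  have hq1 : q - 1 ≠ 0 := sub_ne_zero.mpr g.q1
  have key : qz q (M - ((0 : ℕ) : ℤ)) = qz q (M - 1 - j) + q ^ (M - 1 - (j : ℤ)) * qz q (j + 1) := by
    unfold qz
    have e1 : q ^ (M - ((0 : ℕ) : ℤ)) = q ^ (M - 1 - (j : ℤ)) * q ^ ((j : ℤ) + 1) := by
      rw [← zpow_add₀ g.q0]; congr 1; push_cast; ring
    rw [e1]
    field_simp
    ring
  rw [key]
  field_simp

theorem ph_rec {q : F} (g : Gen q) (A D : ℤ) :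
    ph q A D = q ^ D * ph q (A - 1) D + ph q A (D - 1) := by
  rcases lt_trichotomy A 0 with h | h | h
  · rw [ph_neg q D h, ph_neg q D (by omega), ph_neg q (D - 1) h]; ring
  · subst h
    rw [ph_zero, ph_zero, ph_neg q D (by omega : (0 : ℤ) - 1 < 0)]; ring
  · obtain ⟨j, rfl⟩ : ∃ j : ℕ, A = j + 1 := ⟨(A - 1).toNat, by omega⟩
    unfold ph
    have h1 := gb_pascal g ((j : ℤ) + 1 + D - 1) j
    rw [h1]
    have e1 : (j : ℤ) + 1 + (D - 1) - 1 = j + 1 + D - 1 - 1 := by ring
    have e2 : (j : ℤ) + 1 - 1 + D - 1 = j + 1 + D - 1 - 1 := by ring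
    have e3 : (j : ℤ) + 1 - 1 = j := by ring
    rw [e1, e2, e3, mul_add]
    have e4 : q ^ ((j : ℤ) + 1) * (q ^ ((j : ℤ) + 1 + D - 1 - 1 - j) * gb q ((j : ℤ) + 1 + D - 1 - 1) j)
        = q ^ D * (q ^ (j : ℤ) * gb q ((j : ℤ) + 1 + D - 1 - 1) j) := by
      rw [← mul_assoc, ← mul_assoc, ← zpow_add₀ g.q0, ← zpow_add₀ g.q0]
      congr 2
      ring
    rw [e4]
    ring

theorem ph_self_zero {q : F} (g : Gen q) {A : ℤ} (hA : A ≠ 0) : ph q A 0 = 0 := by
  rcases lt_or_gt_of_ne hA with h | h
  · exact ph_neg q 0 h
  · obtain ⟨j, rfl⟩ : ∃ j : ℕ, A = j + 1 := ⟨(A - 1).toNat, by omega⟩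
    unfold ph
    have h1 := gb_nat q ((j : ℤ) + 1 + 0 - 1) (j + 1)
    push_cast at h1
    rw [h1, Finset.prod_range_succ]
    have : qz q ((j : ℤ) + 1 + 0 - 1 - j) = 0 := by
      rw [show (j : ℤ) + 1 + 0 - 1 - j = 0 by ring, qz_zero]
    rw [this]
    simp

section SS

variable {ι : Type*} [LinearOrder ι] [Fintype ι] {R : ι → ι → Prop} [DecidableRel R]

/-- weight `κ` at the isolated root. -/
def rt (o : ι) (κ : ℤ) : ι → ℤ := fun j => if j = o then κ else 0

theorem W_rt (hR : UI R) (o : ι) (ho1 : ∀ j, ¬ R o j) (ho2 : ∀ j, ¬ R j o) (q : F) (x : ℕ → F)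
    (N : ℕ) : ∀ (κ : ℤ) (k : ι → ℤ), k o = 0 →
      W R q x N (rt o κ + k) = ee x N κ * W R q x N k := by
  classical
  induction N with
  | zero =>
    intro κ k hk
    show (if rt o κ + k = 0 then (1 : F) else 0) = ee x 0 κ * (if k = 0 then 1 else 0)
    rw [ee_zero]
    by_cases h1 : κ = 0
    · subst h1
      have : rt o 0 + k = k := by
        funext j; simp [rt]
      rw [this, if_pos rfl, one_mul]
    · rw [if_neg h1, zero_mul, if_neg]
      intro h2
      have := congrFun h2 o
      simp only [Pi.add_apply, rt, if_true, hk, Pi.zero_apply, add_zero] at this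
      exact h1 this
  | succ N ih =>
    intro κ k hk
    have hnb : ∀ j, nb R (rt o κ + k) j = nb R k j := by
      intro j
      unfold nb
      apply Finset.sum_congr rfl
      intro i _
      by_cases hi : i = o
      · subst hi
        rw [if_neg (ho1 j), if_neg (ho1 j)]
      · simp [rt, hi]
    show ∑ S ∈ (Finset.univ : Finset ι).powerset.filter (fun S => St R S),
      x N ^ S.card * q ^ (∑ b ∈ S, nb R (rt o κ + k) b) * W R q x N (rt o κ + k - ind S) =
      ee x (N + 1) κ * ∑ S ∈ (Finset.univ : Finset ι).powerset.filter (fun S => St R S),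
      x N ^ S.card * q ^ (∑ b ∈ S, nb R k b) * W R q x N (k - ind S)
    -- split by membership of `o`
    have hsplit : ∀ f : Finset ι → F,
        ∑ S ∈ (Finset.univ : Finset ι).powerset.filter (fun S => St R S), f S =
        ∑ S ∈ (Finset.univ.erase o : Finset ι).powerset.filter (fun S => St R S),
          (f S + f (insert o S)) := by
      intro f
      have h1 : (Finset.univ : Finset ι) = insert o (Finset.univ.erase o) := by
        rw [Finset.insert_erase (Finset.mem_univ o)]
      rw [Finset.sum_filter]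
      conv_lhs => rw [h1]
      rw [Finset.sum_powerset_insert (Finset.notMem_erase o _), ← Finset.sum_add_distrib,
        Finset.sum_filter]
      apply Finset.sum_congr rfl
      intro S _
      have h2 : St R (insert o S) ↔ St R S := by
        constructor
        · intro h a ha b hb
          exact h a (Finset.mem_insert_of_mem ha) b (Finset.mem_insert_of_mem hb)
        · intro h a ha b hb
          rw [Finset.mem_insert] at ha hb
          rcases ha with rfl | ha
          · exact ho1 b
          · rcases hb with rfl | hb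
            · exact ho2 a
            · exact h a ha b hb
      by_cases h3 : St R S
      · rw [if_pos h3, if_pos (h2.2 h3), if_pos h3]
      · rw [if_neg h3, if_neg (fun h4 => h3 (h2.1 h4)), if_neg h3, add_zero]
    rw [hsplit, hsplit, Finset.mul_sum]
    apply Finset.sum_congr rfl
    intro S hS
    rw [Finset.mem_filter, Finset.mem_powerset] at hS
    have hoS : o ∉ S := fun h => Finset.notMem_erase o _ (hS.1 h)
    have e1 : rt o κ + k - ind S = rt o κ + (k - ind S) := by
      funext j; simp only [Pi.add_apply, Pi.sub_apply]; ring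
    have e2 : rt o κ + k - ind (insert o S) = rt o (κ - 1) + (k - ind S) := by
      funext j
      simp only [Pi.add_apply, Pi.sub_apply, rt, ind, Finset.mem_insert]
      by_cases hj : j = o
      · subst hj
        simp [hoS, hk]
      · simp [hj]
    have hk1 : (k - ind S) o = 0 := by
      simp [ind, hoS, hk]
    have e3 : W R q x N (k - ind (insert o S)) = 0 := by
      apply W_neg
      refine ⟨o, ?_⟩
      simp only [Pi.sub_apply, ind, hk, Finset.mem_insert_self, if_true]
      norm_num
    rw [e1, e2, ih κ _ hk1, ih (κ - 1) _ hk1, e3, ee_succ, Finset.sum_insert hoS,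
      Finset.card_insert_of_notMem hoS]
    have hnbo : nb R (rt o κ + k) o = 0 := by
      unfold nb
      apply Finset.sum_eq_zero
      intro i _
      rw [if_neg (ho2 i)]
    rw [hnbo, zero_add]
    simp only [hnb]
    ring

/-- adjoin an isolated smallest vertex. -/
def RB (R : ι → ι → Prop) (a b : WithBot ι) : Prop :=
  ∃ i j : ι, a = (i : WithBot ι) ∧ b = (j : WithBot ι) ∧ R i j

noncomputable instance (R : ι → ι → Prop) : DecidableRel (RB R) := Classical.decRel _

/-- extension by zero. -/
def ext0 (c : ι → ℤ) : WithBot ι → ℤ := fun a => WithBot.recBotCoe 0 c a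

omit [LinearOrder ι] [Fintype ι] [DecidableRel R] in
theorem RB_coe (i j : ι) : RB R (i : WithBot ι) (j : WithBot ι) ↔ R i j := by
  constructor
  · rintro ⟨a, b, h1, h2, h⟩
    rw [WithBot.coe_inj] at h1 h2
    rw [h1, h2]; exact h
  · intro h; exact ⟨i, j, rfl, rfl, h⟩

omit [LinearOrder ι] [Fintype ι] [DecidableRel R] in
theorem RB_bot_left (b : WithBot ι) : ¬ RB R ⊥ b := by
  rintro ⟨i, j, h1, _, _⟩
  exact WithBot.bot_ne_coe h1

omit [LinearOrder ι] [Fintype ι] [DecidableRel R] in
theorem RB_bot_right (b : WithBot ι) : ¬ RB R b ⊥ := by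
  rintro ⟨i, j, _, h1, _⟩
  exact WithBot.bot_ne_coe h1

omit [Fintype ι] [DecidableRel R] in
theorem UI_RB (hR : UI R) : UI (RB R) := by
  constructor
  · rintro a b ⟨i, j, rfl, rfl, h⟩
    exact WithBot.coe_lt_coe.2 (hR.lt h)
  · rintro a b c ⟨i, j, rfl, rfl, h⟩ h1 h2
    induction b using WithBot.recBotCoe with
    | bot => exact absurd h1 (not_lt.2 bot_le)
    | coe b =>
      rw [WithBot.coe_lt_coe] at h1 h2
      rw [RB_coe, RB_coe]
      exact hR.mid h h1 h2

omit [LinearOrder ι] in
theorem sum_wb {M : Type*} [AddCommMonoid M] (f : WithBot ι → M) :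
    ∑ a, f a = f ⊥ + ∑ i : ι, f (i : WithBot ι) := Fintype.sum_option f

theorem nb_wb (k : WithBot ι → ℤ) (j : ι) :
    nb (RB R) k (j : WithBot ι) = nb R (fun i => k (i : WithBot ι)) j := by
  unfold nb
  rw [sum_wb, if_neg (RB_bot_left _), zero_add]
  apply Finset.sum_congr rfl
  intro i _
  simp only [RB_coe]

theorem nf_wb (k : WithBot ι → ℤ) (j : ι) :
    nf (RB R) k (j : WithBot ι) = nf R (fun i => k (i : WithBot ι)) j := by
  unfold nf
  rw [sum_wb, if_neg (RB_bot_right _), zero_add]
  apply Finset.sum_congr rfl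
  intro i _
  simp only [RB_coe]

theorem nf_wb_bot (k : WithBot ι → ℤ) : nf (RB R) k ⊥ = 0 := by
  unfold nf
  apply Finset.sum_eq_zero
  intro i _
  rw [if_neg (RB_bot_left _)]

/-- the embedding. -/
def emb : ι ↪ WithBot ι := ⟨fun i => (i : WithBot ι), fun _ _ h => WithBot.coe_injective h⟩

theorem ind_map (S : Finset ι) : (ind (S.map emb) : WithBot ι → ℤ) = ext0 (ind S) := by
  funext a
  induction a using WithBot.recBotCoe with
  | bot =>
    have : (⊥ : WithBot ι) ∉ S.map emb := by
      rw [Finset.mem_map]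
      rintro ⟨i, _, h⟩
      exact WithBot.bot_ne_coe h.symm
    simp [ind, this, ext0]
  | coe a =>
    have : ((a : WithBot ι) ∈ S.map emb) ↔ a ∈ S := by
      rw [Finset.mem_map]
      constructor
      · rintro ⟨i, hi, h⟩
        have : i = a := WithBot.coe_injective h
        rw [← this]; exact hi
      · intro h; exact ⟨a, h, rfl⟩
    simp [ind, this, ext0]

theorem W_ext (q : F) (x : ℕ → F) (N : ℕ) : ∀ k : ι → ℤ,
    W (RB R) q x N (ext0 k) = W R q x N k := by
  classical
  induction N with
  | zero =>
    intro k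
    show (if ext0 k = 0 then (1 : F) else 0) = if k = 0 then 1 else 0
    have : ext0 k = 0 ↔ k = 0 := by
      constructor
      · intro h
        funext j
        exact congrFun h (j : WithBot ι)
      · rintro rfl
        funext a
        induction a using WithBot.recBotCoe with
        | bot => rfl
        | coe a => rfl
    simp only [this]
  | succ N ih =>
    intro k
    show ∑ S ∈ (Finset.univ : Finset (WithBot ι)).powerset.filter (fun S => St (RB R) S),
      x N ^ S.card * q ^ (∑ b ∈ S, nb (RB R) (ext0 k) b) * W (RB R) q x N (ext0 k - ind S) =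
      ∑ S ∈ (Finset.univ : Finset ι).powerset.filter (fun S => St R S),
      x N ^ S.card * q ^ (∑ b ∈ S, nb R k b) * W R q x N (k - ind S)
    have hval : ∀ S : Finset ι,
        x N ^ S.card * q ^ (∑ b ∈ S, nb R k b) * W R q x N (k - ind S) =
        x N ^ (S.map emb).card * q ^ (∑ b ∈ S.map emb, nb (RB R) (ext0 k) b) *
          W (RB R) q x N (ext0 k - ind (S.map emb)) := by
      intro S
      rw [← ih, Finset.card_map, Finset.sum_map, ind_map]
      congr 1
      · congr 1
        congr 1
        apply Finset.sum_congr rfl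
        intro i _
        exact (nb_wb (ext0 k) i).symm
      · congr 1
        funext a
        induction a using WithBot.recBotCoe with
        | bot => simp [ext0]
        | coe a => simp [ext0]
    symm
    refine Finset.sum_bij_ne_zero (fun S _ _ => S.map emb) ?_ ?_ ?_ ?_
    · intro S hS _
      rw [Finset.mem_filter] at hS ⊢
      refine ⟨Finset.mem_powerset.2 (Finset.subset_univ _), ?_⟩
      intro a ha b hb
      rw [Finset.mem_map] at ha hb
      obtain ⟨i, hi, rfl⟩ := ha
      obtain ⟨j, hj, rfl⟩ := hb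
      intro h
      exact hS.2 i hi j hj ((RB_coe i j).1 h)
    · intro a _ _ b _ _ h
      exact Finset.map_injective emb h
    · intro S hS hne
      rw [Finset.mem_filter] at hS
      have hb : (⊥ : WithBot ι) ∉ S := by
        intro hb
        apply hne
        rw [W_neg, mul_zero]
        refine ⟨⊥, ?_⟩
        simp only [Pi.sub_apply, ind, if_pos hb]
        show (0 : ℤ) - 1 < 0
        norm_num
      have hS' : (Finset.univ.filter (fun i : ι => (i : WithBot ι) ∈ S)).map emb = S := by
        ext a
        rw [Finset.mem_map]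
        constructor
        · rintro ⟨i, hi, rfl⟩
          exact (Finset.mem_filter.1 hi).2
        · intro ha
          induction a using WithBot.recBotCoe with
          | bot => exact absurd ha hb
          | coe a => exact ⟨a, Finset.mem_filter.2 ⟨Finset.mem_univ _, ha⟩, rfl⟩
      have hst : St R (Finset.univ.filter (fun i : ι => (i : WithBot ι) ∈ S)) := by
        intro a ha b hb' h
        rw [Finset.mem_filter] at ha hb'
        exact hS.2 _ ha.2 _ hb'.2 ((RB_coe a b).2 h)
      refine ⟨_, Finset.mem_filter.2 ⟨Finset.mem_powerset.2 (Finset.subset_univ _), hst⟩, ?_, hS'⟩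
      rw [hval, hS']
      exact hne
    · intro S _ _
      exact hval S

/-- number of edges from `A` up to `V`. -/
def cr (R : ι → ι → Prop) [DecidableRel R] (A V : Finset ι) : ℤ := ∑ u ∈ A, nf R (ind V) u

/-- the kernel coefficient of `V` in `U`. -/
noncomputable def mu (R : ι → ι → Prop) [DecidableRel R] (q : F) (U V : Finset ι) : F :=
  q ^ cr R (U \ V) V * ∏ u ∈ U \ V, (q * qz q (nb R (ind U) u - nf R (ind V) u))

theorem SS_kappa (hR : UI R) {q : F} (g : Gen q) (x : ℕ → F) (N : ℕ) (U : Finset ι) (κ : ℤ) :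
    ee x N κ * W R q x N (ind U) =
      ∑ V ∈ U.powerset, mu R q U V * ee x N (κ + (U \ V).card) * W R q x N (ind V) := by
  classical
  have hRB := UI_RB hR
  have hbase : ∀ k : WithBot ι → ℤ, ∑ j, k j = 0 →
      Phi (⊥ : WithBot ι) {()} (fun _ _ A D => ph q A D) k (fun j => nb (RB R) k j) =
        if k = 0 then 1 else 0 := by
    intro k hk
    unfold Phi
    rw [Finset.sum_singleton]
    split_ifs with h0
    · subst h0
      apply Finset.prod_eq_one
      intro j _
      exact ph_zero q _
    · -- a nonzero coordinate away from the root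
      have hex : ((J (⊥ : WithBot ι)).filter (fun j => k j ≠ 0)).Nonempty := by
        rw [Finset.nonempty_iff_ne_empty]
        intro he
        apply h0
        have h1 : ∀ j : WithBot ι, j ≠ ⊥ → k j = 0 := by
          intro j hj
          by_contra h2
          have : j ∈ (J (⊥ : WithBot ι)).filter (fun j => k j ≠ 0) :=
            Finset.mem_filter.2 ⟨Finset.mem_erase.2 ⟨hj, Finset.mem_univ _⟩, h2⟩
          rw [he] at this
          exact Finset.notMem_empty _ this
        have h2 : k ⊥ = 0 := by
          rw [← hk]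
          symm
          exact Finset.sum_eq_single _ (fun j _ hj => h1 j hj)
            (fun h => absurd (Finset.mem_univ _) h)
        funext j
        by_cases hj : j = ⊥
        · rw [hj, h2]; rfl
        · rw [h1 j hj]; rfl
      set j := ((J (⊥ : WithBot ι)).filter (fun j => k j ≠ 0)).min' hex with hj
      have hjm := Finset.min'_mem _ hex
      rw [← hj, Finset.mem_filter] at hjm
      apply Finset.prod_eq_zero hjm.1
      have hnb : nb (RB R) k j = 0 := by
        unfold nb
        apply Finset.sum_eq_zero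
        intro i _
        split_ifs with hij
        · by_contra hki
          have hi : i ≠ ⊥ := by
            rintro rfl
            exact RB_bot_left _ hij
          have h3 : i ∈ (J (⊥ : WithBot ι)).filter (fun j => k j ≠ 0) :=
            Finset.mem_filter.2 ⟨Finset.mem_erase.2 ⟨hi, Finset.mem_univ _⟩, hki⟩
          have h4 := Finset.min'_le _ i h3
          rw [← hj] at h4
          exact absurd (hRB.lt hij) (not_lt.2 h4)
        · rfl
      show ph q (k j) (nb (RB R) k j) = 0
      rw [hnb]
      exact ph_self_zero g hjm.2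
  set B : ℤ := |κ| + U.card + 1 with hBdef
  have hB0 : 0 ≤ B := by positivity
  set k : WithBot ι → ℤ := rt ⊥ κ + ext0 (ind U) with hkdef
  have hext0 : (ext0 (ind U) : WithBot ι → ℤ) ⊥ = 0 := rfl
  have hsumk : ∑ j, k j = κ + U.card := by
    rw [hkdef, sum_wb]
    simp only [Pi.add_apply, rt, hext0, if_true, add_zero, WithBot.coe_ne_bot, if_false, zero_add]
    congr 1
    exact sum_ind U
  have hB : ∑ j, k j ≤ B := by
    rw [hsumk, hBdef]
    have := le_abs_self κ
    omega
  have h := defl hRB (⊥ : WithBot ι) (fun j => bot_le) q g.q0 x {()} (fun _ _ A D => ph q A D)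
    (fun _ _ j _ A D => ph_rec g A D) hbase N k B hB0 hB
  rw [hkdef, W_rt hRB ⊥ (RB_bot_left) (RB_bot_right) q x N κ _ hext0, W_ext] at h
  rw [h, ← hkdef]
  have hki : (fun i : ι => k (i : WithBot ι)) = ind U := by
    funext i
    simp [hkdef, rt, ext0]
  have hJ : J (⊥ : WithBot ι) = Finset.univ.map emb := by
    ext a
    rw [Finset.mem_map]
    induction a using WithBot.recBotCoe with
    | bot =>
      constructor
      · intro h; exact absurd rfl (Finset.ne_of_mem_erase h)
      · rintro ⟨i, _, hi⟩; exact absurd hi.symm WithBot.bot_ne_coe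
    | coe a =>
      exact ⟨fun _ => ⟨a, Finset.mem_univ _, rfl⟩,
        fun _ => Finset.mem_erase.2 ⟨WithBot.coe_ne_bot, Finset.mem_univ _⟩⟩
  have hval : ∀ V : Finset ι, V ⊆ U →
      mu R q U V * ee x N (κ + (U \ V).card) * W R q x N (ind V) =
      q ^ ex (RB R) (ext0 (ind V)) (k - ext0 (ind V)) *
        Phi (⊥ : WithBot ι) {()} (fun _ _ A D => ph q A D) (k - ext0 (ind V))
          (Dv (RB R) k (ext0 (ind V))) *
        ee x N (∑ j, k j - ∑ j, ext0 (ind V) j) * W (RB R) q x N (ext0 (ind V)) := by
    intro V hV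
    have hsd : ∀ i, (ind U - ind V : ι → ℤ) i = ind (U \ V) i := by
      intro i
      simp only [Pi.sub_apply, ind, Finset.mem_sdiff]
      by_cases h1 : i ∈ V
      · simp [h1, hV h1]
      · simp [h1]
    have e1 : ex (RB R) (ext0 (ind V)) (k - ext0 (ind V)) = cr R (U \ V) V := by
      unfold ex cr
      rw [sum_wb, nf_wb_bot, mul_zero, zero_add, ← sum_ind_mul (U \ V)]
      apply Finset.sum_congr rfl
      intro i _
      rw [nf_wb, ← hsd i, Pi.sub_apply, Pi.sub_apply, ← hki]
      rfl
    have e2 : Phi (⊥ : WithBot ι) {()} (fun _ _ A D => ph q A D) (k - ext0 (ind V))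
          (Dv (RB R) k (ext0 (ind V))) =
        ∏ u ∈ U \ V, (q * qz q (nb R (ind U) u - nf R (ind V) u)) := by
      unfold Phi
      rw [Finset.sum_singleton, hJ, Finset.prod_map]
      rw [← Finset.prod_subset (Finset.subset_univ (U \ V))]
      · apply Finset.prod_congr rfl
        intro i hi
        have h1 : (k - ext0 (ind V)) (emb i) = 1 := by
          have : (k - ext0 (ind V)) (emb i) = (ind U - ind V : ι → ℤ) i := by
            rw [← hki]; rfl
          rw [this, hsd i]
          simp only [ind, if_pos hi]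
        have h2 : Dv (RB R) k (ext0 (ind V)) (emb i) = nb R (ind U) i - nf R (ind V) i := by
          unfold Dv
          show nb (RB R) k (i : WithBot ι) - nf (RB R) (ext0 (ind V)) (i : WithBot ι) = _
          rw [nb_wb, nf_wb, hki]
          rfl
        show ph q ((k - ext0 (ind V)) (emb i)) (Dv (RB R) k (ext0 (ind V)) (emb i)) = _
        rw [h1, h2, ph_one g]
      · intro i _ hi
        have h1 : (k - ext0 (ind V)) (emb i) = 0 := by
          have : (k - ext0 (ind V)) (emb i) = (ind U - ind V : ι → ℤ) i := by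
            rw [← hki]; rfl
          rw [this, hsd i]
          simp only [ind, if_neg hi]
        show ph q ((k - ext0 (ind V)) (emb i)) (Dv (RB R) k (ext0 (ind V)) (emb i)) = _
        rw [h1, ph_zero]
    have e3 : ∑ j, k j - ∑ j, (ext0 (ind V) : WithBot ι → ℤ) j = κ + (U \ V).card := by
      have h1 : ∑ j, (ext0 (ind V) : WithBot ι → ℤ) j = V.card := by
        rw [sum_wb]
        show (0 : ℤ) + ∑ i, ind V i = _
        rw [sum_ind, zero_add]
      rw [hsumk, h1, Finset.card_sdiff_of_subset hV]
      have := Finset.card_le_card hV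
      omega
    rw [e1, e2, e3, W_ext]
    rfl
  symm
  refine Finset.sum_bij_ne_zero (fun V _ _ => ext0 (ind V)) ?_ ?_ ?_ ?_
  · intro V hV _
    rw [mem_box]
    have hcard : (0 : ℤ) ≤ U.card := by positivity
    have hab := abs_nonneg κ
    constructor
    · intro j _
      induction j using WithBot.recBotCoe with
      | bot =>
        show (0 : ℤ) ≤ 0 ∧ (0 : ℤ) ≤ B
        exact ⟨le_rfl, hB0⟩
      | coe j =>
        show (0 : ℤ) ≤ ind V j ∧ ind V j ≤ B
        unfold ind
        split_ifs <;> constructor <;> omega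
    · intro j hj
      have : j = ⊥ := by
        by_contra h1
        exact hj (Finset.mem_filter.2 ⟨Finset.mem_univ _, h1, RB_bot_left _⟩)
      rw [this]
      rfl
  · intro V _ _ V' _ _ h
    ext i
    have := congrFun h (i : WithBot ι)
    have h2 : ind V i = ind V' i := this
    unfold ind at h2
    by_cases h3 : i ∈ V <;> by_cases h4 : i ∈ V' <;> simp_all
  · intro c hc hne
    rw [mem_box] at hc
    have hc0 : c ⊥ = 0 := hc.2 ⊥ (fun h => (Finset.mem_filter.1 h).2.1 rfl)
    have hge : ∀ i : ι, 0 ≤ c (i : WithBot ι) := by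
      intro i
      exact (hc.1 (i : WithBot ι)
        (Finset.mem_filter.2 ⟨Finset.mem_univ _, WithBot.coe_ne_bot, RB_bot_left _⟩)).1
    have hPhi : Phi (⊥ : WithBot ι) {()} (fun _ _ A D => ph q A D) (k - c)
        (Dv (RB R) k c) ≠ 0 := by
      intro h0
      apply hne
      rw [h0]
      ring
    have hle : ∀ i : ι, c (i : WithBot ι) ≤ ind U i := by
      intro i
      by_contra hlt
      apply hPhi
      unfold Phi
      rw [Finset.sum_singleton, hJ, Finset.prod_map]
      apply Finset.prod_eq_zero (Finset.mem_univ i)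
      show ph q ((k - c) (i : WithBot ι)) (Dv (RB R) k c (i : WithBot ι)) = 0
      apply ph_neg
      have : k (i : WithBot ι) = ind U i := congrFun hki i
      rw [Pi.sub_apply, this]
      omega
    set V : Finset ι := Finset.univ.filter (fun i => c (i : WithBot ι) = 1) with hVdef
    have hVc : ext0 (ind V) = c := by
      funext a
      induction a using WithBot.recBotCoe with
      | bot => rw [hc0]; rfl
      | coe i =>
        show ind V i = c (i : WithBot ι)
        have h1 := hge i
        have h2 := hle i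
        have h3 : ind U i ≤ 1 := by unfold ind; split_ifs <;> omega
        unfold ind
        by_cases h4 : c (i : WithBot ι) = 1
        · have h5 : i ∈ V := Finset.mem_filter.2 ⟨Finset.mem_univ _, h4⟩
          rw [if_pos h5, h4]
        · have h5 : i ∉ V := fun h => h4 (Finset.mem_filter.1 h).2
          rw [if_neg h5]
          omega
    have hVU : V ⊆ U := by
      intro i hi
      have h4 := (Finset.mem_filter.1 hi).2
      have h2 := hle i
      rw [h4] at h2
      by_contra h5
      unfold ind at h2
      rw [if_neg h5] at h2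
      omega
    refine ⟨V, Finset.mem_powerset.2 hVU, ?_, hVc⟩
    rw [hval V hVU, hVc]
    exact hne
  · intro V hV _
    exact hval V (Finset.mem_powerset.1 hV)

omit [LinearOrder ι] [Fintype ι] in
/-- the functions `ee` are independent over shifts. -/
theorem ee_indep {α : Type*} (x : ℕ → F) (N : ℕ) (s : Finset α) (d : α → ℕ) (f : α → F)
    (h : ∀ κ : ℤ, ∑ v ∈ s, f v * ee x N (κ + d v) = 0) (m : ℕ) :
    ∑ v ∈ s.filter (fun v => d v = m), f v = 0 := by
  classical
  set D := s.sup d with hD
  have hle : ∀ v ∈ s, d v ≤ D := fun v hv => Finset.le_sup hv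
  have hfib : ∀ E : ℕ → F, ∑ v ∈ s, f v * E (d v) =
      ∑ j ∈ Finset.range (D + 1), (∑ v ∈ s.filter (fun v => d v = j), f v) * E j := by
    intro E
    rw [← Finset.sum_fiberwise_of_maps_to (t := Finset.range (D + 1)) (g := d)]
    · apply Finset.sum_congr rfl
      intro j _
      rw [Finset.sum_mul]
      apply Finset.sum_congr rfl
      intro v hv
      rw [(Finset.mem_filter.1 hv).2]
    · intro v hv
      rw [Finset.mem_range]
      exact Nat.lt_succ_of_le (hle v hv)
  have main : ∀ t : ℕ, ∀ m : ℕ, D < m + t → ∑ v ∈ s.filter (fun v => d v = m), f v = 0 := by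
    intro t
    induction t with
    | zero =>
      intro m hm
      rw [Finset.filter_eq_empty_iff.2, Finset.sum_empty]
      intro v hv h2
      have := hle v hv
      omega
    | succ t ih =>
      intro m hm
      by_cases hm2 : D < m + t
      · exact ih m hm2
      have hk := h (-(m : ℤ))
      have := hfib (fun j => ee x N (-(m : ℤ) + j))
      rw [hk] at this
      rw [Finset.sum_eq_single m] at this
      · rw [neg_add_cancel] at this
        have h1 : ee x N 0 = 1 := by
          unfold ee
          rw [if_pos le_rfl]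
          exact Pieri.E_zero x N
        rw [h1, mul_one] at this
        exact this.symm
      · intro j _ hj
        rcases lt_or_gt_of_ne hj with h2 | h2
        · have : ee x N (-(m : ℤ) + j) = 0 := by
            unfold ee
            rw [if_neg (by omega)]
          rw [this, mul_zero]
        · rw [ih j (by omega), zero_mul]
      · intro hmD
        rw [Finset.mem_range] at hmD
        have h2 : ∑ v ∈ s.filter (fun v => d v = m), f v = 0 := by
          rw [Finset.filter_eq_empty_iff.2, Finset.sum_empty]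
          intro v hv h2
          have := hle v hv
          omega
        rw [h2, zero_mul]
  exact main (D + 1) m (by omega)

theorem mu_self (q : F) (U : Finset ι) : mu R q U U = 1 := by
  unfold mu cr
  simp

/-- the vanishing identity. -/
theorem SS_m (hR : UI R) {q : F} (g : Gen q) (x : ℕ → F) (N : ℕ) (U : Finset ι) (m : ℕ)
    (hm : m ≠ 0) :
    ∑ V ∈ U.powerset.filter (fun V => (U \ V).card = m), mu R q U V * W R q x N (ind V) = 0 := by
  classical
  have h0 : ∀ κ : ℤ, ∑ V ∈ U.powerset.erase U,
      mu R q U V * W R q x N (ind V) * ee x N (κ + (U \ V).card) = 0 := by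
    intro κ
    have h1 := SS_kappa hR g x N U κ
    rw [← Finset.add_sum_erase _ _ (Finset.mem_powerset_self U)] at h1
    rw [mu_self, Finset.sdiff_self, Finset.card_empty, Nat.cast_zero, add_zero, one_mul] at h1
    have h2 : ∑ V ∈ U.powerset.erase U,
        mu R q U V * ee x N (κ + (U \ V).card) * W R q x N (ind V) = 0 := by
      linear_combination -h1
    rw [← h2]
    apply Finset.sum_congr rfl
    intro V _
    ring
  have h1 := ee_indep x N (U.powerset.erase U) (fun V => (U \ V).card)
    (fun V => mu R q U V * W R q x N (ind V)) h0 m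
  rw [← h1]
  apply Finset.sum_congr _ (fun _ _ => rfl)
  ext V
  simp only [Finset.mem_filter, Finset.mem_erase]
  constructor
  · rintro ⟨h2, h3⟩
    refine ⟨⟨?_, h2⟩, h3⟩
    rintro rfl
    rw [Finset.sdiff_self, Finset.card_empty] at h3
    exact hm h3.symm
  · rintro ⟨⟨_, h2⟩, h3⟩
    exact ⟨h2, h3⟩

/-- the vanishing identity with an arbitrary function of the size. -/
theorem SS_E (hR : UI R) {q : F} (g : Gen q) (x : ℕ → F) (N : ℕ) (U : Finset ι) (E : ℕ → F) :
    ∑ V ∈ U.powerset, mu R q U V * E (U \ V).card * W R q x N (ind V) =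
      E 0 * W R q x N (ind U) := by
  classical
  have hmaps : ∀ V ∈ U.powerset, (U \ V).card ∈ Finset.range (U.card + 1) := by
    intro V _
    rw [Finset.mem_range]
    exact Nat.lt_succ_of_le (Finset.card_le_card Finset.sdiff_subset)
  rw [← Finset.sum_fiberwise_of_maps_to hmaps, Finset.sum_eq_single 0]
  · have : U.powerset.filter (fun V => (U \ V).card = 0) = {U} := by
      ext V
      simp only [Finset.mem_filter, Finset.mem_powerset, Finset.card_eq_zero,
        Finset.sdiff_eq_empty_iff_subset, Finset.mem_singleton]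
      constructor
      · rintro ⟨h1, h2⟩; exact subset_antisymm h1 h2
      · rintro rfl; exact ⟨subset_rfl, subset_rfl⟩
    rw [this, Finset.sum_singleton, mu_self, Finset.sdiff_self, Finset.card_empty, one_mul]
  · intro m _ hm
    have h1 := SS_m hR g x N U m hm
    have h2 : ∑ V ∈ U.powerset.filter (fun V => (U \ V).card = m),
        mu R q U V * E (U \ V).card * W R q x N (ind V) =
        E m * ∑ V ∈ U.powerset.filter (fun V => (U \ V).card = m),
          mu R q U V * W R q x N (ind V) := by
      rw [Finset.mul_sum]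
      apply Finset.sum_congr rfl
      intro V hV
      rw [(Finset.mem_filter.1 hV).2]
      ring
    rw [h2, h1, mul_zero]
  · intro h
    exact absurd (Finset.mem_range.2 (Nat.succ_pos _)) h

/-- **Resummation**: coefficients may be rewritten through the vanishing identity. -/
theorem resum (hR : UI R) {q : F} (g : Gen q) (x : ℕ → F) (N : ℕ) (H : Finset ι) (E : ℕ → F)
    (Fc G : Finset ι → F)
    (hF : ∀ V, V ⊆ H → Fc V = ∑ B ∈ (H \ V).powerset, G B * mu R q (H \ B) V) :
    ∑ V ∈ H.powerset, Fc V * E (H \ V).card * W R q x N (ind V) =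
      ∑ B ∈ H.powerset, G B * E B.card * W R q x N (ind (H \ B)) := by
  classical
  have h1 : ∀ V ∈ H.powerset, Fc V * E (H \ V).card * W R q x N (ind V) =
      ∑ B ∈ (H \ V).powerset, G B * (mu R q (H \ B) V *
        E (B.card + ((H \ B) \ V).card) * W R q x N (ind V)) := by
    intro V hV
    rw [hF V (Finset.mem_powerset.1 hV), Finset.sum_mul, Finset.sum_mul]
    apply Finset.sum_congr rfl
    intro B hB
    rw [Finset.mem_powerset] at hB
    have h2 : (H \ V).card = B.card + ((H \ B) \ V).card := by
      have h3 : (H \ B) \ V = (H \ V) \ B := by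
        rw [sdiff_sdiff_comm]
      rw [h3, Finset.card_sdiff_of_subset hB]
      have := Finset.card_le_card hB
      omega
    rw [h2]
    ring
  rw [Finset.sum_congr rfl h1]
  rw [Finset.sum_comm' (t' := H.powerset) (s' := fun B => (H \ B).powerset)]
  · apply Finset.sum_congr rfl
    intro B _
    rw [← Finset.mul_sum, SS_E hR g x N (H \ B) (fun j => E (B.card + j)), add_zero]
    ring
  · intro V B
    simp only [Finset.mem_powerset]
    constructor
    · rintro ⟨h2, h3⟩
      refine ⟨fun a ha => ?_, fun a ha => (Finset.mem_sdiff.1 (h3 ha)).1⟩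
      rw [Finset.mem_sdiff]
      exact ⟨h2 ha, fun hb => (Finset.mem_sdiff.1 (h3 hb)).2 ha⟩
    · rintro ⟨h2, h3⟩
      refine ⟨fun a ha => (Finset.mem_sdiff.1 (h2 ha)).1, fun a ha => ?_⟩
      rw [Finset.mem_sdiff]
      exact ⟨h3 ha, fun hb => (Finset.mem_sdiff.1 (h2 hb)).2 ha⟩

omit [LinearOrder ι] [Fintype ι] [DecidableRel R] in
theorem qz_add {q : F} (g : Gen q) (a b : ℤ) : qz q (a + b) = qz q a + q ^ a * qz q b := by
  unfold qz
  have hq1 : q - 1 ≠ 0 := sub_ne_zero.mpr g.q1
  rw [zpow_add₀ g.q0]
  field_simp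
  ring

omit [LinearOrder ι] [Fintype ι] [DecidableRel R] in
theorem prod_zpow_sum {q : F} (hq : q ≠ 0) (s : Finset ι) (f : ι → ℤ) :
    ∏ u ∈ s, q ^ f u = q ^ ∑ u ∈ s, f u := by
  classical
  induction s using Finset.induction_on with
  | empty => simp
  | insert a s ha ih => rw [Finset.prod_insert ha, Finset.sum_insert ha, zpow_add₀ hq, ih]

/-- the charge of `u` for the cluster set `B`. -/
def nu (R : ι → ι → Prop) [DecidableRel R] (b : ι → ℤ) (B : Finset ι) (u : ι) : ℤ :=
  b u + nb R (ind B) u

theorem nu_insert_of_not (b : ι → ℤ) (B : Finset ι) (m u : ι) (h : ¬ R m u) :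
    nu R b (insert m B) u = nu R b B u := by
  unfold nu nb
  congr 1
  apply Finset.sum_congr rfl
  intro i _
  by_cases hi : R i u
  · rw [if_pos hi, if_pos hi]
    have : i ≠ m := by rintro rfl; exact h hi
    unfold ind
    by_cases h2 : i ∈ B
    · rw [if_pos h2, if_pos (Finset.mem_insert_of_mem h2)]
    · rw [if_neg h2, if_neg]
      intro h3
      rcases Finset.mem_insert.1 h3 with h4 | h4
      · exact this h4
      · exact h2 h4
  · rw [if_neg hi, if_neg hi]

/-- the cluster expansion of a product of `q`-integers. -/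
theorem clus_prod (hR : UI R) {q : F} (g : Gen q) (b X : ι → ℤ) (A : Finset ι) :
    ∏ u ∈ A, qz q (X u) = ∑ B ∈ A.powerset, (∏ u ∈ B, qz q (nu R b B u)) *
      ∏ u ∈ A \ B, (q ^ nu R b B u * qz q (X u - nu R b B u)) := by
  classical
  induction A using Finset.induction_on_max with
  | empty => simp
  | insert m A hm ih =>
    have hmA : m ∉ A := fun h => lt_irrefl _ (hm m h)
    have hRm : ∀ u ∈ insert m A, ¬ R m u := by
      intro u hu h
      rcases Finset.mem_insert.1 hu with rfl | hu
      · exact lt_irrefl _ (hR.lt h)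
      · exact lt_asymm (hR.lt h) (hm u hu)
    rw [Finset.prod_insert hmA, ih, Finset.sum_powerset_insert hmA, ← Finset.sum_add_distrib,
      Finset.mul_sum]
    apply Finset.sum_congr rfl
    intro B hB
    rw [Finset.mem_powerset] at hB
    have hmB : m ∉ B := fun h => hmA (hB h)
    have e1 : insert m A \ B = insert m (A \ B) := Finset.insert_sdiff_of_notMem _ hmB
    have e2 : insert m A \ insert m B = A \ B := by
      ext a
      simp only [Finset.mem_sdiff, Finset.mem_insert, not_or]
      constructor
      · rintro ⟨h1 | h1, h2, h3⟩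
        · exact absurd h1 h2
        · exact ⟨h1, h3⟩
      · rintro ⟨h1, h2⟩
        exact ⟨Or.inr h1, fun h => hmA (h ▸ h1), h2⟩
    have hmd : m ∉ A \ B := fun h => hmA (Finset.mem_sdiff.1 h).1
    have e3 : ∀ u ∈ insert m A, nu R b (insert m B) u = nu R b B u := fun u hu =>
      nu_insert_of_not b B m u (hRm u hu)
    have e4 : ∏ u ∈ B, qz q (nu R b (insert m B) u) = ∏ u ∈ B, qz q (nu R b B u) :=
      Finset.prod_congr rfl (fun u hu => by rw [e3 u (Finset.mem_insert_of_mem (hB hu))])
    have e5 : ∏ u ∈ A \ B, (q ^ nu R b (insert m B) u * qz q (X u - nu R b (insert m B) u)) =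
        ∏ u ∈ A \ B, (q ^ nu R b B u * qz q (X u - nu R b B u)) :=
      Finset.prod_congr rfl (fun u hu => by
        rw [e3 u (Finset.mem_insert_of_mem (Finset.mem_sdiff.1 hu).1)])
    rw [e1, e2, Finset.prod_insert hmd, Finset.prod_insert hmB, e3 m (Finset.mem_insert_self _ _),
      e4, e5]
    have e6 : qz q (X m) = qz q (nu R b B m) + q ^ nu R b B m * qz q (X m - nu R b B m) := by
      rw [← qz_add g]
      congr 1
      ring
    rw [e6]
    ring

/-- cluster coefficient. -/
noncomputable def gc (R : ι → ι → Prop) [DecidableRel R] (q : F) (H : Finset ι) (b : ι → ℤ)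
    (B : Finset ι) : F :=
  q ^ (cr R B (H \ B) + ∑ i ∈ H \ B, b i) * ∏ u ∈ B, (q * qz q (nu R b B u))

theorem nf_ind_union (V V' : Finset ι) (h : Disjoint V V') (u : ι) :
    nf R (ind (V ∪ V')) u = nf R (ind V) u + nf R (ind V') u := by
  rw [← nf_add]
  congr 1
  funext i
  simp only [Pi.add_apply, ind, Finset.mem_union]
  by_cases h1 : i ∈ V
  · have h2 : i ∉ V' := Finset.disjoint_left.1 h h1
    simp [h1, h2]
  · simp [h1]

theorem nb_ind_union (V V' : Finset ι) (h : Disjoint V V') (u : ι) :
    nb R (ind (V ∪ V')) u = nb R (ind V) u + nb R (ind V') u := by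
  rw [← nb_add]
  congr 1
  funext i
  simp only [Pi.add_apply, ind, Finset.mem_union]
  by_cases h1 : i ∈ V
  · have h2 : i ∉ V' := Finset.disjoint_left.1 h h1
    simp [h1, h2]
  · simp [h1]

/-- edges between two sets counted from either side. -/
theorem cr_eq (A V : Finset ι) : cr R A V = ∑ v ∈ V, nb R (ind A) v := by
  unfold cr
  rw [← sum_ind_mul A, ← sum_ind_mul V, swap_sum]

theorem cr_union_left (A A' V : Finset ι) (h : Disjoint A A') :
    cr R (A ∪ A') V = cr R A V + cr R A' V := Finset.sum_union h

theorem cr_union_right (A V V' : Finset ι) (h : Disjoint V V') :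
    cr R A (V ∪ V') = cr R A V + cr R A V' := by
  rw [cr_eq, cr_eq, cr_eq, Finset.sum_union h]

/-- the coefficient expansion feeding `resum`. -/
theorem clus_coeff (hR : UI R) {q : F} (g : Gen q) (H : Finset ι) (b : ι → ℤ) (V : Finset ι)
    (hV : V ⊆ H) :
    q ^ (cr R (H \ V) V + ∑ i ∈ V, b i) *
        ∏ u ∈ H \ V, (q * qz q (b u + nb R (ind H) u - nf R (ind V) u)) =
      ∑ B ∈ (H \ V).powerset, gc R q H b B * mu R q (H \ B) V := by
  classical
  have h0 : ∏ u ∈ H \ V, (q * qz q (b u + nb R (ind H) u - nf R (ind V) u)) =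
      q ^ (H \ V).card * ∏ u ∈ H \ V, qz q (b u + nb R (ind H) u - nf R (ind V) u) := by
    rw [Finset.prod_mul_distrib, Finset.prod_const]
  rw [h0, clus_prod hR g b (fun u => b u + nb R (ind H) u - nf R (ind V) u) (H \ V),
    Finset.mul_sum, Finset.mul_sum]
  apply Finset.sum_congr rfl
  intro B hB
  rw [Finset.mem_powerset] at hB
  set A := H \ V with hA
  have hcomm : (H \ B) \ V = A \ B := by rw [sdiff_sdiff_comm]
  have hBH : B ⊆ H := fun a ha => (Finset.mem_sdiff.1 (hB ha)).1
  have hVB : V ⊆ H \ B := fun a ha =>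
    Finset.mem_sdiff.2 ⟨hV ha, fun hb => (Finset.mem_sdiff.1 (hB hb)).2 ha⟩
  have hHB : H \ B = (A \ B) ∪ V := by
    rw [← hcomm]
    exact (Finset.sdiff_union_of_subset hVB).symm
  have hdis : Disjoint (A \ B) V := by
    rw [← hcomm]; exact Finset.sdiff_disjoint
  have hH : H = B ∪ (H \ B) := (Finset.union_sdiff_of_subset hBH).symm
  have hnu : ∀ u, b u + nb R (ind H) u - nf R (ind V) u - nu R b B u =
      nb R (ind (H \ B)) u - nf R (ind V) u := by
    intro u
    have : nb R (ind H) u = nb R (ind B) u + nb R (ind (H \ B)) u := by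
      conv_lhs => rw [hH]
      exact nb_ind_union _ _ Finset.disjoint_sdiff u
    rw [this]
    unfold nu
    ring
  simp only [hnu]
  unfold gc mu
  rw [hcomm]
  rw [Finset.prod_mul_distrib, Finset.prod_mul_distrib, Finset.prod_mul_distrib,
    Finset.prod_const, Finset.prod_const, prod_zpow_sum g.q0]
  have e1 : cr R A V = cr R B V + cr R (A \ B) V := by
    have : A = B ∪ (A \ B) := (Finset.union_sdiff_of_subset hB).symm
    conv_lhs => rw [this]
    exact cr_union_left _ _ _ Finset.disjoint_sdiff
  have e2 : cr R B (H \ B) = cr R B (A \ B) + cr R B V := by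
    conv_lhs => rw [hHB]
    exact cr_union_right _ _ _ hdis
  have e3 : ∑ u ∈ A \ B, nu R b B u = ∑ u ∈ A \ B, b u + cr R B (A \ B) := by
    rw [cr_eq, ← Finset.sum_add_distrib]
    rfl
  have e4 : ∑ i ∈ H \ B, b i = ∑ i ∈ A \ B, b i + ∑ i ∈ V, b i := by
    conv_lhs => rw [hHB]
    exact Finset.sum_union hdis
  have e5 : A.card = B.card + (A \ B).card := by
    rw [Finset.card_sdiff_of_subset hB]
    have := Finset.card_le_card hB
    omega
  have key : q ^ (cr R A V + ∑ i ∈ V, b i) * q ^ A.card * q ^ (∑ u ∈ A \ B, nu R b B u) =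
      q ^ (cr R B (H \ B) + ∑ i ∈ H \ B, b i) * q ^ B.card * (q ^ cr R (A \ B) V *
        q ^ (A \ B).card) := by
    rw [← zpow_natCast q A.card, ← zpow_natCast q B.card, ← zpow_natCast q (A \ B).card,
      ← zpow_add₀ g.q0, ← zpow_add₀ g.q0, ← zpow_add₀ g.q0, ← zpow_add₀ g.q0, ← zpow_add₀ g.q0]
    congr 1
    rw [e1, e2, e3, e4, e5]
    push_cast
    ring
  linear_combination ((∏ u ∈ B, qz q (nu R b B u)) *
    ∏ u ∈ A \ B, qz q (nb R (ind (H \ B)) u - nf R (ind V) u)) * key

/-- **The cluster identity.** -/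
theorem cluster (hR : UI R) {q : F} (g : Gen q) (x : ℕ → F) (N : ℕ) (H : Finset ι) (E : ℕ → F)
    (b : ι → ℤ) :
    ∑ V ∈ H.powerset, (q ^ (cr R (H \ V) V + ∑ i ∈ V, b i) *
        ∏ u ∈ H \ V, (q * qz q (b u + nb R (ind H) u - nf R (ind V) u))) *
          E (H \ V).card * W R q x N (ind V) =
      ∑ B ∈ H.powerset, gc R q H b B * E B.card * W R q x N (ind (H \ B)) :=
  resum hR g x N H E _ _ (fun V hV => clus_coeff hR g H b V hV)

end SS

end Crest.Agent.R059.Clus
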