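import Crest.Agent.R059.Assemble

set_option autoImplicit false

open Crest.CombinatoricsR.UnitInterval

namespace Crest.Agent.R059

/-- any `e`-positive family satisfying the laws proves S0081 (no labelling of words needed). -/
theorem main_of_EPFam (F : HFam) (L : FLaws F)
    (hEP : ∀ (n : ℕ) (h : Fin n → ℕ), IsHessenberg h → EP n (fun N => F n h N)) :
    ∀ (n : ℕ) (h : Fin n → ℕ), IsHessenberg h →
      ∃ θ : {σ : Equiv.Perm (Fin n) // σ ∈ descentSet h} → Nat.Partition n,
        ∀ N : ℕ, chromaticQSym h N =
          ∑ σ : {σ : Equiv.Perm (Fin n) // σ ∈ descentSet h},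
            MvPolynomial.C (Polynomial.X ^ ginv h σ.1) *
              MvPolynomial.esymmPart (Fin N) (Polynomial ℤ) (θ σ) := by
  apply main_of_EPos
  intro n h hh
  rw [EPos_iff]
  exact (hEP n h hh).congr rfl (fun N => (eq_of_FLaws L N n h hh).symm)

/-- the function of a finite weighted set of objects with types (multisets of natural numbers). -/
noncomputable def objF {ι : Type*} (s : Finset ι) (wt : ι → ℕ) (θ : ι → Multiset ℕ) (N : ℕ) :
    MvPolynomial (Fin N) (Polynomial ℤ) :=
  ∑ o ∈ s, MvPolynomial.C (Polynomial.X ^ wt o) *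
    ((θ o).map (fun p => MvPolynomial.esymm (Fin N) (Polynomial ℤ) p)).prod

theorem EP_prod_esymm (s : Multiset ℕ) : EP s.sum (fun N =>
    (s.map (fun p => MvPolynomial.esymm (Fin N) (Polynomial ℤ) p)).prod) := by
  induction s using Multiset.induction_on with
  | empty => exact EP.one.congr (by simp) (fun N => by simp)
  | cons a s ih =>
    exact ((EP.esymm a).mul ih).congr (by simp) (fun N => by simp)

theorem EP_objF {ι : Type*} {n : ℕ} (s : Finset ι) (wt : ι → ℕ) (θ : ι → Multiset ℕ)
    (hs : ∀ o ∈ s, (θ o).sum = n) : EP n (fun N => objF s wt θ N) := by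
  classical
  unfold objF
  apply EP.sum
  intro o ho
  have h1 := (EP_prod_esymm (θ o)).smul (Polynomial.X ^ wt o)
  exact h1.congr (hs o ho) (fun N => by simp [cast])

end Crest.Agent.R059
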