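import Crest.Statements.S0081

set_option autoImplicit false

open Crest.CombinatoricsR.UnitInterval

namespace Crest.Agent.R059

variable {n N : ℕ}

/-- compatibility of a colour word `g` with a permutation word `σ`. -/
def Compat (h : Fin n → ℕ) (σ : Equiv.Perm (Fin n)) (g : Fin n → Fin N) : Prop :=
  ∀ i j : Fin n, j.val = i.val + 1 →
    g j < g i ∨ (g j = g i ∧ σ j < σ i ∧ ¬ IsEdge h (σ j) (σ i))

instance (h : Fin n → ℕ) (σ : Equiv.Perm (Fin n)) (g : Fin n → Fin N) :
    Decidable (Compat h σ g) := by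
  unfold Compat; infer_instance

theorem isEdge_symm {h : Fin n → ℕ} {a b : Fin n} (e : IsEdge h a b) : IsEdge h b a := by
  unfold IsEdge at *; tauto

theorem nonEdge_trans {h : Fin n → ℕ} (hm : Monotone h) {x y z : Fin n} (hxy : x < y)
    (hyz : y < z) (e : ¬ IsEdge h y z) : ¬ IsEdge h x z := by
  intro e'
  apply e
  have hxz : x < z := hxy.trans hyz
  rcases e' with ⟨_, h1⟩ | ⟨h1, _⟩
  · exact Or.inl ⟨hyz, h1.trans (hm hxy.le)⟩
  · exact absurd h1 (not_lt.2 hxz.le)

theorem Compat.lt {h : Fin n → ℕ} (hm : Monotone h) {σ : Equiv.Perm (Fin n)}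
    {g : Fin n → Fin N} (hc : Compat h σ g) :
    ∀ i j : Fin n, i < j → g j < g i ∨ (g j = g i ∧ σ j < σ i ∧ ¬ IsEdge h (σ j) (σ i)) := by
  intro i j hij
  obtain ⟨j, hj⟩ := j
  induction j with
  | zero => exact absurd hij (by simp [Fin.lt_def])
  | succ k ih =>
    have hk : k < n := by omega
    by_cases hik : i.val = k
    · exact hc i ⟨k + 1, hj⟩ (by simp [hik])
    · have hik' : i < (⟨k, hk⟩ : Fin n) := by
        rw [Fin.lt_def] at hij ⊢
        simp only at hij ⊢
        omega
      have h1 := ih hk hik'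
      have h2 := hc ⟨k, hk⟩ ⟨k + 1, hj⟩ rfl
      rcases h1 with h1 | ⟨h1, h1', h1''⟩
      · rcases h2 with h2 | ⟨h2, _, _⟩
        · exact Or.inl (h2.trans h1)
        · exact Or.inl (h2 ▸ h1)
      · rcases h2 with h2 | ⟨h2, h2', h2''⟩
        · exact Or.inl (h1 ▸ h2)
        · refine Or.inr ⟨h2.trans h1, h2'.trans h1', nonEdge_trans hm h2' h1' h1''⟩

theorem Compat.proper {h : Fin n → ℕ} (hm : Monotone h) {σ : Equiv.Perm (Fin n)}
    {g : Fin n → Fin N} (hc : Compat h σ g) :
    ∀ a b : Fin n, IsEdge h a b → g (σ.symm a) ≠ g (σ.symm b) := by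
  intro a b e hab
  have hne : σ.symm a ≠ σ.symm b := by
    intro hh
    have := σ.symm.injective hh
    subst this
    unfold IsEdge at e
    rcases e with ⟨e, _⟩ | ⟨e, _⟩ <;> exact absurd e (lt_irrefl _)
  rcases lt_or_gt_of_ne hne with hlt | hlt
  · rcases hc.lt hm _ _ hlt with h1 | ⟨_, _, h3⟩
    · exact absurd h1 (by rw [hab]; exact lt_irrefl _)
    · apply h3
      simp only [Equiv.apply_symm_apply]
      exact isEdge_symm e
  · rcases hc.lt hm _ _ hlt with h1 | ⟨_, _, h3⟩
    · exact absurd h1 (by rw [hab]; exact lt_irrefl _)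
    · apply h3
      simp only [Equiv.apply_symm_apply]
      exact e

theorem Compat.ascents_eq {h : Fin n → ℕ} (hm : Monotone h) {σ : Equiv.Perm (Fin n)}
    {g : Fin n → Fin N} (hc : Compat h σ g) :
    ascents h (fun a => g (σ.symm a)) = ginv h σ := by
  unfold Crest.CombinatoricsR.UnitInterval.ascents ginv
  symm
  apply Finset.card_bij (fun (p : Fin n × Fin n) _ => (σ p.2, σ p.1))
  · rintro ⟨i, j⟩ hp
    simp only [Finset.mem_filter, Finset.mem_univ, true_and] at hp ⊢
    obtain ⟨h1, h2, h3⟩ := hp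
    refine ⟨h2, isEdge_symm h3, ?_⟩
    simp only [Equiv.symm_apply_apply]
    rcases hc.lt hm i j h1 with h4 | ⟨_, _, h6⟩
    · exact h4
    · exact absurd (isEdge_symm h3) h6
  · rintro ⟨i, j⟩ _ ⟨i', j'⟩ _ heq
    simp only [Prod.mk.injEq, EmbeddingLike.apply_eq_iff_eq] at heq
    simp [heq.1, heq.2]
  · rintro ⟨a, b⟩ hp
    simp only [Finset.mem_filter, Finset.mem_univ, true_and] at hp
    obtain ⟨h1, h2, h3⟩ := hp
    refine ⟨(σ.symm b, σ.symm a), ?_, by simp⟩
    simp only [Finset.mem_filter, Finset.mem_univ, true_and, Equiv.apply_symm_apply]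
    refine ⟨?_, h1, isEdge_symm h2⟩
    by_contra hcon
    rw [not_lt] at hcon
    rcases hcon.lt_or_eq with hlt | heq
    · rcases hc.lt hm _ _ hlt with h4 | ⟨h4, _, _⟩
      · exact absurd h3 (not_lt.2 h4.le)
      · exact absurd h3 (by rw [h4]; exact lt_irrefl _)
    · rw [heq] at h3; exact absurd h3 (lt_irrefl _)

/-- key used to sort the vertices by a colouring: larger colours first, then larger vertices. -/
def key (f : Fin n → Fin N) (a : Fin n) : (Fin N)ᵒᵈ ×ₗ (Fin n)ᵒᵈ :=
  toLex (OrderDual.toDual (f a), OrderDual.toDual a)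

theorem key_injective (f : Fin n → Fin N) : Function.Injective (key f) := by
  intro a b hab
  unfold key at hab
  have := toLex_inj.1 hab
  simpa using (Prod.mk.injEq _ _ _ _ ▸ this).2

theorem key_lt_iff (f : Fin n → Fin N) (a b : Fin n) :
    key f a < key f b ↔ f b < f a ∨ (f a = f b ∧ b < a) := by
  unfold key
  rw [Prod.Lex.toLex_lt_toLex]
  simp

theorem Compat.strictMono {h : Fin n → ℕ} (hm : Monotone h) {σ : Equiv.Perm (Fin n)}
    {g : Fin n → Fin N} (hc : Compat h σ g) :
    StrictMono (fun i => key (fun a => g (σ.symm a)) (σ i)) := by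
  intro i j hij
  show key _ _ < key _ _
  rw [key_lt_iff]
  simp only [Equiv.symm_apply_apply]
  rcases hc.lt hm i j hij with h1 | ⟨h1, h2, _⟩
  · exact Or.inl h1
  · exact Or.inr ⟨h1.symm, h2⟩

theorem compat_inj {h : Fin n → ℕ} (hm : Monotone h) {σ σ' : Equiv.Perm (Fin n)}
    {g g' : Fin n → Fin N} (hc : Compat h σ g) (hc' : Compat h σ' g')
    (heq : (fun a => g (σ.symm a)) = (fun a => g' (σ'.symm a))) : σ = σ' ∧ g = g' := by
  have h1 := hc.strictMono hm
  have h2 := hc'.strictMono hm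
  rw [← heq] at h2
  have hr : (fun i => key (fun a => g (σ.symm a)) (σ i)) =
      (fun i => key (fun a => g (σ.symm a)) (σ' i)) := by
    apply (StrictMono.range_inj h1 h2).1
    ext x
    simp only [Set.mem_range]
    constructor
    · rintro ⟨y, rfl⟩
      exact ⟨σ'.symm (σ y), by simp⟩
    · rintro ⟨y, rfl⟩
      exact ⟨σ.symm (σ' y), by simp⟩
  have hσ : σ = σ' := by
    ext i
    have := congrFun hr i
    have := key_injective _ this
    rw [this]
  subst hσ
  refine ⟨rfl, ?_⟩
  funext i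
  have := congrFun heq (σ i)
  simpa using this

theorem compat_surj {h : Fin n → ℕ} (f : Fin n → Fin N)
    (hf : ∀ a b : Fin n, IsEdge h a b → f a ≠ f b) :
    ∃ (σ : Equiv.Perm (Fin n)) (g : Fin n → Fin N), Compat h σ g ∧
      (fun a => g (σ.symm a)) = f := by
  refine ⟨Tuple.sort (key f), fun i => f (Tuple.sort (key f) i), ?_, ?_⟩
  · intro i j hij
    have hmono : Monotone (key f ∘ Tuple.sort (key f)) := Tuple.monotone_sort _
    have hlt : i < j := by rw [Fin.lt_def]; omega
    have hs : key f (Tuple.sort (key f) i) < key f (Tuple.sort (key f) j) := by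
      apply lt_of_le_of_ne (hmono hlt.le)
      intro he
      have := (Tuple.sort (key f)).injective (key_injective f he)
      exact absurd this hlt.ne
    rw [key_lt_iff] at hs
    rcases hs with hs | ⟨hs, hs'⟩
    · exact Or.inl hs
    · refine Or.inr ⟨hs.symm, hs', ?_⟩
      intro e
      exact hf _ _ e hs.symm
  · funext a
    simp

theorem sum_proper {M : Type*} [AddCommMonoid M] {h : Fin n → ℕ} (hm : Monotone h)
    (F : (Fin n → Fin N) → M) :
    ∑ f ∈ (Finset.univ : Finset (Fin n → Fin N)).filter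
      (fun f => ∀ a b : Fin n, IsEdge h a b → f a ≠ f b), F f =
    ∑ σ : Equiv.Perm (Fin n), ∑ g ∈ (Finset.univ : Finset (Fin n → Fin N)).filter
      (fun g => Compat h σ g), F (fun a => g (σ.symm a)) := by
  rw [Finset.sum_sigma']
  symm
  apply Finset.sum_bij (fun (p : (_ : Equiv.Perm (Fin n)) × (Fin n → Fin N)) _ =>
    (fun a => p.2 (p.1.symm a)))
  · rintro ⟨σ, g⟩ hp
    simp only [Finset.mem_sigma, Finset.mem_univ, Finset.mem_filter, true_and] at hp ⊢
    exact hp.proper hm
  · rintro ⟨σ, g⟩ hp ⟨σ', g'⟩ hp' heq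
    simp only [Finset.mem_sigma, Finset.mem_univ, Finset.mem_filter, true_and] at hp hp'
    obtain ⟨h1, h2⟩ := compat_inj hm hp hp' heq
    subst h1; subst h2; rfl
  · intro f hf
    simp only [Finset.mem_univ, Finset.mem_filter, true_and] at hf
    obtain ⟨σ, g, hc, rfl⟩ := compat_surj f hf
    exact ⟨⟨σ, g⟩, by simpa using hc, rfl⟩
  · intro p _; rfl

end Crest.Agent.R059
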