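import Crest.Agent.R059.Count

set_option autoImplicit false

open Crest.CombinatoricsR.UnitInterval

namespace Crest.Agent.R059

variable {n N : ℕ}

theorem card_strictMono_fun (n M : ℕ) :
    ((Finset.univ : Finset (Fin n → Fin M)).filter (fun f => StrictMono f)).card = M.choose n := by
  classical
  have hc : M.choose n = (Finset.powersetCard n (Finset.univ : Finset (Fin M))).card := by
    simp
  rw [hc]
  apply Finset.card_bij (fun (f : Fin n → Fin M) _ => Finset.univ.image f)
  · intro f hf
    simp only [Finset.mem_filter, Finset.mem_univ, true_and] at hf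
    rw [Finset.mem_powersetCard]
    refine ⟨Finset.subset_univ _, ?_⟩
    rw [Finset.card_image_of_injective _ hf.injective]
    simp
  · intro f hf g hg heq
    simp only [Finset.mem_filter, Finset.mem_univ, true_and] at hf hg
    apply (StrictMono.range_inj hf hg).1
    have := congrArg (fun s : Finset (Fin M) => (s : Set (Fin M))) heq
    simpa using this
  · intro s hs
    rw [Finset.mem_powersetCard] at hs
    refine ⟨s.orderEmbOfFin hs.2, ?_, ?_⟩
    · simp only [Finset.mem_filter, Finset.mem_univ, true_and]
      exact (s.orderEmbOfFin hs.2).strictMono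
    · apply Finset.coe_injective
      simp

/-- number of elements of `W` that are `≥ i`. -/
def cnt (W : Finset (Fin n)) (i : ℕ) : ℕ := (W.filter (fun w => i ≤ w.val)).card

theorem cnt_zero (W : Finset (Fin n)) : cnt W 0 = W.card := by
  unfold cnt; simp

theorem cnt_succ_of_mem {W : Finset (Fin n)} {i : Fin n} (hi : i ∈ W) :
    cnt W i.val = cnt W (i.val + 1) + 1 := by
  classical
  unfold cnt
  have : W.filter (fun w => i.val ≤ w.val) = insert i (W.filter (fun w => i.val + 1 ≤ w.val)) := by
    ext w
    simp only [Finset.mem_filter, Finset.mem_insert]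
    constructor
    · rintro ⟨h1, h2⟩
      rcases h2.lt_or_eq with h3 | h3
      · exact Or.inr ⟨h1, h3⟩
      · exact Or.inl (Fin.ext h3.symm)
    · rintro (rfl | ⟨h1, h2⟩)
      · exact ⟨hi, le_rfl⟩
      · exact ⟨h1, by omega⟩
  rw [this, Finset.card_insert_of_notMem]
  simp

theorem cnt_succ_of_not_mem {W : Finset (Fin n)} {i : Fin n} (hi : i ∉ W) :
    cnt W i.val = cnt W (i.val + 1) := by
  unfold cnt
  congr 1
  ext w
  simp only [Finset.mem_filter]
  constructor
  · rintro ⟨h1, h2⟩
    refine ⟨h1, ?_⟩
    rcases h2.lt_or_eq with h3 | h3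
    · exact h3
    · exact absurd (Fin.ext h3 ▸ h1 : i ∈ W) hi
  · rintro ⟨h1, h2⟩
    exact ⟨h1, by omega⟩

theorem cnt_succ_le {W : Finset (Fin n)} (i : ℕ) : cnt W (i + 1) ≤ cnt W i := by
  unfold cnt
  apply Finset.card_le_card
  intro w
  simp only [Finset.mem_filter]
  rintro ⟨h1, h2⟩
  exact ⟨h1, by omega⟩

theorem cnt_le_succ {W : Finset (Fin n)} (i : ℕ) : cnt W i ≤ cnt W (i + 1) + 1 := by
  by_cases hi : i < n
  · by_cases h : (⟨i, hi⟩ : Fin n) ∈ W
    · exact (cnt_succ_of_mem h).le
    · have := cnt_succ_of_not_mem h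
      simp only at this
      omega
  · have : cnt W i = 0 := by
      unfold cnt
      rw [Finset.card_eq_zero, Finset.filter_eq_empty_iff]
      intro w _
      have := w.isLt
      omega
    omega

/-- `card W - cnt W i ≤ i`. -/
theorem card_le_cnt_add {W : Finset (Fin n)} (i : ℕ) : W.card ≤ cnt W i + i := by
  induction i with
  | zero => rw [cnt_zero]; omega
  | succ k ih =>
    have := @cnt_le_succ n W k
    omega

theorem cnt_le {W : Finset (Fin n)} (hW : ∀ w ∈ W, w.val + 1 < n) (i : ℕ) (hi : i < n) :
    cnt W i + i + 1 ≤ n := by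
  -- downward induction: k = n - 1 - i
  obtain ⟨k, hk⟩ : ∃ k, n = i + 1 + k := ⟨n - 1 - i, by omega⟩
  induction k generalizing i with
  | zero =>
    have : cnt W i = 0 := by
      unfold cnt
      rw [Finset.card_eq_zero, Finset.filter_eq_empty_iff]
      intro w hw
      have := hW w hw
      omega
    omega
  | succ k ih =>
    have h1 := ih (i + 1) (by omega) (by omega)
    have := @cnt_le_succ n W i
    omega

theorem strictMono_ge {M : ℕ} {f : Fin n → Fin M} (hf : StrictMono f) (k : Fin n) :
    k.val ≤ (f k).val := by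
  obtain ⟨k, hk⟩ := k
  induction k with
  | zero => simp
  | succ m ih =>
    have h1 := ih (by omega)
    have h2 : f ⟨m, by omega⟩ < f ⟨m + 1, hk⟩ := hf (by simp [Fin.lt_def])
    rw [Fin.lt_def] at h2
    simp only at h1 ⊢
    omega

theorem strictMono_le {M : ℕ} {f : Fin n → Fin M} (hf : StrictMono f) (i : ℕ) (hi : i < n) :
    (f ⟨n - 1 - i, by omega⟩).val + i + 1 ≤ M := by
  induction i with
  | zero => have := (f ⟨n - 1 - 0, by omega⟩).isLt; omega
  | succ m ih =>
    have h1 := ih (by omega)
    have h2 : f ⟨n - 1 - (m + 1), by omega⟩ < f ⟨n - 1 - m, by omega⟩ :=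
      hf (by rw [Fin.lt_def]; simp only; omega)
    rw [Fin.lt_def] at h2
    omega

/-- Weakly decreasing sequences with prescribed weak positions. -/
theorem card_weak (W : Finset (Fin n)) (hW : ∀ w ∈ W, w.val + 1 < n) (N : ℕ) :
    ((Finset.univ : Finset (Fin n → Fin N)).filter
      (fun g => ∀ i j : Fin n, j.val = i.val + 1 → g j < g i ∨ (g j = g i ∧ i ∈ W))).card =
    (N + W.card).choose n := by
  classical
  rw [← card_strictMono_fun n (N + W.card)]
  have hb : ∀ (g : Fin n → Fin N) (i : Fin n), (g i).val + cnt W i.val < N + W.card := by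
    intro g i
    have h1 := (g i).isLt
    have h2 : cnt W i.val ≤ W.card := by
      unfold cnt; exact Finset.card_filter_le _ _
    omega
  apply Finset.card_bij (fun (g : Fin n → Fin N) _ =>
    (fun i : Fin n => (⟨(g i.rev).val + cnt W i.rev.val, hb g i.rev⟩ : Fin (N + W.card))))
  · intro g hg
    simp only [Finset.mem_filter, Finset.mem_univ, true_and] at hg ⊢
    have key : ∀ i j : Fin n, j.val = i.val + 1 →
        (g j).val + cnt W j.val < (g i).val + cnt W i.val := by
      intro i j hij
      rw [hij]
      rcases hg i j hij with h1 | ⟨h1, h2⟩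
      · rw [Fin.lt_def] at h1
        have := @cnt_succ_le n W i.val
        omega
      · rw [h1, cnt_succ_of_mem h2]; omega
    have anti : ∀ (d : ℕ) (i j : Fin n), j.val = i.val + 1 + d →
        (g j).val + cnt W j.val < (g i).val + cnt W i.val := by
      intro d
      induction d with
      | zero => intro i j hij; exact key i j hij
      | succ e ih =>
        intro i j hij
        have h1 := ih i ⟨i.val + 1 + e, by have := j.isLt; omega⟩ rfl
        have h2 := key ⟨i.val + 1 + e, by have := j.isLt; omega⟩ j (by simp only; omega)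
        exact h2.trans h1
    intro a b hab
    rw [Fin.lt_def]
    simp only
    rw [Fin.lt_def] at hab
    have ha := a.isLt
    have hb := b.isLt
    apply anti (b.val - a.val - 1) b.rev a.rev
    rw [Fin.val_rev, Fin.val_rev]
    omega
  · intro g _ g' _ heq
    funext i
    have := congrFun heq i.rev
    simp only [Fin.rev_rev, Fin.mk.injEq] at this
    exact Fin.ext (by omega)
  · intro f hf
    simp only [Finset.mem_filter, Finset.mem_univ, true_and] at hf
    have hlow : ∀ i : Fin n, cnt W i.val ≤ (f i.rev).val := by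
      intro i
      have h1 := strictMono_ge hf i.rev
      rw [Fin.val_rev] at h1
      have h2 := cnt_le hW i.val i.isLt
      omega
    have hup : ∀ i : Fin n, (f i.rev).val - cnt W i.val < N := by
      intro i
      have h0 := hlow i
      have h1 := strictMono_le hf i.val i.isLt
      have h2 : i.rev = ⟨n - 1 - i.val, by have := i.isLt; omega⟩ := by
        apply Fin.ext; rw [Fin.val_rev]; simp only; omega
      rw [h2] at h0 ⊢
      have h3 := @card_le_cnt_add n W i.val
      omega
    refine ⟨fun i => ⟨(f i.rev).val - cnt W i.val, hup i⟩, ?_, ?_⟩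
    · simp only [Finset.mem_filter, Finset.mem_univ, true_and]
      intro i j hij
      have hlt : f j.rev < f i.rev := by
        apply hf
        rw [Fin.lt_def, Fin.val_rev, Fin.val_rev]
        have := j.isLt
        omega
      rw [Fin.lt_def] at hlt
      have h1 := hlow i
      have h2 := hlow j
      by_cases hi : i ∈ W
      · have h3 := cnt_succ_of_mem hi
        rw [← hij] at h3
        by_cases he : (f j.rev).val - cnt W j.val = (f i.rev).val - cnt W i.val
        · exact Or.inr ⟨Fin.ext he, hi⟩
        · left; rw [Fin.lt_def]; simp only; omega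
      · have h3 := cnt_succ_of_not_mem hi
        rw [← hij] at h3
        left; rw [Fin.lt_def]; simp only; omega
    · funext i
      apply Fin.ext
      simp only [Fin.rev_rev]
      have := hlow i.rev
      rw [Fin.rev_rev] at this
      omega

/-- P-descent positions of `σ`. -/
def pdes (h : Fin n → ℕ) (σ : Equiv.Perm (Fin n)) : Finset (Fin n) :=
  Finset.univ.filter (fun i => ∃ j : Fin n, j.val = i.val + 1 ∧ σ j < σ i ∧
    ¬ IsEdge h (σ j) (σ i))

theorem card_compat (h : Fin n → ℕ) (σ : Equiv.Perm (Fin n)) (N : ℕ) :
    ((Finset.univ : Finset (Fin n → Fin N)).filter (fun g => Compat h σ g)).card =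
      (N + (pdes h σ).card).choose n := by
  classical
  rw [← card_weak (pdes h σ) ?_ N]
  · congr 1
    ext g
    rw [Finset.mem_filter, Finset.mem_filter]
    simp only [Finset.mem_filter, Finset.mem_univ, true_and, pdes]
    unfold Compat
    constructor
    · intro hc i j hij
      rcases hc i j hij with h1 | ⟨h1, h2⟩
      · exact Or.inl h1
      · exact Or.inr ⟨h1, j, hij, h2⟩
    · intro hc i j hij
      rcases hc i j hij with h1 | ⟨h1, j', hj', h2⟩
      · exact Or.inl h1
      · have : j' = j := Fin.ext (by omega)
        subst this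
        exact Or.inr ⟨h1, h2⟩
  · intro w hw
    simp only [pdes, Finset.mem_filter, Finset.mem_univ, true_and] at hw
    obtain ⟨j, hj, _⟩ := hw
    have := j.isLt
    omega

theorem pdes_card_lt (h : Fin n → ℕ) (σ : Equiv.Perm (Fin n)) (hn : 0 < n) :
    (pdes h σ).card < n := by
  have h1 : ∀ w ∈ pdes h σ, w.val + 1 < n := by
    intro w hw
    simp only [pdes, Finset.mem_filter, Finset.mem_univ, true_and] at hw
    obtain ⟨j, hj, _⟩ := hw
    have := j.isLt
    omega
  have := cnt_le h1 0 hn
  rw [cnt_zero] at this
  omega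

theorem pdes_eq_empty_iff (h : Fin n → ℕ) (σ : Equiv.Perm (Fin n)) :
    (pdes h σ).card = 0 ↔ σ ∈ descentSet h := by
  rw [Finset.card_eq_zero]
  unfold pdes descentSet
  rw [Finset.filter_eq_empty_iff]
  simp only [Finset.mem_univ, true_implies, not_exists, not_and, not_not, Finset.mem_filter,
    true_and]

/-- evaluation at all-ones. -/
theorem sum_qasc {h : Fin n → ℕ} (hm : Monotone h) (N : ℕ) :
    ∑ f ∈ (Finset.univ : Finset (Fin n → Fin N)).filter
      (fun f => ∀ a b : Fin n, IsEdge h a b → f a ≠ f b),
      (Polynomial.X : Polynomial ℤ) ^ ascents h f =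
    ∑ σ : Equiv.Perm (Fin n), ((N + (pdes h σ).card).choose n : Polynomial ℤ) *
      (Polynomial.X : Polynomial ℤ) ^ ginv h σ := by
  rw [sum_proper hm]
  apply Finset.sum_congr rfl
  intro σ _
  rw [← card_compat h σ N, ← nsmul_eq_mul, ← Finset.sum_const]
  apply Finset.sum_congr rfl
  intro g hg
  simp only [Finset.mem_filter, Finset.mem_univ, true_and] at hg
  rw [hg.ascents_eq hm]

end Crest.Agent.R059
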