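import Crest.Agent.R059.Pieri

set_option autoImplicit false

/-!
# The q-deflation formula

Weighted unit interval graph on a finite linear order `ι` with adjacency `R i j` (`i < j`),
root `o` = least vertex.  `W k N` is the (normalised) chromatic quasisymmetric function of the
blow up `k : ι → ℤ` in `N` variables, given by its one variable recursion.
-/

namespace Crest.Agent.R059.Defl

open Finset

/-- unit interval adjacency on a linear order. -/
structure UI {ι : Type*} [LinearOrder ι] (R : ι → ι → Prop) : Prop where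
  lt : ∀ {i j}, R i j → i < j
  mid : ∀ {i j l}, R i l → i < j → j < l → R i j ∧ R j l

variable {ι : Type*} [LinearOrder ι]
variable {R : ι → ι → Prop} [DecidableRel R]

/-- elements of `V` without larger neighbour in `V`. -/
def Lm (R : ι → ι → Prop) [DecidableRel R] (V : Finset ι) : Finset ι :=
  V.filter (fun i => ∀ j ∈ V, ¬ R i j)

/-- elements of `V` without smaller neighbour in `V`. -/
def Mm (R : ι → ι → Prop) [DecidableRel R] (V : Finset ι) : Finset ι :=
  V.filter (fun i => ∀ j ∈ V, ¬ R j i)

theorem mem_Lm {V : Finset ι} {i : ι} : i ∈ Lm R V ↔ i ∈ V ∧ ∀ j ∈ V, ¬ R i j := by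
  unfold Lm; rw [Finset.mem_filter]

theorem mem_Mm {V : Finset ι} {i : ι} : i ∈ Mm R V ↔ i ∈ V ∧ ∀ j ∈ V, ¬ R j i := by
  unfold Mm; rw [Finset.mem_filter]

theorem card_Lm (hR : UI R) (V : Finset ι) : (Lm R V).card = (Mm R V).card := by
  induction V using Finset.induction_on_max with
  | empty => rfl
  | insert a V ha ih =>
    have haV : a ∉ V := fun h => lt_irrefl _ (ha a h)
    have hRa : ∀ i ∈ insert a V, ¬ R a i := by
      intro i hi h
      rcases Finset.mem_insert.1 hi with rfl | hi
      · exact lt_irrefl _ (hR.lt h)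
      · exact lt_asymm (hR.lt h) (ha i hi)
    by_cases hex : ∃ i ∈ V, R i a
    · obtain ⟨i, hi, hia⟩ := hex
      have hne : V.Nonempty := ⟨i, hi⟩
      set b := V.max' hne with hb
      have hbV : b ∈ V := V.max'_mem hne
      have hba : R b a := by
        rcases lt_or_eq_of_le (V.le_max' i hi) with h | h
        · exact (hR.mid hia h (ha b hbV)).2
        · rw [← h] at hb; rw [hb]; exact hia
      have hbL : b ∈ Lm R V := by
        refine Finset.mem_filter.2 ⟨hbV, fun j hj h => ?_⟩
        exact not_lt.2 (V.le_max' j hj) (hR.lt h)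
      have e1 : Lm R (insert a V) = insert a ((Lm R V).erase b) := by
        ext j
        simp only [Lm, Finset.mem_filter, Finset.mem_insert, Finset.mem_erase]
        constructor
        · rintro ⟨rfl | hj, h2⟩
          · exact Or.inl rfl
          · right
            refine ⟨?_, hj, fun l hl => h2 l (Or.inr hl)⟩
            rintro rfl
            exact h2 a (Or.inl rfl) hba
        · rintro (rfl | ⟨hjb, hj, h2⟩)
          · refine ⟨Or.inl rfl, fun l hl h => hRa l (Finset.mem_insert.2 hl) h⟩
          · refine ⟨Or.inr hj, ?_⟩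
            rintro l (rfl | hl) h
            · have hlt : j < b := lt_of_le_of_ne (V.le_max' j hj) hjb
              exact h2 b hbV (hR.mid h hlt (ha b hbV)).1
            · exact h2 l hl h
      have e2 : Mm R (insert a V) = Mm R V := by
        ext j
        simp only [Mm, Finset.mem_filter, Finset.mem_insert]
        constructor
        · rintro ⟨rfl | hj, h2⟩
          · exact absurd hia (h2 i (Or.inr hi))
          · exact ⟨hj, fun l hl => h2 l (Or.inr hl)⟩
        · rintro ⟨hj, h2⟩
          refine ⟨Or.inr hj, ?_⟩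
          rintro l (rfl | hl) h
          · exact hRa j (Finset.mem_insert.2 (Or.inr hj)) h
          · exact h2 l hl h
      rw [e1, e2, Finset.card_insert_of_notMem, Finset.card_erase_of_mem hbL, ← ih]
      · have : 0 < (Lm R V).card := Finset.card_pos.2 ⟨b, hbL⟩
        omega
      · intro h
        exact haV (Finset.mem_filter.1 (Finset.mem_of_mem_erase h)).1
    · push Not at hex
      have e1 : Lm R (insert a V) = insert a (Lm R V) := by
        ext j
        simp only [Lm, Finset.mem_filter, Finset.mem_insert]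
        constructor
        · rintro ⟨rfl | hj, h2⟩
          · exact Or.inl rfl
          · exact Or.inr ⟨hj, fun l hl => h2 l (Or.inr hl)⟩
        · rintro (rfl | ⟨hj, h2⟩)
          · exact ⟨Or.inl rfl, fun l hl h => hRa l (Finset.mem_insert.2 hl) h⟩
          · refine ⟨Or.inr hj, ?_⟩
            rintro l (rfl | hl) h
            · exact hex j hj h
            · exact h2 l hl h
      have e2 : Mm R (insert a V) = insert a (Mm R V) := by
        ext j
        simp only [Mm, Finset.mem_filter, Finset.mem_insert]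
        constructor
        · rintro ⟨rfl | hj, h2⟩
          · exact Or.inl rfl
          · exact Or.inr ⟨hj, fun l hl => h2 l (Or.inr hl)⟩
        · rintro (rfl | ⟨hj, h2⟩)
          · refine ⟨Or.inl rfl, ?_⟩
            rintro l (rfl | hl) h
            · exact lt_irrefl _ (hR.lt h)
            · exact hex l hl h
          · refine ⟨Or.inr hj, ?_⟩
            rintro l (rfl | hl) h
            · exact hRa j (Finset.mem_insert.2 (Or.inr hj)) h
            · exact h2 l hl h
      rw [e1, e2, Finset.card_insert_of_notMem, Finset.card_insert_of_notMem, ih]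
      · intro h; exact haV (Finset.mem_filter.1 h).1
      · intro h; exact haV (Finset.mem_filter.1 h).1

section step

variable {K : Type*} [CommRing K]

theorem sum_powerset_card_succ (ω : ℕ → K) (A B : Finset ι) (h : A.card = B.card + 1) :
    ∑ S ∈ A.powerset, ω S.card = ∑ S ∈ B.powerset, (ω S.card + ω (S.card + 1)) := by
  classical
  have hne : A.Nonempty := Finset.card_pos.1 (by omega)
  obtain ⟨x, hx⟩ := hne
  have hA : A = insert x (A.erase x) := (Finset.insert_erase hx).symm
  have hc : (A.erase x).card = B.card := by rw [Finset.card_erase_of_mem hx]; omega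
  rw [hA, Finset.sum_powerset_insert (Finset.notMem_erase x A)]
  have e : ∑ t ∈ (A.erase x).powerset, ω (insert x t).card =
      ∑ t ∈ (A.erase x).powerset, ω (t.card + 1) := by
    apply Finset.sum_congr rfl
    intro t ht
    rw [Finset.card_insert_of_notMem]
    intro hxt
    exact Finset.notMem_erase x A (Finset.mem_powerset.1 ht hxt)
  rw [e, ← Finset.sum_add_distrib]
  have e3 := Finset.sum_powerset_apply_card (fun m => ω m + ω (m + 1)) (x := A.erase x)
  have e4 := Finset.sum_powerset_apply_card (fun m => ω m + ω (m + 1)) (x := B)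
  rw [e3, e4, hc]

/-- stable sets. -/
def St (R : ι → ι → Prop) (S : Finset ι) : Prop := ∀ a ∈ S, ∀ b ∈ S, ¬ R a b

instance (S : Finset ι) : Decidable (St R S) := by unfold St; infer_instance

variable [Fintype ι]

/-- the vertices different from the root. -/
def J (o : ι) : Finset ι := Finset.univ.erase o

/-- the vertices outside the closed neighbourhood of the root. -/
def G' (R : ι → ι → Prop) [DecidableRel R] (o : ι) : Finset ι :=
  Finset.univ.filter (fun j => j ≠ o ∧ ¬ R o j)

/-- expansion of one summand. -/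
theorem prod_split (o : ι) (S : Finset ι) (cond : ι → Prop) [DecidablePred cond]
    (hcond : ∀ j ∈ S, ¬ cond j) (u v : ι → K) (w : ι → K)
    (h1 : ∀ j ∈ J o, j ∈ S → w j = u j)
    (h2 : ∀ j ∈ J o, cond j → w j = v j)
    (h3 : ∀ j ∈ J o, j ∉ S → ¬ cond j → w j = u j + v j) :
    ∏ j ∈ J o, w j = ∑ T ∈ (J o).powerset,
      if S.erase o ⊆ T ∧ ∀ j ∈ T, ¬ cond j then (∏ j ∈ T, u j) * ∏ j ∈ J o \ T, v j else 0 := by
  classical
  have e : ∏ j ∈ J o, w j = ∏ j ∈ J o, ((if cond j then 0 else u j) + (if j ∈ S then 0 else v j)) := by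
    apply Finset.prod_congr rfl
    intro j hj
    by_cases hjS : j ∈ S
    · rw [if_neg (hcond j hjS), if_pos hjS, h1 j hj hjS, add_zero]
    · by_cases hc : cond j
      · rw [if_pos hc, if_neg hjS, h2 j hj hc, zero_add]
      · rw [if_neg hc, if_neg hjS, h3 j hj hjS hc]
  rw [e, Finset.prod_add]
  apply Finset.sum_congr rfl
  intro T hT
  rw [Finset.mem_powerset] at hT
  split_ifs with h
  · congr 1
    · apply Finset.prod_congr rfl
      intro j hj
      rw [if_neg (h.2 j hj)]
    · apply Finset.prod_congr rfl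
      intro j hj
      rw [Finset.mem_sdiff] at hj
      rw [if_neg]
      intro hjS
      exact hj.2 (h.1 (Finset.mem_erase.2 ⟨Finset.ne_of_mem_erase hj.1, hjS⟩))
  · rw [not_and_or] at h
    rcases h with h | h
    · rw [Finset.not_subset] at h
      obtain ⟨j, hj, hjT⟩ := h
      have : ∏ i ∈ J o \ T, (if i ∈ S then (0 : K) else v i) = 0 := by
        apply Finset.prod_eq_zero (i := j)
        · rw [Finset.mem_sdiff]
          exact ⟨Finset.mem_erase.2 ⟨Finset.ne_of_mem_erase hj, Finset.mem_univ _⟩, hjT⟩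
        · rw [if_pos (Finset.mem_of_mem_erase hj)]
      rw [this, mul_zero]
    · push Not at h
      obtain ⟨j, hj, hc⟩ := h
      have : ∏ i ∈ T, (if cond i then (0 : K) else u i) = 0 :=
        Finset.prod_eq_zero hj (by rw [if_pos hc])
      rw [this, zero_mul]

/-- the step identity. -/
theorem step (hR : UI R) (o : ι) (ho : ∀ j, o ≤ j) (u v : ι → K) (wL wR : Finset ι → ι → K)
    (ω : ℕ → K)
    (hL1 : ∀ S, St R S → ∀ j ∈ J o, j ∈ S → wL S j = u j)
    (hL2 : ∀ S, St R S → ∀ j ∈ J o, (∃ i ∈ S, R i j) → wL S j = v j)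
    (hL3 : ∀ S, St R S → ∀ j ∈ J o, j ∉ S → (¬ ∃ i ∈ S, R i j) → wL S j = u j + v j)
    (hR1 : ∀ S, St R S → ∀ j ∈ J o, j ∈ S → wR S j = u j)
    (hR2 : ∀ S, St R S → ∀ j ∈ J o, (∃ i ∈ S, R j i) → wR S j = v j)
    (hR3 : ∀ S, St R S → ∀ j ∈ J o, j ∉ S → (¬ ∃ i ∈ S, R j i) → wR S j = u j + v j) :
    ∑ S ∈ (Finset.univ : Finset ι).powerset.filter (fun S => St R S),
        ω S.card * ∏ j ∈ J o, wL S j =
      ∑ S ∈ (G' R o).powerset.filter (fun S => St R S),
        (ω S.card + ω (S.card + 1)) * ∏ j ∈ J o, wR S j := by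
  classical
  have hl : ∑ S ∈ (Finset.univ : Finset ι).powerset.filter (fun S => St R S),
        ω S.card * ∏ j ∈ J o, wL S j =
      ∑ T ∈ (J o).powerset, ((∏ j ∈ T, u j) * ∏ j ∈ J o \ T, v j) *
        ∑ S ∈ (Lm R (insert o T)).powerset, ω S.card := by
    have : ∀ S ∈ (Finset.univ : Finset ι).powerset.filter (fun S => St R S),
        ω S.card * ∏ j ∈ J o, wL S j = ∑ T ∈ (J o).powerset,
          if S.erase o ⊆ T ∧ ∀ j ∈ T, ¬ ∃ i ∈ S, R i j then
            ω S.card * ((∏ j ∈ T, u j) * ∏ j ∈ J o \ T, v j) else 0 := by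
      intro S hS
      have hS' := (Finset.mem_filter.1 hS).2
      rw [prod_split o S (fun j => ∃ i ∈ S, R i j)
        (by rintro j hj ⟨i, hi, hij⟩; exact hS' i hi j hj hij) u v (wL S)
        (hL1 S hS') (hL2 S hS') (hL3 S hS'), Finset.mul_sum]
      apply Finset.sum_congr rfl
      intro T _
      rw [mul_ite, mul_zero]
    rw [Finset.sum_congr rfl this, Finset.sum_comm]
    apply Finset.sum_congr rfl
    intro T hT
    rw [Finset.mem_powerset] at hT
    rw [← Finset.sum_filter, Finset.mul_sum]
    have e1 : ((Finset.univ : Finset ι).powerset.filter (fun S => St R S)).filter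
        (fun S => S.erase o ⊆ T ∧ ∀ j ∈ T, ¬ ∃ i ∈ S, R i j) = (Lm R (insert o T)).powerset := by
      ext S
      simp only [Finset.mem_filter, Finset.mem_powerset]
      constructor
      · rintro ⟨⟨_, hst⟩, h1, h2⟩ i hi
        refine mem_Lm.2 ⟨?_, ?_⟩
        · by_cases hio : i = o
          · exact Finset.mem_insert.2 (Or.inl hio)
          · exact Finset.mem_insert.2 (Or.inr (h1 (Finset.mem_erase.2 ⟨hio, hi⟩)))
        · intro j hj hij
          rcases Finset.mem_insert.1 hj with rfl | hj
          · exact absurd (hR.lt hij) (not_lt.2 (ho i))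
          · exact h2 j hj ⟨i, hi, hij⟩
      · intro h
        have h' : ∀ i ∈ S, i ∈ insert o T ∧ ∀ j ∈ insert o T, ¬ R i j := fun i hi =>
          mem_Lm.1 (h hi)
        refine ⟨⟨Finset.subset_univ _, fun a ha b hb => (h' a ha).2 b (h' b hb).1⟩, ?_, ?_⟩
        · intro i hi
          rcases Finset.mem_insert.1 (h' i (Finset.mem_of_mem_erase hi)).1 with h | h
          · exact absurd h (Finset.ne_of_mem_erase hi)
          · exact h
        · rintro j hj ⟨i, hi, hij⟩
          exact (h' i hi).2 j (Finset.mem_insert_of_mem hj) hij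
    rw [e1]
    apply Finset.sum_congr rfl
    intro S _
    ring
  have hr : ∑ S ∈ (G' R o).powerset.filter (fun S => St R S),
        (ω S.card + ω (S.card + 1)) * ∏ j ∈ J o, wR S j =
      ∑ T ∈ (J o).powerset, ((∏ j ∈ T, u j) * ∏ j ∈ J o \ T, v j) *
        ∑ S ∈ ((Mm R (insert o T)).erase o).powerset, (ω S.card + ω (S.card + 1)) := by
    have : ∀ S ∈ (G' R o).powerset.filter (fun S => St R S),
        (ω S.card + ω (S.card + 1)) * ∏ j ∈ J o, wR S j = ∑ T ∈ (J o).powerset,
          if S.erase o ⊆ T ∧ ∀ j ∈ T, ¬ ∃ i ∈ S, R j i then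
            (ω S.card + ω (S.card + 1)) * ((∏ j ∈ T, u j) * ∏ j ∈ J o \ T, v j) else 0 := by
      intro S hS
      have hS' := (Finset.mem_filter.1 hS).2
      rw [prod_split o S (fun j => ∃ i ∈ S, R j i)
        (by rintro j hj ⟨i, hi, hij⟩; exact hS' j hj i hi hij) u v (wR S)
        (hR1 S hS') (hR2 S hS') (hR3 S hS'), Finset.mul_sum]
      apply Finset.sum_congr rfl
      intro T _
      rw [mul_ite, mul_zero]
    rw [Finset.sum_congr rfl this, Finset.sum_comm]
    apply Finset.sum_congr rfl
    intro T hT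
    rw [Finset.mem_powerset] at hT
    rw [← Finset.sum_filter, Finset.mul_sum]
    have e1 : ((G' R o).powerset.filter (fun S => St R S)).filter
        (fun S => S.erase o ⊆ T ∧ ∀ j ∈ T, ¬ ∃ i ∈ S, R j i) =
          ((Mm R (insert o T)).erase o).powerset := by
      ext S
      simp only [Finset.mem_filter, Finset.mem_powerset]
      constructor
      · rintro ⟨⟨hG, hst⟩, h1, h2⟩ i hi
        have hiG := hG hi
        simp only [G', Finset.mem_filter, Finset.mem_univ, true_and] at hiG
        refine Finset.mem_erase.2 ⟨hiG.1, mem_Mm.2 ⟨?_, ?_⟩⟩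
        · exact Finset.mem_insert.2 (Or.inr (h1 (Finset.mem_erase.2 ⟨hiG.1, hi⟩)))
        · intro j hj hij
          rcases Finset.mem_insert.1 hj with rfl | hj
          · exact hiG.2 hij
          · exact h2 j hj ⟨i, hi, hij⟩
      · intro h
        have h' : ∀ i ∈ S, i ≠ o ∧ i ∈ insert o T ∧ ∀ j ∈ insert o T, ¬ R j i := fun i hi =>
          ⟨Finset.ne_of_mem_erase (h hi), mem_Mm.1 (Finset.mem_of_mem_erase (h hi))⟩
        refine ⟨⟨?_, fun a ha b hb => (h' b hb).2.2 a (h' a ha).2.1⟩, ?_, ?_⟩
        · intro i hi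
          simp only [G', Finset.mem_filter, Finset.mem_univ, true_and]
          exact ⟨(h' i hi).1, (h' i hi).2.2 o (Finset.mem_insert_self _ _)⟩
        · intro i hi
          rcases Finset.mem_insert.1 (h' i (Finset.mem_of_mem_erase hi)).2.1 with h | h
          · exact absurd h (Finset.ne_of_mem_erase hi)
          · exact h
        · rintro j hj ⟨i, hi, hij⟩
          exact (h' i hi).2.2 j (Finset.mem_insert_of_mem hj) hij
    rw [e1]
    apply Finset.sum_congr rfl
    intro S _
    ring
  rw [hl, hr]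
  apply Finset.sum_congr rfl
  intro T _
  congr 1
  apply sum_powerset_card_succ
  have hoM : o ∈ Mm R (insert o T) := by
    refine mem_Mm.2 ⟨Finset.mem_insert_self _ _, fun j _ hj => ?_⟩
    exact absurd (hR.lt hj) (not_lt.2 (ho j))
  rw [card_Lm hR, Finset.card_erase_of_mem hoM]
  have : 0 < (Mm R (insert o T)).card := Finset.card_pos.2 ⟨o, hoM⟩
  omega

end step

/-! ### The function `W` -/

variable [Fintype ι] {F : Type*} [Field F]

/-- indicator. -/
def ind (S : Finset ι) : ι → ℤ := fun j => if j ∈ S then 1 else 0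

/-- weight of the smaller neighbours. -/
def nb (R : ι → ι → Prop) [DecidableRel R] (k : ι → ℤ) (j : ι) : ℤ := ∑ i, if R i j then k i else 0

/-- weight of the larger neighbours. -/
def nf (R : ι → ι → Prop) [DecidableRel R] (k : ι → ℤ) (j : ι) : ℤ := ∑ i, if R j i then k i else 0

/-- normalised chromatic function of the blow up `k` in `N` variables. -/
noncomputable def W (R : ι → ι → Prop) [DecidableRel R] (q : F) (x : ℕ → F) :
    ℕ → (ι → ℤ) → F
  | 0 => fun k => if k = 0 then 1 else 0
  | N + 1 => fun k => ∑ S ∈ (Finset.univ : Finset ι).powerset.filter (fun S => St R S),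
      x N ^ S.card * q ^ (∑ b ∈ S, nb R k b) * W R q x N (k - ind S)

/-- elementary symmetric polynomials with integer index. -/
noncomputable def ee (x : ℕ → F) (N : ℕ) (M : ℤ) : F :=
  if 0 ≤ M then Pieri.E x N M.toNat else 0

omit [LinearOrder ι] [Fintype ι] in
theorem ee_zero (x : ℕ → F) (M : ℤ) : ee x 0 M = if M = 0 then 1 else 0 := by
  unfold ee
  split_ifs with h1 h2 h2
  · subst h2; exact Pieri.E_zero x 0
  · obtain ⟨m, hm⟩ : ∃ m, M.toNat = m + 1 := ⟨M.toNat - 1, by omega⟩
    rw [hm]; simp [Pieri.E]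
  · omega
  · rfl

theorem ee_succ (x : ℕ → F) (N : ℕ) (M : ℤ) :
    ee x (N + 1) M = ee x N M + x N * ee x N (M - 1) := by
  unfold ee
  rcases lt_trichotomy M 0 with h | h | h
  · rw [if_neg (by omega), if_neg (by omega), if_neg (by omega)]; ring
  · subst h
    rw [if_pos le_rfl, if_pos le_rfl, if_neg (by omega)]
    simp [Pieri.E_zero]
  · rw [if_pos (by omega), if_pos (by omega), if_pos (by omega),
      Pieri.E_succ x N (by omega : 0 < M.toNat)]
    have : M.toNat - 1 = (M - 1).toNat := by omega
    rw [this]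

theorem W_neg (q : F) (x : ℕ → F) (N : ℕ) (k : ι → ℤ) (h : ∃ j, k j < 0) : W R q x N k = 0 := by
  induction N generalizing k with
  | zero =>
    obtain ⟨j, hj⟩ := h
    show (if k = 0 then (1 : F) else 0) = 0
    rw [if_neg]
    rintro rfl
    exact lt_irrefl _ hj
  | succ N ih =>
    obtain ⟨j, hj⟩ := h
    show ∑ S ∈ _, _ = (0 : F)
    apply Finset.sum_eq_zero
    intro S _
    rw [ih (k - ind S) ⟨j, ?_⟩, mul_zero]
    simp only [Pi.sub_apply, ind]
    split_ifs <;> omega

/-- exponents `Σ_{i~j, i<j} c_j A_i`. -/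
def ex (R : ι → ι → Prop) [DecidableRel R] (c A : ι → ℤ) : ℤ := ∑ i, A i * nf R c i

/-- `D_j = k(N⁻(j)) - c(N⁺(j))`. -/
def Dv (R : ι → ι → Prop) [DecidableRel R] (k c : ι → ℤ) (j : ι) : ℤ := nb R k j - nf R c j

theorem nb_sub (k c : ι → ℤ) (j : ι) : nb R (k - c) j = nb R k j - nb R c j := by
  unfold nb
  rw [← Finset.sum_sub_distrib]
  apply Finset.sum_congr rfl
  intro i _
  split_ifs <;> simp

theorem nb_add (k c : ι → ℤ) (j : ι) : nb R (k + c) j = nb R k j + nb R c j := by
  unfold nb
  rw [← Finset.sum_add_distrib]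
  apply Finset.sum_congr rfl
  intro i _
  split_ifs <;> simp

theorem nf_add (k c : ι → ℤ) (j : ι) : nf R (k + c) j = nf R k j + nf R c j := by
  unfold nf
  rw [← Finset.sum_add_distrib]
  apply Finset.sum_congr rfl
  intro i _
  split_ifs <;> simp

theorem nb_ind (hR : UI R) {S : Finset ι} (hS : St R S) (j : ι) :
    nb R (ind S) j = if ∃ i ∈ S, R i j then 1 else 0 := by
  unfold nb ind
  split_ifs with h
  · obtain ⟨i, hi, hij⟩ := h
    rw [Finset.sum_eq_single i]
    · rw [if_pos hij, if_pos hi]
    · intro b _ hb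
      split_ifs with h1 h2
      · exfalso
        rcases lt_or_gt_of_ne hb with h3 | h3
        · exact hS b h2 i hi (hR.mid h1 h3 (hR.lt hij)).1
        · exact hS i hi b h2 (hR.mid hij h3 (hR.lt h1)).1
      · rfl
      · rfl
    · intro h; exact absurd (Finset.mem_univ _) h
  · apply Finset.sum_eq_zero
    intro i _
    split_ifs with h1 h2
    · exact absurd ⟨i, h2, h1⟩ h
    · rfl
    · rfl

theorem nf_ind (hR : UI R) {S : Finset ι} (hS : St R S) (j : ι) :
    nf R (ind S) j = if ∃ i ∈ S, R j i then 1 else 0 := by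
  unfold nf ind
  split_ifs with h
  · obtain ⟨i, hi, hij⟩ := h
    rw [Finset.sum_eq_single i]
    · rw [if_pos hij, if_pos hi]
    · intro b _ hb
      split_ifs with h1 h2
      · exfalso
        rcases lt_or_gt_of_ne hb with h3 | h3
        · exact hS b h2 i hi (hR.mid hij (hR.lt h1) h3).2
        · exact hS i hi b h2 (hR.mid h1 (hR.lt hij) h3).2
      · rfl
      · rfl
    · intro h; exact absurd (Finset.mem_univ _) h
  · apply Finset.sum_eq_zero
    intro i _
    split_ifs with h1 h2
    · exact absurd ⟨i, h2, h1⟩ h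
    · rfl
    · rfl

theorem sum_ind (S : Finset ι) : ∑ j, ind S j = S.card := by
  unfold ind
  rw [Finset.sum_ite_mem, Finset.univ_inter, Finset.sum_const]
  simp

theorem sum_ind_mul (S : Finset ι) (f : ι → ℤ) : ∑ i, ind S i * f i = ∑ i ∈ S, f i := by
  unfold ind
  rw [← Finset.sum_filter_add_sum_filter_not Finset.univ (fun i => i ∈ S)]
  rw [Finset.sum_congr rfl (g := f), Finset.sum_eq_zero (s := Finset.univ.filter (fun i => ¬ i ∈ S)),
    add_zero]
  · congr 1
    ext i; simp
  · intro i hi
    rw [if_neg (Finset.mem_filter.1 hi).2, zero_mul]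
  · intro i hi
    rw [if_pos (Finset.mem_filter.1 hi).2, one_mul]

theorem swap_sum (A c : ι → ℤ) : ∑ i, A i * nf R c i = ∑ j, c j * nb R A j := by
  unfold nf nb
  simp_rw [Finset.mul_sum]
  rw [Finset.sum_comm]
  apply Finset.sum_congr rfl
  intro i _
  apply Finset.sum_congr rfl
  intro j _
  split_ifs <;> ring

theorem exL (k c : ι → ℤ) (S : Finset ι) :
    (∑ b ∈ S, nb R k b) + ex R c (k - ind S - c) = ex R c (k - c) + ∑ b ∈ S, Dv R k c b := by
  have h1 : ex R c (k - ind S - c) = ex R c (k - c) - ∑ b ∈ S, nf R c b := by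
    unfold ex
    rw [← sum_ind_mul S (fun b => nf R c b), ← Finset.sum_sub_distrib]
    apply Finset.sum_congr rfl
    intro i _
    simp only [Pi.sub_apply]
    ring
  rw [h1]
  unfold Dv
  rw [Finset.sum_sub_distrib]
  ring

theorem exR (hR : UI R) (k c : ι → ℤ) {S : Finset ι} (hS : St R S) :
    (∑ b ∈ S, nb R (c + ind S) b) + ex R (c + ind S) (k - (c + ind S)) =
      ex R c (k - c) + ∑ b ∈ S, Dv R k c b := by
  have h0 : ∀ b ∈ S, nb R (ind S) b = 0 := by
    intro b hb
    rw [nb_ind hR hS, if_neg]
    rintro ⟨i, hi, hib⟩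
    exact hS i hi b hb hib
  have h0' : ∀ b ∈ S, nf R (ind S) b = 0 := by
    intro b hb
    rw [nf_ind hR hS, if_neg]
    rintro ⟨i, hi, hib⟩
    exact hS b hb i hi hib
  have h1 : ex R (c + ind S) (k - (c + ind S)) = ex R c (k - c) + ∑ b ∈ S, nb R (k - c) b
      - ∑ b ∈ S, nf R c b := by
    have e1 : ex R (c + ind S) (k - (c + ind S)) =
        ∑ i, (k - c) i * nf R c i + ∑ i, (k - c) i * nf R (ind S) i
          - ∑ i, ind S i * nf R c i - ∑ i, ind S i * nf R (ind S) i := by
      unfold ex
      rw [← Finset.sum_add_distrib, ← Finset.sum_sub_distrib, ← Finset.sum_sub_distrib]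
      apply Finset.sum_congr rfl
      intro i _
      rw [nf_add]
      simp only [Pi.sub_apply, Pi.add_apply]
      ring
    rw [e1, swap_sum (k - c) (ind S), sum_ind_mul, sum_ind_mul, sum_ind_mul,
      Finset.sum_eq_zero h0']
    unfold ex
    ring
  rw [h1]
  unfold Dv
  have h2 : ∑ b ∈ S, nb R (c + ind S) b = ∑ b ∈ S, nb R c b := by
    apply Finset.sum_congr rfl
    intro b hb
    rw [nb_add, h0 b hb, add_zero]
  have h3 : ∑ b ∈ S, nb R (k - c) b = ∑ b ∈ S, nb R k b - ∑ b ∈ S, nb R c b := by
    rw [← Finset.sum_sub_distrib]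
    apply Finset.sum_congr rfl
    intro b _
    rw [nb_sub]
  rw [h2, h3, Finset.sum_sub_distrib]
  ring

/-- the index set of the deflated weights: supported on `G'`, entries in `[0, B]`. -/
noncomputable def box (R : ι → ι → Prop) [DecidableRel R] (o : ι) (B : ℤ) : Finset (ι → ℤ) :=
  Fintype.piFinset (fun j => if j ∈ G' R o then Finset.Icc 0 B else {0})

theorem mem_box {o : ι} {B : ℤ} {c : ι → ℤ} :
    c ∈ box R o B ↔ (∀ j ∈ G' R o, 0 ≤ c j ∧ c j ≤ B) ∧ (∀ j ∉ G' R o, c j = 0) := by
  unfold box
  rw [Fintype.mem_piFinset]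
  constructor
  · intro H
    refine ⟨fun j hj => ?_, fun j hj => ?_⟩
    · have := H j
      rw [if_pos hj] at this
      exact Finset.mem_Icc.1 this
    · have := H j
      rw [if_neg hj] at this
      exact Finset.mem_singleton.1 this
  · rintro ⟨h1, h2⟩ j
    split_ifs with hj
    · exact Finset.mem_Icc.2 (h1 j hj)
    · exact Finset.mem_singleton.2 (h2 j hj)

variable {P : Type*}

/-- the kernel function. -/
def Phi (o : ι) (Q : Finset P) (φ : P → ι → ℤ → ℤ → F) (A D : ι → ℤ) : F :=
  ∑ p ∈ Q, ∏ j ∈ J o, φ p j (A j) (D j)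

/-- pointwise identity. -/
theorem key (hR : UI R) (o : ι) (ho : ∀ j, o ≤ j) (q : F) (hq : q ≠ 0) (x : ℕ → F)
    (Q : Finset P) (φ : P → ι → ℤ → ℤ → F)
    (hφ : ∀ p ∈ Q, ∀ j ∈ J o, ∀ A D : ℤ, φ p j A D = q ^ D * φ p j (A - 1) D + φ p j A (D - 1))
    (N : ℕ) (M : ℤ) (k c : ι → ℤ) (hc : ∀ j ∉ G' R o, c j = 0) :
    ∑ S ∈ (Finset.univ : Finset ι).powerset.filter (fun S => St R S),
        x N ^ S.card * q ^ (∑ b ∈ S, nb R k b) *
          (q ^ ex R c (k - ind S - c) * Phi o Q φ (k - ind S - c) (Dv R (k - ind S) c) *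
            ee x N (M - S.card)) =
      ∑ S ∈ (G' R o).powerset.filter (fun S => St R S),
        x N ^ S.card * q ^ (∑ b ∈ S, nb R (c + ind S) b) *
          (q ^ ex R (c + ind S) (k - (c + ind S)) *
            Phi o Q φ (k - (c + ind S)) (Dv R k (c + ind S)) * ee x (N + 1) (M - S.card)) := by
  classical
  have hDo : Dv R k c o = 0 := by
    unfold Dv
    have h1 : nb R k o = 0 := by
      unfold nb
      apply Finset.sum_eq_zero
      intro i _
      rw [if_neg]
      intro h
      exact absurd (hR.lt h) (not_lt.2 (ho i))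
    have h2 : nf R c o = 0 := by
      unfold nf
      apply Finset.sum_eq_zero
      intro i _
      split_ifs with h
      · apply hc
        intro hi
        exact (Finset.mem_filter.1 hi).2.2 h
      · rfl
    rw [h1, h2, sub_zero]
  set ω : ℕ → F := fun s => x N ^ s * ee x N (M - s) with hω
  have hprod : ∀ S : Finset ι, q ^ (∑ b ∈ S, Dv R k c b) = ∏ j ∈ J o, (if j ∈ S then q ^ Dv R k c j else 1) := by
    intro S
    rw [Finset.prod_ite_mem]
    have e1 : ∑ b ∈ S, Dv R k c b = ∑ b ∈ J o ∩ S, Dv R k c b := by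
      by_cases hoS : o ∈ S
      · have : J o ∩ S = S.erase o := by
          ext j; simp [J]
        rw [this, ← Finset.add_sum_erase S _ hoS, hDo, zero_add]
      · have : J o ∩ S = S := by
          ext j
          simp only [J, Finset.mem_inter, Finset.mem_erase, Finset.mem_univ, and_true]
          constructor
          · exact fun h => h.2
          · intro h
            exact ⟨fun h' => hoS (h' ▸ h), h⟩
        rw [this]
    rw [e1]
    clear e1
    induction (J o ∩ S) using Finset.induction_on with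
    | empty => simp
    | insert a s ha ih => rw [Finset.sum_insert ha, Finset.prod_insert ha, zpow_add₀ hq, ih]
  have hl : ∀ S ∈ (Finset.univ : Finset ι).powerset.filter (fun S => St R S),
      x N ^ S.card * q ^ (∑ b ∈ S, nb R k b) *
          (q ^ ex R c (k - ind S - c) * Phi o Q φ (k - ind S - c) (Dv R (k - ind S) c) *
            ee x N (M - S.card)) =
      ∑ p ∈ Q, q ^ ex R c (k - c) * (ω S.card * ∏ j ∈ J o, ((if j ∈ S then q ^ Dv R k c j else 1) *
        φ p j (k j - c j - if j ∈ S then 1 else 0)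
          (Dv R k c j - if ∃ i ∈ S, R i j then 1 else 0))) := by
    intro S hS
    have hS' := (Finset.mem_filter.1 hS).2
    have h1 : x N ^ S.card * q ^ (∑ b ∈ S, nb R k b) *
          (q ^ ex R c (k - ind S - c) * Phi o Q φ (k - ind S - c) (Dv R (k - ind S) c) *
            ee x N (M - S.card)) =
        ω S.card * (q ^ ((∑ b ∈ S, nb R k b) + ex R c (k - ind S - c))) *
          Phi o Q φ (k - ind S - c) (Dv R (k - ind S) c) := by
      rw [zpow_add₀ hq, hω]; ring
    rw [h1, exL, zpow_add₀ hq, hprod, Phi, Finset.mul_sum]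
    apply Finset.sum_congr rfl
    intro p _
    rw [Finset.prod_mul_distrib]
    have h2 : ∏ j ∈ J o, φ p j ((k - ind S - c) j) (Dv R (k - ind S) c j) =
        ∏ j ∈ J o, φ p j (k j - c j - if j ∈ S then 1 else 0)
          (Dv R k c j - if ∃ i ∈ S, R i j then 1 else 0) := by
      apply Finset.prod_congr rfl
      intro j _
      congr 1
      · simp only [Pi.sub_apply, ind]; ring
      · unfold Dv
        rw [nb_sub, nb_ind hR hS']; ring
    rw [h2]; ring
  have hr : ∀ S ∈ (G' R o).powerset.filter (fun S => St R S),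
      x N ^ S.card * q ^ (∑ b ∈ S, nb R (c + ind S) b) *
          (q ^ ex R (c + ind S) (k - (c + ind S)) *
            Phi o Q φ (k - (c + ind S)) (Dv R k (c + ind S)) * ee x (N + 1) (M - S.card)) =
      ∑ p ∈ Q, q ^ ex R c (k - c) * ((ω S.card + ω (S.card + 1)) *
        ∏ j ∈ J o, ((if j ∈ S then q ^ Dv R k c j else 1) *
        φ p j (k j - c j - if j ∈ S then 1 else 0)
          (Dv R k c j - if ∃ i ∈ S, R j i then 1 else 0))) := by
    intro S hS
    have hS' := (Finset.mem_filter.1 hS).2
    have h0 : x N ^ S.card * ee x (N + 1) (M - S.card) = ω S.card + ω (S.card + 1) := by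
      rw [hω, ee_succ]
      simp only
      rw [pow_succ]
      have : M - (S.card : ℤ) - 1 = M - ((S.card + 1 : ℕ) : ℤ) := by push_cast; ring
      rw [this]; ring
    have h1 : x N ^ S.card * q ^ (∑ b ∈ S, nb R (c + ind S) b) *
          (q ^ ex R (c + ind S) (k - (c + ind S)) *
            Phi o Q φ (k - (c + ind S)) (Dv R k (c + ind S)) * ee x (N + 1) (M - S.card)) =
        (x N ^ S.card * ee x (N + 1) (M - S.card)) *
          (q ^ ((∑ b ∈ S, nb R (c + ind S) b) + ex R (c + ind S) (k - (c + ind S)))) *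
          Phi o Q φ (k - (c + ind S)) (Dv R k (c + ind S)) := by
      rw [zpow_add₀ hq]; ring
    rw [h1, h0, exR hR k c hS', zpow_add₀ hq, hprod, Phi, Finset.mul_sum]
    apply Finset.sum_congr rfl
    intro p _
    rw [Finset.prod_mul_distrib]
    have h2 : ∏ j ∈ J o, φ p j ((k - (c + ind S)) j) (Dv R k (c + ind S) j) =
        ∏ j ∈ J o, φ p j (k j - c j - if j ∈ S then 1 else 0)
          (Dv R k c j - if ∃ i ∈ S, R j i then 1 else 0) := by
      apply Finset.prod_congr rfl
      intro j _
      congr 1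
      · simp only [Pi.sub_apply, Pi.add_apply, ind]; ring
      · unfold Dv
        rw [nf_add, nf_ind hR hS']; ring
    rw [h2]; ring
  rw [Finset.sum_congr rfl hl, Finset.sum_congr rfl hr, Finset.sum_comm, Finset.sum_comm (t := Q)]
  apply Finset.sum_congr rfl
  intro p hp
  rw [← Finset.mul_sum, ← Finset.mul_sum]
  congr 1
  exact step hR o ho (fun j => q ^ Dv R k c j * φ p j (k j - c j - 1) (Dv R k c j))
    (fun j => φ p j (k j - c j) (Dv R k c j - 1)) _ _ ω
    (by
      intro S hS j hj hjS
      have hn : ¬ ∃ i ∈ S, R i j := by rintro ⟨i, hi, hij⟩; exact hS i hi j hjS hij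
      simp only [if_pos hjS, if_neg hn, sub_zero])
    (by
      intro S hS j hj hex
      have hn : j ∉ S := by obtain ⟨i, hi, hij⟩ := hex; exact fun h => hS i hi j h hij
      simp only [if_pos hex, if_neg hn, sub_zero, one_mul])
    (by
      intro S hS j hj hjS hex
      simp only [if_neg hjS, if_neg hex, sub_zero, one_mul]
      exact hφ p hp j hj _ _)
    (by
      intro S hS j hj hjS
      have hn : ¬ ∃ i ∈ S, R j i := by rintro ⟨i, hi, hij⟩; exact hS j hjS i hi hij
      simp only [if_pos hjS, if_neg hn, sub_zero])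
    (by
      intro S hS j hj hex
      have hn : j ∉ S := by obtain ⟨i, hi, hij⟩ := hex; exact fun h => hS j h i hi hij
      simp only [if_pos hex, if_neg hn, sub_zero, one_mul])
    (by
      intro S hS j hj hjS hex
      simp only [if_neg hjS, if_neg hex, sub_zero, one_mul]
      exact hφ p hp j hj _ _)


theorem shift (q : F) (x : ℕ → F) (o : ι) (N : ℕ) (B M : ℤ) (hMB : M ≤ B) (H : (ι → ℤ) → F)
    (hH : ∀ c, M < ∑ j, c j → H c = 0) (S : Finset ι) (hS : S ⊆ G' R o) :
    ∑ c ∈ box R o B, H c * W R q x N (c - ind S) =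
      ∑ c ∈ box R o B, H (c + ind S) * W R q x N c := by
  classical
  have hSo : ∀ j ∉ G' R o, ind S j = 0 := by
    intro j hj
    unfold ind
    rw [if_neg (fun h => hj (hS h))]
  have hi01 : ∀ j, 0 ≤ ind S j := by intro j; unfold ind; split_ifs <;> omega
  refine Finset.sum_bij_ne_zero (fun c _ _ => c - ind S) ?_ ?_ ?_ ?_
  · intro c hc hne
    rw [mem_box] at hc ⊢
    have hW : W R q x N (c - ind S) ≠ 0 := right_ne_zero_of_mul hne
    have hpos : ∀ j, 0 ≤ (c - ind S) j := by
      intro j
      by_contra hj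
      exact hW (W_neg q x N _ ⟨j, not_le.1 hj⟩)
    refine ⟨fun j hj => ⟨hpos j, ?_⟩, fun j hj => ?_⟩
    · have := (hc.1 j hj).2
      have := hi01 j
      simp only [Pi.sub_apply]
      omega
    · simp only [Pi.sub_apply]
      rw [hc.2 j hj, hSo j hj, sub_zero]
  · intro c₁ _ _ c₂ _ _ h
    exact sub_left_injective h
  · intro b hb hne
    rw [mem_box] at hb
    have hHb : H (b + ind S) ≠ 0 := left_ne_zero_of_mul hne
    have hsum : ∑ j, (b + ind S) j ≤ M := by
      by_contra hj
      exact hHb (hH _ (not_le.1 hj))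
    have hpos : ∀ j, 0 ≤ (b + ind S) j := by
      intro j
      by_cases hj : j ∈ G' R o
      · have := (hb.1 j hj).1
        have := hi01 j
        simp only [Pi.add_apply]
        omega
      · simp only [Pi.add_apply]
        rw [hb.2 j hj, hSo j hj]
        simp
    refine ⟨b + ind S, ?_, ?_, ?_⟩
    · rw [mem_box]
      refine ⟨fun j hj => ⟨hpos j, ?_⟩, fun j hj => ?_⟩
      · have : (b + ind S) j ≤ ∑ j, (b + ind S) j :=
          Finset.single_le_sum (fun i _ => hpos i) (Finset.mem_univ j)
        omega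
      · simp only [Pi.add_apply]
        rw [hb.2 j hj, hSo j hj]
        simp
    · rw [add_sub_cancel_right]
      exact hne
    · exact add_sub_cancel_right b (ind S)
  · intro c _ _
    rw [sub_add_cancel]

/-- **The deflation formula** (general chart). -/
theorem defl (hR : UI R) (o : ι) (ho : ∀ j, o ≤ j) (q : F) (hq : q ≠ 0) (x : ℕ → F)
    (Q : Finset P) (φ : P → ι → ℤ → ℤ → F)
    (hφ : ∀ p ∈ Q, ∀ j ∈ J o, ∀ A D : ℤ, φ p j A D = q ^ D * φ p j (A - 1) D + φ p j A (D - 1))
    (hbase : ∀ k : ι → ℤ, ∑ j, k j = 0 →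
      Phi o Q φ k (fun j => nb R k j) = if k = 0 then 1 else 0)
    (N : ℕ) (k : ι → ℤ) (B : ℤ) (hB0 : 0 ≤ B) (hB : ∑ j, k j ≤ B) :
    W R q x N k = ∑ c ∈ box R o B, q ^ ex R c (k - c) * Phi o Q φ (k - c) (Dv R k c) *
      ee x N (∑ j, k j - ∑ j, c j) * W R q x N c := by
  classical
  induction N generalizing k with
  | zero =>
    rw [Finset.sum_eq_single 0]
    · have h1 : ex R (0 : ι → ℤ) (k - 0) = 0 := by
        unfold ex nf; simp
      have h2 : Dv R k 0 = fun j => nb R k j := by
        funext j; unfold Dv nf; simp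
      have h3 : W R q x 0 (0 : ι → ℤ) = 1 := by
        show (if (0 : ι → ℤ) = 0 then (1 : F) else 0) = 1
        rw [if_pos rfl]
      have h4 : W R q x 0 k = if k = 0 then 1 else 0 := rfl
      rw [h1, h2, h3, h4, ee_zero, sub_zero, zpow_zero, one_mul, mul_one]
      by_cases hk : ∑ j, k j = 0
      · rw [hbase k hk]
        have : ∑ j, k j - ∑ j, (0 : ι → ℤ) j = 0 := by rw [hk]; simp
        rw [if_pos this, mul_one]
      · have h5 : ¬ (∑ j, k j - ∑ j, (0 : ι → ℤ) j = 0) := by simpa using hk
        rw [if_neg h5, mul_zero, if_neg]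
        rintro rfl
        exact hk (by simp)
    · intro c _ hc
      have : W R q x 0 c = 0 := by
        show (if c = 0 then (1 : F) else 0) = 0
        rw [if_neg hc]
      rw [this, mul_zero]
    · intro h
      exfalso
      apply h
      rw [mem_box]
      exact ⟨fun j _ => ⟨le_rfl, hB0⟩, fun j _ => rfl⟩
  | succ N ih =>
    have hW : ∀ k : ι → ℤ, W R q x (N + 1) k =
        ∑ S ∈ (Finset.univ : Finset ι).powerset.filter (fun S => St R S),
          x N ^ S.card * q ^ (∑ b ∈ S, nb R k b) * W R q x N (k - ind S) := fun _ => rfl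
    have hsum : ∀ S : Finset ι, ∑ j, (k - ind S) j = ∑ j, k j - S.card := by
      intro S
      simp only [Pi.sub_apply]
      rw [Finset.sum_sub_distrib, sum_ind]
    have hsum' : ∀ (c : ι → ℤ) (S : Finset ι), ∑ j, (c + ind S) j = ∑ j, c j + S.card := by
      intro c S
      simp only [Pi.add_apply]
      rw [Finset.sum_add_distrib, sum_ind]
    -- left side
    have hl : W R q x (N + 1) k = ∑ c ∈ box R o B,
        (∑ S ∈ (G' R o).powerset.filter (fun S => St R S),
          x N ^ S.card * q ^ (∑ b ∈ S, nb R (c + ind S) b) *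
          (q ^ ex R (c + ind S) (k - (c + ind S)) *
            Phi o Q φ (k - (c + ind S)) (Dv R k (c + ind S)) *
              ee x (N + 1) (∑ j, k j - ∑ j, c j - S.card))) * W R q x N c := by
      have e1 : ∀ S ∈ (Finset.univ : Finset ι).powerset.filter (fun S => St R S),
          x N ^ S.card * q ^ (∑ b ∈ S, nb R k b) * W R q x N (k - ind S) =
          ∑ c ∈ box R o B, (x N ^ S.card * q ^ (∑ b ∈ S, nb R k b) *
            (q ^ ex R c (k - ind S - c) * Phi o Q φ (k - ind S - c) (Dv R (k - ind S) c) *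
              ee x N (∑ j, k j - ∑ j, c j - S.card))) * W R q x N c := by
        intro S _
        rw [ih (k - ind S) (by rw [hsum S]; omega), Finset.mul_sum]
        apply Finset.sum_congr rfl
        intro c _
        rw [hsum S]
        have : ∑ j, k j - (S.card : ℤ) - ∑ j, c j = ∑ j, k j - ∑ j, c j - S.card := by ring
        rw [this]
        ring
      rw [hW, Finset.sum_congr rfl e1, Finset.sum_comm]
      apply Finset.sum_congr rfl
      intro c hc
      rw [← Finset.sum_mul]
      congr 1
      exact key hR o ho q hq x Q φ hφ N _ k c (mem_box.1 hc).2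
    -- right side
    have hr : ∑ c ∈ box R o B, q ^ ex R c (k - c) * Phi o Q φ (k - c) (Dv R k c) *
        ee x (N + 1) (∑ j, k j - ∑ j, c j) * W R q x (N + 1) c =
        ∑ S ∈ (G' R o).powerset.filter (fun S => St R S), ∑ c ∈ box R o B,
          (q ^ ex R c (k - c) * Phi o Q φ (k - c) (Dv R k c) *
            ee x (N + 1) (∑ j, k j - ∑ j, c j) * (x N ^ S.card * q ^ (∑ b ∈ S, nb R c b))) *
              W R q x N (c - ind S) := by
      have e1 : ∀ c ∈ box R o B, q ^ ex R c (k - c) * Phi o Q φ (k - c) (Dv R k c) *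
          ee x (N + 1) (∑ j, k j - ∑ j, c j) * W R q x (N + 1) c =
          ∑ S ∈ (G' R o).powerset.filter (fun S => St R S),
            (q ^ ex R c (k - c) * Phi o Q φ (k - c) (Dv R k c) *
            ee x (N + 1) (∑ j, k j - ∑ j, c j) * (x N ^ S.card * q ^ (∑ b ∈ S, nb R c b))) *
              W R q x N (c - ind S) := by
        intro c hc
        rw [hW c, Finset.mul_sum]
        symm
        have hsub : (G' R o).powerset.filter (fun S => St R S) ⊆
            (Finset.univ : Finset ι).powerset.filter (fun S => St R S) :=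
          Finset.filter_subset_filter _ (Finset.powerset_mono.2 (Finset.subset_univ _))
        rw [← Finset.sum_subset hsub]
        · apply Finset.sum_congr rfl
          intro S _
          ring
        · intro S hS hS'
          have hnot : ¬ S ⊆ G' R o := by
            intro h
            exact hS' (Finset.mem_filter.2 ⟨Finset.mem_powerset.2 h, (Finset.mem_filter.1 hS).2⟩)
          rw [Finset.not_subset] at hnot
          obtain ⟨j, hj, hjG⟩ := hnot
          rw [W_neg q x N (c - ind S) ⟨j, ?_⟩]
          · ring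
          · simp only [Pi.sub_apply]
            rw [(mem_box.1 hc).2 j hjG]
            unfold ind
            rw [if_pos hj]
            norm_num
      rw [Finset.sum_congr rfl e1, Finset.sum_comm]
    rw [hl, hr]
    simp_rw [Finset.sum_mul]
    rw [Finset.sum_comm]
    apply Finset.sum_congr rfl
    intro S hS
    rw [shift q x o N B (∑ j, k j) hB (fun c => q ^ ex R c (k - c) * Phi o Q φ (k - c) (Dv R k c) *
            ee x (N + 1) (∑ j, k j - ∑ j, c j) * (x N ^ S.card * q ^ (∑ b ∈ S, nb R c b)))
          (by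
            intro c hc
            have : ee x (N + 1) (∑ j, k j - ∑ j, c j) = 0 := by
              unfold ee
              rw [if_neg (by omega)]
            simp only [this, mul_zero, zero_mul]) S
          (Finset.mem_powerset.1 (Finset.mem_filter.1 hS).1)]
    apply Finset.sum_congr rfl
    intro c _
    rw [hsum' c S]
    have : ∑ j, k j - (∑ j, c j + (S.card : ℤ)) = ∑ j, k j - ∑ j, c j - S.card := by ring
    rw [this]
    ring

end Crest.Agent.R059.Defl
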