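/-
Row 59 (S0081): the degree-zero identity of the deflation formula (helper864, form asked by helper259).
-/
import Crest.Agent.R059.ThickAlg

set_option autoImplicit false

namespace Crest.Agent.R059.DeflBase

open Crest.Agent.R059.ThickAlg Finset

variable {F : Type*} [Field F]

/-- `[A+D-1; A-1]`. -/
noncomputable def fA (q : F) (A D : ℤ) : F := gb q (A + D - 1) (A - 1)

/-- `q^A [A+D-1; A]`. -/
noncomputable def gA (q : F) (A D : ℤ) : F := q ^ A * gb q (A + D - 1) A

lemma gb_succ {q : F} (g : Gen q) (x : ℤ) (n : ℕ) :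
    gb q x ((n : ℤ) + 1) * qz q ((n : ℤ) + 1) = gb q x n * qz q (x - n) := by
  have hn := g.qn n
  have hf := qf_ne g n
  unfold gb
  rw [if_neg (by omega), if_neg (by omega)]
  have e1 : ((n : ℤ) + 1).toNat = n + 1 := by omega
  have e2 : ((n : ℤ)).toNat = n := by omega
  rw [e1, e2, prod_range_succ, qf_succ]
  field_simp

lemma qz_mul {q : F} (g : Gen q) (x : ℤ) : qz q x * (q - 1) = q ^ x - 1 := by
  have h1 : q - 1 ≠ 0 := sub_ne_zero.mpr g.q1
  unfold qz; field_simp

lemma key {q : F} (g : Gen q) (A D : ℤ) :
    (q ^ A - 1) * gA q A D = q ^ A * ((q ^ D - 1) * fA q A D) := by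
  unfold gA fA
  rcases lt_trichotomy A 0 with h | h | h
  · have e1 : gb q (A + D - 1) A = 0 := by unfold gb; rw [if_pos h]
    have e2 : gb q (A + D - 1) (A - 1) = 0 := by unfold gb; rw [if_pos (by omega)]
    rw [e1, e2]; ring
  · subst h
    have e2 : gb q ((0 : ℤ) + D - 1) (0 - 1) = 0 := by unfold gb; rw [if_pos (by omega)]
    rw [e2]; simp
  · obtain ⟨n, rfl⟩ : ∃ n : ℕ, A = (n : ℤ) + 1 := ⟨(A - 1).toNat, by omega⟩
    have h1 := gb_succ g ((n : ℤ) + 1 + D - 1) n
    have e : (n : ℤ) + 1 + D - 1 - n = D := by ring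
    rw [e] at h1
    have e' : (n : ℤ) + 1 - 1 = n := by ring
    rw [e', ← qz_mul g, ← qz_mul g]
    linear_combination (q - 1) * q ^ ((n : ℤ) + 1) * h1

section

variable {ι : Type*} [LinearOrder ι] {R : ι → ι → Prop} [DecidableRel R]

/-- path sum over the initial segment `V`. -/
def T (R : ι → ι → Prop) [DecidableRel R] (o : ι) (f g : ι → F) (V : Finset ι) : F :=
  ∑ P ∈ V.powerset.filter (fun p => ∀ j ∈ p, ∃ i ∈ insert o p, R i j),
    ∏ j ∈ V, (if j ∈ P then f j else g j)

lemma good_insert (hlt : ∀ i j, R i j → i < j) {o a : ι} {P : Finset ι}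
    (hP : ∀ j ∈ P, j < a) (hoa : o < a) :
    (∀ j ∈ insert a P, ∃ i ∈ insert o (insert a P), R i j) ↔
      (∀ j ∈ P, ∃ i ∈ insert o P, R i j) ∧ ∃ i ∈ insert o P, R i a := by
  constructor
  · intro h
    constructor
    · intro j hj
      obtain ⟨i, hi, hij⟩ := h j (mem_insert_of_mem hj)
      refine ⟨i, ?_, hij⟩
      simp only [mem_insert] at hi ⊢
      rcases hi with h1 | h1 | h1
      · exact Or.inl h1
      · subst h1
        exact absurd (hlt _ _ hij) (not_lt.mpr (hP j hj).le)
      · exact Or.inr h1
    · obtain ⟨i, hi, hij⟩ := h a (mem_insert_self a P)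
      refine ⟨i, ?_, hij⟩
      simp only [mem_insert] at hi ⊢
      rcases hi with h1 | h1 | h1
      · exact Or.inl h1
      · subst h1
        exact absurd (hlt _ _ hij) (lt_irrefl _)
      · exact Or.inr h1
  · rintro ⟨h1, h2⟩ j hj
    rcases mem_insert.1 hj with rfl | hj
    · obtain ⟨i, hi, hij⟩ := h2
      refine ⟨i, ?_, hij⟩
      simp only [mem_insert] at hi ⊢
      tauto
    · obtain ⟨i, hi, hij⟩ := h1 j hj
      refine ⟨i, ?_, hij⟩
      simp only [mem_insert] at hi ⊢
      tauto

lemma T_insert (hlt : ∀ i j, R i j → i < j) {o a : ι} (f g : ι → F) {V : Finset ι}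
    (hV : ∀ j ∈ V, j < a) (hoV : o ∉ V) (hoa : o < a) :
    T R o f g (insert a V) = g a * T R o f g V +
      f a * (T R o f g V - if R o a then 0 else
        T R o f g (V.filter (fun i => ¬ R i a)) * ∏ j ∈ V.filter (fun i => R i a), g j) := by
  have haV : a ∉ V := fun h => lt_irrefl _ (hV a h)
  unfold T
  rw [sum_filter, sum_powerset_insert haV]
  congr 1
  · rw [mul_sum, ← sum_filter]
    refine sum_congr rfl fun P hP => ?_
    have hPV : P ⊆ V := mem_powerset.1 (mem_filter.1 hP).1
    rw [prod_insert haV, if_neg (fun h => haV (hPV h))]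
  · have h1 : ∀ P ∈ V.powerset, (if (∀ j ∈ insert a P, ∃ i ∈ insert o (insert a P), R i j) then
        ∏ j ∈ insert a V, (if j ∈ insert a P then f j else g j) else 0) =
        f a * ((if (∀ j ∈ P, ∃ i ∈ insert o P, R i j) then
          ∏ j ∈ V, (if j ∈ P then f j else g j) else 0) -
          (if (∀ j ∈ P, ∃ i ∈ insert o P, R i j) ∧ ¬ (∃ i ∈ insert o P, R i a) then
          ∏ j ∈ V, (if j ∈ P then f j else g j) else 0)) := by
      intro P hP
      have hPV : P ⊆ V := mem_powerset.1 hP
      have hpr : ∏ j ∈ insert a V, (if j ∈ insert a P then f j else g j) =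
          f a * ∏ j ∈ V, (if j ∈ P then f j else g j) := by
        rw [prod_insert haV, if_pos (mem_insert_self a P)]
        congr 1
        refine prod_congr rfl fun j hj => ?_
        have : j ≠ a := fun h => haV (h ▸ hj)
        simp only [mem_insert, this, false_or]
      rw [hpr]
      have hiff := good_insert (R := R) hlt (o := o) (a := a) (P := P)
        (fun j hj => hV j (hPV hj)) hoa
      by_cases c1 : (∀ j ∈ P, ∃ i ∈ insert o P, R i j)
      · by_cases c2 : ∃ i ∈ insert o P, R i a
        · rw [if_pos (hiff.2 ⟨c1, c2⟩), if_pos c1, if_neg (fun h => h.2 c2), sub_zero]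
        · rw [if_neg (fun h => c2 (hiff.1 h).2), if_pos c1, if_pos ⟨c1, c2⟩, sub_self, mul_zero]
      · rw [if_neg (fun h => c1 (hiff.1 h).1), if_neg c1, if_neg (fun h => c1 h.1), sub_self,
          mul_zero]
    rw [sum_congr rfl h1, ← mul_sum, sum_sub_distrib, ← sum_filter]
    congr 2
    rw [← sum_filter]
    split_ifs with hoa'
    · apply sum_eq_zero
      intro P hP
      exact absurd ⟨o, mem_insert_self o P, hoa'⟩ (mem_filter.1 hP).2.2
    · rw [sum_mul]
      have hset : V.powerset.filter (fun P => (∀ j ∈ P, ∃ i ∈ insert o P, R i j) ∧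
          ¬ (∃ i ∈ insert o P, R i a)) =
          (V.filter (fun i => ¬ R i a)).powerset.filter
            (fun P => ∀ j ∈ P, ∃ i ∈ insert o P, R i j) := by
        ext P
        simp only [mem_filter, mem_powerset]
        constructor
        · rintro ⟨h1, h2, h3⟩
          refine ⟨fun j hj => mem_filter.2 ⟨h1 hj, fun hR => h3 ⟨j, mem_insert_of_mem hj, hR⟩⟩, h2⟩
        · rintro ⟨h1, h2⟩
          refine ⟨fun j hj => (mem_filter.1 (h1 hj)).1, h2, ?_⟩
          rintro ⟨i, hi, hR⟩
          rcases mem_insert.1 hi with rfl | hi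
          · exact hoa' hR
          · exact (mem_filter.1 (h1 hi)).2 hR
      rw [hset]
      refine sum_congr rfl fun P hP => ?_
      have hPV : P ⊆ V.filter (fun i => ¬ R i a) := mem_powerset.1 (mem_filter.1 hP).1
      rw [← prod_filter_mul_prod_filter_not V (fun i => ¬ R i a)
        (fun j => if j ∈ P then f j else g j)]
      congr 1
      have e : V.filter (fun i => ¬ ¬ R i a) = V.filter (fun i => R i a) := by
        ext x; simp
      rw [e]
      refine prod_congr rfl fun j hj => ?_
      rw [if_neg]
      intro h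
      exact (mem_filter.1 (hPV h)).2 (mem_filter.1 hj).2

/-- THE BASE IDENTITY on initial segments. -/
theorem T_identity (hlt : ∀ i j, R i j → i < j)
    (hmid : ∀ i j l, R i l → i < j → j < l → R i j ∧ R j l) {q : F} (hq : q ≠ 0)
    {o : ι} (f g : ι → F) (k D : ι → ℤ)
    (hkey : ∀ j, o < j → (q ^ k j - 1) * g j = q ^ k j * ((q ^ D j - 1) * f j)) :
    ∀ (c : ℕ) (V : Finset ι), V.card = c → (∀ j ∈ V, o < j) →
      (∀ j ∈ V, ∀ i, o < i → i < j → i ∈ V) →
      (∀ j ∈ V, D j = ∑ i ∈ (insert o V).filter (fun i => R i j), k i) →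
      q ^ (∑ j ∈ V, k j) * (q ^ k o - 1) * T R o f g V =
        (q ^ (k o + ∑ j ∈ V, k j) - 1) * ∏ j ∈ V, g j := by
  intro c
  induction c using Nat.strong_induction_on with
  | _ c ih =>
    intro V hc ho hdown hD
    rcases V.eq_empty_or_nonempty with rfl | hne
    · simp [T, filter_singleton]
    · set a := V.max' hne with ha
      have haV : a ∈ V := V.max'_mem hne
      set U := V.erase a with hU
      have hVU : V = insert a U := (insert_erase haV).symm
      have hUa : ∀ j ∈ U, j < a := by
        intro j hj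
        exact lt_of_le_of_ne (V.le_max' j (mem_of_mem_erase hj)) (ne_of_mem_erase hj)
      have haU : a ∉ U := notMem_erase a V
      have hoa : o < a := ho a haV
      have hoU : o ∉ U := fun h => lt_irrefl _ (ho o (mem_of_mem_erase h))
      have hcU : U.card < c := by
        rw [← hc]; exact card_erase_lt_of_mem haV
      have hDU : ∀ j ∈ U, D j = ∑ i ∈ (insert o U).filter (fun i => R i j), k i := by
        intro j hj
        rw [hD j (mem_of_mem_erase hj)]
        refine sum_congr ?_ fun _ _ => rfl
        ext i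
        simp only [mem_filter, mem_insert, hVU]
        constructor
        · rintro ⟨h1, h2⟩
          refine ⟨?_, h2⟩
          rcases h1 with h1 | h1 | h1
          · exact Or.inl h1
          · subst h1; exact absurd (hlt _ _ h2) (not_lt.mpr (hUa j hj).le)
          · exact Or.inr h1
        · rintro ⟨h1, h2⟩
          exact ⟨by tauto, h2⟩
      have hdU : ∀ j ∈ U, ∀ i, o < i → i < j → i ∈ U := by
        intro j hj i hi hij
        have h1 := hdown j (mem_of_mem_erase hj) i hi hij
        exact mem_erase.2 ⟨(hij.trans (hUa j hj)).ne, h1⟩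
      have ihU := ih U.card hcU U rfl (fun j hj => ho j (mem_of_mem_erase hj)) hdU hDU
      have hDa := hD a haV
      have hDa' : D a = ∑ i ∈ (insert o U).filter (fun i => R i a), k i := by
        rw [hDa]
        refine sum_congr ?_ fun _ _ => rfl
        ext i
        simp only [mem_filter, mem_insert, hVU]
        constructor
        · rintro ⟨h1, h2⟩
          refine ⟨?_, h2⟩
          rcases h1 with h1 | h1 | h1
          · exact Or.inl h1
          · subst h1; exact absurd (hlt _ _ h2) (lt_irrefl _)
          · exact Or.inr h1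
        · rintro ⟨h1, h2⟩
          exact ⟨by tauto, h2⟩
      have hka := hkey a hoa
      rw [hVU, T_insert hlt f g hUa hoU hoa, sum_insert haU, prod_insert haU]
      by_cases hR : R o a
      · rw [if_pos hR]
        have hall : (insert o U).filter (fun i => R i a) = insert o U := by
          apply filter_true_of_mem
          intro i hi
          rcases mem_insert.1 hi with rfl | hi
          · exact hR
          · exact (hmid o i a hR (ho i (mem_of_mem_erase hi)) (hUa i hi)).2
        rw [hall, sum_insert hoU] at hDa'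
        rw [zpow_add₀ hq (k a)]
        have e : q ^ (k o + (k a + ∑ j ∈ U, k j)) = q ^ k a * q ^ D a := by
          rw [hDa', ← zpow_add₀ hq]; congr 1; ring
        rw [e]
        rw [← hDa'] at ihU
        linear_combination (q ^ k a * (g a + f a)) * ihU - (∏ j ∈ U, g j) * hka
      · rw [if_neg hR]
        set B := U.filter (fun i => R i a) with hB
        set U' := U.filter (fun i => ¬ R i a) with hU'
        have hfil : (insert o U).filter (fun i => R i a) = B := by
          rw [filter_insert, if_neg hR]
        rw [hfil] at hDa'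
        have hU'U : U' ⊆ U := filter_subset _ _
        have hc' : U'.card < c := lt_of_le_of_lt (card_le_card hU'U) hcU
        have hdU' : ∀ j ∈ U', ∀ i, o < i → i < j → i ∈ U' := by
          intro j hj i hi hij
          have hjU := (mem_filter.1 hj).1
          refine mem_filter.2 ⟨hdU j hjU i hi hij, fun hRi => ?_⟩
          exact (mem_filter.1 hj).2 (hmid i j a hRi hij (hUa j hjU)).2
        have hDU' : ∀ j ∈ U', D j = ∑ i ∈ (insert o U').filter (fun i => R i j), k i := by
          intro j hj
          have hjU := (mem_filter.1 hj).1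
          rw [hDU j hjU]
          refine sum_congr ?_ fun _ _ => rfl
          ext i
          simp only [mem_filter, mem_insert]
          constructor
          · rintro ⟨h1, h2⟩
            refine ⟨?_, h2⟩
            rcases h1 with h1 | h1
            · exact Or.inl h1
            · by_cases hio : i = o
              · exact Or.inl hio
              · exact Or.inr (hdU' j hj i (ho i (mem_of_mem_erase h1)) (hlt _ _ h2))
          · rintro ⟨h1, h2⟩
            refine ⟨?_, h2⟩
            rcases h1 with h1 | h1
            · exact Or.inl h1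
            · exact Or.inr (hU'U h1)
        have ihU' := ih U'.card hc' U' rfl
          (fun j hj => ho j (mem_of_mem_erase (hU'U hj))) hdU' hDU'
        have hsum : ∑ j ∈ U, k j = ∑ j ∈ U', k j + D a := by
          rw [hDa', hU', hB, add_comm, sum_filter_add_sum_filter_not]
        have hprod : ∏ j ∈ U, g j = (∏ j ∈ U', g j) * ∏ j ∈ B, g j := by
          rw [hU', hB, mul_comm, prod_filter_mul_prod_filter_not]
        rw [hsum] at ihU ⊢
        rw [hprod] at ihU ⊢
        rw [zpow_add₀ hq (k a), zpow_add₀ hq _ (D a)]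
        rw [zpow_add₀ hq _ (D a)] at ihU
        have e1 : q ^ (k o + (∑ j ∈ U', k j + D a)) = q ^ (k o + ∑ j ∈ U', k j) * q ^ D a := by
          rw [← zpow_add₀ hq]; congr 1; ring
        have e2 : q ^ (k o + (k a + (∑ j ∈ U', k j + D a))) =
            q ^ k a * (q ^ (k o + ∑ j ∈ U', k j) * q ^ D a) := by
          rw [← zpow_add₀ hq, ← zpow_add₀ hq]; congr 1; ring
        rw [e1] at ihU
        rw [e2]
        linear_combination (q ^ k a * (g a + f a)) * ihU -
          (q ^ k a * q ^ D a * f a * ∏ j ∈ B, g j) * ihU' -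
          ((∏ j ∈ U', g j) * ∏ j ∈ B, g j) * hka

lemma zpow_ne_one {q : F} (gq : Gen q) {A : ℤ} (hA : A < 0) : q ^ A - 1 ≠ 0 := by
  obtain ⟨n, rfl⟩ : ∃ n : ℕ, A = -((n : ℤ) + 1) := ⟨(-A - 1).toNat, by omega⟩
  intro h
  have h1 : q ^ ((n : ℤ) + 1) = 1 := by
    have h2 : (q ^ ((n : ℤ) + 1))⁻¹ = 1 := by rw [← zpow_neg]; exact sub_eq_zero.1 h
    exact inv_eq_one.1 h2
  apply gq.qn n
  unfold qz
  rw [h1, sub_self, zero_div]

/-- THE DEGREE-ZERO IDENTITY. -/
theorem hbase [Fintype ι] (hlt : ∀ i j, R i j → i < j)
    (hmid : ∀ i j l, R i l → i < j → j < l → R i j ∧ R j l) {q : F} (gq : Gen q)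
    (o : ι) (ho : ∀ i, o ≤ i) (k : ι → ℤ) (hk : ∑ j, k j = 0) :
    (∑ p ∈ (univ.erase o).powerset.filter (fun p => ∀ j ∈ p, ∃ i ∈ insert o p, R i j),
      ∏ j ∈ univ.erase o, (if j ∈ p then fA q (k j) (∑ i, if R i j then k i else 0)
        else gA q (k j) (∑ i, if R i j then k i else 0))) = if k = 0 then 1 else 0 := by
  set D : ι → ℤ := fun j => ∑ i, if R i j then k i else 0 with hD
  have hT : (∑ p ∈ (univ.erase o).powerset.filter (fun p => ∀ j ∈ p, ∃ i ∈ insert o p, R i j),
      ∏ j ∈ univ.erase o, (if j ∈ p then fA q (k j) (D j) else gA q (k j) (D j))) =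
      T R o (fun j => fA q (k j) (D j)) (fun j => gA q (k j) (D j)) (univ.erase o) := by
    unfold T
    congr!
  have hsum : ∑ j ∈ univ.erase o, k j = - k o := by
    have := sum_erase_add univ k (mem_univ o)
    rw [hk] at this; omega
  show (∑ p ∈ (univ.erase o).powerset.filter (fun p => ∀ j ∈ p, ∃ i ∈ insert o p, R i j),
      ∏ j ∈ univ.erase o, (if j ∈ p then fA q (k j) (D j) else gA q (k j) (D j))) = _
  by_cases hk0 : k = 0
  · rw [if_pos hk0]
    have h0 : ∀ j, k j = 0 := fun j => by rw [hk0]; rfl
    have hD0 : ∀ j, D j = 0 := fun j => by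
      simp only [hD]; apply sum_eq_zero; intro i _; rw [h0 i]; simp
    have hf : fA q 0 0 = (0 : F) := by unfold fA gb; rw [if_pos (by omega)]
    have hg : gA q 0 0 = (1 : F) := by unfold gA gb; simp [qf_zero]
    simp only [h0, hD0, hf, hg]
    rw [sum_eq_single ∅]
    · simp
    · intro p hp hpe
      obtain ⟨j, hj⟩ := nonempty_iff_ne_empty.2 hpe
      have hjm : j ∈ univ.erase o := (mem_powerset.1 (mem_filter.1 hp).1) hj
      apply prod_eq_zero hjm
      rw [if_pos hj]
    · intro h
      exact absurd (mem_filter.2 ⟨mem_powerset.2 (empty_subset _), by simp⟩) h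
  · rw [if_neg hk0]
    by_cases hneg : ∃ j, j ≠ o ∧ k j < 0
    · obtain ⟨j, hjo, hj⟩ := hneg
      apply sum_eq_zero
      intro p _
      apply prod_eq_zero (mem_erase.2 ⟨hjo, mem_univ j⟩)
      have e1 : fA q (k j) (D j) = 0 := by unfold fA gb; rw [if_pos (by omega)]
      have e2 : gA q (k j) (D j) = 0 := by unfold gA gb; rw [if_pos hj, mul_zero]
      rw [e1, e2, ite_self]
    · push Not at hneg
      have hko : k o < 0 := by
        have h1 : 0 ≤ ∑ j ∈ univ.erase o, k j :=
          sum_nonneg fun j hj => hneg j (ne_of_mem_erase hj)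
        rcases eq_or_lt_of_le h1 with h2 | h2
        · exfalso
          apply hk0
          have h3 : ∀ j ∈ univ.erase o, k j = 0 :=
            (sum_eq_zero_iff_of_nonneg fun j hj => hneg j (ne_of_mem_erase hj)).1 h2.symm
          funext j
          by_cases hjo : j = o
          · subst hjo
            show k j = 0
            omega
          · exact h3 j (mem_erase.2 ⟨hjo, mem_univ j⟩)
        · omega
      have hid := T_identity (R := R) hlt hmid gq.q0 (o := o) (fun j => fA q (k j) (D j))
        (fun j => gA q (k j) (D j)) k D (fun j _ => key gq (k j) (D j)) _ (univ.erase o) rfl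
        (fun j hj => lt_of_le_of_ne (ho j) (ne_of_mem_erase hj).symm)
        (fun j _ i hi _ => mem_erase.2 ⟨hi.ne', mem_univ i⟩)
        (fun j _ => by
          simp only [hD]
          rw [insert_erase (mem_univ o), sum_filter])
      rw [hT]
      rw [hsum] at hid
      have e0 : k o + -k o = 0 := by ring
      rw [e0, zpow_zero, sub_self, zero_mul] at hid
      have h1 := zpow_ne_one gq hko
      have h2 : q ^ (- k o) ≠ 0 := zpow_ne_zero _ gq.q0
      rcases mul_eq_zero.1 hid with h3 | h3
      · exact absurd h3 (mul_ne_zero h2 h1)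
      · exact h3

end

end Crest.Agent.R059.DeflBase
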