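import Crest.Agent.R059.Defl
import Crest.Agent.R059.ThickAlg

set_option autoImplicit false

/-!
# The q-deflation formula: charts

For a chart `C` (an increasing path starting at the root) the factors are of kind 1 on `C` and of
kind 0 outside `C`; the degree 0 identity is proved, hence the deflation formula for every chart.
-/

namespace Crest.Agent.R059.Defl

open Finset ThickAlg

variable {ι : Type*} [LinearOrder ι]
variable {R : ι → ι → Prop} [DecidableRel R] {F : Type*} [Field F]

/-- every element of `p` has a smaller neighbour in `p ∪ {r}`. -/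
def Good (R : ι → ι → Prop) (r : ι) (p : Finset ι) : Prop := ∀ j ∈ p, ∃ i ∈ insert r p, R i j

instance (r : ι) (p : Finset ι) : Decidable (Good R r p) := by unfold Good; infer_instance

/-- path sum. -/
noncomputable def T (R : ι → ι → Prop) [DecidableRel R] (f g : ι → F) (r : ι) (V : Finset ι) : F :=
  ∑ p ∈ V.powerset, if Good R r p then (∏ j ∈ p, f j) * ∏ j ∈ V \ p, g j else 0

theorem T_empty (f g : ι → F) (r : ι) : T R f g r ∅ = 1 := by
  unfold T
  rw [Finset.powerset_empty, Finset.sum_singleton, if_pos]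
  · simp
  · intro j hj; simp at hj

theorem T_max (hR : UI R) (f g : ι → F) (r : ι) (V : Finset ι) (a : ι) (ha : ∀ i ∈ V, i < a)
    (hra : r < a) :
    T R f g r (insert a V) = g a * T R f g r V + f a * (T R f g r V -
      if R r a then 0 else T R f g r (V.filter (fun i => ¬ R i a)) *
        ∏ i ∈ V.filter (fun i => R i a), g i) := by
  have haV : a ∉ V := fun h => lt_irrefl _ (ha a h)
  have hgood : ∀ p ∈ V.powerset, (Good R r (insert a p) ↔ (Good R r p ∧ ∃ i ∈ insert r p, R i a)) := by
    intro p hp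
    rw [Finset.mem_powerset] at hp
    have hap : a ∉ p := fun h => haV (hp h)
    constructor
    · intro h
      constructor
      · intro j hj
        obtain ⟨i, hi, hij⟩ := h j (Finset.mem_insert_of_mem hj)
        refine ⟨i, ?_, hij⟩
        rcases Finset.mem_insert.1 hi with rfl | hi
        · exact Finset.mem_insert_self _ _
        · rcases Finset.mem_insert.1 hi with rfl | hi
          · exact absurd (ha j (hp hj)) (not_lt.2 (hR.lt hij).le)
          · exact Finset.mem_insert_of_mem hi
      · obtain ⟨i, hi, hij⟩ := h a (Finset.mem_insert_self _ _)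
        refine ⟨i, ?_, hij⟩
        rcases Finset.mem_insert.1 hi with rfl | hi
        · exact Finset.mem_insert_self _ _
        · rcases Finset.mem_insert.1 hi with rfl | hi
          · exact absurd (hR.lt hij) (lt_irrefl _)
          · exact Finset.mem_insert_of_mem hi
    · rintro ⟨h1, i, hi, hia⟩ j hj
      rcases Finset.mem_insert.1 hj with rfl | hj
      · refine ⟨i, ?_, hia⟩
        rcases Finset.mem_insert.1 hi with rfl | hi
        · exact Finset.mem_insert_self _ _
        · exact Finset.mem_insert_of_mem (Finset.mem_insert_of_mem hi)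
      · obtain ⟨i, hi, hij⟩ := h1 j hj
        refine ⟨i, ?_, hij⟩
        rcases Finset.mem_insert.1 hi with rfl | hi
        · exact Finset.mem_insert_self _ _
        · exact Finset.mem_insert_of_mem (Finset.mem_insert_of_mem hi)
  have h1 : T R f g r (insert a V) =
      (∑ p ∈ V.powerset, if Good R r p then (∏ j ∈ p, f j) * ∏ j ∈ (insert a V) \ p, g j else 0) +
      ∑ p ∈ V.powerset, if Good R r (insert a p) then
        (∏ j ∈ insert a p, f j) * ∏ j ∈ (insert a V) \ (insert a p), g j else 0 := by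
    unfold T
    rw [Finset.sum_powerset_insert haV]
  have h2 : (∑ p ∈ V.powerset, if Good R r p then
      (∏ j ∈ p, f j) * ∏ j ∈ (insert a V) \ p, g j else 0) = g a * T R f g r V := by
    unfold T
    rw [Finset.mul_sum]
    apply Finset.sum_congr rfl
    intro p hp
    rw [Finset.mem_powerset] at hp
    have hap : a ∉ p := fun h => haV (hp h)
    split_ifs
    · rw [Finset.insert_sdiff_of_notMem _ hap, Finset.prod_insert]
      · ring
      · intro h; exact haV (Finset.mem_sdiff.1 h).1
    · rw [mul_zero]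
  have h3 : (∑ p ∈ V.powerset, if Good R r (insert a p) then
        (∏ j ∈ insert a p, f j) * ∏ j ∈ (insert a V) \ (insert a p), g j else 0) =
      f a * (T R f g r V - ∑ p ∈ V.powerset, if Good R r p ∧ ¬ (∃ i ∈ insert r p, R i a) then
        (∏ j ∈ p, f j) * ∏ j ∈ V \ p, g j else 0) := by
    unfold T
    rw [← Finset.sum_sub_distrib, Finset.mul_sum]
    apply Finset.sum_congr rfl
    intro p hp
    have hg := hgood p hp
    rw [Finset.mem_powerset] at hp
    have hap : a ∉ p := fun h => haV (hp h)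
    have e : (insert a V) \ (insert a p) = V \ p := by
      ext j
      simp only [Finset.mem_sdiff, Finset.mem_insert]
      constructor
      · rintro ⟨rfl | h, h2⟩
        · exact absurd (Or.inl rfl) h2
        · exact ⟨h, fun h' => h2 (Or.inr h')⟩
      · rintro ⟨h, h2⟩
        refine ⟨Or.inr h, ?_⟩
        rintro (rfl | h')
        · exact haV h
        · exact h2 h'
    rw [e, Finset.prod_insert hap]
    by_cases c1 : Good R r p
    · by_cases c2 : ∃ i ∈ insert r p, R i a
      · rw [if_pos (hg.2 ⟨c1, c2⟩), if_pos c1, if_neg (fun h => h.2 c2)]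
        ring
      · rw [if_neg (fun h => c2 (hg.1 h).2), if_pos c1, if_pos ⟨c1, c2⟩]
        ring
    · rw [if_neg (fun h => c1 (hg.1 h).1), if_neg c1, if_neg (fun h => c1 h.1)]
      ring
  rw [h1, h2, h3]
  congr 3
  split_ifs with c
  · apply Finset.sum_eq_zero
    intro p _
    rw [if_neg]
    rintro ⟨_, h⟩
    exact h ⟨r, Finset.mem_insert_self _ _, c⟩
  · unfold T
    rw [Finset.sum_mul]
    symm
    rw [← Finset.sum_subset (Finset.powerset_mono.2 (Finset.filter_subset (fun i => ¬ R i a) V))]
    · apply Finset.sum_congr rfl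
      intro p hp
      rw [Finset.mem_powerset] at hp
      have c2 : ¬ ∃ i ∈ insert r p, R i a := by
        rintro ⟨i, hi, hia⟩
        rcases Finset.mem_insert.1 hi with rfl | hi
        · exact c hia
        · exact (Finset.mem_filter.1 (hp hi)).2 hia
      by_cases c1 : Good R r p
      · rw [if_pos c1, if_pos ⟨c1, c2⟩, mul_assoc]
        congr 1
        rw [← Finset.prod_union]
        · apply Finset.prod_congr _ (fun _ _ => rfl)
          ext j
          simp only [Finset.mem_union, Finset.mem_sdiff, Finset.mem_filter]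
          constructor
          · rintro (⟨⟨h, _⟩, h2⟩ | ⟨h, h2⟩)
            · exact ⟨h, h2⟩
            · exact ⟨h, fun h' => (Finset.mem_filter.1 (hp h')).2 h2⟩
          · rintro ⟨h, h2⟩
            by_cases h3 : R j a
            · exact Or.inr ⟨h, h3⟩
            · exact Or.inl ⟨⟨h, h3⟩, h2⟩
        · rw [Finset.disjoint_left]
          intro j h h'
          exact (Finset.mem_filter.1 (Finset.mem_sdiff.1 h).1).2 (Finset.mem_filter.1 h').2
      · rw [if_neg c1, if_neg (fun h => c1 h.1), zero_mul]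
    · intro p hp hp'
      rw [if_neg]
      rintro ⟨_, h⟩
      apply hp'
      rw [Finset.mem_powerset] at hp ⊢
      intro i hi
      exact Finset.mem_filter.2 ⟨hp hi, fun h' => h ⟨i, Finset.mem_insert_of_mem hi, h'⟩⟩

theorem T_min (hR : UI R) (f g : ι → F) (r : ι) (V : Finset ι) (b : ι) (hb : ∀ i ∈ V, b < i)
    (hrb : r < b) :
    T R f g r (insert b V) = g b * T R f g r V + if R r b then f b * T R f g b V else 0 := by
  have hbV : b ∉ V := fun h => lt_irrefl _ (hb b h)
  have hgood : ∀ p ∈ V.powerset, (Good R r (insert b p) ↔ (R r b ∧ Good R b p)) := by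
    intro p hp
    rw [Finset.mem_powerset] at hp
    constructor
    · intro h
      constructor
      · obtain ⟨i, hi, hij⟩ := h b (Finset.mem_insert_self _ _)
        rcases Finset.mem_insert.1 hi with rfl | hi
        · exact hij
        · rcases Finset.mem_insert.1 hi with rfl | hi
          · exact absurd (hR.lt hij) (lt_irrefl _)
          · exact absurd (hR.lt hij) (not_lt.2 (hb i (hp hi)).le)
      · intro j hj
        obtain ⟨i, hi, hij⟩ := h j (Finset.mem_insert_of_mem hj)
        rcases Finset.mem_insert.1 hi with rfl | hi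
        · exact ⟨b, Finset.mem_insert_self _ _, (hR.mid hij hrb (hb j (hp hj))).2⟩
        · exact ⟨i, hi, hij⟩
    · rintro ⟨h1, h2⟩ j hj
      rcases Finset.mem_insert.1 hj with rfl | hj
      · exact ⟨r, Finset.mem_insert_self _ _, h1⟩
      · obtain ⟨i, hi, hij⟩ := h2 j hj
        exact ⟨i, Finset.mem_insert_of_mem hi, hij⟩
  unfold T
  rw [Finset.sum_powerset_insert hbV]
  congr 1
  · rw [Finset.mul_sum]
    apply Finset.sum_congr rfl
    intro p hp
    rw [Finset.mem_powerset] at hp
    have hbp : b ∉ p := fun h => hbV (hp h)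
    split_ifs
    · rw [Finset.insert_sdiff_of_notMem _ hbp, Finset.prod_insert]
      · ring
      · intro h; exact hbV (Finset.mem_sdiff.1 h).1
    · rw [mul_zero]
  · by_cases c : R r b
    · rw [if_pos c, Finset.mul_sum]
      apply Finset.sum_congr rfl
      intro p hp
      have hg := hgood p hp
      rw [Finset.mem_powerset] at hp
      have hbp : b ∉ p := fun h => hbV (hp h)
      have e : (insert b V) \ (insert b p) = V \ p := by
        ext j
        simp only [Finset.mem_sdiff, Finset.mem_insert]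
        constructor
        · rintro ⟨rfl | h, h2⟩
          · exact absurd (Or.inl rfl) h2
          · exact ⟨h, fun h' => h2 (Or.inr h')⟩
        · rintro ⟨h, h2⟩
          refine ⟨Or.inr h, ?_⟩
          rintro (rfl | h')
          · exact hbV h
          · exact h2 h'
      by_cases c1 : Good R b p
      · rw [if_pos (hg.2 ⟨c, c1⟩), if_pos c1, e, Finset.prod_insert hbp, mul_assoc]
      · rw [if_neg (fun h => c1 (hg.1 h).2), if_neg c1, mul_zero]
    · rw [if_neg c]
      apply Finset.sum_eq_zero
      intro p hp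
      rw [if_neg (fun h => c ((hgood p hp).1 h).1)]


variable [Fintype ι]

/-- vertices after `r`. -/
def Jr (r : ι) : Finset ι := Finset.univ.filter (fun j => r < j)

/-- closed form for the path sum of an initial segment. -/
theorem closed (hR : UI R) {q : F} (hq : q ≠ 0) (k : ι → ℤ) (r : ι) (hk0 : ∀ i, i < r → k i = 0)
    (hsum : ∑ j, k j = 0) (f g : ι → F)
    (hrel : ∀ j, r < j → q ^ k j * (q ^ nb R k j - 1) * f j = (q ^ k j - 1) * g j)
    (V : Finset ι) (hV : V ⊆ Jr r) (hinit : ∀ i ∈ V, ∀ j, r < j → j < i → j ∈ V) :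
    (q ^ (∑ j ∈ Jr r, k j) - 1) * T R f g r V =
      (q ^ (∑ j ∈ Jr r \ V, k j) - 1) * ∏ j ∈ V, g j := by
  induction hn : V.card using Nat.strong_induction_on generalizing V with
  | _ n IH =>
  rcases V.eq_empty_or_nonempty with rfl | hne
  · rw [T_empty]; simp
  set a := V.max' hne with ha
  have haV : a ∈ V := V.max'_mem hne
  have hra : r < a := (Finset.mem_filter.1 (hV haV)).2
  set V' := V.erase a with hV'
  have hVins : V = insert a V' := (Finset.insert_erase haV).symm
  have hlt : ∀ i ∈ V', i < a := fun i hi =>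
    lt_of_le_of_ne (V.le_max' i (Finset.mem_of_mem_erase hi)) (Finset.ne_of_mem_erase hi)
  have haV' : a ∉ V' := Finset.notMem_erase a V
  have hV'J : V' ⊆ Jr r := (Finset.erase_subset _ _).trans hV
  have hinit' : ∀ i ∈ V', ∀ j, r < j → j < i → j ∈ V' := by
    intro i hi j hj hji
    refine Finset.mem_erase.2 ⟨(hji.trans (hlt i hi)).ne, hinit i (Finset.mem_of_mem_erase hi) j hj hji⟩
  have hmem : ∀ i, r < i → i < a → i ∈ V' := fun i h1 h2 =>
    Finset.mem_erase.2 ⟨h2.ne, hinit a haV i h1 h2⟩
  have hcard' : V'.card < n := by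
    rw [← hn]; exact Finset.card_lt_card (Finset.erase_ssubset haV)
  have ih' := IH _ hcard' V' hV'J hinit' rfl
  -- sums
  have hs1 : ∑ j ∈ Jr r \ V', k j = k a + ∑ j ∈ Jr r \ V, k j := by
    have : Jr r \ V' = insert a (Jr r \ V) := by
      ext j
      simp only [Finset.mem_sdiff, Finset.mem_insert, hV', Finset.mem_erase]
      constructor
      · rintro ⟨h1, h2⟩
        by_cases h : j = a
        · exact Or.inl h
        · exact Or.inr ⟨h1, fun h' => h2 ⟨h, h'⟩⟩
      · rintro (rfl | ⟨h1, h2⟩)
        · exact ⟨hV haV, fun h => h.1 rfl⟩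
        · exact ⟨h1, fun h => h2 h.2⟩
    rw [this, Finset.sum_insert]
    intro h
    exact (Finset.mem_sdiff.1 h).2 haV
  have hnb : nb R k a = (if R r a then k r else 0) + ∑ j ∈ V'.filter (fun i => R i a), k j := by
    unfold nb
    rw [← Finset.sum_filter]
    have e1 : ∑ j ∈ Finset.univ.filter (fun i => R i a), k j =
        ∑ j ∈ (Finset.univ.filter (fun i => R i a)).filter (fun i => r ≤ i), k j := by
      symm
      apply Finset.sum_subset (Finset.filter_subset _ _)
      intro i hi hi'
      apply hk0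
      by_contra h
      exact hi' (Finset.mem_filter.2 ⟨hi, not_lt.1 h⟩)
    rw [e1]
    by_cases c : R r a
    · rw [if_pos c]
      have : (Finset.univ.filter (fun i => R i a)).filter (fun i => r ≤ i) =
          insert r (V'.filter (fun i => R i a)) := by
        ext j
        simp only [Finset.mem_filter, Finset.mem_univ, true_and, Finset.mem_insert]
        constructor
        · rintro ⟨h1, h2⟩
          rcases eq_or_lt_of_le h2 with h | h
          · exact Or.inl h.symm
          · exact Or.inr ⟨hmem j h (hR.lt h1), h1⟩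
        · rintro (rfl | ⟨h1, h2⟩)
          · exact ⟨c, le_rfl⟩
          · exact ⟨h2, (Finset.mem_filter.1 (hV'J h1)).2.le⟩
      rw [this, Finset.sum_insert]
      intro h
      exact lt_irrefl _ (Finset.mem_filter.1 (hV'J (Finset.mem_filter.1 h).1)).2
    · rw [if_neg c, zero_add]
      apply Finset.sum_congr _ (fun _ _ => rfl)
      ext j
      simp only [Finset.mem_filter, Finset.mem_univ, true_and]
      constructor
      · rintro ⟨h1, h2⟩
        rcases eq_or_lt_of_le h2 with h | h
        · subst h; exact absurd h1 c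
        · exact ⟨hmem j h (hR.lt h1), h1⟩
      · rintro ⟨h1, h2⟩
        exact ⟨h2, (Finset.mem_filter.1 (hV'J h1)).2.le⟩
  have hrela := hrel a hra
  rw [hVins, T_max hR f g r V' a hlt hra, Finset.prod_insert haV', ← hVins]
  set τ := ∑ j ∈ Jr r \ V', k j with hτ
  set τ' := ∑ j ∈ Jr r \ V, k j with hτ'
  have hzτ : q ^ τ = q ^ k a * q ^ τ' := by rw [hs1, zpow_add₀ hq]
  have hqa : q ^ k a ≠ 0 := zpow_ne_zero _ hq
  have hqτ' : q ^ τ' ≠ 0 := zpow_ne_zero _ hq
  by_cases c : R r a
  · rw [if_pos c, sub_zero]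
    have hall : V'.filter (fun i => R i a) = V' := by
      apply Finset.filter_true_of_mem
      intro i hi
      exact (hR.mid c (Finset.mem_filter.1 (hV'J hi)).2 (hlt i hi)).2
    rw [if_pos c, hall] at hnb
    have hD : nb R k a = - τ := by
      have h1 : ∑ j, k j = k r + ∑ j ∈ Jr r, k j := by
        have h2 : ∑ j, k j = ∑ j ∈ Finset.univ.filter (fun i => r ≤ i), k j := by
          symm
          apply Finset.sum_subset (Finset.filter_subset _ _)
          intro i _ hi'
          apply hk0
          by_contra h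
          exact hi' (Finset.mem_filter.2 ⟨Finset.mem_univ _, not_lt.1 h⟩)
        have h3 : Finset.univ.filter (fun i => r ≤ i) = insert r (Jr r) := by
          ext j
          simp only [Finset.mem_filter, Finset.mem_univ, true_and, Finset.mem_insert, Jr]
          rw [le_iff_eq_or_lt]
          constructor
          · rintro (h | h)
            · exact Or.inl h.symm
            · exact Or.inr h
          · rintro (h | h)
            · exact Or.inl h.symm
            · exact Or.inr h
        rw [h2, h3, Finset.sum_insert]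
        intro h
        exact lt_irrefl _ (Finset.mem_filter.1 h).2
      have h4 := Finset.sum_sdiff hV'J (f := k)
      rw [hnb]
      rw [hsum] at h1
      linarith
    rw [hD] at hrela
    have hz : q ^ (-τ) = (q ^ k a * q ^ τ')⁻¹ := by rw [zpow_neg, hzτ]
    rw [hz] at hrela
    have e1 : f a * (q ^ τ - 1) = - q ^ τ' * ((q ^ k a - 1) * g a) := by
      rw [← hrela, hzτ]
      field_simp
      ring
    calc (q ^ (∑ j ∈ Jr r, k j) - 1) * (g a * T R f g r V' + f a * T R f g r V')
        = (g a + f a) * ((q ^ (∑ j ∈ Jr r, k j) - 1) * T R f g r V') := by ring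
      _ = (g a + f a) * ((q ^ τ - 1) * ∏ j ∈ V', g j) := by rw [ih']
      _ = (g a * (q ^ τ - 1) + f a * (q ^ τ - 1)) * ∏ j ∈ V', g j := by ring
      _ = (g a * (q ^ τ - 1) + - q ^ τ' * ((q ^ k a - 1) * g a)) * ∏ j ∈ V', g j := by rw [e1]
      _ = (q ^ τ' - 1) * (g a * ∏ j ∈ V', g j) := by rw [hzτ]; ring
  · rw [if_neg c]
    rw [if_neg c, zero_add] at hnb
    set V1 := V'.filter (fun i => ¬ R i a) with hV1
    set V2 := V'.filter (fun i => R i a) with hV2
    have hV1J : V1 ⊆ Jr r := (Finset.filter_subset _ _).trans hV'J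
    have hinit1 : ∀ i ∈ V1, ∀ j, r < j → j < i → j ∈ V1 := by
      intro i hi j hj hji
      rw [hV1, Finset.mem_filter] at hi
      refine Finset.mem_filter.2 ⟨hinit' i hi.1 j hj hji, fun h => hi.2 ?_⟩
      exact (hR.mid h hji (hlt i hi.1)).2
    have hcard1 : V1.card < n := lt_of_le_of_lt (Finset.card_le_card (Finset.filter_subset _ _)) hcard'
    have ih1 := IH _ hcard1 V1 hV1J hinit1 rfl
    have hs2 : ∑ j ∈ Jr r \ V1, k j = τ + nb R k a := by
      rw [hnb, hτ]
      have : Jr r \ V1 = (Jr r \ V') ∪ V2 := by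
        ext j
        simp only [Finset.mem_sdiff, Finset.mem_union, hV1, hV2, Finset.mem_filter]
        constructor
        · rintro ⟨h1, h2⟩
          by_cases h : j ∈ V'
          · right
            refine ⟨h, ?_⟩
            by_contra h3
            exact h2 ⟨h, h3⟩
          · exact Or.inl ⟨h1, h⟩
        · rintro (⟨h1, h2⟩ | ⟨h1, h2⟩)
          · exact ⟨h1, fun h => h2 h.1⟩
          · exact ⟨hV'J h1, fun h => h.2 h2⟩
      rw [this, Finset.sum_union]
      rw [Finset.disjoint_left]
      intro j h1 h2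
      exact (Finset.mem_sdiff.1 h1).2 (Finset.mem_filter.1 h2).1
    have hpr : (∏ j ∈ V1, g j) * ∏ j ∈ V2, g j = ∏ j ∈ V', g j := by
      rw [mul_comm]
      exact Finset.prod_filter_mul_prod_filter_not V' (fun i => R i a) g
    rw [hs2, zpow_add₀ hq] at ih1
    calc (q ^ (∑ j ∈ Jr r, k j) - 1) * (g a * T R f g r V' +
          f a * (T R f g r V' - T R f g r V1 * ∏ j ∈ V2, g j))
        = (g a + f a) * ((q ^ (∑ j ∈ Jr r, k j) - 1) * T R f g r V') -
          f a * (((q ^ (∑ j ∈ Jr r, k j) - 1) * T R f g r V1) * ∏ j ∈ V2, g j) := by ring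
      _ = (g a + f a) * ((q ^ τ - 1) * ∏ j ∈ V', g j) -
          f a * ((q ^ τ * q ^ nb R k a - 1) * ((∏ j ∈ V1, g j) * ∏ j ∈ V2, g j)) := by
            rw [ih', ih1]; ring
      _ = (g a * (q ^ τ - 1) - q ^ τ' * (q ^ k a * (q ^ nb R k a - 1) * f a)) * ∏ j ∈ V', g j := by
            rw [hpr, hzτ]; ring
      _ = (q ^ τ' - 1) * (g a * ∏ j ∈ V', g j) := by rw [hrela, hzτ]; ring

/-- vanishing of the complete path sum. -/
theorem T_full_zero (hR : UI R) {q : F} (hq : q ≠ 0) (hgen : ∀ m : ℤ, m ≠ 0 → q ^ m ≠ 1)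
    (k : ι → ℤ) (r : ι) (hk0 : ∀ i, i < r → k i = 0) (hkr : k r ≠ 0)
    (hsum : ∑ j, k j = 0) (f g : ι → F)
    (hrel : ∀ j, r < j → q ^ k j * (q ^ nb R k j - 1) * f j = (q ^ k j - 1) * g j) :
    T R f g r (Jr r) = 0 := by
  have h := closed hR hq k r hk0 hsum f g hrel (Jr r) (Finset.Subset.refl _)
    (fun i _ j hj _ => Finset.mem_filter.2 ⟨Finset.mem_univ _, hj⟩)
  rw [Finset.sdiff_self, Finset.sum_empty, zpow_zero, sub_self, zero_mul] at h
  rcases mul_eq_zero.1 h with h | h
  · exfalso
    have h1 : ∑ j ∈ Jr r, k j = - k r := by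
      have h2 : ∑ j, k j = ∑ j ∈ Finset.univ.filter (fun i => r ≤ i), k j := by
        symm
        apply Finset.sum_subset (Finset.filter_subset _ _)
        intro i _ hi'
        apply hk0
        by_contra h
        exact hi' (Finset.mem_filter.2 ⟨Finset.mem_univ _, not_lt.1 h⟩)
      have h3 : Finset.univ.filter (fun i => r ≤ i) = insert r (Jr r) := by
        ext j
        simp only [Finset.mem_filter, Finset.mem_univ, true_and, Finset.mem_insert, Jr]
        rw [le_iff_eq_or_lt]
        constructor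
        · rintro (h | h)
          · exact Or.inl h.symm
          · exact Or.inr h
        · rintro (h | h)
          · exact Or.inl h.symm
          · exact Or.inr h
      rw [h3, Finset.sum_insert (by intro h; exact lt_irrefl _ (Finset.mem_filter.1 h).2)] at h2
      linarith
    rw [h1] at h
    exact hgen (- k r) (neg_ne_zero.2 hkr) (sub_eq_zero.1 h)
  · exact h

/-- degree 0 identity for every chart `C`. -/
theorem base_chart (hR : UI R) {q : F} (hq : q ≠ 0) (hgen : ∀ m : ℤ, m ≠ 0 → q ^ m ≠ 1)
    (C : Finset ι) (k : ι → ℤ) (hsum : ∑ j, k j = 0) (f g : ι → F)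
    (hrel : ∀ j, q ^ k j * (q ^ nb R k j - 1) * f j = (q ^ k j - 1) * g j)
    (hf1 : ∀ j ∈ C, nb R k j = 0 → f j = 1 ∧ g j = 0)
    (hf0 : ∀ j ∉ C, nb R k j = 0 →
      (k j < 0 → f j = 0 ∧ g j = 0) ∧ (k j = 0 → f j = 0 ∧ g j = 1) ∧ (0 < k j → f j = 1 ∧ g j = 0))
    (V : Finset ι) (r : ι) (hrV : ∀ j ∈ V, r < j) (hfin : ∀ j, j ∉ V → ∀ i ∈ V, j < i)
    (hk : ∀ j, j ∉ V → k j = 0) (hC : Good R r (C ∩ V)) :
    T R f g r V = if k = 0 then 1 else 0 := by
  induction hn : V.card using Nat.strong_induction_on generalizing V r with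
  | _ n IH =>
  rcases V.eq_empty_or_nonempty with rfl | hne
  · rw [T_empty, if_pos]
    funext j
    exact hk j (Finset.notMem_empty _)
  set b := V.min' hne with hb
  have hbV : b ∈ V := V.min'_mem hne
  set V' := V.erase b with hV'
  have hVins : V = insert b V' := (Finset.insert_erase hbV).symm
  have hlt : ∀ i ∈ V', b < i := fun i hi =>
    lt_of_le_of_ne (V.min'_le i (Finset.mem_of_mem_erase hi)) (Finset.ne_of_mem_erase hi).symm
  have hrb : r < b := hrV b hbV
  have hcard : V'.card < n := by
    rw [← hn]; exact Finset.card_lt_card (Finset.erase_ssubset hbV)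
  have hkb : ∀ i, i < b → k i = 0 := by
    intro i hi
    apply hk
    intro h
    exact not_lt.2 (V.min'_le i h) hi
  have hD : nb R k b = 0 := by
    unfold nb
    apply Finset.sum_eq_zero
    intro i _
    split_ifs with h
    · exact hkb i (hR.lt h)
    · rfl
  have hfull : V' = Jr b := by
    ext j
    simp only [Jr, Finset.mem_filter, Finset.mem_univ, true_and]
    constructor
    · exact hlt j
    · intro h
      refine Finset.mem_erase.2 ⟨h.ne', ?_⟩
      by_contra h'
      exact absurd (hfin j h' b hbV) (not_lt.2 h.le)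
  have hfin' : ∀ j, j ∉ V' → ∀ i ∈ V', j < i := by
    intro j hj i hi
    by_cases h : j = b
    · rw [h]; exact hlt i hi
    · exact hfin j (fun h' => hj (Finset.mem_erase.2 ⟨h, h'⟩)) i (Finset.mem_of_mem_erase hi)
  have hzero : k b ≠ 0 → T R f g b V' = 0 := by
    intro h
    rw [hfull]
    exact T_full_zero hR hq hgen k b hkb h hsum f g (fun j _ => hrel j)
  have hk' : k b = 0 → ∀ j, j ∉ V' → k j = 0 := by
    intro h0 j hj
    by_cases h : j = b
    · rw [h]; exact h0
    · exact hk j (fun h' => hj (Finset.mem_erase.2 ⟨h, h'⟩))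
  have hkne : k b ≠ 0 → k ≠ 0 := by
    intro h h'
    apply h
    rw [h']; rfl
  rw [hVins, T_min hR f g r V' b hlt hrb]
  by_cases hbC : b ∈ C
  · obtain ⟨h1, h2⟩ := hf1 b hbC hD
    have hrb' : R r b := by
      obtain ⟨i, hi, hib⟩ := hC b (Finset.mem_inter.2 ⟨hbC, hbV⟩)
      rcases Finset.mem_insert.1 hi with rfl | hi
      · exact hib
      · exact absurd (hR.lt hib) (not_lt.2 (V.min'_le i (Finset.mem_inter.1 hi).2))
    rw [h1, h2, if_pos hrb', zero_mul, zero_add, one_mul]
    by_cases hb0 : k b = 0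
    · apply IH _ hcard V' b hlt hfin' (hk' hb0) _ rfl
      intro j hj
      rw [Finset.mem_inter] at hj
      obtain ⟨i, hi, hij⟩ := hC j (Finset.mem_inter.2 ⟨hj.1, Finset.mem_of_mem_erase hj.2⟩)
      rcases Finset.mem_insert.1 hi with rfl | hi
      · exact ⟨b, Finset.mem_insert_self _ _, (hR.mid hij hrb (hlt j hj.2)).2⟩
      · rw [Finset.mem_inter] at hi
        by_cases h : i = b
        · exact ⟨b, Finset.mem_insert_self _ _, h ▸ hij⟩
        · exact ⟨i, Finset.mem_insert_of_mem (Finset.mem_inter.2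
            ⟨hi.1, Finset.mem_erase.2 ⟨h, hi.2⟩⟩), hij⟩
    · rw [hzero hb0, if_neg (hkne hb0)]
  · obtain ⟨h1, h2, h3⟩ := hf0 b hbC hD
    rcases lt_trichotomy (k b) 0 with h | h | h
    · obtain ⟨e1, e2⟩ := h1 h
      rw [e1, e2, if_neg (hkne h.ne)]
      simp
    · obtain ⟨e1, e2⟩ := h2 h
      rw [e1, e2, one_mul, zero_mul, ite_self, add_zero]
      apply IH _ hcard V' r (fun j hj => hrb.trans (hlt j hj)) hfin' (hk' h) _ rfl
      intro j hj
      rw [Finset.mem_inter] at hj
      obtain ⟨i, hi, hij⟩ := hC j (Finset.mem_inter.2 ⟨hj.1, Finset.mem_of_mem_erase hj.2⟩)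
      refine ⟨i, ?_, hij⟩
      rcases Finset.mem_insert.1 hi with rfl | hi
      · exact Finset.mem_insert_self _ _
      · rw [Finset.mem_inter] at hi
        refine Finset.mem_insert_of_mem (Finset.mem_inter.2 ⟨hi.1, Finset.mem_erase.2 ⟨?_, hi.2⟩⟩)
        rintro rfl
        exact hbC hi.1
    · obtain ⟨e1, e2⟩ := h3 h
      rw [e2, zero_mul, zero_add, hzero h.ne', mul_zero, ite_self, if_neg (hkne h.ne')]


/-! ### q-binomial factors -/

omit [LinearOrder ι] [Fintype ι] in
theorem gen_ne {q : F} (g : Gen q) (m : ℤ) (hm : m ≠ 0) : q ^ m ≠ 1 := by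
  have hpos : ∀ n : ℕ, 0 < n → q ^ (n : ℤ) ≠ 1 := by
    intro n hn h
    obtain ⟨l, rfl⟩ : ∃ l, n = l + 1 := ⟨n - 1, by omega⟩
    apply g.qn l
    unfold qz
    have : ((l + 1 : ℕ) : ℤ) = (l : ℤ) + 1 := by push_cast; ring
    rw [← this, h, sub_self, zero_div]
  rcases lt_or_gt_of_ne hm with h | h
  · intro h'
    obtain ⟨n, hn⟩ : ∃ n : ℕ, m = -(n : ℤ) := ⟨m.natAbs, by omega⟩
    rw [hn, zpow_neg, inv_eq_one] at h'
    exact hpos n (by omega) h'
  · obtain ⟨n, hn⟩ : ∃ n : ℕ, m = (n : ℤ) := ⟨m.natAbs, by omega⟩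
    rw [hn]
    exact hpos n (by omega)

theorem gb_forms (q : F) (n : ℤ) (m : ℕ) :
    gb q n ((m : ℤ) + 1) = qz q n * (∏ i ∈ range m, qz q (n - 1 - i)) / qf q (m + 1) ∧
    gb q (n - 1) ((m : ℤ) + 1) = (∏ i ∈ range m, qz q (n - 1 - i)) * qz q (n - 1 - m) / qf q (m + 1) ∧
    gb q (n - 1) (m : ℤ) = (∏ i ∈ range m, qz q (n - 1 - i)) / qf q m := by
  refine ⟨?_, ?_, ?_⟩
  · have := gb_nat q n (m + 1)
    push_cast at this
    rw [this, Finset.prod_range_succ']
    have e : ∀ i ∈ range m, qz q (n - ((i + 1 : ℕ) : ℤ)) = qz q (n - 1 - i) := by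
      intro i _; congr 1; push_cast; ring
    rw [Finset.prod_congr rfl e]
    simp only [Nat.cast_zero, sub_zero]
    rw [mul_comm (∏ i ∈ range m, qz q (n - 1 - i))]
  · have := gb_nat q (n - 1) (m + 1)
    push_cast at this
    rw [this, Finset.prod_range_succ]
  · exact gb_nat q (n - 1) m

/-- first q-Pascal rule. -/
theorem pascal0 {q : F} (g : Gen q) (n a : ℤ) :
    gb q n a = q ^ (n - a) * gb q (n - 1) (a - 1) + gb q (n - 1) a := by
  rcases lt_trichotomy a 0 with h | h | h
  · rw [gb_neg q _ h, gb_neg q _ h, gb_neg q _ (by omega)]; ring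
  · subst h
    rw [gb_zero, gb_zero, gb_neg q _ (by norm_num)]; ring
  · obtain ⟨m, rfl⟩ : ∃ m : ℕ, a = m + 1 := ⟨(a - 1).toNat, by omega⟩
    obtain ⟨e1, e2, e3⟩ := gb_forms q n m
    rw [add_sub_cancel_right, e1, e2, e3, qf_succ]
    have hf := qf_ne g m
    have hn := g.qn m
    have hq1 : q - 1 ≠ 0 := sub_ne_zero.mpr g.q1
    have key : qz q n = q ^ (n - ((m : ℤ) + 1)) * qz q ((m : ℤ) + 1) + qz q (n - 1 - m) := by
      have z1 : q ^ n = q ^ (n - ((m : ℤ) + 1)) * q ^ ((m : ℤ) + 1) := by
        rw [← zpow_add₀ g.q0]; congr 1; ring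
      have z2 : q ^ (n - 1 - m) = q ^ (n - ((m : ℤ) + 1)) := by congr 1; ring
      simp only [qz]
      rw [z1, z2]
      field_simp
      ring
    generalize (∏ i ∈ range m, qz q (n - 1 - i)) = P at *
    field_simp
    linear_combination P * key

/-- second q-Pascal rule. -/
theorem pascal1 {q : F} (g : Gen q) (n a : ℤ) :
    gb q n a = gb q (n - 1) (a - 1) + q ^ a * gb q (n - 1) a := by
  rcases lt_trichotomy a 0 with h | h | h
  · rw [gb_neg q _ h, gb_neg q _ h, gb_neg q _ (by omega)]; ring
  · subst h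
    rw [gb_zero, gb_zero, gb_neg q _ (by norm_num)]; simp
  · obtain ⟨m, rfl⟩ : ∃ m : ℕ, a = m + 1 := ⟨(a - 1).toNat, by omega⟩
    obtain ⟨e1, e2, e3⟩ := gb_forms q n m
    rw [add_sub_cancel_right, e1, e2, e3, qf_succ]
    have hf := qf_ne g m
    have hn := g.qn m
    have hq1 : q - 1 ≠ 0 := sub_ne_zero.mpr g.q1
    have key : qz q n = qz q ((m : ℤ) + 1) + q ^ ((m : ℤ) + 1) * qz q (n - 1 - m) := by
      have z1 : q ^ n = q ^ ((m : ℤ) + 1) * q ^ (n - 1 - m) := by
        rw [← zpow_add₀ g.q0]; congr 1; ring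
      simp only [qz]
      rw [z1]
      field_simp
      ring
    generalize (∏ i ∈ range m, qz q (n - 1 - i)) = P at *
    field_simp
    linear_combination P * key

/-- `[a] [n;a] = [n-a+1] [n;a-1]`. -/
theorem gb_ratio {q : F} (g : Gen q) (n a : ℤ) :
    (q ^ a - 1) * gb q n a = (q ^ (n - a + 1) - 1) * gb q n (a - 1) := by
  rcases lt_trichotomy a 0 with h | h | h
  · rw [gb_neg q _ h, gb_neg q _ (by omega)]; ring
  · subst h
    have h0 : gb q n (0 - 1) = 0 := gb_neg q n (by norm_num)
    rw [h0]; simp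
  · obtain ⟨m, rfl⟩ : ∃ m : ℕ, a = m + 1 := ⟨(a - 1).toNat, by omega⟩
    obtain ⟨_, e2, e3⟩ := gb_forms q (n + 1) m
    rw [add_sub_cancel_right] at e2 e3
    rw [add_sub_cancel_right, e2, e3, qf_succ]
    have hf := qf_ne g m
    have hn := g.qn m
    have hq1 : q - 1 ≠ 0 := sub_ne_zero.mpr g.q1
    have h1 : q ^ ((m : ℤ) + 1) - 1 = (q - 1) * qz q ((m : ℤ) + 1) := by
      unfold qz; field_simp
    have h2 : q ^ (n - ((m : ℤ) + 1) + 1) - 1 = (q - 1) * qz q (n - m) := by
      have : n - ((m : ℤ) + 1) + 1 = n - m := by ring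
      rw [this]; unfold qz; field_simp
    rw [h1, h2]
    generalize (∏ i ∈ range m, qz q (n - i)) = P at *
    field_simp

/-- factor of a path vertex. -/
noncomputable def fk (q : F) (C : Finset ι) (j : ι) (A D : ℤ) : F :=
  if j ∈ C then gb q (A + D - 1) D else gb q (A + D - 1) (A - 1)

/-- factor of the other vertices. -/
noncomputable def gk (q : F) (C : Finset ι) (j : ι) (A D : ℤ) : F :=
  if j ∈ C then q ^ A * gb q (A + D - 1) (D - 1) else q ^ A * gb q (A + D - 1) A

theorem fk_pascal {q : F} (g : Gen q) (C : Finset ι) (j : ι) (A D : ℤ) :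
    fk q C j A D = q ^ D * fk q C j (A - 1) D + fk q C j A (D - 1) := by
  unfold fk
  have e1 : A - 1 + D - 1 = A + D - 1 - 1 := by ring
  have e2 : A + (D - 1) - 1 = A + D - 1 - 1 := by ring
  split_ifs
  · rw [e1, e2, pascal1 g (A + D - 1) D]; ring
  · rw [e1, e2, pascal0 g (A + D - 1) (A - 1)]
    have : A + D - 1 - (A - 1) = D := by ring
    rw [this]

theorem gk_pascal {q : F} (g : Gen q) (C : Finset ι) (j : ι) (A D : ℤ) :
    gk q C j A D = q ^ D * gk q C j (A - 1) D + gk q C j A (D - 1) := by
  unfold gk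
  have e1 : A - 1 + D - 1 = A + D - 1 - 1 := by ring
  have e2 : A + (D - 1) - 1 = A + D - 1 - 1 := by ring
  split_ifs
  · rw [e1, e2, pascal1 g (A + D - 1) (D - 1)]
    have z : q ^ A * q ^ (D - 1) = q ^ D * q ^ (A - 1) := by
      rw [← zpow_add₀ g.q0, ← zpow_add₀ g.q0]; congr 1; ring
    linear_combination gb q (A + D - 1 - 1) (D - 1) * z
  · rw [e1, e2, pascal0 g (A + D - 1) A]
    have z : q ^ A * q ^ (A + D - 1 - A) = q ^ D * q ^ (A - 1) := by
      rw [← zpow_add₀ g.q0, ← zpow_add₀ g.q0]; congr 1; ring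
    linear_combination gb q (A + D - 1 - 1) (A - 1) * z

theorem fg_rel {q : F} (g : Gen q) (C : Finset ι) (j : ι) (A D : ℤ) :
    q ^ A * (q ^ D - 1) * fk q C j A D = (q ^ A - 1) * gk q C j A D := by
  unfold fk gk
  split_ifs
  · have h := gb_ratio g (A + D - 1) D
    have : A + D - 1 - D + 1 = A := by ring
    rw [this] at h
    linear_combination q ^ A * h
  · have h := gb_ratio g (A + D - 1) A
    have : A + D - 1 - A + 1 = D := by ring
    rw [this] at h
    linear_combination (- q ^ A) * h

/-- the path kernel of the chart `C`. -/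
noncomputable def Ker (R : ι → ι → Prop) [DecidableRel R] (q : F) (C : Finset ι) (o : ι)
    (A D : ι → ℤ) : F :=
  T R (fun j => fk q C j (A j) (D j)) (fun j => gk q C j (A j) (D j)) o (J o)

theorem Phi_eq_Ker (q : F) (C : Finset ι) (o : ι) (A D : ι → ℤ) :
    Phi o ((J o).powerset.filter (fun p => Good R o p))
      (fun p j A D => if j ∈ p then fk q C j A D else gk q C j A D) A D = Ker R q C o A D := by
  unfold Phi Ker T
  rw [Finset.sum_filter]
  apply Finset.sum_congr rfl
  intro p hp
  rw [Finset.mem_powerset] at hp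
  split_ifs with h
  · rw [← Finset.prod_sdiff hp, mul_comm]
    congr 1
    · apply Finset.prod_congr rfl
      intro j hj
      exact if_pos hj
    · apply Finset.prod_congr rfl
      intro j hj
      exact if_neg (Finset.mem_sdiff.1 hj).2
  · rfl

theorem Ker_base (hR : UI R) {q : F} (g : Gen q) (o : ι) (ho : ∀ j, o ≤ j) (C : Finset ι)
    (hCo : o ∉ C) (hC : Good R o C) (k : ι → ℤ) (hsum : ∑ j, k j = 0) :
    Ker R q C o k (fun j => nb R k j) = if k = 0 then 1 else 0 := by
  have hq1 : q - 1 ≠ 0 := sub_ne_zero.mpr g.q1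
  have hJ : J o = Jr o := by
    ext j
    simp only [J, Jr, Finset.mem_erase, Finset.mem_univ, and_true, Finset.mem_filter, true_and]
    constructor
    · intro h; exact lt_of_le_of_ne (ho j) (Ne.symm h)
    · intro h; exact h.ne'
  have hself : ∀ m : ℕ, gb q (m : ℤ) (m : ℤ) = 1 := by
    intro m
    induction m with
    | zero => exact gb_zero q _
    | succ m ih =>
      rw [pascal0 g]
      push_cast
      have h1 : gb q ((m : ℤ) + 1 - 1) ((m : ℤ) + 1) = 0 := by
        rw [add_sub_cancel_right]
        have := gb_nat q (m : ℤ) (m + 1)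
        push_cast at this
        rw [this, Finset.prod_eq_zero (i := m) (Finset.self_mem_range_succ m)]
        · rw [zero_div]
        · rw [sub_self, qz_zero]
      rw [h1, add_sub_cancel_right, ih, sub_self]
      simp
  have hover : ∀ m : ℕ, gb q (m : ℤ) ((m : ℤ) + 1) = 0 := by
    intro m
    have := gb_nat q (m : ℤ) (m + 1)
    push_cast at this
    rw [this, Finset.prod_eq_zero (i := m) (Finset.self_mem_range_succ m)]
    · rw [zero_div]
    · rw [sub_self, qz_zero]
  by_cases hko : k o = 0
  · unfold Ker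
    apply base_chart hR g.q0 (gen_ne g) C k hsum
    · intro j
      exact fg_rel g C j _ _
    · intro j hj hD
      simp only [fk, gk, if_pos hj, hD]
      refine ⟨gb_zero q _, ?_⟩
      rw [gb_neg q _ (by norm_num), mul_zero]
    · intro j hj hD
      simp only [fk, gk, if_neg hj, hD]
      refine ⟨fun h => ⟨gb_neg q _ (by omega), ?_⟩, fun h => ⟨gb_neg q _ (by omega), ?_⟩,
        fun h => ?_⟩
      · rw [gb_neg q _ h, mul_zero]
      · rw [h, gb_zero, zpow_zero, mul_one]
      · obtain ⟨m, hm⟩ : ∃ m : ℕ, k j = m + 1 := ⟨(k j - 1).toNat, by omega⟩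
        rw [hm]
        have e1 : (m : ℤ) + 1 + 0 - 1 = m := by ring
        have e2 : (m : ℤ) + 1 - 1 = m := by ring
        rw [e1, e2, hself, hover, mul_zero]
        exact ⟨rfl, rfl⟩
    · intro j hj
      rw [hJ] at hj
      exact (Finset.mem_filter.1 hj).2
    · intro j hj i hi
      have : j = o := by
        by_contra h
        exact hj (Finset.mem_erase.2 ⟨h, Finset.mem_univ _⟩)
      rw [this]
      rw [hJ] at hi
      exact (Finset.mem_filter.1 hi).2
    · intro j hj
      have : j = o := by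
        by_contra h
        exact hj (Finset.mem_erase.2 ⟨h, Finset.mem_univ _⟩)
      rw [this]; exact hko
    · have : C ∩ J o = C := by
        apply Finset.inter_eq_left.2
        intro j hj
        exact Finset.mem_erase.2 ⟨fun h => hCo (h ▸ hj), Finset.mem_univ _⟩
      rw [this]; exact hC
  · have hne : k ≠ 0 := by rintro rfl; exact hko rfl
    rw [if_neg hne]
    unfold Ker
    rw [hJ]
    exact T_full_zero hR g.q0 (gen_ne g) k o (fun i hi => absurd (ho i) (not_le.2 hi)) hko hsum _ _
      (fun j _ => fg_rel g C j _ _)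

/-- **The q-deflation formula for every chart `C`** (an increasing path starting at the root). -/
theorem defl_chart (hR : UI R) {q : F} (g : Gen q) (o : ι) (ho : ∀ j, o ≤ j) (x : ℕ → F)
    (C : Finset ι) (hCo : o ∉ C) (hC : Good R o C)
    (N : ℕ) (k : ι → ℤ) (B : ℤ) (hB0 : 0 ≤ B) (hB : ∑ j, k j ≤ B) :
    W R q x N k = ∑ c ∈ box R o B, q ^ ex R c (k - c) * Ker R q C o (k - c) (Dv R k c) *
      ee x N (∑ j, k j - ∑ j, c j) * W R q x N c := by
  rw [defl hR o ho q g.q0 x ((J o).powerset.filter (fun p => Good R o p))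
    (fun p j A D => if j ∈ p then fk q C j A D else gk q C j A D) ?_ ?_ N k B hB0 hB]
  · apply Finset.sum_congr rfl
    intro c _
    rw [Phi_eq_Ker]
  · intro p _ j _ A D
    by_cases h : j ∈ p
    · simp only [if_pos h]
      exact fk_pascal g C j A D
    · simp only [if_neg h]
      exact gk_pascal g C j A D
  · intro k hk
    rw [Phi_eq_Ker]
    exact Ker_base hR g o ho C hCo hC k hk

end Crest.Agent.R059.Defl
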