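import Crest.Agent.R059.Modular

set_option autoImplicit false

open Crest.CombinatoricsR.UnitInterval

namespace Crest.Agent.R059

/-- families of polynomials, one for every number of variables. -/
abbrev Fam : Type := ∀ N : ℕ, MvPolynomial (Fin N) (Polynomial ℤ)

/-- coefficients in `ℕ[q]`. -/
noncomputable abbrev cast (c : Polynomial ℕ) : Polynomial ℤ := c.map (Nat.castRingHom ℤ)

/-- `e`-positive families of degree `n`, coefficients in `ℕ[q]`. -/
def EP (n : ℕ) (F : Fam) : Prop :=
  ∃ c : Nat.Partition n → Polynomial ℕ, ∀ N : ℕ, F N =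
    ∑ μ : Nat.Partition n, MvPolynomial.C (cast (c μ)) *
      MvPolynomial.esymmPart (Fin N) (Polynomial ℤ) μ

theorem EPos_iff {n : ℕ} (h : Fin n → ℕ) : EPos h ↔ EP n (fun N => chromaticQSym h N) := Iff.rfl

theorem EP.zero (n : ℕ) : EP n (fun _ => 0) := ⟨fun _ => 0, fun N => by simp⟩

theorem EP.add {n : ℕ} {F G : Fam} (hF : EP n F) (hG : EP n G) :
    EP n (fun N => F N + G N) := by
  obtain ⟨c, hc⟩ := hF
  obtain ⟨d, hd⟩ := hG
  refine ⟨fun μ => c μ + d μ, fun N => ?_⟩
  simp only [hc N, hd N, cast, Polynomial.map_add, map_add, add_mul, Finset.sum_add_distrib]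

theorem EP.smul {n : ℕ} {F : Fam} (a : Polynomial ℕ) (hF : EP n F) :
    EP n (fun N => MvPolynomial.C (cast a) * F N) := by
  obtain ⟨c, hc⟩ := hF
  refine ⟨fun μ => a * c μ, fun N => ?_⟩
  simp only [hc N, cast, Polynomial.map_mul, map_mul, Finset.mul_sum, mul_assoc]

theorem EP.smul' {n : ℕ} {F : Fam} (a : Polynomial ℤ) (ha : ∃ b : Polynomial ℕ, cast b = a)
    (hF : EP n F) : EP n (fun N => MvPolynomial.C a * F N) := by
  obtain ⟨b, rfl⟩ := ha
  exact hF.smul b

theorem EP.sum {n : ℕ} {ι : Type*} (s : Finset ι) (F : ι → Fam) (hF : ∀ i ∈ s, EP n (F i)) :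
    EP n (fun N => ∑ i ∈ s, F i N) := by
  classical
  induction s using Finset.induction_on with
  | empty => simpa using EP.zero n
  | insert a s ha ih =>
    simp only [Finset.sum_insert ha]
    exact (hF a (Finset.mem_insert_self a s)).add
      (ih (fun i hi => hF i (Finset.mem_insert_of_mem hi)))

theorem EP.esymmPart {n : ℕ} (μ : Nat.Partition n) :
    EP n (fun N => MvPolynomial.esymmPart (Fin N) (Polynomial ℤ) μ) := by
  classical
  refine ⟨fun ν => if ν = μ then 1 else 0, fun N => ?_⟩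
  rw [Finset.sum_eq_single μ]
  · simp [cast]
  · intro ν _ hν
    simp [cast, hν]
  · intro h; exact absurd (Finset.mem_univ _) h

theorem EP.congr {n m : ℕ} {F G : Fam} (hF : EP n F) (hnm : n = m) (h : ∀ N, G N = F N) :
    EP m G := by
  subst hnm
  obtain ⟨c, hc⟩ := hF
  exact ⟨c, fun N => by rw [h N, hc N]⟩

/-- union of partitions. -/
def unionP {n m : ℕ} (μ : Nat.Partition n) (ν : Nat.Partition m) : Nat.Partition (n + m) where
  parts := μ.parts + ν.parts
  parts_pos := by
    intro i hi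
    rcases Multiset.mem_add.1 hi with h | h
    · exact μ.parts_pos h
    · exact ν.parts_pos h
  parts_sum := by rw [Multiset.sum_add, μ.parts_sum, ν.parts_sum]

theorem esymmPart_unionP {n m N : ℕ} (μ : Nat.Partition n) (ν : Nat.Partition m) :
    MvPolynomial.esymmPart (Fin N) (Polynomial ℤ) (unionP μ ν) =
      MvPolynomial.esymmPart (Fin N) (Polynomial ℤ) μ *
        MvPolynomial.esymmPart (Fin N) (Polynomial ℤ) ν := by
  unfold MvPolynomial.esymmPart unionP
  simp [Multiset.map_add, Multiset.prod_add]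

theorem EP.mul {n m : ℕ} {F G : Fam} (hF : EP n F) (hG : EP m G) :
    EP (n + m) (fun N => F N * G N) := by
  obtain ⟨c, hc⟩ := hF
  obtain ⟨d, hd⟩ := hG
  have h1 : EP (n + m) (fun N => ∑ μ : Nat.Partition n, ∑ ν : Nat.Partition m,
      MvPolynomial.C (cast (c μ * d ν)) *
        MvPolynomial.esymmPart (Fin N) (Polynomial ℤ) (unionP μ ν)) := by
    apply EP.sum
    intro μ _
    apply EP.sum
    intro ν _
    exact (EP.esymmPart (unionP μ ν)).smul _
  refine h1.congr rfl (fun N => ?_)
  rw [hc N, hd N, Finset.sum_mul_sum]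
  apply Finset.sum_congr rfl
  intro μ _
  apply Finset.sum_congr rfl
  intro ν _
  rw [esymmPart_unionP]
  simp only [cast, Polynomial.map_mul, map_mul]
  ring

/-- `e_k` for `k ≥ 1` (and `e_0 = 1`). -/
theorem EP.esymm (k : ℕ) : EP k (fun N => MvPolynomial.esymm (Fin N) (Polynomial ℤ) k) :=
  (EP.esymmPart (Nat.Partition.indiscrete k)).congr rfl
    (fun N => (MvPolynomial.esymmPart_indiscrete (Fin N) (Polynomial ℤ) k).symm)

theorem EP.one : EP 0 (fun _ => 1) :=
  (EP.esymm 0).congr rfl (fun N => by simp)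

/-- cancellation of a non-zero polynomial in `q`. -/
theorem cancelC {N : ℕ} {a : Polynomial ℤ} (ha : a ≠ 0)
    {F G : MvPolynomial (Fin N) (Polynomial ℤ)}
    (h : MvPolynomial.C a * F = MvPolynomial.C a * G) : F = G := by
  apply mul_left_cancel₀ _ h
  rw [Ne, MvPolynomial.C_eq_zero]
  exact ha

/-- `[k]_q`. -/
noncomputable def qn (k : ℕ) : Polynomial ℕ := ∑ i ∈ Finset.range k, Polynomial.X ^ i

/-- `[n]_q!`. -/
noncomputable def qfac (n : ℕ) : Polynomial ℕ := ∏ i ∈ Finset.range n, qn (i + 1)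

theorem qn_succ (k : ℕ) : qn (k + 1) = qn k + Polynomial.X ^ k := by
  unfold qn; rw [Finset.sum_range_succ]

theorem qfac_succ (n : ℕ) : qfac (n + 1) = qfac n * qn (n + 1) := by
  unfold qfac; rw [Finset.prod_range_succ]

end Crest.Agent.R059
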