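import Crest.Agent.R059.Theta

set_option autoImplicit false

open Crest.CombinatoricsR.UnitInterval

namespace Crest.Agent.R059

/-- edge weight of a colour pair. -/
noncomputable def w {N : ℕ} (x y : Fin N) : Polynomial ℤ :=
  if x < y then Polynomial.X else if x = y then 0 else 1

@[simp] theorem w_self {N : ℕ} (x : Fin N) : w x x = 0 := by simp [w]

theorem w_lt {N : ℕ} {x y : Fin N} (h : x < y) : w x y = Polynomial.X := by simp [w, h]

theorem w_gt {N : ℕ} {x y : Fin N} (h : y < x) : w x y = 1 := by
  simp [w, not_lt.2 h.le, h.ne']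

/-- chromatic function of an oriented graph (edge set `E` of ordered pairs). -/
noncomputable def chromE {V : Type*} [Fintype V] [DecidableEq V] (E : Finset (V × V)) (N : ℕ) :
    MvPolynomial (Fin N) (Polynomial ℤ) :=
  ∑ f : V → Fin N, MvPolynomial.C (∏ p ∈ E, w (f p.1) (f p.2)) * ∏ a : V, MvPolynomial.X (f a)

/-- edges of the graph of `h`, oriented from small to large. -/
def edges {n : ℕ} (h : Fin n → ℕ) : Finset (Fin n × Fin n) :=
  Finset.univ.filter (fun p => p.1 < p.2 ∧ p.2.val + 1 ≤ h p.1)

theorem isEdge_of_lt {n : ℕ} {h : Fin n → ℕ} {a b : Fin n} (hab : a < b) :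
    IsEdge h a b ↔ b.val + 1 ≤ h a := by
  unfold IsEdge
  constructor
  · rintro (⟨_, h1⟩ | ⟨h1, _⟩)
    · exact h1
    · exact absurd h1 (not_lt.2 hab.le)
  · intro h1; exact Or.inl ⟨hab, h1⟩

theorem prod_w_edges {n N : ℕ} (h : Fin n → ℕ) (f : Fin n → Fin N) :
    ∏ p ∈ edges h, w (f p.1) (f p.2) =
      if (∀ a b : Fin n, IsEdge h a b → f a ≠ f b) then
        (Polynomial.X : Polynomial ℤ) ^ ascents h f else 0 := by
  classical
  split_ifs with hp
  · have h1 : ∀ p ∈ edges h, w (f p.1) (f p.2) =
        if f p.1 < f p.2 then (Polynomial.X : Polynomial ℤ) else 1 := by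
      intro p hpe
      simp only [edges, Finset.mem_filter, Finset.mem_univ, true_and] at hpe
      have hne := hp p.1 p.2 ((isEdge_of_lt hpe.1).2 hpe.2)
      unfold w
      simp [hne]
    rw [Finset.prod_congr rfl h1, ← Finset.prod_filter, Finset.prod_const]
    congr 1
    unfold ascents edges
    rw [Finset.filter_filter]
    congr 1
    ext p
    simp only [Finset.mem_filter, Finset.mem_univ, true_and]
    constructor
    · rintro ⟨⟨h1, h2⟩, h3⟩
      exact ⟨h1, (isEdge_of_lt h1).2 h2, h3⟩
    · rintro ⟨h1, h2, h3⟩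
      exact ⟨⟨h1, (isEdge_of_lt h1).1 h2⟩, h3⟩
  · push Not at hp
    obtain ⟨a, b, hab, heq⟩ := hp
    rcases hab with ⟨h1, h2⟩ | ⟨h1, h2⟩
    · apply Finset.prod_eq_zero (i := (a, b))
      · simp [edges, h1]; exact h2
      · simp [heq]
    · apply Finset.prod_eq_zero (i := (b, a))
      · simp [edges, h1]; exact h2
      · simp [heq]

theorem chromaticQSym_eq {n : ℕ} (h : Fin n → ℕ) (N : ℕ) :
    chromaticQSym h N = chromE (edges h) N := by
  classical
  unfold chromaticQSym chromE
  rw [Finset.sum_filter]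
  apply Finset.sum_congr rfl
  intro f _
  rw [prod_w_edges]
  split_ifs <;> simp

section general

variable {V W : Type*} [Fintype V] [DecidableEq V] [Fintype W] [DecidableEq W]

/-- relabelling of vertices. -/
theorem chromE_map (e : V ≃ W) (E : Finset (V × V)) (N : ℕ) :
    chromE (E.map (Equiv.prodCongr e e).toEmbedding) N = chromE E N := by
  classical
  unfold chromE
  symm
  apply Fintype.sum_equiv (Equiv.arrowCongr e (Equiv.refl (Fin N)))
  intro f
  rw [Finset.prod_map]
  congr 1
  · simp
  · apply Fintype.prod_equiv e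
    intro a
    simp

/-- the local exchange principle. -/
theorem exchange (N : ℕ) (j k : V) (M : (V → Fin N) → MvPolynomial (Fin N) (Polynomial ℤ))
    (L : (V → Fin N) → Polynomial ℤ)
    (hM : ∀ f : V → Fin N, M (f ∘ Equiv.swap j k) = M f)
    (hL : ∀ f : V → Fin N, L f + L (f ∘ Equiv.swap j k) = 0) :
    ∑ f : V → Fin N, MvPolynomial.C (L f) * M f = 0 := by
  classical
  have h1 : ∑ f : V → Fin N, MvPolynomial.C (L f) * M f =
      ∑ f : V → Fin N, MvPolynomial.C (L (f ∘ Equiv.swap j k)) * M f := by
    apply Fintype.sum_equiv ((Equiv.swap j k).arrowCongr (Equiv.refl (Fin N)))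
    intro f
    have h2 : ((Equiv.swap j k).arrowCongr (Equiv.refl (Fin N))) f = f ∘ Equiv.swap j k := by
      funext a; simp [Equiv.arrowCongr]
    rw [h2, hM]
    congr 3
    funext a
    simp
  have h3 : (2 : MvPolynomial (Fin N) (Polynomial ℤ)) *
      ∑ f : V → Fin N, MvPolynomial.C (L f) * M f = 0 := by
    rw [two_mul]
    nth_rw 2 [h1]
    rw [← Finset.sum_add_distrib]
    apply Finset.sum_eq_zero
    intro f _
    rw [← add_mul, ← map_add, hL]
    simp
  rcases mul_eq_zero.1 h3 with h4 | h4
  · exfalso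
    have h5 := congrArg (MvPolynomial.coeff 0) h4
    have h6 : (2 : MvPolynomial (Fin N) (Polynomial ℤ)) = MvPolynomial.C (2 : Polynomial ℤ) :=
      (map_ofNat MvPolynomial.C 2).symm
    rw [h6, MvPolynomial.coeff_zero_C, MvPolynomial.coeff_zero] at h5
    exact two_ne_zero h5
  · exact h4

/-- the three-vertex identity (first type). -/
theorem local1 {N : ℕ} (a b c : Fin N) :
    w b c * ((1 + Polynomial.X) * w a b - Polynomial.X - w a b * w a c) +
      w c b * ((1 + Polynomial.X) * w a c - Polynomial.X - w a c * w a b) = 0 := by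
  rcases lt_trichotomy a b with h1 | h1 | h1 <;> rcases lt_trichotomy a c with h2 | h2 | h2 <;>
    rcases lt_trichotomy b c with h3 | h3 | h3 <;>
    first
      | (exfalso; omega)
      | (subst_vars; simp_all [w_lt, w_gt]; try ring)

/-- the three-vertex identity (second type, `i` above `j,k`). -/
theorem local2 {N : ℕ} (a b c : Fin N) :
    w b c * ((1 + Polynomial.X) * w c a - Polynomial.X - w b a * w c a) +
      w c b * ((1 + Polynomial.X) * w b a - Polynomial.X - w c a * w b a) = 0 := by
  rcases lt_trichotomy a b with h1 | h1 | h1 <;> rcases lt_trichotomy a c with h2 | h2 | h2 <;>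
    rcases lt_trichotomy b c with h3 | h3 | h3 <;>
    first
      | (exfalso; omega)
      | (subst_vars; simp_all [w_lt, w_gt]; try ring)

end general

end Crest.Agent.R059
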