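import Mathlib

set_option autoImplicit false

/-!
Operator model of Hikita's formula.

A state is a function on the lists of the colours of the open vertices (newest vertex first,
oldest vertex last).  `U` adds a new vertex adjacent to all open vertices, `D` closes the
oldest open vertex.
-/

namespace Crest.Agent.R059.Hik

variable {K : Type} [Field K]

/-- the `q`-integer `[d]` of an integer `d`. -/
def br (q : K) (d : ℤ) : K := (1 - q ^ d) / (1 - q)

/-- Hikita's edge factor `f(d) = [d]/[d-1]`, `f(1) = 1`. -/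
def ff (q : K) (d : ℤ) : K := if d = 1 then 1 else br q d / br q (d - 1)

/-- the factor for adding a vertex of colour `c` in front of the open vertices `L`. -/
def co (q : K) (c : ℕ) (L : List ℕ) : K :=
  if c = 1 ∨ ∃ y ∈ L, c = y + 1 then (L.map fun x : ℕ => ff q ((c : ℤ) - (x : ℤ))).prod else 0

/-- states. -/
abbrev St (K : Type) : Type := List ℕ → K

/-- add a vertex (state level). -/
def addV (q : K) (ψ : St K) : St K
  | [] => 0
  | c :: L => co q c L * ψ L

/-- the operator: add a vertex adjacent to all open vertices. -/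
def U (q : K) : Module.End K (St K) where
  toFun := addV q
  map_add' := by
    intro x y
    funext L
    cases L with
    | nil => simp [addV]
    | cons c L => simp [addV, mul_add]
  map_smul' := by
    intro r x
    funext L
    cases L with
    | nil => simp [addV]
    | cons c L => simp [addV]; ring

/-- the operator: close the oldest open vertex, of colour `x ≤ N`, with weight `g x`. -/
def D (N : ℕ) (g : ℕ → K) : Module.End K (St K) where
  toFun := fun ψ L => ∑ x ∈ Finset.range (N + 1), g x * ψ (L ++ [x])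
  map_add' := by
    intro x y
    funext L
    simp [mul_add, Finset.sum_add_distrib]
  map_smul' := by
    intro r x
    funext L
    simp only [Pi.smul_apply, smul_eq_mul, RingHom.id_apply, Finset.mul_sum]
    exact Finset.sum_congr rfl fun _ _ => by ring

theorem U_nil (q : K) (ψ : St K) : U q ψ [] = 0 := rfl

theorem U_cons (q : K) (ψ : St K) (c : ℕ) (L : List ℕ) : U q ψ (c :: L) = co q c L * ψ L := rfl

theorem D_apply (N : ℕ) (g : ℕ → K) (ψ : St K) (L : List ℕ) :
    D N g ψ L = ∑ x ∈ Finset.range (N + 1), g x * ψ (L ++ [x]) := rfl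

/-- the vacuum. -/
def vac : St K := fun L => if L = [] then 1 else 0

/-- extension of a Hessenberg function on `1..n` by `0 ↦ 0` and `v ↦ n` for `v > n`. -/
def extH (n : ℕ) (H : ℕ → ℕ) : ℕ → ℕ := fun v => if v = 0 then 0 else if v ≤ n then H v else n

/-- what is applied to the state of the open vertices `v+1, …, H' (v+1)`:
close down to `≤ H' v`, then add the vertex `v`, etc. -/
def tail (q : K) (N : ℕ) (g : ℕ → K) (H : ℕ → ℕ) : ℕ → Module.End K (St K)
  | 0 => D N g ^ (H 1 - H 0)
  | v + 1 => tail q N g H v * U q * D N g ^ (H (v + 2) - H (v + 1))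

/-- the state after adding the vertices `n, n-1, …, n-s+1`. -/
def head (q : K) (N : ℕ) (g : ℕ → K) (n : ℕ) (H : ℕ → ℕ) : ℕ → St K
  | 0 => vac
  | s + 1 => U q ((D N g ^ (H (n - s + 1) - H (n - s))) (head q N g n H s))

/-- Hikita's sum for the Hessenberg function `H` on `1..n`. -/
def HF (q : K) (N : ℕ) (g : ℕ → K) (n : ℕ) (H : ℕ → ℕ) : K :=
  tail q N g (extH n H) n vac []

theorem tail_head (q : K) (N : ℕ) (g : ℕ → K) (n : ℕ) (H : ℕ → ℕ) (s : ℕ) (hs : s ≤ n) :
    tail q N g H n vac = tail q N g H (n - s) (head q N g n H s) := by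
  induction s with
  | zero => rfl
  | succ s ih =>
    rw [ih (by omega)]
    obtain ⟨m, hm⟩ : ∃ m, n - s = m + 1 := ⟨n - s - 1, by omega⟩
    rw [show n - (s + 1) = m by omega, hm]
    simp only [tail, head, Module.End.mul_apply, hm]

/-- positivity by cones: a family of sets of states stable under `U` and `D` contains the
final state. -/
theorem tail_mem_cone (q : K) (N : ℕ) (g : ℕ → K) (n : ℕ) (H : ℕ → ℕ) (hH0 : H 0 = 0)
    (hH : ∀ v, v ≤ n → H v ≤ H (v + 1)) (hHv : ∀ v, v ≤ n → v ≤ H v) (hn : H (n + 1) = n)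
    (C : ℕ → Set (St K)) (h0 : vac ∈ C 0) (hU : ∀ k, ∀ ψ ∈ C k, U q ψ ∈ C (k + 1))
    (hD : ∀ k, ∀ ψ ∈ C (k + 1), D N g ψ ∈ C k) :
    tail q N g H n vac ∈ C 0 := by
  have hDk : ∀ m k, ∀ ψ ∈ C (k + m), (D N g ^ m) ψ ∈ C k := by
    intro m
    induction m with
    | zero => intro k ψ hψ; simpa using hψ
    | succ m ih =>
      intro k ψ hψ
      rw [pow_succ, Module.End.mul_apply]
      exact ih k _ (hD (k + m) ψ (by rwa [show k + m + 1 = k + (m + 1) by omega]))
  have key : ∀ v, v ≤ n → ∀ ψ ∈ C (H (v + 1) - v), tail q N g H v ψ ∈ C 0 := by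
    intro v
    induction v with
    | zero =>
      intro _ ψ hψ
      apply hDk
      rw [hH0]
      simpa using hψ
    | succ v ih =>
      intro hv ψ hψ
      simp only [tail, Module.End.mul_apply]
      apply ih (by omega)
      have h1 := hH (v + 1) hv
      have h2 := hHv (v + 1) hv
      rw [show H (v + 1) - v = (H (v + 1) - (v + 1)) + 1 by omega]
      apply hU
      apply hDk
      rw [show H (v + 1) - (v + 1) + (H (v + 2) - H (v + 1)) = H (v + 1 + 1) - (v + 1) by
        have : H (v + 1) ≤ H (v + 2) := h1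
        have : H (v + 1 + 1) = H (v + 2) := rfl
        omega]
      exact hψ
  apply key n le_rfl
  rw [hn]
  simpa using h0

/-- states of `k` open vertices: distinct positive colours. -/
def Good (k : ℕ) (ψ : St K) : Prop :=
  ∀ L, ψ L ≠ 0 → L.length = k ∧ L.Nodup ∧ ∀ x ∈ L, 1 ≤ x

/-- the two vertices in front of the `r` oldest ones are right twins. -/
structure Sym (q : K) (r : ℕ) (ψ : St K) : Prop where
  far : ∀ (L1 L2 : List ℕ) (a b : ℕ), L2.length = r → (a : ℤ) - b ≠ 1 → (b : ℤ) - a ≠ 1 →
    ff q ((b : ℤ) - a) * ψ (L1 ++ a :: b :: L2) = ff q ((a : ℤ) - b) * ψ (L1 ++ b :: a :: L2)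
  near : ∀ (L1 L2 : List ℕ) (b : ℕ), L2.length = r → ψ (L1 ++ b :: (b + 1) :: L2) = 0

/-- antisymmetric in the two vertices in front of the `r` oldest ones. -/
def Anti (r : ℕ) (ψ : St K) : Prop :=
  ∀ (L1 L2 : List ℕ) (a b : ℕ), L2.length = r →
    ψ (L1 ++ a :: b :: L2) = - ψ (L1 ++ b :: a :: L2)

end Crest.Agent.R059.Hik
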