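import Crest.Agent.R059.HikDef

set_option autoImplicit false

open Crest.CombinatoricsR.UnitInterval

/-! Content of an admissible colouring: multiplicities decrease, they give a partition of `n`,
and the vertex weights multiply to the elementary symmetric function of this partition. -/

namespace Crest.Agent.R059.Hik

open Crest.Agent.R059

variable {n : ℕ}

theorem Adm.pos {h : Fin n → ℕ} {c : Fin n → ℕ} (hc : Adm h c) (a : Fin n) : 1 ≤ c a := by
  rcases hc a with h1 | ⟨b, _, _, h1⟩ <;> omega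

theorem Adm.le {h : Fin n → ℕ} {c : Fin n → ℕ} (hc : Adm h c) (a : Fin n) :
    a.val + c a ≤ n := by
  have key : ∀ (k : ℕ) (a : Fin n), n - a.val = k → a.val + c a ≤ n := by
    intro k
    induction k using Nat.strong_induction_on with
    | _ k ih =>
      intro a ha
      have ha' := a.isLt
      rcases hc a with h1 | ⟨b, hab, _, h1⟩
      · omega
      · have hab' : a.val < b.val := hab
        have := ih (n - b.val) (by omega) b rfl
        omega
  exact key _ a rfl

/-- in an admissible proper colouring the classes get smaller. -/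
theorem mult_succ_le {h : Fin n → ℕ} {c : Fin n → ℕ} (hc : Adm h c)
    (hp : ∀ p ∈ edges h, c p.1 ≠ c p.2) {i : ℕ} (hi : 1 ≤ i) :
    mult c (i + 1) ≤ mult c i := by
  classical
  have hex : ∀ a : Fin n, c a = i + 1 → ∃ b, a < b ∧ b.val + 1 ≤ h a ∧ c b = i := by
    intro a ha
    rcases hc a with h1 | ⟨b, hab, hb, h1⟩
    · omega
    · exact ⟨b, hab, hb, by omega⟩
  choose! f hf1 hf2 hf3 using hex
  unfold mult
  refine Finset.card_le_card_of_injOn f ?_ ?_
  · intro a ha
    simp only [Finset.coe_filter, Finset.mem_univ, true_and, Set.mem_ofPred_eq] at ha ⊢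
    exact hf3 a ha
  · have key : ∀ a a' : Fin n, c a = i + 1 → c a' = i + 1 → a < a' → f a ≠ f a' := by
      intro a a' ha ha' hlt he
      have h1 := hf2 a ha
      have h2 : a'.val < (f a').val := hf1 a' ha'
      rw [he] at h1
      refine hp (a, a') ?_ (by simp only; omega)
      simp only [edges, Finset.mem_filter, Finset.mem_univ, true_and]
      exact ⟨hlt, by omega⟩
    intro a ha a' ha' he
    simp only [Finset.coe_filter, Finset.mem_univ, true_and, Set.mem_ofPred_eq] at ha ha'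
    rcases lt_trichotomy a a' with h1 | h1 | h1
    · exact absurd he (key a a' ha ha' h1)
    · exact h1
    · exact absurd he.symm (key a' a ha' ha h1)

theorem Adm.mult_eq_zero {h : Fin n → ℕ} {c : Fin n → ℕ} (hc : Adm h c) {i : ℕ} (hi : n < i) :
    mult c i = 0 := by
  unfold mult
  rw [Finset.card_eq_zero, Finset.filter_eq_empty_iff]
  intro a _ ha
  have := hc.le a
  omega

theorem Adm.mem_Icc {h : Fin n → ℕ} {c : Fin n → ℕ} (hc : Adm h c) (a : Fin n) :
    c a ∈ Finset.Icc 1 n := by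
  rw [Finset.mem_Icc]
  have h1 := hc.le a
  have h2 := hc.pos a
  omega

theorem Adm.sum_mult {h : Fin n → ℕ} {c : Fin n → ℕ} (hc : Adm h c) :
    ∑ i ∈ Finset.Icc 1 n, mult c i = n := by
  classical
  have := Finset.card_eq_sum_card_fiberwise (f := c) (s := Finset.univ) (t := Finset.Icc 1 n)
    (fun a _ => by simpa using hc.mem_Icc a)
  rw [Finset.card_univ, Fintype.card_fin] at this
  exact this.symm

theorem Adm.prod_eq {M : Type*} [CommMonoid M] {h : Fin n → ℕ} {c : Fin n → ℕ} (hc : Adm h c)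
    (g : ℕ → M) : ∏ a, g (c a) = ∏ i ∈ Finset.Icc 1 n, g i ^ mult c i := by
  classical
  rw [← Finset.prod_fiberwise_of_maps_to (g := c) (t := Finset.Icc 1 n)
    (fun a _ => hc.mem_Icc a)]
  refine Finset.prod_congr rfl fun i _ => ?_
  unfold mult
  rw [← Finset.prod_const]
  refine Finset.prod_congr rfl fun a ha => ?_
  rw [Finset.mem_filter] at ha
  rw [ha.2]

theorem sum_abel (m : ℕ → ℕ) (h1 : ∀ i, 1 ≤ i → m (i + 1) ≤ m i) : ∀ k : ℕ,
    ∑ i ∈ Finset.Icc 1 k, (m i - m (i + 1)) * i + k * m (k + 1) = ∑ i ∈ Finset.Icc 1 k, m i := by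
  intro k
  induction k with
  | zero => simp
  | succ k ih =>
    rw [Finset.sum_Icc_succ_top (by omega), Finset.sum_Icc_succ_top (by omega), ← ih]
    have h2 := h1 (k + 1) (by omega)
    obtain ⟨d, hd⟩ := Nat.exists_eq_add_of_le h2
    rw [hd, Nat.add_sub_cancel_left]
    ring

/-- the partition with multiplicities `m i - m (i+1)`. -/
def partOf (n : ℕ) (m : ℕ → ℕ) (h1 : ∀ i, 1 ≤ i → m (i + 1) ≤ m i) (h2 : m (n + 1) = 0)
    (h3 : ∑ i ∈ Finset.Icc 1 n, m i = n) : Nat.Partition n where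
  parts := ∑ i ∈ Finset.Icc 1 n, (m i - m (i + 1)) • ({i} : Multiset ℕ)
  parts_pos := by
    intro i hi
    rw [Multiset.mem_sum] at hi
    obtain ⟨j, hj, hij⟩ := hi
    rw [Finset.mem_Icc] at hj
    have := Multiset.mem_of_mem_nsmul hij
    rw [Multiset.mem_singleton] at this
    omega
  parts_sum := by
    have h4 := sum_abel m h1 n
    rw [h2, h3, Nat.mul_zero, Nat.add_zero] at h4
    rw [Multiset.sum_sum]
    simp only [Multiset.sum_nsmul, Multiset.sum_singleton, smul_eq_mul]
    exact h4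

theorem partOf_prod {M : Type*} [CommMonoid M] (e : ℕ → M) (m : ℕ → ℕ)
    (h1 : ∀ i, 1 ≤ i → m (i + 1) ≤ m i) (h2 : m (n + 1) = 0)
    (h3 : ∑ i ∈ Finset.Icc 1 n, m i = n) :
    ((partOf n m h1 h2 h3).parts.map e).prod =
      ∏ i ∈ Finset.Icc 1 n, e i ^ (m i - m (i + 1)) := by
  change (Multiset.map e (∑ i ∈ Finset.Icc 1 n, (m i - m (i + 1)) • ({i} : Multiset ℕ))).prod = _
  have h4 : Multiset.map e (∑ i ∈ Finset.Icc 1 n, (m i - m (i + 1)) • ({i} : Multiset ℕ)) =
      ∑ i ∈ Finset.Icc 1 n, Multiset.map e ((m i - m (i + 1)) • ({i} : Multiset ℕ)) :=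
    map_sum (Multiset.mapAddMonoidHom e) _ _
  rw [h4, Multiset.prod_sum]
  refine Finset.prod_congr rfl fun i _ => ?_
  rw [Multiset.map_nsmul, Multiset.prod_nsmul, Multiset.map_singleton, Multiset.prod_singleton]

theorem prod_abel {K : Type*} [Field K] (e : ℕ → K) (e0 : e 0 = 1) (m : ℕ → ℕ)
    (h1 : ∀ i, 1 ≤ i → m (i + 1) ≤ m i) : ∀ k : ℕ, (∀ i, i ≤ k → e i ≠ 0) →
    ∏ i ∈ Finset.Icc 1 k, (e i / e (i - 1)) ^ m i =
      (∏ i ∈ Finset.Icc 1 k, e i ^ (m i - m (i + 1))) * e k ^ m (k + 1) := by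
  intro k
  induction k with
  | zero => intro _; simp [e0]
  | succ k ih =>
    intro he
    rw [Finset.prod_Icc_succ_top (by omega), Finset.prod_Icc_succ_top (by omega),
      ih (fun i hi => he i (by omega))]
    have h2 := h1 (k + 1) (by omega)
    obtain ⟨d, hd⟩ := Nat.exists_eq_add_of_le h2
    have hk := he k (by omega)
    rw [hd, Nat.add_sub_cancel_left, Nat.add_sub_cancel, div_pow, pow_add, pow_add]
    field_simp

/-- the vertex weights of an admissible colouring. -/
theorem Adm.prod_g {K : Type} [Field K] {h : Fin n → ℕ} {c : Fin n → ℕ} (hc : Adm h c)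
    (q : K) (e g : ℕ → K) (e0 : e 0 = 1) (he : ∀ i, i ≤ n → e i ≠ 0)
    (hg : ∀ i, 1 ≤ i → g i = bp q i * e i / (bp q (i - 1) * e (i - 1)))
    (h1 : ∀ i, 1 ≤ i → mult c (i + 1) ≤ mult c i) :
    ∏ a, g (c a) = (∏ a, bp q (c a) / bp q (c a - 1)) *
      ((partOf n (mult c) h1 (hc.mult_eq_zero (Nat.lt_succ_self n)) hc.sum_mult).parts.map e).prod := by
  rw [partOf_prod]
  have h2 : ∀ a, g (c a) = (bp q (c a) / bp q (c a - 1)) * (e (c a) / e (c a - 1)) := by
    intro a
    rw [hg _ (hc.pos a), div_mul_div_comm]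
  rw [Finset.prod_congr rfl (fun a _ => h2 a), Finset.prod_mul_distrib]
  congr 1
  rw [hc.prod_eq (fun i => e i / e (i - 1)), prod_abel e e0 (mult c) h1 n he,
    hc.mult_eq_zero (Nat.lt_succ_self n), pow_zero, mul_one]

end Crest.Agent.R059.Hik
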