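import Crest.Agent.R059.Prod

set_option autoImplicit false

open Crest.CombinatoricsR.UnitInterval

namespace Crest.Agent.R059

/-- the number of inversions of a permutation, as a double sum. -/
def invs {n : ℕ} (σ : Fin n → Fin n) : ℕ :=
  ∑ i : Fin n, ∑ j : Fin n, if (i < j ∧ σ j < σ i) then 1 else 0

/-- `p` followed by the word of `e` (relabelled). -/
def consFun {n : ℕ} (p : Fin (n + 1)) (e : Equiv.Perm (Fin n)) : Fin (n + 1) → Fin (n + 1) :=
  Fin.cons p (fun i => p.succAbove (e i))

theorem consFun_injective {n : ℕ} (p : Fin (n + 1)) (e : Equiv.Perm (Fin n)) :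
    Function.Injective (consFun p e) := by
  unfold consFun
  rw [Fin.cons_injective_iff]
  constructor
  · rintro ⟨i, hi⟩
    exact Fin.succAbove_ne p (e i) hi
  · exact Fin.succAbove_right_injective.comp e.injective

noncomputable def consPerm {n : ℕ} (p : Fin (n + 1)) (e : Equiv.Perm (Fin n)) :
    Equiv.Perm (Fin (n + 1)) :=
  Equiv.ofBijective (consFun p e) (Finite.injective_iff_bijective.1 (consFun_injective p e))

theorem consPerm_zero {n : ℕ} (p : Fin (n + 1)) (e : Equiv.Perm (Fin n)) :
    consPerm p e 0 = p := by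
  simp [consPerm, consFun]

theorem consPerm_succ {n : ℕ} (p : Fin (n + 1)) (e : Equiv.Perm (Fin n)) (i : Fin n) :
    consPerm p e i.succ = p.succAbove (e i) := by
  simp [consPerm, consFun]

theorem consPerm_injective (n : ℕ) :
    Function.Injective (fun x : Fin (n + 1) × Equiv.Perm (Fin n) => consPerm x.1 x.2) := by
  rintro ⟨p, e⟩ ⟨p', e'⟩ h
  simp only at h
  have h0 : p = p' := by
    have := congrArg (fun σ : Equiv.Perm (Fin (n + 1)) => σ 0) h
    simpa [consPerm_zero] using this
  subst h0
  have h1 : e = e' := by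
    ext i
    have := congrArg (fun σ : Equiv.Perm (Fin (n + 1)) => σ i.succ) h
    simp only [consPerm_succ] at this
    rw [Fin.succAbove_right_injective this]
  rw [h1]

theorem consPerm_bijective (n : ℕ) :
    Function.Bijective (fun x : Fin (n + 1) × Equiv.Perm (Fin n) => consPerm x.1 x.2) := by
  rw [Fintype.bijective_iff_injective_and_card]
  refine ⟨consPerm_injective n, ?_⟩
  rw [Fintype.card_prod, Fintype.card_perm, Fintype.card_perm]
  simp [Nat.factorial_succ]

theorem invs_consPerm {n : ℕ} (p : Fin (n + 1)) (e : Equiv.Perm (Fin n)) :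
    invs (consPerm p e) = p.val + invs e := by
  unfold invs
  rw [Fin.sum_univ_succ]
  congr 1
  · rw [Fin.sum_univ_succ]
    simp only [lt_self_iff_false, false_and, if_false, zero_add, Fin.succ_pos, true_and,
      consPerm_zero, consPerm_succ]
    have h1 : ∀ j : Fin n, (p.succAbove (e j) < p) ↔ (e j).val < p.val := by
      intro j
      rw [Fin.succAbove_lt_iff_castSucc_lt, Fin.lt_def]
      simp
    simp only [h1]
    have h2 : ∑ x : Fin n, (if (e x).val < p.val then 1 else 0) =
        ∑ x : Fin n, (if x.val < p.val then 1 else 0) :=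
      Equiv.sum_comp e (fun x : Fin n => if x.val < p.val then 1 else 0)
    rw [h2, ← Finset.card_filter]
    have h3 : p.val ≤ n := by have := p.isLt; omega
    have h4 : (Finset.univ.filter (fun x : Fin n => x.val < p.val)) =
        (Finset.univ : Finset (Fin p.val)).map (Fin.castLEEmb h3) := by
      ext x
      simp only [Finset.mem_filter, Finset.mem_univ, true_and, Finset.mem_map,
        Fin.castLEEmb_apply]
      constructor
      · intro hx
        exact ⟨⟨x.val, hx⟩, by ext; simp⟩
      · rintro ⟨y, rfl⟩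
        simp
    rw [h4, Finset.card_map, Finset.card_univ, Fintype.card_fin]
  · apply Finset.sum_congr rfl
    intro i _
    rw [Fin.sum_univ_succ]
    simp only [Fin.not_lt_zero, false_and, if_false, zero_add, Fin.succ_lt_succ_iff,
      consPerm_succ]
    apply Finset.sum_congr rfl
    intro j _
    have : (p.succAbove (e j) < p.succAbove (e i)) ↔ e j < e i :=
      (Fin.strictMono_succAbove p).lt_iff_lt
    simp only [this]

/-- `∑_σ q^{inv σ} = [n]!`. -/
theorem sum_q_invs {R : Type*} [CommRing R] (q : R) : ∀ n : ℕ,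
    ∑ σ : Equiv.Perm (Fin n), q ^ invs σ =
      ∏ i ∈ Finset.range n, ∑ k ∈ Finset.range (i + 1), q ^ k := by
  intro n
  induction n with
  | zero => simp [invs]
  | succ n ih =>
    rw [← Function.Bijective.sum_comp (consPerm_bijective n) (fun σ => q ^ invs σ),
      Fintype.sum_prod_type]
    simp only [invs_consPerm, pow_add]
    rw [Finset.prod_range_succ, ← ih]
    simp only [← Finset.mul_sum, ← Finset.sum_mul]
    rw [mul_comm, Finset.sum_range (fun i => q ^ i)]

theorem ginv_eq_invs {n : ℕ} (h : Fin n → ℕ) (hn : ∀ i, h i = n) (σ : Equiv.Perm (Fin n)) :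
    ginv h σ = invs σ := by
  classical
  unfold ginv invs
  rw [Finset.card_filter, ← Finset.univ_product_univ, Finset.sum_product]
  apply Finset.sum_congr rfl
  intro i _
  apply Finset.sum_congr rfl
  intro j _
  have : (i < j ∧ σ j < σ i ∧ IsEdge h (σ i) (σ j)) ↔ (i < j ∧ σ j < σ i) := by
    constructor
    · rintro ⟨h1, h2, _⟩; exact ⟨h1, h2⟩
    · rintro ⟨h1, h2⟩
      refine ⟨h1, h2, Or.inr ⟨h2, ?_⟩⟩
      rw [hn]; exact (σ i).isLt
  simp only [this]

/-- complete graphs: `X = [n]! e_n`. -/
theorem chromatic_complete' {n : ℕ} (h : Fin n → ℕ) (hn : ∀ i, h i = n) (N : ℕ) :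
    chromaticQSym h N = MvPolynomial.C (∏ i ∈ Finset.range n, ∑ k ∈ Finset.range (i + 1),
      (Polynomial.X : Polynomial ℤ) ^ k) * MvPolynomial.esymm (Fin N) (Polynomial ℤ) n := by
  rw [chromatic_complete h hn]
  congr 2
  rw [← sum_q_invs]
  apply Finset.sum_congr rfl
  intro σ _
  rw [ginv_eq_invs h hn]

end Crest.Agent.R059
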