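import Crest.Agent.R059.Assemble
import Crest.Agent.R059.QFact

set_option autoImplicit false

open Crest.CombinatoricsR.UnitInterval

/-! General uniqueness: the laws over a commutative domain `A` with an element `q`
(all `[m]_q ≠ 0`, `m ≥ 1`) force `D = 0`.  Same proof as `R059/Uniq.lean`. -/

namespace Crest.Agent.R059.Gen

open Function Crest.Agent.R059

/-- the linear laws (difference of two solutions), values in `A`. -/
structure Laws {A : Type*} [CommRing A] (q : A) (n : ℕ) (D : (ℕ → ℕ) → A) : Prop where
  ext : ∀ H H' : ℕ → ℕ, (∀ v, 1 ≤ v → v ≤ n → H v = H' v) → D H = D H'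
  typeI : ∀ (H : ℕ → ℕ) (i j : ℕ), 1 ≤ i → i < j → j + 1 ≤ n → H j = H (j + 1) →
    Hs n (update H i (j - 1)) → Hs n (update H i (j + 1)) →
    (1 + q) * D (update H i j) = q * D (update H i (j - 1)) + D (update H i (j + 1))
  typeII : ∀ (H : ℕ → ℕ) (t b : ℕ), 1 ≤ t → t + 1 ≤ b → b + 1 ≤ n →
    (∀ v, 1 ≤ v → v ≤ n → v ≠ t → v ≠ t + 1 → H v ≠ t) →
    Hs n (update (update H t b) (t + 1) b) →
    Hs n (update (update H t (b + 1)) (t + 1) (b + 1)) →
    (1 + q) * D (update (update H t b) (t + 1) (b + 1)) =
      q * D (update (update H t b) (t + 1) b) +
        D (update (update H t (b + 1)) (t + 1) (b + 1))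
  disc : ∀ H, Hs n H → ∀ v, 1 ≤ v → v < n → H v = v → D H = 0
  compl : D (fun _ => n) = 0

/-- `[m]_q`. -/
def qz {A : Type*} [CommRing A] (q : A) (m : ℕ) : A := ∑ i ∈ Finset.range m, q ^ i

theorem qz_rec {A : Type*} [CommRing A] (q : A) (m : ℕ) :
    qz q (m + 2) = (1 + q) * qz q (m + 1) - q * qz q m := by
  unfold qz
  rw [Finset.sum_range_succ, Finset.sum_range_succ]
  ring

section

variable {A : Type*} [CommRing A] [IsDomain A] {q : A} {n : ℕ} {D : (ℕ → ℕ) → A}

theorem zero_of_one_add (hq : ∀ m, 1 ≤ m → qz q m ≠ 0) {x : A}
    (h : (1 + q) * x = 0) : x = 0 := by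
  have h2 : (1 + q) ≠ 0 := by
    have := hq 2 (by omega)
    simpa [qz, Finset.sum_range_succ] using this
  exact (mul_eq_zero.1 h).resolve_left h2

theorem lemmaS (L : Laws q n D) (hq : ∀ m, 1 ≤ m → qz q m ≠ 0) : ∀ (m c : ℕ), n - c ≤ m → 2 ≤ c → c ≤ n → ∀ p : ℕ → ℕ,
    (∀ v, 1 ≤ v → v + 2 ≤ c → p v ≠ c - 1) →
    (∀ H, Hs n H → (∀ v, 1 ≤ v → v + 2 ≤ c → H v = p v) → H (c - 1) = H c → D H = 0) →
    ∀ H, Hs n H → (∀ v, 1 ≤ v → v + 2 ≤ c → H v = p v) → D H = 0 := by
  intro m
  induction m with
  | zero =>
    intro c hnc h2 hcn p hp hz H hH hHp
    have hc : c = n := by omega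
    by_cases h1 : H (c - 1) = c - 1
    · exact L.disc H hH (c - 1) (by omega) (by omega) h1
    · have h3 := hH.1 (c - 1) (by omega) (by omega)
      have h4 := hH.1 c (by omega) (by omega)
      exact hz H hH hHp (by omega)
  | succ m ihm =>
    intro c hnc h2 hcn p hp hz
    have key : ∀ g : ℕ, ∀ H, Hs n H → (∀ v, 1 ≤ v → v + 2 ≤ c → H v = p v) →
        H c - H (c - 1) ≤ g → D H = 0 := by
      intro g
      induction g with
      | zero =>
        intro H hH hHp hg
        have h5 : H (c - 1) ≤ H c := hH.mono (by omega) (by omega) hcn
        exact hz H hH hHp (by omega)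
      | succ g ihg =>
        intro H hH hHp hg
        have h3 := hH.1 (c - 1) (by omega) (by omega)
        have h4 := hH.1 c (by omega) (by omega)
        have h5 : H (c - 1) ≤ H c := hH.mono (by omega) (by omega) hcn
        by_cases h1 : H (c - 1) = c - 1
        · exact L.disc H hH (c - 1) (by omega) (by omega) h1
        by_cases h6 : H c - H (c - 1) ≤ g
        · exact ihg H hH hHp h6
        by_cases h7 : H c = H (c - 1) + 1
        · -- type II
          obtain ⟨t, ht⟩ : ∃ t, c = t + 1 := ⟨c - 1, by omega⟩
          subst ht
          simp only [Nat.add_sub_cancel] at *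
          set b := H t with hb
          have e1 : update (update H t b) (t + 1) (b + 1) = H := by
            rw [hb, update_eq_self, ← hb, ← h7, update_eq_self]
          have Hs0 : Hs n (update (update H t b) (t + 1) b) := by
            rw [hb, update_eq_self, ← hb]
            apply hH.update (by omega) (by omega)
            · intro v hv hv1
              have : v = t := by omega
              subst this; omega
            · intro hlt
              have := hH.mono (a := t + 1) (b := t + 2) (by omega) (by omega) (by omega)
              show b ≤ H (t + 2)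
              omega
          have Hs2 : Hs n (update (update H t (b + 1)) (t + 1) (b + 1)) := by
            have : update (update H t (b + 1)) (t + 1) (b + 1) = update H t (b + 1) := by
              funext v
              by_cases hv : v = t + 1
              · rw [hv, update_self, update_of_ne (by omega), h7]
              · rw [update_of_ne hv]
            rw [this]
            apply hH.update (by omega) (by omega)
            · intro v hv hv1
              have := hH.mono (a := v) (b := t) hv1 (by omega) (by omega)
              omega
            · intro _; omega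
          have hlaw := L.typeII H t b (by omega) (by omega) (by omega)
            (fun v hv1 hvn hvt hvt1 hv => by
              by_cases hvl : v < t
              · have := hp v hv1 (by omega)
                rw [← hHp v hv1 (by omega)] at this
                exact this hv
              · have := hH.1 v hv1 hvn
                omega) Hs0 Hs2
          rw [e1] at hlaw
          have z0 : D (update (update H t b) (t + 1) b) = 0 := by
            apply hz _ Hs0
            · intro v hv1 hv2
              rw [update_of_ne (by omega), update_of_ne (by omega)]
              exact hHp v hv1 hv2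
            · rw [update_self, update_of_ne (by omega), update_self]
          have z2 : D (update (update H t (b + 1)) (t + 1) (b + 1)) = 0 := by
            apply hz _ Hs2
            · intro v hv1 hv2
              rw [update_of_ne (by omega), update_of_ne (by omega)]
              exact hHp v hv1 hv2
            · rw [update_self, update_of_ne (by omega), update_self]
          rw [z0, z2, mul_zero, add_zero] at hlaw
          exact zero_of_one_add hq hlaw
        · -- gap at least 2
          have h8 : H (c - 1) + 2 ≤ H c := by omega
          apply ihm (H c) (by omega) (by omega) (by omega) H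
          · intro v hv1 hv2
            by_cases hvc : v ≤ c - 1
            · have := hH.mono (a := v) (b := c - 1) hv1 hvc (by omega)
              omega
            · have := hH.mono (a := c) (b := v) (by omega) (by omega) (by omega)
              omega
          · intro H' hH' hHp' heq
            have hc' : H' c = H c := hHp' c (by omega) (by omega)
            have hc1' : H' (c - 1) = H (c - 1) := hHp' (c - 1) (by omega) (by omega)
            set e := H c with he
            have hj1 : e - 1 + 1 = e := by omega
            have e2 : update H' c (e - 1 + 1) = H' := by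
              rw [hj1, ← hc', update_eq_self]
            have e0' : e - 1 - 1 = e - 2 := by omega
            have hmon : c < n → e ≤ H' (c + 1) := by
              intro hlt
              have := hH'.2 c (by omega) hlt
              omega
            have Hs0 : Hs n (update H' c (e - 1 - 1)) := by
              apply hH'.update (by omega) (by omega)
              · intro v hv hv1
                have : v = c - 1 := by omega
                subst this; omega
              · intro hlt; have := hmon hlt; omega
            have Hs1 : Hs n (update H' c (e - 1)) := by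
              apply hH'.update (by omega) (by omega)
              · intro v hv hv1
                have : v = c - 1 := by omega
                subst this; omega
              · intro hlt; have := hmon hlt; omega
            have hlaw := L.typeI H' c (e - 1) (by omega) (by omega) (by omega)
              (by rw [hj1]; exact heq) Hs0 (by rw [e2]; exact hH')
            rw [e2] at hlaw
            have z1 : D (update H' c (e - 1)) = 0 := by
              apply ihg _ Hs1
              · intro v hv1 hv2
                rw [update_of_ne (by omega)]
                rw [hHp' v hv1 (by omega)]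
                exact hHp v hv1 hv2
              · rw [update_self, update_of_ne (by omega), hc1']
                omega
            have z0 : D (update H' c (e - 1 - 1)) = 0 := by
              apply ihg _ Hs0
              · intro v hv1 hv2
                rw [update_of_ne (by omega)]
                rw [hHp' v hv1 (by omega)]
                exact hHp v hv1 hv2
              · rw [update_self, update_of_ne (by omega), hc1']
                omega
            rw [z0, z1, mul_zero, mul_zero, zero_add] at hlaw
            exact hlaw.symm
          · exact hH
          · intro v _ _; rfl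
    intro H hH hHp
    exact key _ H hH hHp le_rfl

theorem Lk_zero (L : Laws q n D) (hq : ∀ m, 1 ≤ m → qz q m ≠ 0) : ∀ k, 1 ≤ k → k + 1 ≤ n → D (Lk n k) = 0 := by
  intro k
  induction k with
  | zero => intro h; omega
  | succ k ih =>
    intro _ hkn
    by_cases hk : k = 0
    · subst hk
      rw [L.ext (Lk n (0 + 1)) (fun _ => n)]
      · exact L.compl
      · intro v hv _
        unfold Lk
        rw [if_neg (by omega)]
    · have hk1 : 1 ≤ k := by omega
      have h0 := ih hk1 (by omega)
      have hL : Hs n (Lk n (k + 1)) := Hs_Lk (by omega)
      have hupd : ∀ x, k ≤ x → x ≤ n → Hs n (update (Lk n (k + 1)) k x) := by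
        intro x hx hxn
        apply hL.update hx hxn
        · intro v hv hv1
          unfold Lk
          rw [if_pos (by omega)]; omega
        · intro _
          unfold Lk
          rw [if_neg (by omega)]; exact hxn
      have hd : ∀ s, k + 1 + s ≤ n →
          D (update (Lk n (k + 1)) k (k + 1 + s)) =
            qz q (s + 1) * D (update (Lk n (k + 1)) k (k + 1)) ∧
          (k + 2 + s ≤ n → D (update (Lk n (k + 1)) k (k + 2 + s)) =
            qz q (s + 2) * D (update (Lk n (k + 1)) k (k + 1))) := by
        have hstep : ∀ j, k < j → j + 1 ≤ n →
            D (update (Lk n (k + 1)) k (j + 1)) =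
              (1 + q) * D (update (Lk n (k + 1)) k j) -
              q * D (update (Lk n (k + 1)) k (j - 1)) := by
          intro j hj hjn
          have := L.typeI (Lk n (k + 1)) k j hk1 hj hjn
            (by unfold Lk; rw [if_neg (by omega), if_neg (by omega)])
            (hupd _ (by omega) (by omega)) (hupd _ (by omega) (by omega))
          rw [this]; ring
        have hzero : D (update (Lk n (k + 1)) k k) = 0 := by
          apply L.disc _ (hupd k le_rfl (by omega)) k hk1 (by omega)
          rw [update_self]
        intro s
        induction s with
        | zero =>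
          intro hs
          refine ⟨by simp [qz], ?_⟩
          intro hs2
          rw [show k + 2 + 0 = (k + 1) + 1 by omega, hstep (k + 1) (by omega) (by omega),
            show k + 1 - 1 = k by omega, hzero, mul_zero, sub_zero]
          congr 1
          simp [qz, Finset.sum_range_succ]
        | succ s ihs =>
          intro hs
          obtain ⟨i1, i2⟩ := ihs (by omega)
          have i2' := i2 (by omega)
          refine ⟨?_, ?_⟩
          · rw [show k + 1 + (s + 1) = k + 2 + s by omega]; exact i2'
          · intro hs2
            rw [show k + 2 + (s + 1) = (k + 2 + s) + 1 by omega, hstep (k + 2 + s) (by omega) (by omega),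
              show k + 2 + s - 1 = k + 1 + s by omega, i1, i2', show s + 1 + 2 = (s + 1) + 2 by rfl,
              qz_rec q (s + 1)]
            ring
      have hfin := (hd (n - (k + 1)) (by omega)).1
      rw [show k + 1 + (n - (k + 1)) = n by omega] at hfin
      have e1 : D (update (Lk n (k + 1)) k n) = D (Lk n k) := by
        apply L.ext
        intro v hv _
        by_cases hvk : v = k
        · subst hvk; rw [update_self]; unfold Lk; rw [if_neg (by omega)]
        · rw [update_of_ne hvk]
          unfold Lk
          split_ifs <;> omega
      have e2 : update (Lk n (k + 1)) k (k + 1) = Lk n (k + 1) := by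
        funext v
        by_cases hv : v = k
        · rw [hv, update_self]; unfold Lk; rw [if_pos (by omega)]
        · rw [update_of_ne hv]
      rw [e1, h0, e2] at hfin
      exact (mul_eq_zero.1 hfin.symm).resolve_left (hq _ (by omega))

theorem prefix_zero (L : Laws q n D) (hq : ∀ m, 1 ≤ m → qz q m ≠ 0) (hn : 2 ≤ n) : ∀ d k, k + d = n - 1 → 1 ≤ k →
    ∀ H, Hs n H → (∀ v, 1 ≤ v → v < k → H v = v + 1) → D H = 0 := by
  intro d
  induction d with
  | zero =>
    intro k hk hk1 H hH hpre
    have h1 := hH.1 (n - 1) (by omega) (by omega)
    by_cases h2 : H (n - 1) = n - 1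
    · exact L.disc H hH (n - 1) (by omega) (by omega) h2
    · rw [L.ext H (Lk n (n - 1))]
      · exact Lk_zero L hq (n - 1) (by omega) (by omega)
      · intro v hv hvn
        unfold Lk
        split_ifs with h3
        · exact hpre v hv (by omega)
        · have h4 := hH.1 v hv hvn
          have : v = n - 1 ∨ v = n := by omega
          rcases this with h5 | h5
          · subst h5; omega
          · subst h5; omega
  | succ d ihd =>
    intro k hk hk1
    -- induction on `H k`
    have key : ∀ m : ℕ, ∀ H, Hs n H → (∀ v, 1 ≤ v → v < k → H v = v + 1) → H k ≤ m → D H = 0 := by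
      intro m
      induction m with
      | zero =>
        intro H hH _ hm
        have := hH.1 k hk1 (by omega)
        omega
      | succ m ihm =>
        intro H hH hpre hm
        have h1 := hH.1 k hk1 (by omega)
        by_cases h2 : H k = k
        · exact L.disc H hH k hk1 (by omega) h2
        by_cases h3 : H k = k + 1
        · apply ihd (k + 1) (by omega) (by omega) H hH
          intro v hv hvk
          by_cases h4 : v = k
          · subst h4; exact h3
          · exact hpre v hv (by omega)
        by_cases h4 : H k ≤ m
        · exact ihm H hH hpre h4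
        have h5 : H k = m + 1 := by omega
        apply lemmaS L hq (n - H k) (H k) le_rfl (by omega) (by omega) H
        · intro v hv1 hv2
          by_cases hvk : v < k
          · rw [hpre v hv1 hvk]; omega
          · have := hH.mono (a := k) (b := v) hk1 (by omega) (by omega)
            omega
        · intro H' hH' hHp' heq
          have hk' : H' k = H k := hHp' k hk1 (by omega)
          set e := H k with he
          have hj1 : e - 1 + 1 = e := by omega
          have e2 : update H' k (e - 1 + 1) = H' := by
            rw [hj1, ← hk', update_eq_self]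
          have hmon : k < n → e ≤ H' (k + 1) := by
            intro hlt
            have := hH'.2 k (by omega) hlt
            omega
          have hpre' : ∀ v, 1 ≤ v → v < k → H' v = v + 1 := by
            intro v hv hvk
            rw [hHp' v hv (by omega)]
            exact hpre v hv hvk
          have hs : ∀ x, k ≤ x → x ≤ e → Hs n (update H' k x) := by
            intro x hx hxe
            apply hH'.update hx (by omega)
            · intro v hv hv1
              rw [hpre' v hv1 (by omega)]; omega
            · intro hlt; have := hmon hlt; omega
          have hlaw := L.typeI H' k (e - 1) hk1 (by omega) (by omega)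
            (by rw [hj1]; exact heq) (hs _ (by omega) (by omega)) (by rw [e2]; exact hH')
          rw [e2] at hlaw
          have z1 : D (update H' k (e - 1)) = 0 := by
            apply ihm _ (hs _ (by omega) (by omega))
            · intro v hv hvk
              rw [update_of_ne (by omega)]
              exact hpre' v hv hvk
            · rw [update_self]; omega
          have z0 : D (update H' k (e - 1 - 1)) = 0 := by
            apply ihm _ (hs _ (by omega) (by omega))
            · intro v hv hvk
              rw [update_of_ne (by omega)]
              exact hpre' v hv hvk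
            · rw [update_self]; omega
          rw [z0, z1, mul_zero, mul_zero, zero_add] at hlaw
          exact hlaw.symm
        · exact hH
        · intro v _ _; rfl
    intro H hH hpre
    exact key _ H hH hpre le_rfl

/-- uniqueness: the laws force `D = 0`. -/
theorem laws_unique (L : Laws q n D) (hq : ∀ m, 1 ≤ m → qz q m ≠ 0) : ∀ H, Hs n H → D H = 0 := by
  intro H hH
  by_cases hn : 2 ≤ n
  · exact prefix_zero L hq hn (n - 2) 1 (by omega) le_rfl H hH (fun v hv hv1 => by omega)
  · rw [L.ext H (fun _ => n)]
    · exact L.compl
    · intro v hv hvn
      have := hH.1 v hv hvn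
      show H v = n
      omega

end

/-- the laws of a family of elements of `A` attached to all Hessenberg functions. -/
structure GLaws {A : Type*} [CommRing A] (q : A) (F : ∀ n : ℕ, (Fin n → ℕ) → A) : Prop where
  typeI : ∀ (n : ℕ) (h0 h1 h2 : Fin n → ℕ), IsHessenberg h0 → IsHessenberg h1 → IsHessenberg h2 →
    ∀ i j k : Fin n, k.val = j.val + 1 → h0 i = j.val → h1 i = j.val + 1 → h2 i = j.val + 2 →
    (∀ a, a ≠ i → h1 a = h0 a) → (∀ a, a ≠ i → h2 a = h0 a) → h0 j = h0 k →
    (1 + q) * F n h1 = q * F n h0 + F n h2
  typeII : ∀ (n : ℕ) (h0 h1 h2 : Fin n → ℕ), IsHessenberg h0 → IsHessenberg h1 → IsHessenberg h2 →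
    ∀ j k i : Fin n, k.val = j.val + 1 → k < i →
    h0 j = i.val → h0 k = i.val → h1 j = i.val → h1 k = i.val + 1 →
    h2 j = i.val + 1 → h2 k = i.val + 1 →
    (∀ a, a ≠ j → a ≠ k → h1 a = h0 a) → (∀ a, a ≠ j → a ≠ k → h2 a = h0 a) →
    (∀ a : Fin n, h0 a ≠ k.val) →
    (1 + q) * F n h1 = q * F n h0 + F n h2
  cut : ∀ (m k : ℕ) (h : Fin (m + k) → ℕ) (h1 : Fin m → ℕ) (h2 : Fin k → ℕ), 0 < m → 0 < k →
    IsHessenberg h → IsHessenberg h1 → IsHessenberg h2 →
    (∀ a : Fin m, h1 a = h (Fin.castAdd k a)) → (∀ a : Fin k, h2 a + m = h (Fin.natAdd m a)) →
    (∀ a : Fin m, h (Fin.castAdd k a) ≤ m) → F (m + k) h = F m h1 * F k h2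

section

variable {A : Type*} [CommRing A] {q : A}

theorem laws_of_GLaws {F G : ∀ n : ℕ, (Fin n → ℕ) → A} (L : GLaws q F) (M : GLaws q G) (n : ℕ)
    (hc : ∀ h : Fin n → ℕ, (∀ i, h i = n) → F n h = G n h)
    (ih : ∀ m, m < n → ∀ h : Fin m → ℕ, IsHessenberg h → F m h = G m h) :
    Laws q n (fun H => F n (toFin n H) - G n (toFin n H)) where
  ext := by
    intro H H' hHH
    have : toFin n H = toFin n H' := by
      funext a
      exact hHH (a.val + 1) (by omega) (by have := a.isLt; omega)
    simp only [this]
  typeI := by
    intro H i j hi hij hjn heq H0 H2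
    have H1 : Hs n (update H i j) := by
      constructor
      · intro v hv hvn
        have h0 := H0.1 v hv hvn
        have h2 := H2.1 v hv hvn
        by_cases hvi : v = i
        · subst hvi
          simp only [update_self] at h0 h2 ⊢
          omega
        · rw [update_of_ne hvi] at h0 ⊢
          exact h0
      · intro v hv hvn
        have h0 := H0.2 v hv hvn
        have h2 := H2.2 v hv hvn
        by_cases hvi : v = i
        · subst hvi
          rw [update_self, update_of_ne (by omega)] at h0 h2 ⊢
          omega
        · by_cases hvi' : v + 1 = i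
          · subst hvi'
            rw [update_of_ne hvi, update_self] at h0 h2 ⊢
            omega
          · rw [update_of_ne hvi, update_of_ne hvi'] at h0 ⊢
            exact h0
    have hI := L.typeI n (toFin n (update H i (j - 1))) (toFin n (update H i j))
      (toFin n (update H i (j + 1))) (toFin_hess H0) (toFin_hess H1) (toFin_hess H2)
      ⟨i - 1, by omega⟩ ⟨j - 1, by omega⟩ ⟨j, by omega⟩ (by simp only; omega)
      (by rw [toFin_update_eq _ (by simp only; omega)])
      (by rw [toFin_update_eq _ (by simp only; omega)]; simp only; omega)
      (by rw [toFin_update_eq _ (by simp only; omega)]; simp only; omega)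
      (by
        intro a ha
        have : a.val + 1 ≠ i := fun h => ha (Fin.ext (by simp only; omega))
        rw [toFin_update_of_ne a this, toFin_update_of_ne a this])
      (by
        intro a ha
        have : a.val + 1 ≠ i := fun h => ha (Fin.ext (by simp only; omega))
        rw [toFin_update_of_ne a this, toFin_update_of_ne a this])
      (by
        rw [toFin_update_of_ne _ (by simp only; omega), toFin_update_of_ne _ (by simp only; omega)]
        simp only
        rw [show j - 1 + 1 = j by omega]
        exact heq)
    have hX := M.typeI n (toFin n (update H i (j - 1))) (toFin n (update H i j))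
      (toFin n (update H i (j + 1))) (toFin_hess H0) (toFin_hess H1) (toFin_hess H2)
      ⟨i - 1, by omega⟩ ⟨j - 1, by omega⟩ ⟨j, by omega⟩ (by simp only; omega)
      (by rw [toFin_update_eq _ (by simp only; omega)])
      (by rw [toFin_update_eq _ (by simp only; omega)]; simp only; omega)
      (by rw [toFin_update_eq _ (by simp only; omega)]; simp only; omega)
      (by
        intro a ha
        have : a.val + 1 ≠ i := fun h => ha (Fin.ext (by simp only; omega))
        rw [toFin_update_of_ne a this, toFin_update_of_ne a this])
      (by
        intro a ha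
        have : a.val + 1 ≠ i := fun h => ha (Fin.ext (by simp only; omega))
        rw [toFin_update_of_ne a this, toFin_update_of_ne a this])
      (by
        rw [toFin_update_of_ne _ (by simp only; omega), toFin_update_of_ne _ (by simp only; omega)]
        simp only
        rw [show j - 1 + 1 = j by omega]
        exact heq)
    rw [mul_sub, mul_sub, hI, hX]
    ring
  typeII := by
    intro H t b ht htb hbn hleft H0 H2
    have H1 : Hs n (update (update H t b) (t + 1) (b + 1)) := by
      constructor
      · intro v hv hvn
        have h0 := H0.1 v hv hvn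
        have h2 := H2.1 v hv hvn
        by_cases hv1 : v = t + 1
        · subst hv1
          simp only [update_self] at h0 h2 ⊢
          omega
        · rw [update_of_ne hv1] at h0 ⊢
          exact h0
      · intro v hv hvn
        have h0 := H0.2 v hv hvn
        have h2 := H2.2 v hv hvn
        by_cases hv1 : v = t + 1
        · subst hv1
          rw [update_self, update_of_ne (by omega), update_of_ne (by omega)] at h2 ⊢
          exact h2
        · by_cases hv2 : v + 1 = t + 1
          · have hvt : v = t := by omega
            subst hvt
            rw [update_of_ne (by omega), update_self, update_self]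
            omega
          · rw [update_of_ne hv1, update_of_ne hv2] at h0 ⊢
            exact h0
    have hlt : ∀ a : Fin n, toFin n (update (update H t b) (t + 1) b) a ≠ t := by
      intro a
      by_cases h1 : a.val + 1 = t + 1
      · rw [toFin_update_eq _ h1]; omega
      · rw [toFin_update_of_ne _ h1]
        by_cases h2 : a.val + 1 = t
        · rw [h2, update_self]; omega
        · rw [update_of_ne h2]
          exact hleft (a.val + 1) (by omega) (by have := a.isLt; omega) h2 h1
    have g1 : ∀ (x y : ℕ) (a : Fin n), a.val + 1 = t →
        toFin n (update (update H t x) (t + 1) y) a = x := by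
      intro x y a ha
      rw [toFin_update_of_ne _ (by omega), ha, update_self]
    have g2 : ∀ (x y : ℕ) (a : Fin n), a.val + 1 = t + 1 →
        toFin n (update (update H t x) (t + 1) y) a = y := by
      intro x y a ha
      rw [toFin_update_eq _ ha]
    have g3 : ∀ (x y : ℕ) (a : Fin n), a.val + 1 ≠ t → a.val + 1 ≠ t + 1 →
        toFin n (update (update H t x) (t + 1) y) a = H (a.val + 1) := by
      intro x y a h1 h2
      rw [toFin_update_of_ne _ h2, update_of_ne h1]
    have hoff : ∀ (x y x' y' : ℕ) (a : Fin n), a ≠ (⟨t - 1, by omega⟩ : Fin n) →
        a ≠ (⟨t, by omega⟩ : Fin n) →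
        toFin n (update (update H t x) (t + 1) y) a =
        toFin n (update (update H t x') (t + 1) y') a := by
      intro x y x' y' a h1 h2
      have h1' : a.val + 1 ≠ t := fun h => h1 (Fin.ext (by simp only; omega))
      have h2' : a.val + 1 ≠ t + 1 := fun h => h2 (Fin.ext (by simp only; omega))
      rw [g3 _ _ _ h1' h2', g3 _ _ _ h1' h2']
    have hI := L.typeII n _ _ _ (toFin_hess H0) (toFin_hess H1) (toFin_hess H2)
      ⟨t - 1, by omega⟩ ⟨t, by omega⟩ ⟨b, by omega⟩ (by simp only; omega)
      (by rw [Fin.lt_def]; simp only; omega)
      (g1 _ _ _ (by simp only; omega)) (g2 _ _ _ (by simp only))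
      (g1 _ _ _ (by simp only; omega)) (g2 _ _ _ (by simp only))
      (g1 _ _ _ (by simp only; omega)) (g2 _ _ _ (by simp only))
      (hoff _ _ _ _) (hoff _ _ _ _) hlt
    have hX := M.typeII n _ _ _ (toFin_hess H0) (toFin_hess H1) (toFin_hess H2)
      ⟨t - 1, by omega⟩ ⟨t, by omega⟩ ⟨b, by omega⟩ (by simp only; omega)
      (by rw [Fin.lt_def]; simp only; omega)
      (g1 _ _ _ (by simp only; omega)) (g2 _ _ _ (by simp only))
      (g1 _ _ _ (by simp only; omega)) (g2 _ _ _ (by simp only))
      (g1 _ _ _ (by simp only; omega)) (g2 _ _ _ (by simp only))
      (hoff _ _ _ _) (hoff _ _ _ _) hlt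
    rw [mul_sub, mul_sub, hI, hX]
    ring
  disc := by
    intro H hH v hv hvn hHv
    obtain ⟨k, rfl⟩ : ∃ k, n = v + k := ⟨n - v, by omega⟩
    have hk : 0 < k := by omega
    have hcut : ∀ a : Fin v, toFin (v + k) H (Fin.castAdd k a) ≤ v := by
      intro a
      unfold toFin
      have := hH.mono (a := a.val + 1) (b := v) (by omega) (by have := a.isLt; omega) (by omega)
      simp only [Fin.val_castAdd]
      omega
    have h1 : IsHessenberg (fun a : Fin v => toFin (v + k) H (Fin.castAdd k a)) := by
      constructor
      · intro a b hab
        exact (toFin_hess hH).1 hab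
      · intro a
        exact ⟨((toFin_hess hH).2 (Fin.castAdd k a)).1, hcut a⟩
    have hge : ∀ a : Fin k, v + a.val + 1 ≤ toFin (v + k) H (Fin.natAdd v a) ∧
        toFin (v + k) H (Fin.natAdd v a) ≤ v + k := by
      intro a
      have := (toFin_hess hH).2 (Fin.natAdd v a)
      simp only [Fin.val_natAdd] at this
      exact this
    have h2 : IsHessenberg (fun a : Fin k => toFin (v + k) H (Fin.natAdd v a) - v) := by
      constructor
      · intro a b hab
        exact Nat.sub_le_sub_right ((toFin_hess hH).1 (by
          rw [Fin.le_def]; simp only [Fin.val_natAdd]; have : a.val ≤ b.val := hab; omega)) v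
      · intro a
        have := hge a
        simp only
        omega
    have e1 := L.cut v k (toFin (v + k) H) _ _ (by omega) hk (toFin_hess hH) h1 h2
      (fun a => rfl) (fun a => by have := hge a; omega) hcut
    have e2 := M.cut v k (toFin (v + k) H) _ _ (by omega) hk (toFin_hess hH) h1 h2
      (fun a => rfl) (fun a => by have := hge a; omega) hcut
    rw [e1, e2, ih v (by omega) _ h1, ih k (by omega) _ h2, sub_self]
  compl := by
    rw [hc (toFin n fun _ => n) (fun i => rfl), sub_self]


/-- two families that satisfy the laws and agree on complete graphs are equal. -/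
theorem eq_of_GLaws [IsDomain A] (hq : ∀ m, 1 ≤ m → qz q m ≠ 0)
    {F G : ∀ n : ℕ, (Fin n → ℕ) → A} (L : GLaws q F) (M : GLaws q G)
    (hc : ∀ (n : ℕ) (h : Fin n → ℕ), (∀ i, h i = n) → F n h = G n h) :
    ∀ (n : ℕ) (h : Fin n → ℕ), IsHessenberg h → F n h = G n h := by
  intro n
  induction n using Nat.strong_induction_on with
  | _ n ih =>
    intro h hh
    have := laws_unique (laws_of_GLaws L M n (hc n) ih) hq (ofFin h) (Hs_ofFin hh)
    simp only [toFin_ofFin] at this
    exact sub_eq_zero.1 this

/-- the image of the chromatic quasisymmetric function under a ring hom satisfies the laws. -/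
theorem GLaws_chromatic {N : ℕ} (φ : MvPolynomial (Fin N) (Polynomial ℤ) →+* A)
    (hφ : φ (MvPolynomial.C Polynomial.X) = q) :
    GLaws q (fun n h => φ (chromaticQSym (n := n) h N)) where
  typeI := by
    intro n h0 h1 h2 H0 _ H2 i j k hk v0 v1 v2 o1 o2 heq
    have := modular_typeI (h0 := h0) (h1 := h1) (h2 := h2) H0.1 H2.1 (fun a => (H0.2 a).1)
      i j k hk v0 v1 v2 o1 o2 heq N
    have h3 := congrArg φ this
    simpa only [map_mul, map_add, map_one, hφ] using h3
  typeII := by
    intro n h0 h1 h2 _ _ _ j k i hk hki v0j v0k v1j v1k v2j v2k o1 o2 hl
    have := modular_typeII (h0 := h0) (h1 := h1) (h2 := h2) j k i hk hki v0j v0k v1j v1k v2j v2k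
      o1 o2 hl N
    have h3 := congrArg φ this
    simpa only [map_mul, map_add, map_one, hφ] using h3
  cut := by
    intro m k h h1 h2 _ _ _ _ _ e1 e2 hc
    have := chromatic_cut h h1 h2 e1 e2 hc N
    simp only [this, map_mul]

/-- the value on complete graphs. -/
theorem chromatic_complete_map {N : ℕ} (φ : MvPolynomial (Fin N) (Polynomial ℤ) →+* A)
    (hφ : φ (MvPolynomial.C Polynomial.X) = q) {n : ℕ} (h : Fin n → ℕ) (hn : ∀ i, h i = n) :
    φ (chromaticQSym h N) = (∏ i ∈ Finset.range n, qz q (i + 1)) *
      φ (MvPolynomial.esymm (Fin N) (Polynomial ℤ) n) := by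
  rw [chromatic_complete' h hn, map_mul]
  congr 1
  simp only [map_prod, map_sum, map_pow, hφ, qz]

/-- final form: a family with the laws and the right values on complete graphs is the image of the
chromatic quasisymmetric function. -/
theorem eq_chromatic_of_GLaws [IsDomain A] (hq : ∀ m, 1 ≤ m → qz q m ≠ 0) {N : ℕ}
    (φ : MvPolynomial (Fin N) (Polynomial ℤ) →+* A)
    (hφ : φ (MvPolynomial.C Polynomial.X) = q)
    {F : ∀ n : ℕ, (Fin n → ℕ) → A} (L : GLaws q F)
    (hc : ∀ (n : ℕ) (h : Fin n → ℕ), (∀ i, h i = n) →
      F n h = (∏ i ∈ Finset.range n, qz q (i + 1)) *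
        φ (MvPolynomial.esymm (Fin N) (Polynomial ℤ) n)) :
    ∀ (n : ℕ) (h : Fin n → ℕ), IsHessenberg h → F n h = φ (chromaticQSym h N) :=
  eq_of_GLaws hq L (GLaws_chromatic φ hφ)
    (fun n h hn => by rw [hc n h hn, chromatic_complete_map φ hφ h hn])

/-- `q^m ≠ 1` for all `m ≥ 1` implies `[m]_q ≠ 0`. -/
theorem qz_ne_of_pow_ne (h : ∀ m, 1 ≤ m → q ^ m ≠ 1) : ∀ m, 1 ≤ m → qz q m ≠ 0 := by
  intro m hm h0
  apply h m hm
  have h1 := geom_sum_mul q m
  have h2 : (∑ i ∈ Finset.range m, q ^ i) = 0 := h0
  rw [h2, zero_mul] at h1
  exact (sub_eq_zero.1 h1.symm)

end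

end Crest.Agent.R059.Gen
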