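import Crest.Agent.R059.Palin
import Crest.Agent.R059.UniqGen
import Crest.Agent.R059.EPos

set_option autoImplicit false

open Crest.CombinatoricsR.UnitInterval

/-! Symmetry, existence of the `e`-coefficients over `ℤ[q]`, and stability in the number of
variables. -/

namespace Crest.Agent.R059.Stab

open MvPolynomial Crest.Agent.R059.Palin

theorem kill_X {R : Type*} [CommRing R] {M N : ℕ} (ι : Fin M ↪o Fin N) (i : Fin M) :
    killCompl (R := R) ι.injective (X (ι i)) = X i := by
  have := killCompl_rename_app (R := R) ι.injective (X i)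
  rwa [rename_X] at this

theorem kill_X' {R : Type*} [CommRing R] {M N : ℕ} (ι : Fin M ↪o Fin N) (j : Fin N)
    (hj : j ∉ Set.range ι) : killCompl (R := R) ι.injective (X j) = 0 := by
  unfold killCompl
  rw [aeval_X, dif_neg hj]

theorem kill_esymm {R : Type*} [CommRing R] {M N : ℕ} (ι : Fin M ↪o Fin N) (k : ℕ) :
    killCompl (R := R) ι.injective (esymm (Fin N) R k) = esymm (Fin M) R k := by
  classical
  unfold esymm
  rw [map_sum]
  symm
  have h1 : ∀ s : Finset (Fin M), (∏ i ∈ s, X i : MvPolynomial (Fin M) R) =
      killCompl (R := R) ι.injective (∏ i ∈ s.map ι.toEmbedding, X i) := by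
    intro s
    rw [map_prod, Finset.prod_map]
    apply Finset.prod_congr rfl
    intro i _
    exact (kill_X ι i).symm
  simp only [h1]
  have h2 : ∑ s ∈ Finset.powersetCard k (Finset.univ : Finset (Fin M)),
      killCompl (R := R) ι.injective (∏ i ∈ s.map ι.toEmbedding, X i) =
      ∑ t ∈ (Finset.powersetCard k (Finset.univ : Finset (Fin M))).map
        (Finset.mapEmbedding ι.toEmbedding).toEmbedding,
        killCompl (R := R) ι.injective (∏ i ∈ t, X i) := by
    rw [Finset.sum_map]
    rfl
  rw [h2]
  apply Finset.sum_subset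
  · intro t ht
    rw [Finset.mem_map] at ht
    obtain ⟨s, hs, rfl⟩ := ht
    rw [Finset.mem_powersetCard] at hs ⊢
    refine ⟨Finset.subset_univ _, ?_⟩
    change (s.map ι.toEmbedding).card = k
    rw [Finset.card_map, hs.2]
  · intro t ht hnt
    have h3 : ∃ i ∈ t, i ∉ Set.range ι := by
      by_contra h4
      push Not at h4
      apply hnt
      rw [Finset.mem_map]
      refine ⟨Finset.univ.filter (fun i => ι i ∈ t), ?_, ?_⟩
      · rw [Finset.mem_powersetCard]
        refine ⟨Finset.subset_univ _, ?_⟩
        rw [Finset.mem_powersetCard] at ht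
        rw [← ht.2, ← Finset.card_map ι.toEmbedding]
        congr 1
        ext j
        simp only [Finset.mem_map, Finset.mem_filter, Finset.mem_univ, true_and]
        constructor
        · rintro ⟨i, hi, rfl⟩
          exact hi
        · intro hj
          obtain ⟨i, rfl⟩ := h4 j hj
          exact ⟨i, hj, rfl⟩
      · change (Finset.univ.filter (fun i => ι i ∈ t)).map ι.toEmbedding = t
        ext j
        simp only [Finset.mem_map, Finset.mem_filter, Finset.mem_univ, true_and]
        constructor
        · rintro ⟨i, hi, rfl⟩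
          exact hi
        · intro hj
          obtain ⟨i, rfl⟩ := h4 j hj
          exact ⟨i, hj, rfl⟩
    obtain ⟨i, hi, hi2⟩ := h3
    rw [map_prod]
    exact Finset.prod_eq_zero hi (kill_X' ι i hi2)

theorem kill_esymmPart {R : Type*} [CommRing R] {n M N : ℕ} (ι : Fin M ↪o Fin N)
    (μ : Nat.Partition n) :
    killCompl (R := R) ι.injective (esymmPart (Fin N) R μ) = esymmPart (Fin M) R μ := by
  unfold esymmPart
  rw [map_multiset_prod, Multiset.map_map]
  congr 1
  apply Multiset.map_congr rfl
  intro p _
  exact kill_esymm ι p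

theorem ascents_comp {n M N : ℕ} (ι : Fin M ↪o Fin N) (h : Fin n → ℕ) (g : Fin n → Fin M) :
    ascents h (fun a => ι (g a)) = ascents h g := by
  unfold ascents
  congr 1
  ext p
  simp only [Finset.mem_filter, Finset.mem_univ, true_and, OrderEmbedding.lt_iff_lt]

theorem kill_chromatic {n M N : ℕ} (ι : Fin M ↪o Fin N) (h : Fin n → ℕ) :
    killCompl ι.injective (chromaticQSym h N) = chromaticQSym h M := by
  classical
  unfold chromaticQSym
  rw [map_sum]
  symm
  have h1 : ∀ g : Fin n → Fin M,
      (C (Polynomial.X ^ ascents h g) * ∏ a, X (g a) : MvPolynomial (Fin M) (Polynomial ℤ)) =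
      killCompl ι.injective (C (Polynomial.X ^ ascents h (fun a => ι (g a))) *
        ∏ a, X (ι (g a))) := by
    intro g
    rw [map_mul, killCompl_C, map_prod, ascents_comp]
    congr 1
    apply Finset.prod_congr rfl
    intro a _
    exact (kill_X ι (g a)).symm
  simp only [h1]
  have hinj : Function.Injective (fun (g : Fin n → Fin M) (a : Fin n) => ι (g a)) := by
    intro g g' hg
    funext a
    exact ι.injective (congrFun hg a)
  have h2 := Finset.sum_image (s := (Finset.univ : Finset (Fin n → Fin M)).filter
      (fun f => ∀ a b : Fin n, IsEdge h a b → f a ≠ f b))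
    (g := fun (g : Fin n → Fin M) (a : Fin n) => ι (g a))
    (f := fun f : Fin n → Fin N => killCompl (R := Polynomial ℤ) ι.injective
      (C (Polynomial.X ^ ascents h f) * ∏ a, X (f a))) (fun a _ b _ hab => hinj hab)
  rw [← h2]
  apply Finset.sum_subset
  · intro f hf
    rw [Finset.mem_image] at hf
    obtain ⟨g, hg, rfl⟩ := hf
    rw [Finset.mem_filter] at hg ⊢
    refine ⟨Finset.mem_univ _, fun a b hab h3 => hg.2 a b hab (ι.injective h3)⟩
  · intro f hf hnf
    have h3 : ∃ a, f a ∉ Set.range ι := by
      by_contra h4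
      push Not at h4
      apply hnf
      choose g hg using h4
      rw [Finset.mem_image]
      refine ⟨g, ?_, funext hg⟩
      rw [Finset.mem_filter] at hf ⊢
      refine ⟨Finset.mem_univ _, fun a b hab h5 => hf.2 a b hab ?_⟩
      rw [← hg a, ← hg b, h5]
    obtain ⟨a, ha⟩ := h3
    rw [map_mul, map_prod, Finset.prod_eq_zero (Finset.mem_univ a) (kill_X' ι (f a) ha), mul_zero]

theorem homog_esymmPart {R : Type*} [CommRing R] {n N : ℕ} (μ : Nat.Partition n) :
    (esymmPart (Fin N) R μ).IsHomogeneous n := by
  have h1 : ∀ k, (esymm (Fin N) R k).IsHomogeneous k := by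
    intro k
    unfold esymm
    apply IsHomogeneous.sum
    intro t ht
    rw [Finset.mem_powersetCard] at ht
    have := IsHomogeneous.prod t (fun i => (X i : MvPolynomial (Fin N) R)) (fun _ => 1)
      (fun i _ => isHomogeneous_X R i)
    simpa [ht.2] using this
  have h2 : ∀ s : Multiset ℕ, ((s.map (esymm (Fin N) R)).prod).IsHomogeneous s.sum := by
    intro s
    induction s using Multiset.induction_on with
    | empty => simpa using isHomogeneous_one (Fin N) R
    | cons a s ih =>
      rw [Multiset.map_cons, Multiset.prod_cons, Multiset.sum_cons]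
      exact (h1 a).mul ih
  have := h2 μ.parts
  rwa [μ.parts_sum] at this

theorem homog_chromatic {n N : ℕ} (h : Fin n → ℕ) : (chromaticQSym h N).IsHomogeneous n := by
  unfold chromaticQSym
  apply IsHomogeneous.sum
  intro f _
  apply IsHomogeneous.C_mul
  have := IsHomogeneous.prod (Finset.univ : Finset (Fin n))
    (fun a => (X (f a) : MvPolynomial (Fin N) (Polynomial ℤ))) (fun _ => 1)
    (fun a _ => isHomogeneous_X _ (f a))
  simpa using this

/-- **stability**: an `e`-expansion in `N ≥ n` variables holds in any number of variables. -/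
theorem expansion_all {n N : ℕ} (hN : n ≤ N) (h : Fin n → ℕ) (c : Nat.Partition n → Polynomial ℤ)
    (hc : chromaticQSym h N = ∑ μ, C (c μ) * esymmPart (Fin N) (Polynomial ℤ) μ) (M : ℕ) :
    chromaticQSym h M = ∑ μ, C (c μ) * esymmPart (Fin M) (Polynomial ℤ) μ := by
  classical
  rcases le_total M N with hM | hM
  · have h1 := congrArg (killCompl (R := Polynomial ℤ) (Fin.castLEOrderEmb hM).injective) hc
    rw [kill_chromatic, map_sum] at h1
    rw [h1]
    apply Finset.sum_congr rfl
    intro μ _
    rw [map_mul, killCompl_C, kill_esymmPart]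
  · ext1 m
    by_cases hd : m.degree = n
    · have hs : m.support.card ≤ N := by
        refine le_trans ?_ hN
        rw [← hd, Finsupp.degree]
        calc m.support.card = ∑ i ∈ m.support, 1 := by simp
          _ ≤ ∑ i ∈ m.support, m i := by
            apply Finset.sum_le_sum
            intro i hi
            exact Nat.one_le_iff_ne_zero.2 (Finsupp.mem_support_iff.1 hi)
      obtain ⟨S, hS1, _, hS2⟩ := Finset.exists_subsuperset_card_eq (Finset.subset_univ m.support)
        hs (by simpa using hM)
      set ι := S.orderEmbOfFin hS2 with hι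
      have hr : (m.support : Set (Fin M)) ⊆ Set.range ι := by
        rw [hι, Finset.range_orderEmbOfFin]
        exact_mod_cast hS1
      have hm : (m.comapDomain ι ι.injective.injOn).mapDomain ι = m :=
        Finsupp.mapDomain_comapDomain ι ι.injective m hr
      have key := congrArg (coeff (m.comapDomain ι ι.injective.injOn)) hc
      have e1 : coeff (m.comapDomain ι ι.injective.injOn) (chromaticQSym h N) =
          coeff m (chromaticQSym h M) := by
        rw [← kill_chromatic ι h, coeff_killCompl, hm]
      have e2 : ∀ μ : Nat.Partition n, coeff (m.comapDomain ι ι.injective.injOn)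
          (C (c μ) * esymmPart (Fin N) (Polynomial ℤ) μ) =
          coeff m (C (c μ) * esymmPart (Fin M) (Polynomial ℤ) μ) := by
        intro μ
        rw [coeff_C_mul, coeff_C_mul, ← kill_esymmPart ι μ, coeff_killCompl, hm]
      rw [e1, coeff_sum] at key
      rw [key, coeff_sum]
      exact Finset.sum_congr rfl (fun μ _ => e2 μ)
    · rw [(homog_chromatic h).coeff_eq_zero hd, coeff_sum]
      symm
      apply Finset.sum_eq_zero
      intro μ _
      rw [coeff_C_mul, (homog_esymmPart μ).coeff_eq_zero hd, mul_zero]

/-- `EPos` from one number `N ≥ n` of variables. -/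
theorem EPos_of_one {n N : ℕ} (hN : n ≤ N) (h : Fin n → ℕ) (c : Nat.Partition n → Polynomial ℕ)
    (hc : chromaticQSym h N = ∑ μ, C (cast (c μ)) * esymmPart (Fin N) (Polynomial ℤ) μ) :
    EPos h :=
  ⟨c, fun M => expansion_all hN h (fun μ => cast (c μ)) hc M⟩

/-- a polynomial with nonnegative integer coefficients comes from `ℕ[q]`. -/
theorem exists_cast (p : Polynomial ℤ) (hp : ∀ k, 0 ≤ p.coeff k) :
    ∃ r : Polynomial ℕ, cast r = p := by
  refine ⟨∑ k ∈ Finset.range (p.natDegree + 1), Polynomial.monomial k (p.coeff k).toNat, ?_⟩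
  unfold cast
  rw [Polynomial.map_sum]
  conv_rhs => rw [p.as_sum_range]
  apply Finset.sum_congr rfl
  intro k _
  rw [Polynomial.map_monomial]
  congr 1
  simpa using Int.toNat_of_nonneg (hp k)

/-- `EPos` from nonnegativity of the lower half of the coefficients, for one `N ≥ n`. -/
theorem EPos_of_half {n N : ℕ} (hN : n ≤ N) (h : Fin n → ℕ) (c : Nat.Partition n → Polynomial ℤ)
    (hc : chromaticQSym h N = ∑ μ, C (c μ) * esymmPart (Fin N) (Polynomial ℤ) μ)
    (hpos : ∀ μ k, 2 * k ≤ Palin.ne h → 0 ≤ (c μ).coeff k) : EPos h := by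
  have h1 : ∀ μ, ∃ r : Polynomial ℕ, cast r = c μ := fun μ =>
    exists_cast (c μ) (nonneg_of_half hN h c hc μ (hpos μ))
  choose r hr using h1
  apply EPos_of_one hN h r
  rw [hc]
  exact Finset.sum_congr rfl (fun μ _ => by rw [hr μ])

/-- **symmetry** of the chromatic quasisymmetric function of a Hessenberg function. -/
theorem symm_chromatic {n : ℕ} (h : Fin n → ℕ) (hh : IsHessenberg h) (N : ℕ) :
    (chromaticQSym h N).IsSymmetric := by
  intro e
  have hq : ∀ m, 1 ≤ m → Gen.qz (C Polynomial.X : MvPolynomial (Fin N) (Polynomial ℤ)) m ≠ 0 := by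
    apply Gen.qz_ne_of_pow_ne
    intro m hm h1
    rw [← C_pow, ← C_1] at h1
    have h2 := C_injective (Fin N) (Polynomial ℤ) h1
    have h3 := congrArg Polynomial.natDegree h2
    rw [Polynomial.natDegree_X_pow, Polynomial.natDegree_one] at h3
    omega
  have L1 := Gen.GLaws_chromatic (q := (C Polynomial.X : MvPolynomial (Fin N) (Polynomial ℤ)))
    (RingHom.id (MvPolynomial (Fin N) (Polynomial ℤ))) rfl
  have L2 := Gen.GLaws_chromatic (q := (C Polynomial.X : MvPolynomial (Fin N) (Polynomial ℤ)))
    ((rename e : MvPolynomial (Fin N) (Polynomial ℤ) →ₐ[Polynomial ℤ]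
      MvPolynomial (Fin N) (Polynomial ℤ)).toRingHom) (by simp)
  have := Gen.eq_of_GLaws hq L2 L1 (by
    intro m g hg
    rw [Gen.chromatic_complete_map (q := (C Polynomial.X : MvPolynomial (Fin N) (Polynomial ℤ)))
      _ (by simp) g hg, Gen.chromatic_complete_map
      (q := (C Polynomial.X : MvPolynomial (Fin N) (Polynomial ℤ))) _ (by simp) g hg]
    congr 1
    exact esymm_isSymmetric (Fin N) (Polynomial ℤ) m e) n h hh
  exact this

/-- a homogeneous symmetric polynomial is a combination of `esymmPart`s. -/
theorem exists_coeffs {R : Type*} [CommRing R] {n N : ℕ} (hN : n ≤ N) (F : MvPolynomial (Fin N) R)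
    (hs : F.IsSymmetric) (hh : F.IsHomogeneous n) :
    ∃ c : Nat.Partition n → R, F = ∑ μ, C (c μ) * esymmPart (Fin N) R μ := by
  classical
  obtain ⟨P, hP⟩ := esymmAlgHom_surjective (σ := Fin N) R (n := N) (by simp) ⟨F, hs⟩
  have hP' : ((esymmAlgHom (Fin N) R N) P).val = F := congrArg Subtype.val hP
  refine ⟨fun μ => coeff (expo N μ) P, ?_⟩
  set w : (Fin N →₀ ℕ) → ℕ := fun t => ∑ i : Fin N, t i * (i.val + 1) with hw
  set e : (Fin N →₀ ℕ) → MvPolynomial (Fin N) R := fun t =>
    ∏ i : Fin N, esymm (Fin N) R (i.val + 1) ^ t i with he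
  have h1 : F = ∑ t ∈ P.support, C (coeff t P) * e t := by
    rw [← hP', esymmAlgHom_apply]
    conv_lhs => rw [P.as_sum]
    rw [map_sum]
    apply Finset.sum_congr rfl
    intro t _
    rw [aeval_monomial, Finsupp.prod_fintype _ _ (fun i => pow_zero _)]
    rfl
  have hek : ∀ k, (esymm (Fin N) R k).IsHomogeneous k := by
    intro k
    unfold esymm
    apply IsHomogeneous.sum
    intro t ht
    rw [Finset.mem_powersetCard] at ht
    have := IsHomogeneous.prod t (fun i => (X i : MvPolynomial (Fin N) R)) (fun _ => 1)
      (fun i _ => isHomogeneous_X R i)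
    simpa [ht.2] using this
  have h2 : ∀ t, (e t).IsHomogeneous (w t) := by
    intro t
    have := IsHomogeneous.prod (Finset.univ : Finset (Fin N))
      (fun i => esymm (Fin N) R (i.val + 1) ^ t i) (fun i => (i.val + 1) * t i)
      (fun i _ => (hek (i.val + 1)).pow (t i))
    have h3 : w t = ∑ i : Fin N, (i.val + 1) * t i :=
      Finset.sum_congr rfl (fun i _ => mul_comm _ _)
    rw [h3]
    exact this
  have h3 : F = ∑ t ∈ P.support, if w t = n then C (coeff t P) * e t else 0 := by
    have h4 : homogeneousComponent n F = F := by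
      rw [homogeneousComponent_of_mem hh, if_pos rfl]
    rw [← h4]
    conv_lhs => rw [h1]
    rw [map_sum]
    apply Finset.sum_congr rfl
    intro t _
    rw [homogeneousComponent_of_mem ((h2 t).C_mul (coeff t P))]
    simp only [eq_comm (a := n)]
  rw [h3, ← Finset.sum_filter]
  have h5 : ∀ μ : Nat.Partition n, esymmPart (Fin N) R μ = e (expo N μ) := by
    intro μ
    rw [esymmPart_eq_prod hN μ, esymmAlgHom_apply, aeval_monomial, map_one, one_mul,
      Finsupp.prod_fintype _ _ (fun i => pow_zero _)]
  simp only [h5]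
  rw [← Finset.sum_image (s := (Finset.univ : Finset (Nat.Partition n))) (g := expo N)
    (f := fun t => C (coeff t P) * e t) (fun a _ b _ hab => expo_inj hN hab)]
  have hsurj : ∀ t, w t = n → ∃ μ : Nat.Partition n, expo N μ = t := by
    intro t ht
    refine ⟨⟨∑ i : Fin N, Multiset.replicate (t i) (i.val + 1), ?_, ?_⟩, ?_⟩
    · intro p hp
      rw [Multiset.mem_sum] at hp
      obtain ⟨i, _, hi⟩ := hp
      rw [Multiset.eq_of_mem_replicate hi]
      omega
    · rw [Multiset.sum_sum, ← ht]
      apply Finset.sum_congr rfl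
      intro i _
      rw [Multiset.sum_replicate, smul_eq_mul]
    · ext i
      simp only [expo, Finsupp.equivFunOnFinite_symm_apply_apply]
      rw [Multiset.count_sum', Finset.sum_eq_single i]
      · rw [Multiset.count_replicate_self]
      · intro j _ hj
        rw [Multiset.count_replicate, if_neg]
        intro h6
        exact hj (Fin.ext (by omega))
      · intro h6
        exact absurd (Finset.mem_univ _) h6
  apply Finset.sum_subset
  · intro t ht
    rw [Finset.mem_filter] at ht
    obtain ⟨μ, hμ⟩ := hsurj t ht.2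
    rw [Finset.mem_image]
    exact ⟨μ, Finset.mem_univ _, hμ⟩
  · intro t ht hnt
    rw [Finset.mem_image] at ht
    obtain ⟨μ, _, rfl⟩ := ht
    rw [Finset.mem_filter, not_and_or] at hnt
    rcases hnt with h6 | h6
    · rw [MvPolynomial.notMem_support_iff.1 h6, C_0, zero_mul]
    · exfalso
      apply h6
      have h7 : ∑ i : Fin N, μ.parts.count (i.val + 1) * (i.val + 1) = μ.parts.sum := by
        have h8 : μ.parts.sum = ∑ p ∈ μ.parts.toFinset, μ.parts.count p * p := by
          have := Finset.sum_multiset_count μ.parts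
          simpa [smul_eq_mul] using this
        rw [h8]
        have h9 : ∑ i : Fin N, μ.parts.count (i.val + 1) * (i.val + 1) =
            ∑ p ∈ Finset.univ.image (fun i : Fin N => i.val + 1), μ.parts.count p * p := by
          rw [Finset.sum_image]
          intro a _ b _ hab
          exact Fin.ext (by simpa using hab)
        rw [h9]
        symm
        apply Finset.sum_subset
        · intro p hp
          rw [Multiset.mem_toFinset] at hp
          have h10 := μ.parts_pos hp
          have h11 := (part_le μ hp).trans hN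
          rw [Finset.mem_image]
          exact ⟨⟨p - 1, by omega⟩, Finset.mem_univ _, by simp; omega⟩
        · intro p _ hp
          rw [Multiset.mem_toFinset] at hp
          rw [Multiset.count_eq_zero.2 hp, zero_mul]
      rw [hw]
      simp only [expo, Finsupp.equivFunOnFinite_symm_apply_apply]
      rw [h7, μ.parts_sum]

/-- **existence of the `e`-coefficients** over `ℤ[q]`, uniformly in the number of variables. -/
theorem exists_expansion {n : ℕ} (h : Fin n → ℕ) (hh : IsHessenberg h) :
    ∃ c : Nat.Partition n → Polynomial ℤ, ∀ N, chromaticQSym h N =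
      ∑ μ, C (c μ) * esymmPart (Fin N) (Polynomial ℤ) μ := by
  obtain ⟨c, hc⟩ := exists_coeffs le_rfl (chromaticQSym h n) (symm_chromatic h hh n)
    (homog_chromatic h)
  exact ⟨c, expansion_all le_rfl h c hc⟩

/-- positivity from the lower half of every coefficient. -/
theorem EPos_iff_half {n : ℕ} (h : Fin n → ℕ) (hh : IsHessenberg h)
    (hpos : ∀ c : Nat.Partition n → Polynomial ℤ, (∀ N, chromaticQSym h N =
      ∑ μ, C (c μ) * esymmPart (Fin N) (Polynomial ℤ) μ) →
      ∀ μ k, 2 * k ≤ Palin.ne h → 0 ≤ (c μ).coeff k) : EPos h := by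
  obtain ⟨c, hc⟩ := exists_expansion h hh
  exact EPos_of_half le_rfl h c (hc n) (hpos c hc)

end Crest.Agent.R059.Stab
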