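import Crest.Agent.R059.HikFinal
import Crest.Agent.R059.HikCont
import Crest.Agent.R059.Stab

set_option autoImplicit false

open Crest.CombinatoricsR.UnitInterval

/-! Interface theorem: `S0081` from a statement about sums of Hikita weights over the colourings
of given content. -/

namespace Crest.Agent.R059.Hik

open Crest.Agent.R059

/-- the field of rational functions in `q`. -/
abbrev F0 : Type := FractionRing (Polynomial ℤ)

/-- the parameter `q` in `F0`. -/
noncomputable def q0 : F0 := algebraMap (Polynomial ℤ) F0 Polynomial.X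

section maps

variable {F K : Type} [Field F] [Field K] (ι : F →+* K) (q : F)

theorem map_br (d : ℤ) : ι (br q d) = br (ι q) d := by
  simp [br, map_div₀, map_zpow₀]

theorem map_ff (d : ℤ) : ι (ff q d) = ff (ι q) d := by
  unfold ff
  split_ifs
  · exact map_one ι
  · rw [map_div₀, map_br, map_br]

theorem map_bp (m : ℕ) : ι (bp q m) = bp (ι q) m := by
  unfold bp
  split_ifs
  · exact map_one ι
  · exact map_br ι q _

theorem map_W {n : ℕ} (h : Fin n → ℕ) (c : Fin n → ℕ) : ι (W q h c) = W (ι q) h c := by
  unfold W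
  rw [map_mul, map_prod, map_prod]
  congr 1
  · exact Finset.prod_congr rfl fun p _ => map_ff ι q _
  · exact Finset.prod_congr rfl fun a _ => by rw [map_div₀, map_bp, map_bp]

end maps

/-- improper colourings have weight zero. -/
theorem W_improper {F : Type} [Field F] (q : F) {n : ℕ} {h c : Fin n → ℕ}
    (hp : ¬ ∀ p ∈ edges h, c p.1 ≠ c p.2) : W q h c = 0 := by
  push Not at hp
  obtain ⟨p, hp1, hp2⟩ := hp
  unfold W
  rw [Finset.prod_eq_zero hp1, zero_mul]
  rw [hp2, sub_self]
  unfold ff br
  rw [if_neg (by norm_num)]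
  simp

open Classical in
/-- the partition of `n` of a content (junk value if the content does not come from a proper
admissible colouring). -/
noncomputable def pm (n : ℕ) (m : ℕ → ℕ) : Nat.Partition n :=
  if H : (∀ i, 1 ≤ i → m (i + 1) ≤ m i) ∧ m (n + 1) = 0 ∧ ∑ i ∈ Finset.Icc 1 n, m i = n then
    partOf n m H.1 H.2.1 H.2.2
  else default

open Classical in
/-- the sum of the Hikita weights of the admissible colourings of content `m`. -/
noncomputable def cSum {n : ℕ} (h : Fin n → ℕ) (m : ℕ → ℕ) : F0 :=
  ∑ c : Fin n → Fin (n + 1), if Adm h (fun a => (c a).val) ∧ mult (fun a => (c a).val) = m then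
    W q0 h (fun a => (c a).val) else 0

open Classical in
theorem EPos_of_hik {n : ℕ} (h : Fin n → ℕ) (hh : IsHessenberg h)
    (H : ∀ m : ℕ → ℕ, ∃ P : Polynomial ℕ, cSum h m = algebraMap (Polynomial ℤ) F0 (cast P)) :
    EPos h := by
  choose P hP using H
  -- the field and the embedding
  let φ : MvPolynomial (Fin n) (Polynomial ℤ) →+*
      FractionRing (MvPolynomial (Fin n) (Polynomial ℤ)) := algebraMap _ _
  have hφ : Function.Injective φ := IsFractionRing.injective _ _
  have hg : Function.Injective (φ.comp (MvPolynomial.C : Polynomial ℤ →+* _)) :=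
    hφ.comp (MvPolynomial.C_injective _ _)
  let ι : F0 →+* FractionRing (MvPolynomial (Fin n) (Polynomial ℤ)) := IsFractionRing.lift hg
  have hι : ∀ p : Polynomial ℤ, ι (algebraMap (Polynomial ℤ) F0 p) = φ (MvPolynomial.C p) :=
    fun p => IsFractionRing.lift_algebraMap hg p
  have hq : ι q0 = qφ φ := hι _
  set e : ℕ → FractionRing (MvPolynomial (Fin n) (Polynomial ℤ)) :=
    fun m => φ (MvPolynomial.esymm (Fin n) (Polynomial ℤ) m) with he
  have he0 : e 0 = 1 := by simp [he]
  have hen : ∀ i ≤ n, e i ≠ 0 := by
    intro i hi h0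
    exact esymm_ne_zero hi (hφ (by rw [map_zero]; exact h0))
  have hparts : ∀ μ : Nat.Partition n, (μ.parts.map e).prod =
      φ (MvPolynomial.esymmPart (Fin n) (Polynomial ℤ) μ) := by
    intro μ
    unfold MvPolynomial.esymmPart
    rw [map_multiset_prod, Multiset.map_map]
    rfl
  -- the expansion
  have h1 : φ (chromaticQSym h n) = ∑ c : Fin n → Fin (n + 1),
      ι (if Adm h (fun a => (c a).val) then W q0 h (fun a => (c a).val) else 0) *
        φ (MvPolynomial.esymmPart (Fin n) (Polynomial ℤ) (pm n (mult (fun a => (c a).val)))) := by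
    rw [hikita_sum φ hφ n h hh]
    apply Finset.sum_congr rfl
    intro c _
    by_cases hA : Adm h (fun a => (c a).val)
    · have hA' := hA
      unfold Adm at hA'
      rw [if_pos hA', if_pos hA]
      rw [map_W, hq]
      by_cases hp : ∀ p ∈ edges h, (c p.1).val ≠ (c p.2).val
      · have m1 : ∀ i, 1 ≤ i → mult (fun a => (c a).val) (i + 1) ≤ mult (fun a => (c a).val) i :=
          fun i hi => mult_succ_le hA hp hi
        have m2 := hA.mult_eq_zero (Nat.lt_succ_self n)
        have m3 := hA.sum_mult
        have e1 := hA.prod_g (qφ φ) e (gφ φ) he0 hen (by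
          intro i hi
          obtain ⟨k, rfl⟩ : ∃ k, i = k + 1 := ⟨i - 1, by omega⟩
          rfl) m1
        have e2 : pm n (mult (fun a => (c a).val)) = partOf n _ m1 m2 m3 := by
          unfold pm
          rw [dif_pos ⟨m1, m2, m3⟩]
        rw [e2, ← hparts, e1, ← mul_assoc]
        rfl
      · have hw := W_improper (qφ φ) (c := fun a => (c a).val) hp
        rw [hw, zero_mul]
        unfold W at hw
        have h0 : ∏ p ∈ edges h, ff (qφ φ) (((c p.1).val : ℤ) - ((c p.2).val : ℤ)) = 0 := by
          push Not at hp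
          obtain ⟨p, hp1, hp2⟩ := hp
          apply Finset.prod_eq_zero hp1
          rw [hp2, sub_self]
          exact ff_at_zero _
        rw [h0, zero_mul]
    · have hA' := hA
      unfold Adm at hA'
      rw [if_neg hA', if_neg hA, map_zero, zero_mul]
  -- group by contents
  have h2 : φ (chromaticQSym h n) =
      ∑ m ∈ Finset.univ.image (fun c : Fin n → Fin (n + 1) => mult (fun a => (c a).val)),
        φ (MvPolynomial.C (cast (P m)) *
          MvPolynomial.esymmPart (Fin n) (Polynomial ℤ) (pm n m)) := by
    rw [h1, ← Finset.sum_fiberwise_of_maps_to (s := Finset.univ)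
      (t := Finset.univ.image (fun c : Fin n → Fin (n + 1) => mult (fun a => (c a).val)))
      (g := fun c : Fin n → Fin (n + 1) => mult (fun a => (c a).val))
      (fun c _ => Finset.mem_image_of_mem _ (Finset.mem_univ c))]
    apply Finset.sum_congr rfl
    intro m _
    rw [map_mul, ← hι, ← hP m]
    unfold cSum
    rw [map_sum, Finset.sum_mul, Finset.sum_filter]
    apply Finset.sum_congr rfl
    intro c _
    by_cases hm : mult (fun a => (c a).val) = m
    · rw [if_pos hm, hm]
      by_cases hA : Adm h (fun a => (c a).val)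
      · rw [if_pos hA, if_pos ⟨hA, rfl⟩]
      · rw [if_neg hA, if_neg (fun h' => hA h'.1)]
    · rw [if_neg hm, if_neg (fun h' => hm h'.2), map_zero, zero_mul]
  have h3 : chromaticQSym h n =
      ∑ m ∈ Finset.univ.image (fun c : Fin n → Fin (n + 1) => mult (fun a => (c a).val)),
        MvPolynomial.C (cast (P m)) *
          MvPolynomial.esymmPart (Fin n) (Polynomial ℤ) (pm n m) := by
    apply hφ
    rw [h2, map_sum]
  refine Stab.EPos_of_one le_rfl h (fun μ =>
    ∑ m ∈ (Finset.univ.image (fun c : Fin n → Fin (n + 1) =>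
      mult (fun a => (c a).val))).filter (fun m => pm n m = μ), P m) ?_
  rw [h3, ← Finset.sum_fiberwise _ (fun m => pm n m)]
  apply Finset.sum_congr rfl
  intro μ _
  unfold cast
  rw [Polynomial.map_sum, map_sum, Finset.sum_mul]
  apply Finset.sum_congr rfl
  intro m hm
  rw [(Finset.mem_filter.1 hm).2]

/-- **Interface for grouped Hikita terms.** -/
theorem main_of_hik
    (H : ∀ (n : ℕ) (h : Fin n → ℕ), IsHessenberg h → ∀ m : ℕ → ℕ,
      ∃ P : Polynomial ℕ, cSum h m = algebraMap (Polynomial ℤ) F0 (cast P)) :
    ∀ (n : ℕ) (h : Fin n → ℕ), IsHessenberg h →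
      ∃ θ : {σ : Equiv.Perm (Fin n) // σ ∈ descentSet h} → Nat.Partition n,
        ∀ N : ℕ, chromaticQSym h N =
          ∑ σ : {σ : Equiv.Perm (Fin n) // σ ∈ descentSet h},
            MvPolynomial.C (Polynomial.X ^ ginv h σ.1) *
              MvPolynomial.esymmPart (Fin N) (Polynomial ℤ) (θ σ) :=
  main_of_EPos (fun n h hh => EPos_of_hik h hh (H n h hh))

end Crest.Agent.R059.Hik
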