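import Crest.Agent.R059.Hik

set_option autoImplicit false

namespace Crest.Agent.R059.Hik

variable {K : Type} [Field K]

/-- the word `[n, n-1, …, k+1]`, indexed by its length `m = n - k`: `[k+m, …, k+1]`. -/
def dsc (k : ℕ) : ℕ → List ℕ
  | 0 => []
  | m + 1 => (k + m + 1) :: dsc k m

theorem dsc_succ (k m : ℕ) : dsc k (m + 1) = (k + m + 1) :: dsc k m := rfl

theorem dsc_snoc (k : ℕ) : ∀ m : ℕ, dsc k (m + 1) = dsc (k + 1) m ++ [k + 1] := by
  intro m
  induction m with
  | zero => simp [dsc]
  | succ m ih =>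
    rw [dsc_succ, ih, dsc_succ, List.cons_append]
    congr 1
    omega

theorem mem_dsc (k : ℕ) : ∀ (m x : ℕ), x ∈ dsc k m ↔ k < x ∧ x ≤ k + m := by
  intro m
  induction m with
  | zero => intro x; simp [dsc]
  | succ m ih =>
    intro x
    rw [dsc_succ, List.mem_cons, ih]
    omega

/-- a multiple of a basis state. -/
def dl (a : K) (L0 : List ℕ) : St K := fun L => if L = L0 then a else 0

theorem dl_apply (a : K) (L0 L : List ℕ) : dl a L0 L = if L = L0 then a else 0 := rfl

theorem vac_eq_dl : (vac : St K) = dl 1 [] := rfl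

theorem D_dl (N : ℕ) (g : ℕ → K) (a : K) (L0 : List ℕ) (x : ℕ) (hx : x ≤ N) :
    D N g (dl a (L0 ++ [x])) = dl (g x * a) L0 := by
  funext L
  rw [D_apply, dl_apply]
  by_cases h : L = L0
  · subst h
    rw [if_pos rfl, Finset.sum_eq_single x]
    · simp [dl]
    · intro y _ hy
      rw [dl_apply, if_neg, mul_zero]
      intro h2
      rw [List.append_cancel_left_eq] at h2
      exact hy (by simpa using h2)
    · intro hx'
      exact absurd (Finset.mem_range.2 (by omega)) hx'
  · rw [if_neg h]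
    apply Finset.sum_eq_zero
    intro y _
    rw [dl_apply, if_neg, mul_zero]
    intro h2
    have := List.append_inj' h2 rfl
    exact h this.1

theorem br_at_zero (q : K) : br q 0 = 0 := by simp [br]

theorem ff_at_zero (q : K) : ff q 0 = 0 := by
  unfold ff
  rw [if_neg (by norm_num), br_at_zero, zero_div]

theorem br_ne_zero (q : K) (hq : ∀ m : ℕ, 0 < m → q ^ m ≠ 1) (m : ℕ) (hm : 0 < m) :
    br q (m : ℤ) ≠ 0 := by
  unfold br
  rw [zpow_natCast]
  apply div_ne_zero
  · rw [sub_ne_zero]; exact (hq m hm).symm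
  · rw [sub_ne_zero]
    have := hq 1 one_pos
    rw [pow_one] at this
    exact this.symm

/-- `[m]` with `[0]` replaced by `1`. -/
def bp (q : K) (m : ℕ) : K := if m = 0 then 1 else br q (m : ℤ)

theorem bp_mul (q : K) (hq : ∀ m : ℕ, 0 < m → q ^ m ≠ 1) (m : ℕ) :
    ff q ((m : ℤ) + 1) * bp q m = bp q (m + 1) := by
  unfold bp ff
  by_cases h : m = 0
  · subst h
    have h1 : br q (1 : ℤ) = 1 := by
      unfold br
      rw [zpow_one, div_self]
      rw [sub_ne_zero]
      have := hq 1 one_pos
      rw [pow_one] at this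
      exact this.symm
    simp [h1]
  · rw [if_neg h, if_neg (by omega), if_neg (by omega)]
    rw [show (m : ℤ) + 1 - 1 = m by ring]
    rw [div_mul_cancel₀]
    · push_cast; rfl
    · exact br_ne_zero q hq m (by omega)

/-- the product of the edge factors for the new largest colour. -/
theorem prod_ff_dsc (q : K) (hq : ∀ m : ℕ, 0 < m → q ^ m ≠ 1) : ∀ (m k : ℕ),
    ((dsc k m).map fun x : ℕ => ff q (((k + m + 1 : ℕ) : ℤ) - (x : ℤ))).prod = bp q m := by
  intro m
  induction m with
  | zero => intro k; simp [dsc, bp]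
  | succ m ih =>
    intro k
    rw [dsc_snoc, List.map_append, List.prod_append, ]
    have h1 := ih (k + 1)
    rw [show k + 1 + m + 1 = k + (m + 1) + 1 by omega] at h1
    rw [h1]
    simp only [List.map_cons, List.map_nil, List.prod_cons, List.prod_nil, mul_one]
    rw [mul_comm, ← bp_mul q hq m]
    congr 2
    push_cast
    ring

theorem co_dsc (q : K) (hq : ∀ m : ℕ, 0 < m → q ^ m ≠ 1) (n c : ℕ) :
    co q c (dsc 0 n) = if c = n + 1 then bp q n else 0 := by
  unfold co
  by_cases hc : c = n + 1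
  · subst hc
    rw [if_pos rfl, if_pos]
    · have := prod_ff_dsc q hq n 0
      rw [show 0 + n + 1 = n + 1 by omega] at this
      exact this
    · by_cases hn : n = 0
      · left; omega
      · right
        exact ⟨n, (mem_dsc 0 n n).2 (by omega), rfl⟩
  · rw [if_neg hc]
    split_ifs with h
    · apply List.prod_eq_zero
      rw [List.mem_map]
      refine ⟨c, ?_, by rw [sub_self]; exact ff_at_zero q⟩
      rw [mem_dsc]
      rcases h with h | ⟨y, hy, h⟩
      · rw [h] at hc ⊢; omega
      · rw [mem_dsc] at hy; omega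
    · rfl

/-- `[n-1]!`. -/
def P (q : K) (n : ℕ) : K := ∏ m ∈ Finset.range n, bp q m

theorem U_pow_vac (q : K) (hq : ∀ m : ℕ, 0 < m → q ^ m ≠ 1) : ∀ n : ℕ,
    (U q ^ n) (vac : St K) = dl (P q n) (dsc 0 n) := by
  intro n
  induction n with
  | zero => simp [P, dsc, vac_eq_dl]
  | succ n ih =>
    rw [pow_succ', Module.End.mul_apply, ih]
    funext L
    cases L with
    | nil => rw [U_nil, dl_apply, if_neg (by simp [dsc])]
    | cons c L =>
      rw [U_cons, dl_apply, dl_apply]
      by_cases hL : L = dsc 0 n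
      · subst hL
        rw [if_pos rfl, co_dsc q hq, dsc_succ]
        by_cases hc : c = n + 1
        · rw [if_pos hc, if_pos (by rw [hc, Nat.zero_add]), P, P, Finset.prod_range_succ,
            mul_comm]
        · rw [if_neg hc, if_neg (fun h => hc (by rw [List.cons.injEq] at h; omega)), zero_mul]
      · rw [if_neg hL, mul_zero, if_neg]
        rw [dsc_succ, List.cons.injEq]
        exact fun h => hL h.2

theorem D_pow_dsc (N : ℕ) (g : ℕ → K) : ∀ (m k : ℕ) (a : K), k + m ≤ N →
    (D N g ^ m) (dl a (dsc k m)) = dl ((∏ i ∈ Finset.range m, g (k + i + 1)) * a) [] := by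
  intro m
  induction m with
  | zero => intro k a _; simp [dsc]
  | succ m ih =>
    intro k a hN
    rw [pow_succ, Module.End.mul_apply, dsc_snoc, D_dl N g a _ (k + 1) (by omega),
      ih (k + 1) _ (by omega), Finset.prod_range_succ']
    congr 1
    have : ∀ i, g (k + 1 + i + 1) = g (k + (i + 1) + 1) := by
      intro i; congr 1; omega
    simp only [this]
    rw [show k + 0 + 1 = k + 1 by omega]
    ring

theorem tail_complete (q : K) (N : ℕ) (g : ℕ → K) (n : ℕ) (H : ℕ → ℕ)
    (hH : ∀ v, 1 ≤ v → H v = n) (h0 : H 0 = 0) :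
    ∀ v, tail q N g H v = D N g ^ n * U q ^ v := by
  intro v
  induction v with
  | zero => simp [tail, hH 1 le_rfl, h0]
  | succ v ih =>
    simp only [tail]
    rw [ih, hH (v + 2) (by omega), hH (v + 1) (by omega), Nat.sub_self, pow_zero, mul_one,
      pow_succ, mul_assoc]

/-- Hikita's sum of the complete graph. -/
theorem HF_complete (q : K) (hq : ∀ m : ℕ, 0 < m → q ^ m ≠ 1) (N : ℕ) (g : ℕ → K) (n : ℕ)
    (hn : n ≤ N) (H : ℕ → ℕ) (hH : ∀ v, 1 ≤ v → v ≤ n → H v = n) :
    HF q N g n H = (∏ m ∈ Finset.range n, g (m + 1)) * P q n := by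
  unfold HF
  rw [tail_complete q N g n (extH n H)]
  · rw [Module.End.mul_apply, U_pow_vac q hq, D_pow_dsc N g n 0 _ (by omega), dl_apply,
      if_pos rfl]
    simp only [Nat.zero_add]
  · intro v hv
    unfold extH
    rw [if_neg (by omega)]
    split_ifs with h
    · exact hH v hv h
    · rfl
  · simp [extH]

/-- `[n-1]! [n] = [n]!`. -/
theorem P_succ (q : K) (n : ℕ) : P q (n + 1) = ∏ m ∈ Finset.range n, br q ((m : ℤ) + 1) := by
  unfold P
  rw [Finset.prod_range_succ']
  simp only [bp, if_true, mul_one]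
  apply Finset.prod_congr rfl
  intro m _
  rw [if_neg (by omega)]
  push_cast
  rfl

/-- the `q`-integer as a sum. -/
theorem br_nat (q : K) (hq : q ≠ 1) (m : ℕ) : br q (m : ℤ) = ∑ i ∈ Finset.range m, q ^ i := by
  unfold br
  rw [zpow_natCast, geom_sum_eq hq]
  rw [← neg_sub (q ^ m) 1, ← neg_sub q 1, neg_div_neg_eq]

/-- the value for Hikita's weights `g m = [m] e_m / ([m-1] e_{m-1})`. -/
theorem HF_complete' (q : K) (hq : ∀ m : ℕ, 0 < m → q ^ m ≠ 1) (N : ℕ) (g e : ℕ → K)
    (n : ℕ) (hn : n ≤ N) (H : ℕ → ℕ) (hH : ∀ v, 1 ≤ v → v ≤ n → H v = n) (he0 : e 0 = 1)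
    (he : ∀ m, m ≤ n → e m ≠ 0)
    (hg : ∀ m, g (m + 1) = bp q (m + 1) * e (m + 1) / (bp q m * e m)) :
    HF q N g n H = (∏ m ∈ Finset.range n, br q ((m : ℤ) + 1)) * e n := by
  rw [HF_complete q hq N g n hn H hH]
  have hbp : ∀ m, bp q m ≠ 0 := by
    intro m
    unfold bp
    split_ifs with h
    · exact one_ne_zero
    · exact br_ne_zero q hq m (by omega)
  have h1 : ∀ k, k ≤ n → ∏ m ∈ Finset.range k, g (m + 1) = bp q k * e k := by
    intro k
    induction k with
    | zero => intro _; simp [bp, he0]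
    | succ k ih =>
      intro hk
      rw [Finset.prod_range_succ, ih (by omega), hg k]
      rw [mul_div_cancel₀]
      exact mul_ne_zero (hbp k) (he k (by omega))
  rw [h1 n le_rfl, mul_right_comm, ← P_succ, P, P, Finset.prod_range_succ]
  ring

end Crest.Agent.R059.Hik
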