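import Crest.Agent.R059.Hik

set_option autoImplicit false

/-! Multiplicativity of Hikita's sum at a cut. -/

namespace Crest.Agent.R059.Hik

variable {K : Type} [Field K]

/-- states supported on words of length `k`. -/
def Graded (k : ℕ) (ψ : St K) : Prop := ∀ L, ψ L ≠ 0 → L.length = k

theorem graded_vac : Graded 0 (vac : St K) := by
  intro L hL
  unfold vac at hL
  split_ifs at hL with h
  · rw [h]; rfl
  · exact absurd rfl hL

theorem graded_U {q : K} {k : ℕ} {ψ : St K} (h : Graded k ψ) : Graded (k + 1) (U q ψ) := by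
  intro L hL
  cases L with
  | nil => exact absurd (U_nil q ψ) hL
  | cons c L =>
    rw [U_cons] at hL
    rw [List.length_cons, h L (right_ne_zero_of_mul hL)]

theorem graded_D {N : ℕ} {g : ℕ → K} {k : ℕ} {ψ : St K} (h : Graded (k + 1) ψ) :
    Graded k (D N g ψ) := by
  intro L hL
  rw [D_apply] at hL
  obtain ⟨x, _, hx⟩ := Finset.exists_ne_zero_of_sum_ne_zero hL
  have := h _ (right_ne_zero_of_mul hx)
  rw [List.length_append, List.length_singleton] at this
  omega

theorem graded_D_pow {N : ℕ} {g : ℕ → K} (m : ℕ) : ∀ {k : ℕ} {ψ : St K}, Graded (k + m) ψ →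
    Graded k ((D N g ^ m) ψ) := by
  induction m with
  | zero => intro k ψ h; simpa using h
  | succ m ih =>
    intro k ψ h
    rw [pow_succ, Module.End.mul_apply]
    exact ih (graded_D (by rwa [show k + m + 1 = k + (m + 1) by omega]))

theorem eq_smul_vac {ψ : St K} (h : Graded 0 ψ) : ψ = ψ [] • (vac : St K) := by
  funext L
  rw [Pi.smul_apply, smul_eq_mul]
  unfold vac
  split_ifs with hL
  · rw [hL, mul_one]
  · rw [mul_zero]
    by_contra h0
    exact hL (List.length_eq_zero_iff.1 (h L h0))

/-- the head states are graded. -/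
theorem graded_head (q : K) (N : ℕ) (g : ℕ → K) (n : ℕ) (H : ℕ → ℕ)
    (hH : ∀ v, 1 ≤ v → v ≤ n → H v ≤ H (v + 1)) (hHv : ∀ v, 1 ≤ v → v ≤ n → v ≤ H v)
    (hn : H (n + 1) = n) :
    ∀ s, s ≤ n → Graded (H (n - s + 1) - (n - s)) (head q N g n H s) := by
  intro s
  induction s with
  | zero =>
    intro _
    simp only [Nat.sub_zero, head, hn, Nat.sub_self]
    exact graded_vac
  | succ s ih =>
    intro hs
    have h1 := ih (by omega)
    simp only [head]
    have h2 := hH (n - s) (by omega) (by omega)
    have h3 := hHv (n - s) (by omega) (by omega)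
    rw [show n - (s + 1) + 1 = n - s by omega,
      show H (n - s) - (n - (s + 1)) = (H (n - s) - (n - s)) + 1 by omega]
    apply graded_U
    apply graded_D_pow
    rwa [show H (n - s) - (n - s) + (H (n - s + 1) - H (n - s)) = H (n - s + 1) - (n - s) by omega]

theorem tail_congr (q : K) (N : ℕ) (g : ℕ → K) (H H' : ℕ → ℕ) :
    ∀ v, (∀ w, w ≤ v + 1 → H w = H' w) → tail q N g H v = tail q N g H' v := by
  intro v
  induction v with
  | zero =>
    intro h
    simp only [tail]
    rw [h 0 (by omega), h 1 (by omega)]
  | succ v ih =>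
    intro h
    simp only [tail]
    rw [ih (fun w hw => h w (by omega)), h (v + 1) (by omega), h (v + 2) (by omega)]

theorem head_congr (q : K) (N : ℕ) (g : ℕ → K) (n n' : ℕ) (H H' : ℕ → ℕ) :
    ∀ s, s ≤ n → s ≤ n' →
      (∀ t, t < s → H (n - t + 1) - H (n - t) = H' (n' - t + 1) - H' (n' - t)) →
      head q N g n H s = head q N g n' H' s := by
  intro s
  induction s with
  | zero => intro _ _ _; rfl
  | succ s ih =>
    intro h1 h2 h
    simp only [head]
    rw [ih (by omega) (by omega) (fun t ht => h t (by omega)), h s (by omega)]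

/-- Hikita's sum is multiplicative at a cut. -/
theorem HF_cut (q : K) (N : ℕ) (g : ℕ → K) (v k : ℕ) (hv : 1 ≤ v) (H H1 H2 : ℕ → ℕ)
    (hmono : ∀ w, 1 ≤ w → w < v + k → H w ≤ H (w + 1))
    (hge : ∀ w, 1 ≤ w → w ≤ v + k → w ≤ H w ∧ H w ≤ v + k)
    (hcut : H v = v)
    (h1 : ∀ w, 1 ≤ w → w ≤ v → H1 w = H w)
    (h2 : ∀ w, 1 ≤ w → w ≤ k → H2 w = H (w + v) - v) :
    HF q N g (v + k) H = HF q N g v H1 * HF q N g k H2 := by
  set E := extH (v + k) H with hE
  have eE : ∀ w, 1 ≤ w → w ≤ v + k → E w = H w := by
    intro w hw hwn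
    rw [hE]; unfold extH
    rw [if_neg (by omega), if_pos hwn]
  have eEn : E (v + k + 1) = v + k := by
    rw [hE]; unfold extH
    rw [if_neg (by omega), if_neg (by omega)]
  have eE0 : E 0 = 0 := by rw [hE]; simp [extH]
  have mono : ∀ w, 1 ≤ w → w ≤ v + k → E w ≤ E (w + 1) := by
    intro w hw hwn
    by_cases hlt : w < v + k
    · rw [eE w hw hwn, eE (w + 1) (by omega) (by omega)]
      exact hmono w hw hlt
    · have : w = v + k := by omega
      subst this
      rw [eEn, eE _ hw le_rfl]
      exact (hge _ hw le_rfl).2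
  have ge : ∀ w, 1 ≤ w → w ≤ v + k → w ≤ E w := by
    intro w hw hwn
    rw [eE w hw hwn]
    exact (hge w hw hwn).1
  -- the first factor
  have t1 : tail q N g E v = tail q N g (extH v H1) v * D N g ^ (E (v + 1) - v) := by
    obtain ⟨u, rfl⟩ : ∃ u, v = u + 1 := ⟨v - 1, by omega⟩
    simp only [tail]
    have a1 : tail q N g E u = tail q N g (extH (u + 1) H1) u := by
      apply tail_congr
      intro w hw
      by_cases hw0 : w = 0
      · subst hw0; rw [eE0]; simp [extH]
      · rw [eE w (by omega) (by omega)]
        unfold extH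
        rw [if_neg hw0, if_pos hw, h1 w (by omega) hw]
    have a2 : extH (u + 1) H1 (u + 2) - extH (u + 1) H1 (u + 1) = 0 := by
      unfold extH
      rw [if_neg (by omega), if_neg (by omega), if_neg (by omega), if_pos le_rfl,
        h1 _ (by omega) le_rfl, hcut, Nat.sub_self]
    rw [a1, a2, pow_zero, mul_one, eE (u + 1) (by omega) (by omega), hcut]
  -- the second factor
  have t2 : head q N g (v + k) E k = head q N g k (extH k H2) k := by
    apply head_congr _ _ _ _ _ _ _ _ (by omega) le_rfl
    intro t ht
    have b1 : extH k H2 (k - t) = E (v + k - t) - v := by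
      rw [eE _ (by omega) (by omega)]
      unfold extH
      rw [if_neg (by omega), if_pos (by omega), h2 _ (by omega) (by omega)]
      congr 2; omega
    have b2 : extH k H2 (k - t + 1) = E (v + k - t + 1) - v := by
      by_cases ht0 : t = 0
      · subst ht0
        rw [Nat.sub_zero, Nat.sub_zero, eEn]
        unfold extH
        rw [if_neg (by omega), if_neg (by omega)]
        omega
      · rw [eE _ (by omega) (by omega)]
        unfold extH
        rw [if_neg (by omega), if_pos (by omega), h2 _ (by omega) (by omega)]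
        congr 2; omega
    rw [b1, b2]
    have := ge (v + k - t) (by omega) (by omega)
    omega
  have t3 : HF q N g k H2 = ((D N g ^ (E (v + 1) - v)) (head q N g k (extH k H2) k)) [] := by
    unfold HF
    rw [tail_head q N g k (extH k H2) k le_rfl, Nat.sub_self]
    simp only [tail]
    have c1 : extH k H2 0 = 0 := by simp [extH]
    have c2 : extH k H2 (0 + 1) = E (v + 1) - v := by
      by_cases hk : k = 0
      · subst hk
        have : E (v + 1) = v := by simpa using eEn
        rw [this]
        simp [extH]
      · rw [eE _ (by omega) (by omega)]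
        unfold extH
        rw [if_neg (by omega), if_pos (by omega), h2 _ (by omega) (by omega)]
        congr 2; omega
    simp only [Nat.zero_add] at c2
    rw [c1, c2, Nat.sub_zero]
  have g1 : Graded 0 ((D N g ^ (E (v + 1) - v)) (head q N g k (extH k H2) k)) := by
    rw [← t2]
    apply graded_D_pow
    have := graded_head q N g (v + k) E mono ge eEn k (by omega)
    rw [show v + k - k = v by omega] at this
    rwa [Nat.zero_add]
  unfold HF
  rw [← hE, tail_head q N g (v + k) E k (by omega), show v + k - k = v by omega, t1,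
    Module.End.mul_apply, t2, eq_smul_vac g1, map_smul, Pi.smul_apply, smul_eq_mul, ← t3,
    mul_comm]
  rfl

end Crest.Agent.R059.Hik
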