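import Crest.Agent.R059.HikComplete
import Crest.Agent.R059.Graph

set_option autoImplicit false

open Crest.CombinatoricsR.UnitInterval

/-! Definitions for the interface 'grouped Hikita terms' (route K). -/

namespace Crest.Agent.R059.Hik

open Crest.Agent.R059

/-- admissible colourings (colours `≥ 1`): every vertex of colour `≠ 1` has a right neighbour whose
colour is one smaller. -/
def Adm {n : ℕ} (h : Fin n → ℕ) (c : Fin n → ℕ) : Prop :=
  ∀ a, c a = 1 ∨ ∃ b : Fin n, a < b ∧ b.val + 1 ≤ h a ∧ c a = c b + 1

/-- number of vertices of colour `i`. -/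
def mult {n : ℕ} (c : Fin n → ℕ) (i : ℕ) : ℕ := (Finset.univ.filter (fun a => c a = i)).card

/-- Hikita's weight of a colouring (without the elementary symmetric functions). -/
def W {F : Type} [Field F] (q : F) {n : ℕ} (h : Fin n → ℕ) (c : Fin n → ℕ) : F :=
  (∏ p ∈ edges h, ff q ((c p.1 : ℤ) - (c p.2 : ℤ))) * ∏ a, (bp q (c a) / bp q (c a - 1))

end Crest.Agent.R059.Hik
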