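import Crest.Agent.R059.HikCut
import Crest.Agent.R059.Assemble

set_option autoImplicit false

/-! Path expansion of Hikita's sum. -/

namespace Crest.Agent.R059.Hik

open Function Crest.CombinatoricsR.UnitInterval

variable {K : Type} [Field K]

/-- the list `[c a, c (a+1), …, c b]`. -/
def lst (c : ℕ → ℕ) (a b : ℕ) : List ℕ := (List.range (b + 1 - a)).map (fun i => c (a + i))

theorem lst_cons (c : ℕ → ℕ) (a b : ℕ) (h : a ≤ b) : lst c a b = c a :: lst c (a + 1) b := by
  unfold lst
  rw [show b + 1 - a = (b + 1 - (a + 1)) + 1 by omega, List.range_succ_eq_map, List.map_cons,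
    List.map_map, Nat.add_zero]
  congr 1
  apply List.map_congr_left
  intro i _
  simp only [Function.comp]
  congr 1; omega

theorem lst_snoc (c : ℕ → ℕ) (a b x : ℕ) (h : a ≤ b + 1) :
    lst c a b ++ [x] = lst (update c (b + 1) x) a (b + 1) := by
  unfold lst
  rw [show b + 1 + 1 - a = (b + 1 - a) + 1 by omega, List.range_succ, List.map_append]
  congr 1
  · apply List.map_congr_left
    intro i hi
    rw [List.mem_range] at hi
    rw [update_of_ne (by omega)]
  · simp only [List.map_cons, List.map_nil]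
    rw [show a + (b + 1 - a) = b + 1 by omega, update_self]

theorem lst_congr (c c' : ℕ → ℕ) (a b : ℕ) (h : ∀ v, a ≤ v → v ≤ b → c v = c' v) :
    lst c a b = lst c' a b := by
  unfold lst
  apply List.map_congr_left
  intro i hi
  rw [List.mem_range] at hi
  exact h _ (by omega) (by omega)

theorem lst_empty (c : ℕ → ℕ) (a b : ℕ) (h : b < a) : lst c a b = [] := by
  unfold lst
  rw [show b + 1 - a = 0 by omega]; rfl

theorem mem_lst (c : ℕ → ℕ) (a b x : ℕ) : x ∈ lst c a b ↔ ∃ v, a ≤ v ∧ v ≤ b ∧ c v = x := by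
  unfold lst
  rw [List.mem_map]
  constructor
  · rintro ⟨i, hi, rfl⟩
    rw [List.mem_range] at hi
    exact ⟨a + i, by omega, by omega, rfl⟩
  · rintro ⟨v, h1, h2, rfl⟩
    exact ⟨v - a, by rw [List.mem_range]; omega, by congr 1; omega⟩

theorem prod_lst {M : Type*} [CommMonoid M] (c : ℕ → ℕ) (a b : ℕ) (F : ℕ → M) :
    ((lst c a b).map F).prod = ∏ v ∈ Finset.Ico a (b + 1), F (c v) := by
  unfold lst
  rw [List.map_map, Finset.prod_Ico_eq_prod_range]
  rfl

/-- sum over the colours `0..N` of the vertices `1..m`. -/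
def colSum (N : ℕ) : ℕ → ((ℕ → ℕ) → K) → K
  | 0, F => F (fun _ => 0)
  | m + 1, F => colSum N m (fun c => ∑ x ∈ Finset.range (N + 1), F (update c (m + 1) x))

theorem colSum_succ (N m : ℕ) (F : (ℕ → ℕ) → K) : colSum N (m + 1) F =
    colSum N m (fun c => ∑ x ∈ Finset.range (N + 1), F (update c (m + 1) x)) := rfl

/-- dependence on the colours of `1..m` only. -/
def Dep (m : ℕ) (A : (ℕ → ℕ) → K) : Prop := ∀ c u x, m < u → A (update c u x) = A c

omit [Field K] in
theorem Dep.mono {m m' : ℕ} {A : (ℕ → ℕ) → K} (h : Dep m A) (hm : m ≤ m') : Dep m' A :=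
  fun c u x hu => h c u x (by omega)

theorem Dep.mul {m : ℕ} {A B : (ℕ → ℕ) → K} (hA : Dep m A) (hB : Dep m B) :
    Dep m (fun c => A c * B c) := by
  intro c u x hu
  show A _ * B _ = A _ * B _
  rw [hA c u x hu, hB c u x hu]

theorem Dep.prod {m : ℕ} (s : Finset ℕ) (A : ℕ → (ℕ → ℕ) → K) (h : ∀ v ∈ s, Dep m (A v)) :
    Dep m (fun c => ∏ v ∈ s, A v c) := by
  intro c u x hu
  exact Finset.prod_congr rfl (fun v hv => h v hv c u x hu)

omit [Field K] in
theorem dep_g (g : ℕ → K) (m v : ℕ) (h : v ≤ m) : Dep m (fun c => g (c v)) := by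
  intro c u x hu
  show g _ = g _
  rw [update_of_ne (by omega)]

theorem dep_lst {β : Type} (m a b : ℕ) (h : b ≤ m) (c : ℕ → ℕ) (u x : ℕ) (hu : m < u)
    (F : List ℕ → β) : F (lst (update c u x) a b) = F (lst c a b) := by
  rw [lst_congr (update c u x) c a b]
  intro v _ hv
  rw [update_of_ne (by omega)]

theorem dep_co (q : K) (m v b : ℕ) (hv : v ≤ m) (h : b ≤ m) :
    Dep m (fun c => co q (c v) (lst c (v + 1) b)) := by
  intro c u x hu
  show co q _ _ = co q _ _
  rw [update_of_ne (by omega), lst_congr (update c u x) c]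
  intro w _ hw
  rw [update_of_ne (by omega)]

/-- closing `j` vertices. -/
theorem colSum_D (N : ℕ) (g : ℕ → K) (a : ℕ) : ∀ (j m : ℕ) (A : (ℕ → ℕ) → K) (ψ : St K),
    Dep m A → a ≤ m + 1 →
    colSum N m (fun c => A c * ((D N g ^ j) ψ) (lst c a m)) =
      colSum N (m + j) (fun c => (A c * ∏ u ∈ Finset.Ico (m + 1) (m + j + 1), g (c u)) *
        ψ (lst c a (m + j))) := by
  intro j
  induction j with
  | zero =>
    intro m A ψ _ _
    simp
  | succ j ih =>
    intro m A ψ hA ha
    rw [pow_succ, Module.End.mul_apply, ih m A (D N g ψ) hA ha, ← Nat.add_assoc, colSum_succ]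
    congr 1
    funext c
    rw [D_apply, Finset.mul_sum]
    apply Finset.sum_congr rfl
    intro x _
    rw [lst_snoc c a (m + j) x (by omega), hA c (m + j + 1) x (by omega),
      Finset.prod_Ico_succ_top (by omega : m + 1 ≤ m + j + 1), update_self]
    have h1 : ∏ u ∈ Finset.Ico (m + 1) (m + j + 1), g (update c (m + j + 1) x u) =
        ∏ u ∈ Finset.Ico (m + 1) (m + j + 1), g (c u) := by
      apply Finset.prod_congr rfl
      intro u hu
      rw [Finset.mem_Ico] at hu
      rw [update_of_ne (by omega)]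
    rw [h1]
    ring

/-- the expansion of the partially completed word. -/
theorem tail_colSum (q : K) (N : ℕ) (g : ℕ → K) (H : ℕ → ℕ) (h0 : H 0 = 0) (n : ℕ)
    (hmono : ∀ v, v ≤ n → H v ≤ H (v + 1)) (hge : ∀ v, v ≤ n → v ≤ H v) :
    ∀ v, v ≤ n → ∀ ψ : St K, tail q N g H v ψ [] =
      colSum N (H (v + 1)) (fun c => ((∏ u ∈ Finset.Ico 1 (H (v + 1) + 1), g (c u)) *
        ∏ u ∈ Finset.Ico 1 (v + 1), co q (c u) (lst c (u + 1) (H u))) *
        ψ (lst c (v + 1) (H (v + 1)))) := by
  have mono : ∀ a b, a ≤ b → b ≤ n + 1 → H a ≤ H b := by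
    intro a b hab
    obtain ⟨k, rfl⟩ := Nat.exists_eq_add_of_le hab
    clear hab
    induction k with
    | zero => intro _; exact le_rfl
    | succ k ih =>
      intro hb
      exact (ih (by omega)).trans (hmono (a + k) (by omega))
  intro v
  induction v with
  | zero =>
    intro _ ψ
    have h1 := colSum_D N g 1 (H 1) 0 (fun _ => 1) ψ (fun _ _ _ _ => rfl) (by omega)
    simp only [tail, h0, Nat.sub_zero]
    simp only [Nat.zero_add, one_mul] at h1 ⊢
    simp only [Finset.Ico_self, Finset.prod_empty, mul_one]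
    rw [← h1]
    simp [colSum, lst_empty]
  | succ v ih =>
    intro hv ψ
    simp only [tail, Module.End.mul_apply]
    rw [ih (by omega)]
    have hv1 : v + 1 ≤ H (v + 1) := hge (v + 1) hv
    have h12 : H (v + 1) ≤ H (v + 2) := hmono (v + 1) hv
    have h3 := colSum_D N g (v + 2) (H (v + 2) - H (v + 1)) (H (v + 1))
      (fun c => (∏ u ∈ Finset.Ico 1 (H (v + 1) + 1), g (c u)) *
        ∏ u ∈ Finset.Ico 1 (v + 2), co q (c u) (lst c (u + 1) (H u))) ψ ?_ (by omega)
    · have e1 : (fun c : ℕ → ℕ => ((∏ u ∈ Finset.Ico 1 (H (v + 1) + 1), g (c u)) *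
          ∏ u ∈ Finset.Ico 1 (v + 1), co q (c u) (lst c (u + 1) (H u))) *
          (U q ((D N g ^ (H (v + 2) - H (v + 1))) ψ)) (lst c (v + 1) (H (v + 1)))) =
          (fun c : ℕ → ℕ => ((∏ u ∈ Finset.Ico 1 (H (v + 1) + 1), g (c u)) *
          ∏ u ∈ Finset.Ico 1 (v + 2), co q (c u) (lst c (u + 1) (H u))) *
          ((D N g ^ (H (v + 2) - H (v + 1))) ψ) (lst c (v + 2) (H (v + 1)))) := by
        funext c
        rw [lst_cons c (v + 1) (H (v + 1)) hv1, U_cons,
          Finset.prod_Ico_succ_top (by omega : 1 ≤ v + 1)]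
        ring
      rw [e1, h3]
      rw [show H (v + 1) + (H (v + 2) - H (v + 1)) = H (v + 2) by omega]
      congr 1
      funext c
      rw [mul_right_comm (∏ u ∈ Finset.Ico 1 (H (v + 1) + 1), g (c u)),
        Finset.prod_Ico_consecutive _ (by omega) (by omega)]
    · apply Dep.mul
      · apply Dep.prod
        intro u hu
        rw [Finset.mem_Ico] at hu
        exact dep_g g _ u (by omega)
      · apply Dep.prod
        intro u hu
        rw [Finset.mem_Ico] at hu
        exact dep_co q _ u _ (by omega) (mono u (v + 1) (by omega) (by omega))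

/-- a colouring of `Fin m` as a function on `ℕ` (vertex `a` is `a+1`). -/
def extc' {N m : ℕ} (c : Fin m → Fin (N + 1)) : ℕ → ℕ :=
  fun v => if h : 1 ≤ v ∧ v ≤ m then (c ⟨v - 1, by omega⟩).val else 0

theorem colSum_eq (N : ℕ) : ∀ (m : ℕ) (F : (ℕ → ℕ) → K),
    colSum N m F = ∑ c : Fin m → Fin (N + 1), F (extc' c) := by
  intro m
  induction m with
  | zero =>
    intro F
    rw [Fintype.sum_unique]
    show F _ = F _
    congr 1
    funext v
    unfold extc'
    rw [dif_neg (by omega)]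
  | succ m ih =>
    intro F
    rw [colSum_succ, ih]
    rw [← (Fin.snocEquiv (fun _ : Fin (m + 1) => Fin (N + 1))).sum_comp, Fintype.sum_prod_type,
      Finset.sum_comm, Finset.sum_range]
    apply Finset.sum_congr rfl
    intro x _
    apply Finset.sum_congr rfl
    intro c _
    congr 1
    funext v
    unfold extc'
    by_cases h1 : v = m + 1
    · subst h1
      rw [update_self, dif_pos ⟨by omega, le_rfl⟩]
      have : (⟨m + 1 - 1, by omega⟩ : Fin (m + 1)) = Fin.last m := by
        ext; simp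
      rw [this]
      simp [Fin.snocEquiv]
    · rw [update_of_ne h1]
      by_cases h2 : 1 ≤ v ∧ v ≤ m
      · rw [dif_pos h2, dif_pos ⟨h2.1, by omega⟩]
        have h3 : (⟨v - 1, by omega⟩ : Fin (m + 1)) = Fin.castSucc ⟨v - 1, by omega⟩ := by
          ext; simp
        have e2 : (Fin.snocEquiv (fun _ : Fin (m + 1) => Fin (N + 1))) (x, c) =
          Fin.snoc (α := fun _ => Fin (N + 1)) c x := rfl
        rw [h3, e2, Fin.snoc_castSucc]
      · rw [dif_neg h2, dif_neg (by omega)]

/-- `HF` as a sum over colourings with values in `0..N` (`N`-indexed form). -/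
theorem HF_eq_colSum (q : K) (N : ℕ) (g : ℕ → K) (n : ℕ) (H : ℕ → ℕ) (hH : Hs n H) :
    HF q N g n H = colSum N n (fun c => (∏ u ∈ Finset.Ico 1 (n + 1), g (c u)) *
      ∏ u ∈ Finset.Ico 1 (n + 1), co q (c u) (lst c (u + 1) (H u))) := by
  have eE : ∀ w, 1 ≤ w → w ≤ n → extH n H w = H w := by
    intro w hw hwn
    unfold extH
    rw [if_neg (by omega), if_pos hwn]
  have eEn : extH n H (n + 1) = n := by
    unfold extH
    rw [if_neg (by omega), if_neg (by omega)]
  have eE0 : extH n H 0 = 0 := by simp [extH]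
  unfold HF
  rw [tail_colSum q N g (extH n H) eE0 n ?_ ?_ n le_rfl]
  · rw [eEn]
    congr 1
    funext c
    rw [lst_empty c (n + 1) n (by omega)]
    have : (vac : St K) [] = 1 := by simp [vac]
    rw [this, mul_one]
    congr 1
    apply Finset.prod_congr rfl
    intro u hu
    rw [Finset.mem_Ico] at hu
    rw [eE u hu.1 (by omega)]
  · intro v hv
    by_cases h0 : v = 0
    · subst h0; rw [eE0]; omega
    · by_cases hn : v = n
      · subst hn
        rw [eEn, eE v (by omega) le_rfl]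
        exact (hH.1 v (by omega) le_rfl).2
      · rw [eE v (by omega) hv, eE (v + 1) (by omega) (by omega)]
        exact hH.2 v (by omega) (by omega)
  · intro v hv
    by_cases h0 : v = 0
    · omega
    · rw [eE v (by omega) hv]
      exact (hH.1 v (by omega) hv).1

open Classical in
theorem co_lst (q : K) (c : ℕ → ℕ) (u b : ℕ) : co q (c u) (lst c (u + 1) b) =
    if (c u = 1 ∨ ∃ w, u < w ∧ w ≤ b ∧ c u = c w + 1) then
      ∏ w ∈ Finset.Ico (u + 1) (b + 1), ff q ((c u : ℤ) - (c w : ℤ)) else 0 := by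
  unfold co
  rw [prod_lst c (u + 1) b (fun x : ℕ => ff q ((c u : ℤ) - (x : ℤ)))]
  have : (c u = 1 ∨ ∃ y ∈ lst c (u + 1) b, c u = y + 1) ↔
      (c u = 1 ∨ ∃ w, u < w ∧ w ≤ b ∧ c u = c w + 1) := by
    constructor
    · rintro (h | ⟨y, hy, h⟩)
      · exact Or.inl h
      · rw [mem_lst] at hy
        obtain ⟨w, h1, h2, rfl⟩ := hy
        exact Or.inr ⟨w, by omega, h2, h⟩
    · rintro (h | ⟨w, h1, h2, h⟩)
      · exact Or.inl h
      · exact Or.inr ⟨c w, (mem_lst _ _ _ _).2 ⟨w, by omega, h2, rfl⟩, h⟩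
  simp only [this]

theorem ofFin_val_succ {n : ℕ} (h : Fin n → ℕ) (a : Fin n) : ofFin h (a.val + 1) = h a := by
  have := congrFun (toFin_ofFin h) a
  exact this

theorem extc'_apply {N m : ℕ} (c : Fin m → Fin (N + 1)) (a : Fin m) :
    extc' c (a.val + 1) = (c a).val := by
  unfold extc'
  rw [dif_pos ⟨by omega, by have := a.isLt; omega⟩]
  rfl

theorem prod_Ico_fin {M : Type*} [CommMonoid M] (n : ℕ) (F : ℕ → M) :
    ∏ u ∈ Finset.Ico 1 (n + 1), F u = ∏ a : Fin n, F (a.val + 1) := by
  rw [Finset.prod_Ico_eq_prod_range, Finset.prod_range]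
  apply Finset.prod_congr rfl
  intro a _
  congr 1; omega

theorem prod_nbr_fin {M : Type*} [CommMonoid M] {n : ℕ} (h : Fin n → ℕ) (hh : IsHessenberg h)
    (a : Fin n) (F : ℕ → M) :
    ∏ w ∈ Finset.Ico (a.val + 1 + 1) (h a + 1), F w =
      ∏ b ∈ Finset.univ.filter (fun b : Fin n => a < b ∧ b.val + 1 ≤ h a), F (b.val + 1) := by
  symm
  apply Finset.prod_bij (fun (b : Fin n) _ => b.val + 1)
  · intro b hb
    simp only [Finset.mem_filter, Finset.mem_univ, true_and, Fin.lt_def] at hb
    rw [Finset.mem_Ico]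
    omega
  · intro b _ b' _ hbb
    exact Fin.ext (by omega)
  · intro w hw
    rw [Finset.mem_Ico] at hw
    have := (hh.2 a).2
    refine ⟨⟨w - 1, by omega⟩, ?_, ?_⟩
    · simp only [Finset.mem_filter, Finset.mem_univ, true_and, Fin.lt_def]
      omega
    · simp only
      omega
  · intro b _
    rfl

/-- **Path expansion of Hikita's sum.** -/
theorem HF_eq_sum (q : K) (N : ℕ) (g : ℕ → K) {n : ℕ} (h : Fin n → ℕ) (hh : IsHessenberg h) :
    HF q N g n (ofFin h) = ∑ c : Fin n → Fin (N + 1),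
      if (∀ a : Fin n, (c a).val = 1 ∨
        ∃ b : Fin n, a < b ∧ b.val + 1 ≤ h a ∧ (c a).val = (c b).val + 1) then
        (∏ p ∈ edges h, ff q (((c p.1).val : ℤ) - ((c p.2).val : ℤ))) * ∏ a : Fin n, g (c a).val
      else 0 := by
  classical
  rw [HF_eq_colSum q N g n (ofFin h) (Hs_ofFin hh), colSum_eq]
  apply Finset.sum_congr rfl
  intro c _
  rw [prod_Ico_fin, prod_Ico_fin]
  have h1 : ∀ a : Fin n, co q (extc' c (a.val + 1))
      (lst (extc' c) (a.val + 1 + 1) (ofFin h (a.val + 1))) =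
      if ((c a).val = 1 ∨ ∃ b : Fin n, a < b ∧ b.val + 1 ≤ h a ∧ (c a).val = (c b).val + 1) then
        ∏ b ∈ Finset.univ.filter (fun b : Fin n => a < b ∧ b.val + 1 ≤ h a),
          ff q (((c a).val : ℤ) - ((c b).val : ℤ)) else 0 := by
    intro a
    rw [co_lst, ofFin_val_succ, extc'_apply, prod_nbr_fin h hh]
    have e1 : (∃ w, a.val + 1 < w ∧ w ≤ h a ∧ (c a).val = extc' c w + 1) ↔
        ∃ b : Fin n, a < b ∧ b.val + 1 ≤ h a ∧ (c a).val = (c b).val + 1 := by
      constructor
      · rintro ⟨w, h1, h2, h3⟩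
        have := (hh.2 a).2
        refine ⟨⟨w - 1, by omega⟩, by rw [Fin.lt_def]; simp only; omega, by simp only; omega, ?_⟩
        have e := extc'_apply c ⟨w - 1, by omega⟩
        simp only at e
        rw [show w - 1 + 1 = w by omega] at e
        rw [h3, e]
      · rintro ⟨b, h1, h2, h3⟩
        rw [Fin.lt_def] at h1
        exact ⟨b.val + 1, by omega, h2, by rw [extc'_apply]; exact h3⟩
    simp only [e1, extc'_apply]
  rw [Finset.prod_congr rfl (fun a _ => h1 a)]
  simp only [extc'_apply]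
  split_ifs with hadm
  · rw [mul_comm]
    congr 1
    rw [Finset.prod_congr rfl (fun a _ => if_pos (hadm a))]
    unfold edges
    rw [Finset.prod_filter, ← Finset.univ_product_univ, Finset.prod_product]
    apply Finset.prod_congr rfl
    intro a _
    rw [Finset.prod_filter]
  · push Not at hadm
    obtain ⟨a, h2, h3⟩ := hadm
    apply mul_eq_zero_of_right
    apply Finset.prod_eq_zero (i := a) (Finset.mem_univ a)
    rw [if_neg]
    rintro (h4 | ⟨b, h4, h5, h6⟩)
    · exact h2 h4
    · exact h3 b h4 h5 h6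

end Crest.Agent.R059.Hik
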