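import Crest.Agent.R059.HikComplete
import Crest.Agent.R059.HikCut
import Crest.Agent.R059.UniqGen

set_option autoImplicit false

open Crest.CombinatoricsR.UnitInterval

/-! Hikita's formula (product form): the final theorem. -/

namespace Crest.Agent.R059.Hik

open Crest.Agent.R059

variable {K : Type} [Field K]

/-- Statement of the type I law for `HF`. -/
def TypeIStmt (q : K) (N : ℕ) (g : ℕ → K) : Prop :=
  ∀ (n : ℕ) (H0 H1 H2 : ℕ → ℕ), Hs n H0 → Hs n H1 → Hs n H2 →
    ∀ (i j : ℕ), 1 ≤ i → i < j → j + 1 ≤ n → H0 i = j - 1 → H1 i = j → H2 i = j + 1 →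
    (∀ v, 1 ≤ v → v ≤ n → v ≠ i → H1 v = H0 v) → (∀ v, 1 ≤ v → v ≤ n → v ≠ i → H2 v = H0 v) →
    H0 j = H0 (j + 1) → (1 + q) * HF q N g n H1 = q * HF q N g n H0 + HF q N g n H2

/-- Statement of the type II law for `HF`. -/
def TypeIIStmt (q : K) (N : ℕ) (g : ℕ → K) : Prop :=
  ∀ (n : ℕ) (H0 H1 H2 : ℕ → ℕ), Hs n H0 → Hs n H1 → Hs n H2 →
    ∀ (t b : ℕ), 1 ≤ t → t + 1 ≤ b → b + 1 ≤ n → H0 t = b → H0 (t + 1) = b → H1 t = b →
    H1 (t + 1) = b + 1 → H2 t = b + 1 → H2 (t + 1) = b + 1 →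
    (∀ v, 1 ≤ v → v ≤ n → v ≠ t → v ≠ t + 1 → H1 v = H0 v) →
    (∀ v, 1 ≤ v → v ≤ n → v ≠ t → v ≠ t + 1 → H2 v = H0 v) →
    (∀ v, 1 ≤ v → v ≤ n → v ≠ t → v ≠ t + 1 → H0 v ≠ t) →
    (1 + q) * HF q N g n H1 = q * HF q N g n H0 + HF q N g n H2

theorem ofFin_apply {n : ℕ} (h : Fin n → ℕ) (v : ℕ) (a : Fin n) (hv : v = a.val + 1) :
    ofFin h v = h a := by
  subst hv
  unfold ofFin
  have : a.val + 1 - 1 < n := by have := a.isLt; omega
  rw [dif_pos this]
  congr 1

/-- `HF` satisfies the laws. -/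
theorem GLaws_HF {q : K} {N : ℕ} {g : ℕ → K} (LI : TypeIStmt q N g) (LII : TypeIIStmt q N g) :
    Gen.GLaws q (fun n (h : Fin n → ℕ) => HF q N g n (ofFin h)) where
  typeI := by
    intro n h0 h1 h2 H0 H1 H2 i j k hk v0 v1 v2 o1 o2 heq
    have hi := (H0.2 i).1
    have hkn := k.isLt
    have hoff : ∀ (h' : Fin n → ℕ), (∀ a, a ≠ i → h' a = h0 a) → ∀ v, 1 ≤ v → v ≤ n →
        v ≠ i.val + 1 → ofFin h' v = ofFin h0 v := by
      intro h' ho v hv hvn hvi
      rw [ofFin_apply h' v ⟨v - 1, by omega⟩ (by simp only; omega),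
        ofFin_apply h0 v ⟨v - 1, by omega⟩ (by simp only; omega)]
      apply ho
      intro he
      rw [Fin.ext_iff] at he
      simp only at he
      omega
    apply LI n (ofFin h0) (ofFin h1) (ofFin h2) (Hs_ofFin H0) (Hs_ofFin H1) (Hs_ofFin H2)
      (i.val + 1) (j.val + 1) (by omega) (by omega) (by omega)
    · rw [ofFin_apply h0 _ i rfl, v0]; omega
    · rw [ofFin_apply h1 _ i rfl, v1]
    · rw [ofFin_apply h2 _ i rfl, v2]
    · exact hoff h1 o1
    · exact hoff h2 o2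
    · rw [ofFin_apply h0 _ j rfl, ofFin_apply h0 _ k (by omega), heq]
  typeII := by
    intro n h0 h1 h2 H0 H1 H2 j k i hk hki v0j v0k v1j v1k v2j v2k o1 o2 hl
    have hin := i.isLt
    have hki' : k.val < i.val := hki
    have hoff : ∀ (h' : Fin n → ℕ), (∀ a, a ≠ j → a ≠ k → h' a = h0 a) → ∀ v, 1 ≤ v → v ≤ n →
        v ≠ j.val + 1 → v ≠ j.val + 1 + 1 → ofFin h' v = ofFin h0 v := by
      intro h' ho v hv hvn hvi hvk
      rw [ofFin_apply h' v ⟨v - 1, by omega⟩ (by simp only; omega),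
        ofFin_apply h0 v ⟨v - 1, by omega⟩ (by simp only; omega)]
      apply ho
      · intro he
        rw [Fin.ext_iff] at he
        simp only at he
        omega
      · intro he
        rw [Fin.ext_iff] at he
        simp only at he
        omega
    apply LII n (ofFin h0) (ofFin h1) (ofFin h2) (Hs_ofFin H0) (Hs_ofFin H1) (Hs_ofFin H2)
      (j.val + 1) i.val (by omega) (by omega) (by omega)
    · rw [ofFin_apply h0 _ j rfl, v0j]
    · rw [ofFin_apply h0 _ k (by omega), v0k]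
    · rw [ofFin_apply h1 _ j rfl, v1j]
    · rw [ofFin_apply h1 _ k (by omega), v1k]
    · rw [ofFin_apply h2 _ j rfl, v2j]
    · rw [ofFin_apply h2 _ k (by omega), v2k]
    · exact hoff h1 o1
    · exact hoff h2 o2
    · intro v hv hvn _ _
      rw [ofFin_apply h0 v ⟨v - 1, by omega⟩ (by simp only; omega), ← hk]
      exact hl _
  cut := by
    intro m k h h1 h2 hm hk H H1 H2 e1 e2 hc
    apply HF_cut q N g m k (by omega) (ofFin h) (ofFin h1) (ofFin h2)
      (fun w hw hwn => (Hs_ofFin H).2 w hw hwn) (fun w hw hwn => (Hs_ofFin H).1 w hw hwn)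
    · have a1 := hc ⟨m - 1, by omega⟩
      have a2 := (H.2 (Fin.castAdd k ⟨m - 1, by omega⟩)).1
      rw [ofFin_apply h m (Fin.castAdd k ⟨m - 1, by omega⟩) (by simp only [Fin.val_castAdd]; omega)]
      simp only [Fin.val_castAdd] at a2
      omega
    · intro w hw hwm
      rw [ofFin_apply h1 w ⟨w - 1, by omega⟩ (by simp only; omega),
        ofFin_apply h w (Fin.castAdd k ⟨w - 1, by omega⟩) (by simp only [Fin.val_castAdd]; omega)]
      exact e1 _
    · intro w hw hwk
      rw [ofFin_apply h2 w ⟨w - 1, by omega⟩ (by simp only; omega),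
        ofFin_apply h (w + m) (Fin.natAdd m ⟨w - 1, by omega⟩)
          (by simp only [Fin.val_natAdd]; omega)]
      have := e2 ⟨w - 1, by omega⟩
      omega

/-- closing a colour beyond `N` gives zero. -/
theorem D_dl_big (N : ℕ) (g : ℕ → K) (a : K) (L0 : List ℕ) (x : ℕ) (hx : N < x) :
    D N g (dl a (L0 ++ [x])) = 0 := by
  funext L
  rw [D_apply]
  apply Finset.sum_eq_zero
  intro y hy
  rw [Finset.mem_range] at hy
  rw [dl_apply, if_neg, mul_zero]
  intro h
  have h1 := List.append_inj_right' h rfl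
  simp only [List.cons.injEq, and_true] at h1
  omega

theorem D_pow_dsc_big (N : ℕ) (g : ℕ → K) : ∀ (m k : ℕ) (a : K), k ≤ N → N < k + m →
    (D N g ^ m) (dl a (dsc k m)) = 0 := by
  intro m
  induction m with
  | zero => intro k a _ _; omega
  | succ m ih =>
    intro k a hk hN
    rw [pow_succ, Module.End.mul_apply, dsc_snoc]
    by_cases h : k + 1 ≤ N
    · rw [D_dl N g a _ (k + 1) h]
      exact ih (k + 1) _ h (by omega)
    · rw [D_dl_big N g a _ (k + 1) (by omega), map_zero]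

theorem HF_complete_big (q : K) (hq : ∀ m : ℕ, 0 < m → q ^ m ≠ 1) (N : ℕ) (g : ℕ → K) (n : ℕ)
    (hn : N < n) (H : ℕ → ℕ) (hH : ∀ v, 1 ≤ v → v ≤ n → H v = n) :
    HF q N g n H = 0 := by
  unfold HF
  rw [tail_complete q N g n (extH n H)]
  · rw [Module.End.mul_apply, U_pow_vac q hq, D_pow_dsc_big N g n 0 _ (by omega) (by omega)]
    rfl
  · intro v hv
    unfold extH
    rw [if_neg (by omega)]
    split_ifs with h
    · exact hH v hv h
    · rfl
  · simp [extH]

/-- Hikita's weights `g m = [m] e_m / ([m-1] e_{m-1})` for given `e`. -/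
def gE (q : K) (e : ℕ → K) : ℕ → K
  | 0 => 0
  | m + 1 => bp q (m + 1) * e (m + 1) / (bp q m * e m)

theorem esymm_ne_zero {N m : ℕ} (h : m ≤ N) :
    MvPolynomial.esymm (Fin N) (Polynomial ℤ) m ≠ 0 := by
  intro h0
  have h1 := congrArg (MvPolynomial.eval (fun _ : Fin N => (1 : Polynomial ℤ))) h0
  rw [MvPolynomial.esymm, map_sum, map_zero] at h1
  simp only [map_prod, MvPolynomial.eval_X, Finset.prod_const_one, Finset.sum_const,
    Finset.card_powersetCard, Finset.card_univ, Fintype.card_fin, nsmul_eq_mul, mul_one] at h1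
  have h2 : N.choose m = 0 := by exact_mod_cast h1
  have := Nat.choose_pos h
  omega

theorem esymm_eq_zero {N m : ℕ} (h : N < m) :
    MvPolynomial.esymm (Fin N) (Polynomial ℤ) m = 0 := by
  unfold MvPolynomial.esymm
  rw [Finset.powersetCard_eq_empty.2, Finset.sum_empty]
  rw [Finset.card_univ, Fintype.card_fin]
  exact h

section phi

variable {N : ℕ} (φ : MvPolynomial (Fin N) (Polynomial ℤ) →+* K)

/-- the parameter `q` in `K`. -/
noncomputable def qφ : K := φ (MvPolynomial.C Polynomial.X)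

/-- the weights. -/
noncomputable def gφ : ℕ → K := gE (qφ φ) (fun m => φ (MvPolynomial.esymm (Fin N) (Polynomial ℤ) m))

variable (hφ : Function.Injective φ)

theorem gφ_zero : gφ φ 0 = 0 := rfl

include hφ

theorem qφ_ne_zero : qφ φ ≠ 0 := by
  intro h
  have h1 : MvPolynomial.C (σ := Fin N) (Polynomial.X : Polynomial ℤ) = 0 := by
    apply hφ
    rw [map_zero]
    exact h
  rw [MvPolynomial.C_eq_zero] at h1
  exact Polynomial.X_ne_zero h1

theorem qφ_pow_ne : ∀ m : ℕ, 0 < m → qφ φ ^ m ≠ 1 := by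
  intro m hm h
  have h1 : MvPolynomial.C (σ := Fin N) ((Polynomial.X : Polynomial ℤ) ^ m) =
      MvPolynomial.C 1 := by
    apply hφ
    rw [map_pow, map_pow, map_one, map_one]
    exact h
  have h2 := MvPolynomial.C_injective _ _ h1
  have h3 := congrArg Polynomial.natDegree h2
  rw [Polynomial.natDegree_X_pow, Polynomial.natDegree_one] at h3
  omega

theorem gφ_one : gφ φ 1 = φ (MvPolynomial.esymm (Fin N) (Polynomial ℤ) 1) := by
  have h0 := bp_mul (qφ φ) (qφ_pow_ne φ hφ) 0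
  have h1 : bp (qφ φ) (0 + 1) = 1 := by
    rw [← h0]
    simp [ff, bp]
  have h2 : gφ φ 1 = bp (qφ φ) (0 + 1) * φ (MvPolynomial.esymm (Fin N) (Polynomial ℤ) (0 + 1)) /
      (bp (qφ φ) 0 * φ (MvPolynomial.esymm (Fin N) (Polynomial ℤ) 0)) := rfl
  rw [h2, h1]
  simp [bp]

omit hφ in
theorem gφ_succ (m : ℕ) (hm : 2 ≤ m) : gφ φ m =
    br (qφ φ) (m : ℤ) * φ (MvPolynomial.esymm (Fin N) (Polynomial ℤ) m) /
      (br (qφ φ) ((m : ℤ) - 1) * φ (MvPolynomial.esymm (Fin N) (Polynomial ℤ) (m - 1))) := by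
  obtain ⟨k, rfl⟩ : ∃ k, m = k + 1 := ⟨m - 1, by omega⟩
  have h2 : gφ φ (k + 1) = bp (qφ φ) (k + 1) *
      φ (MvPolynomial.esymm (Fin N) (Polynomial ℤ) (k + 1)) /
      (bp (qφ φ) k * φ (MvPolynomial.esymm (Fin N) (Polynomial ℤ) k)) := rfl
  rw [h2]
  unfold bp
  rw [if_neg (by omega), if_neg (by omega)]
  simp only [Nat.cast_add, Nat.cast_one, add_sub_cancel_right, Nat.add_sub_cancel]

/-- Hikita's theorem, from the two laws. -/
theorem hikita_of (LI : TypeIStmt (qφ φ) N (gφ φ)) (LII : TypeIIStmt (qφ φ) N (gφ φ))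
    (n : ℕ) (h : Fin n → ℕ) (hh : IsHessenberg h) :
    HF (qφ φ) N (gφ φ) n (ofFin h) = φ (chromaticQSym h N) := by
  have hq := qφ_pow_ne φ hφ
  have hq1 : qφ φ ≠ 1 := by
    have := hq 1 one_pos
    rwa [pow_one] at this
  refine Gen.eq_chromatic_of_GLaws (Gen.qz_ne_of_pow_ne (fun m hm => hq m hm)) φ rfl
    (GLaws_HF LI LII) ?_ n h hh
  intro n h hn
  have hH : ∀ v, 1 ≤ v → v ≤ n → ofFin h v = n := by
    intro v hv hvn
    rw [ofFin_apply h v ⟨v - 1, by omega⟩ (by simp only; omega)]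
    exact hn _
  by_cases hnN : n ≤ N
  · rw [HF_complete' (qφ φ) hq N (gφ φ)
      (fun m => φ (MvPolynomial.esymm (Fin N) (Polynomial ℤ) m)) n hnN (ofFin h) hH]
    · congr 1
      apply Finset.prod_congr rfl
      intro i _
      have := br_nat (qφ φ) hq1 (i + 1)
      rw [Gen.qz, ← this]
      push_cast
      rfl
    · simp
    · intro m hm h0
      exact esymm_ne_zero (hm.trans hnN) (hφ (by rw [h0, map_zero]))
    · intro m
      rfl
  · rw [HF_complete_big (qφ φ) hq N (gφ φ) n (by omega) (ofFin h) hH,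
      esymm_eq_zero (by omega), map_zero, mul_zero]

end phi

end Crest.Agent.R059.Hik
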