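import Crest.Agent.R059.HikMain
import Crest.Agent.R059.HikThm
import Crest.Agent.R059.HikSum
import Crest.Agent.R059.Coeffs

set_option autoImplicit false

open Crest.CombinatoricsR.UnitInterval

namespace Crest.Agent.R059.Hik

open Crest.Agent.R059

variable {K : Type} [Field K] {N : ℕ} (φ : MvPolynomial (Fin N) (Polynomial ℤ) →+* K)
  (hφ : Function.Injective φ)

include hφ

/-- **Hikita's theorem** (with `q`): the chromatic quasisymmetric function of a unit interval
graph is the vacuum coefficient of its word in the operators `U` (add) and `D` (close). -/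
theorem hikita (n : ℕ) (h : Fin n → ℕ) (hh : IsHessenberg h) :
    HF (qφ φ) N (gφ φ) n (ofFin h) = φ (chromaticQSym h N) :=
  hikita_of φ hφ
    (fun n H0 H1 H2 s0 s1 s2 i j hi hij hj h0 h1 h2 e1 e2 hjk =>
      HF_typeI (qφ_ne_zero φ hφ) (qφ_pow_ne φ hφ) N (gφ φ) n H0 H1 H2 s0 s1 s2 i j hi hij hj
        h0 h1 h2 e1 e2 hjk)
    (fun n H0 H1 H2 s0 s1 s2 t b ht htb hb a0 b0 a1 b1 a2 b2 e1 e2 hv =>
      HF_typeII (qφ_ne_zero φ hφ) (qφ_pow_ne φ hφ) N (gφ φ) n H0 H1 H2 s0 s1 s2 t b ht htb hb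
        a0 b0 a1 b1 a2 b2 e1 e2 hv)
    n h hh

/-- Hikita's theorem as an explicit sum over admissible colourings. -/
theorem hikita_sum (n : ℕ) (h : Fin n → ℕ) (hh : IsHessenberg h) :
    φ (chromaticQSym h N) = ∑ c : Fin n → Fin (N + 1),
      if (∀ a, (c a).val = 1 ∨ ∃ b, a < b ∧ b.val + 1 ≤ h a ∧ (c a).val = (c b).val + 1) then
        (∏ p ∈ edges h, ff (qφ φ) (((c p.1).val : ℤ) - ((c p.2).val : ℤ))) *
          ∏ a, gφ φ (c a).val
      else 0 := by
  rw [← hikita φ hφ n h hh, HF_eq_sum]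
  exact hh

end Crest.Agent.R059.Hik
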