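import Crest.Agent.R059.Hik

set_option autoImplicit false

namespace Crest.Agent.R059

/-! Identities of the Hikita edge function `f d = [d]/[d-1]`, `f 1 = 1`, over a field. -/

section

variable {K : Type*} [Field K] {q : K} {f : ℤ → K}

/-- the edge function. -/
def hikf (q : K) (d : ℤ) : K := if d = 1 then 1 else (1 - q ^ d) / (1 - q ^ (d - 1))

/-- description of the edge function (any `f` with these values). -/
structure IsHikF (q : K) (f : ℤ → K) : Prop where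
  q0 : q ≠ 0
  q1 : ∀ m : ℕ, 0 < m → q ^ m ≠ 1
  one : f 1 = 1
  ne : ∀ d : ℤ, d ≠ 1 → f d = (1 - q ^ d) / (1 - q ^ (d - 1))

theorem isHikF_hikf (q0 : q ≠ 0) (q1 : ∀ m : ℕ, 0 < m → q ^ m ≠ 1) : IsHikF q (hikf q) where
  q0 := q0
  q1 := q1
  one := by simp [hikf]
  ne := fun d hd => by simp [hikf, hd]

namespace IsHikF

theorem zne (F : IsHikF q f) {d : ℤ} (hd : d ≠ 0) : q ^ d ≠ 1 := by
  rcases Int.lt_or_gt_of_ne hd with h | h
  · obtain ⟨m, hm⟩ : ∃ m : ℕ, d = -(m : ℤ) := ⟨d.natAbs, by omega⟩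
    intro h1
    rw [hm, zpow_neg, zpow_natCast, inv_eq_one] at h1
    exact F.q1 m (by omega) h1
  · obtain ⟨m, hm⟩ : ∃ m : ℕ, d = (m : ℤ) := ⟨d.natAbs, by omega⟩
    rw [hm, zpow_natCast]
    exact F.q1 m (by omega)

theorem q_ne_one (F : IsHikF q f) : q ≠ 1 := by
  have := F.q1 1 (by norm_num)
  rwa [pow_one] at this

theorem one_add_ne (F : IsHikF q f) : (1 : K) + q ≠ 0 := by
  intro h
  apply F.q1 2 (by norm_num)
  have h2 : q ^ 2 - 1 = (q - 1) * (1 + q) := by ring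
  have : q ^ 2 - 1 = 0 := by rw [h2, h, mul_zero]
  exact sub_eq_zero.1 this

/-- value in terms of `x = q ^ d`. -/
theorem val (F : IsHikF q f) {d : ℤ} (hd : d ≠ 1) :
    f d = q * (1 - q ^ d) / (q - q ^ d) := by
  have h0 := F.q0
  have hx : q ^ d ≠ q := by
    intro h
    apply F.zne (d := d - 1) (by omega)
    rw [zpow_sub_one₀ h0, h, mul_inv_cancel₀ h0]
  rw [F.ne d hd, zpow_sub_one₀ h0]
  have h1 : q - q ^ d ≠ 0 := fun h => hx (sub_eq_zero.1 h).symm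
  have h2 : 1 - q ^ d * q⁻¹ ≠ 0 := by
    intro h
    apply h1
    have : q * (1 - q ^ d * q⁻¹) = q - q ^ d := by
      field_simp
    rw [← this, h, mul_zero]
  rw [div_eq_div_iff h2 h1]
  field_simp

theorem x_ne_q (F : IsHikF q f) {d : ℤ} (hd : d ≠ 1) : q - q ^ d ≠ 0 := by
  intro h
  apply F.zne (d := d - 1) (by omega)
  rw [zpow_sub_one₀ F.q0, ← sub_eq_zero.1 h, mul_inv_cancel₀ F.q0]

theorem x_ne_one (F : IsHikF q f) {d : ℤ} (hd : d ≠ 0) : 1 - q ^ d ≠ 0 := by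
  intro h
  exact F.zne hd (sub_eq_zero.1 h).symm

theorem zero (F : IsHikF q f) : f 0 = 0 := by
  rw [F.val (by norm_num)]
  simp

theorem two (F : IsHikF q f) : f 2 = 1 + q := by
  rw [F.val (by norm_num)]
  have h := F.x_ne_q (d := 2) (by norm_num)
  rw [div_eq_iff h]
  have : q ^ (2 : ℤ) = q ^ 2 := by norm_cast
  rw [this]
  ring

theorem neg_one (F : IsHikF q f) : (1 + q) * f (-1) = q := by
  rw [F.val (by norm_num)]
  have h := F.x_ne_q (d := -1) (by norm_num)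
  have h0 := F.q0
  have : q ^ (-1 : ℤ) = q⁻¹ := zpow_neg_one q
  rw [this] at h ⊢
  rw [mul_div_assoc', div_eq_iff h]
  field_simp
  ring

/-- `f (-d)` -/
theorem val_neg (F : IsHikF q f) {d : ℤ} (hd : d ≠ -1) :
    f (-d) = q * (1 - q ^ d) / (1 - q * q ^ d) := by
  have h0 := F.q0
  rw [F.val (by omega)]
  have h := F.x_ne_q (d := -d) (by omega)
  have hx : q ^ d ≠ 0 := zpow_ne_zero _ h0
  rw [zpow_neg] at h ⊢
  have h2 : 1 - q * q ^ d ≠ 0 := by
    intro h3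
    apply h
    have h4 : q * q ^ d = 1 := (sub_eq_zero.1 h3).symm
    have h5 : (q ^ d)⁻¹ = q := inv_eq_of_mul_eq_one_left h4
    rw [h5, sub_self]
  rw [div_eq_div_iff h h2]
  field_simp
  ring

theorem qx_ne_one (F : IsHikF q f) {d : ℤ} (hd : d ≠ -1) : 1 - q * q ^ d ≠ 0 := by
  have h := F.x_ne_one (d := d + 1) (by omega)
  rw [zpow_add_one₀ F.q0] at h
  rwa [mul_comm]

theorem val_succ (F : IsHikF q f) {d : ℤ} (hd : d ≠ 0) :
    f (d + 1) = (1 - q * q ^ d) / (1 - q ^ d) := by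
  have h0 := F.q0
  rw [F.val (by omega), zpow_add_one₀ h0]
  have h := F.x_ne_one hd
  have h2 : q - q ^ d * q ≠ 0 := by
    intro h3
    apply h
    have : q * (1 - q ^ d) = 0 := by rw [← h3]; ring
    rcases mul_eq_zero.1 this with h4 | h4
    · exact absurd h4 h0
    · exact h4
  rw [div_eq_div_iff h2 h]
  ring

theorem shift (F : IsHikF q f) {d : ℤ} (hd0 : d ≠ 0) (hd1 : d ≠ 1) :
    (1 + q) * f d = q + f d * f (d + 1) := by
  rw [F.val hd1, F.val_succ hd0]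
  have h1 := F.x_ne_q hd1
  have h2 := F.x_ne_one hd0
  field_simp
  ring

theorem pair (F : IsHikF q f) {d : ℤ} (hd1 : d ≠ 1) (hdm : d ≠ -1) :
    (1 + q) * f d = (f d + f (-d)) * f (d + 1) := by
  by_cases hd0 : d = 0
  · subst hd0
    rw [neg_zero, F.zero]
    simp
  rw [F.val_neg hdm, F.val hd1, F.val_succ hd0]
  have h1 := F.x_ne_q hd1
  have h2 := F.x_ne_one hd0
  have h3 := F.qx_ne_one hdm
  field_simp
  ring

theorem prod (F : IsHikF q f) {d : ℤ} (hd1 : d ≠ 1) (hdm : d ≠ -1) :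
    (1 + q) * f d * f (-d) = q * (f d + f (-d)) := by
  rw [F.val_neg hdm, F.val hd1]
  have h1 := F.x_ne_q hd1
  have h3 := F.qx_ne_one hdm
  field_simp
  ring

theorem gen (F : IsHikF q f) {u w : ℤ} (hu : u ≠ 1) (hw : w ≠ 1) (h1 : u - w ≠ 1)
    (h2 : w - u ≠ 1) :
    (1 + q) * (f (u - w) * f w + f (w - u) * f u) =
      (f (u - w) + f (w - u)) * (q + f u * f w) := by
  have h0 := F.q0
  have e1 : w - u = -(u - w) := by ring
  rw [e1, F.val_neg (d := u - w) (by omega), F.val h1, F.val hu, F.val hw]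
  have a1 := F.x_ne_q hu
  have a2 := F.x_ne_q hw
  have a3 := F.x_ne_q h1
  have a4 := F.qx_ne_one (d := u - w) (by omega)
  have hx : q ^ (u - w) = q ^ u / q ^ w := zpow_sub₀ h0 u w
  have hy : q ^ w ≠ 0 := zpow_ne_zero _ h0
  rw [hx] at a3 a4 ⊢
  generalize q ^ u = x at *
  generalize q ^ w = y at *
  have b3 : q * y - x ≠ 0 := by
    intro h
    apply a3
    have : q - x / y = (q * y - x) / y := by field_simp
    rw [this, h, zero_div]
  have b4 : y - q * x ≠ 0 := by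
    intro h
    apply a4
    have : 1 - q * (x / y) = (y - q * x) / y := by field_simp
    rw [this, h, zero_div]
  have c3 : q * (1 - x / y) / (q - x / y) = q * (y - x) / (q * y - x) := by
    rw [div_eq_div_iff a3 b3]
    field_simp
  have c4 : q * (1 - x / y) / (1 - q * (x / y)) = q * (y - x) / (y - q * x) := by
    rw [div_eq_div_iff a4 b4]
    field_simp
  rw [c3, c4]
  field_simp
  ring

end IsHikF

end

namespace HikId

open Hik

variable {K : Type} [Field K] {q : K}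

theorem isHikF_ff (q0 : q ≠ 0) (q1 : ∀ m : ℕ, 0 < m → q ^ m ≠ 1) : IsHikF q (ff q) where
  q0 := q0
  q1 := q1
  one := by simp [ff]
  ne := fun d hd => by
    have h1 : (1 : K) - q ≠ 0 := by
      intro h
      apply q1 1 (by norm_num)
      rw [pow_one]
      exact (sub_eq_zero.1 h).symm
    simp only [ff, if_neg hd, br]
    rw [div_div_div_cancel_right₀ h1]

theorem one_add_q_ne (q0 : q ≠ 0) (q1 : ∀ m : ℕ, 0 < m → q ^ m ≠ 1) : (1 : K) + q ≠ 0 :=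
  (isHikF_ff q0 q1).one_add_ne

theorem one_sub_q_ne (q1 : ∀ m : ℕ, 0 < m → q ^ m ≠ 1) : (1 : K) - q ≠ 0 := by
  intro h
  apply q1 1 (by norm_num)
  rw [pow_one]
  exact (sub_eq_zero.1 h).symm

theorem br_ne (q0 : q ≠ 0) (q1 : ∀ m : ℕ, 0 < m → q ^ m ≠ 1) {d : ℤ} (hd : d ≠ 0) :
    br q d ≠ 0 :=
  div_ne_zero ((isHikF_ff q0 q1).x_ne_one hd) (one_sub_q_ne q1)

theorem ff_zero (q0 : q ≠ 0) (q1 : ∀ m : ℕ, 0 < m → q ^ m ≠ 1) : ff q 0 = 0 :=
  (isHikF_ff q0 q1).zero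

theorem ff_one : ff q 1 = 1 := by simp [ff]

theorem ff_two (q0 : q ≠ 0) (q1 : ∀ m : ℕ, 0 < m → q ^ m ≠ 1) : ff q 2 = 1 + q :=
  (isHikF_ff q0 q1).two

theorem ff_neg_one (q0 : q ≠ 0) (q1 : ∀ m : ℕ, 0 < m → q ^ m ≠ 1) : (1 + q) * ff q (-1) = q :=
  (isHikF_ff q0 q1).neg_one

theorem ff_ne_zero (q0 : q ≠ 0) (q1 : ∀ m : ℕ, 0 < m → q ^ m ≠ 1) {d : ℤ} (hd : d ≠ 0) :
    ff q d ≠ 0 := by
  unfold ff
  split_ifs with h
  · exact one_ne_zero
  · exact div_ne_zero (br_ne q0 q1 hd) (br_ne q0 q1 (by omega))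

theorem ff_add_neg (q0 : q ≠ 0) (q1 : ∀ m : ℕ, 0 < m → q ^ m ≠ 1) {d : ℤ} (hd1 : d ≠ 1)
    (hdm : d ≠ -1) :
    ff q d + ff q (-d) = (1 + q) * br q d ^ 2 / (br q (d - 1) * br q (d + 1)) := by
  have F := isHikF_ff q0 q1
  rw [F.val_neg hdm, F.val hd1]
  have h1 := F.x_ne_q hd1
  have h3 := F.qx_ne_one hdm
  have h4 := one_sub_q_ne q1
  have h5 : (1 : K) - q ^ d / q ≠ 0 := by
    intro h
    apply h1
    have : q - q ^ d = q * (1 - q ^ d / q) := by field_simp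
    rw [this, h, mul_zero]
  unfold br
  rw [zpow_sub_one₀ q0, zpow_add_one₀ q0, ← div_eq_mul_inv]
  have h6 : (1 : K) - q ^ d * q ≠ 0 := by rwa [mul_comm]
  have h7 : (1 - q ^ d / q) = (q - q ^ d) / q := by field_simp
  rw [h7]
  field_simp
  ring

theorem ff_pair (q0 : q ≠ 0) (q1 : ∀ m : ℕ, 0 < m → q ^ m ≠ 1) {d : ℤ} (hd1 : d ≠ 1)
    (hdm : d ≠ -1) : (1 + q) * ff q d = (ff q d + ff q (-d)) * ff q (d + 1) :=
  (isHikF_ff q0 q1).pair hd1 hdm

theorem ff_prod (q0 : q ≠ 0) (q1 : ∀ m : ℕ, 0 < m → q ^ m ≠ 1) {d : ℤ} (hd1 : d ≠ 1)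
    (hdm : d ≠ -1) : (1 + q) * ff q d * ff q (-d) = q * (ff q d + ff q (-d)) :=
  (isHikF_ff q0 q1).prod hd1 hdm

theorem ff_shift (q0 : q ≠ 0) (q1 : ∀ m : ℕ, 0 < m → q ^ m ≠ 1) {d : ℤ} (hd0 : d ≠ 0)
    (hd1 : d ≠ 1) : (1 + q) * ff q d = q + ff q d * ff q (d + 1) :=
  (isHikF_ff q0 q1).shift hd0 hd1

theorem ff_shift' (q0 : q ≠ 0) (q1 : ∀ m : ℕ, 0 < m → q ^ m ≠ 1) {d : ℤ} (hd0 : d ≠ 1)
    (hd1 : d ≠ 2) : (1 + q) * ff q (d - 1) = q + ff q (d - 1) * ff q d := by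
  have := ff_shift q0 q1 (d := d - 1) (by omega) (by omega)
  rwa [sub_add_cancel] at this

theorem ff_gen (q0 : q ≠ 0) (q1 : ∀ m : ℕ, 0 < m → q ^ m ≠ 1) {a b x : ℤ} (h1 : a - b ≠ 1)
    (h2 : b - a ≠ 1) (h3 : x - a ≠ 1) (h4 : x - b ≠ 1) :
    (1 + q) * (ff q (a - b) * ff q (x - a) + ff q (b - a) * ff q (x - b)) =
      (ff q (a - b) + ff q (b - a)) * (q + ff q (x - a) * ff q (x - b)) := by
  have := (isHikF_ff q0 q1).gen (u := x - b) (w := x - a) h4 h3 (by omega) (by omega)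
  rw [show x - b - (x - a) = a - b by ring, show x - a - (x - b) = b - a by ring] at this
  rw [this, mul_comm (ff q (x - b))]

theorem ff_gen' (q0 : q ≠ 0) (q1 : ∀ m : ℕ, 0 < m → q ^ m ≠ 1) {a b x : ℤ} (h1 : a - b ≠ 1)
    (h2 : b - a ≠ 1) (h3 : a - x ≠ 1) (h4 : b - x ≠ 1) :
    (1 + q) * (ff q (a - b) * ff q (b - x) + ff q (b - a) * ff q (a - x)) =
      (ff q (a - b) + ff q (b - a)) * (q + ff q (a - x) * ff q (b - x)) := by
  have := (isHikF_ff q0 q1).gen (u := a - x) (w := b - x) h3 h4 (by omega) (by omega)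
  rwa [show a - x - (b - x) = a - b by ring, show b - x - (a - x) = b - a by ring] at this

end HikId

end Crest.Agent.R059
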