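import Crest.Agent.R059.Hik

set_option autoImplicit false

namespace Crest.Agent.R059.Hik

variable {K : Type} [Field K]

theorem qz_ne {q : K} (hq : ∀ m : ℕ, 0 < m → q ^ m ≠ 1) (d : ℤ) (hd : d ≠ 0) :
    q ^ d ≠ 1 := by
  rcases Int.lt_or_gt_of_ne hd with h | h
  · obtain ⟨m, hm⟩ : ∃ m : ℕ, d = - (m : ℤ) := ⟨d.natAbs, by omega⟩
    subst hm
    rw [zpow_neg, zpow_natCast]
    intro h1
    exact hq m (by omega) (inv_eq_one.mp h1)
  · obtain ⟨m, rfl⟩ : ∃ m : ℕ, d = (m : ℤ) := ⟨d.natAbs, by omega⟩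
    rw [zpow_natCast]
    exact hq m (by omega)

theorem ff_one (q : K) : ff q 1 = 1 := by simp [ff]

theorem ff_zero (q : K) : ff q 0 = 0 := by simp [ff, br]

/-- `ff` in terms of the powers. -/
theorem ff_sub {q : K} (hq0 : q ≠ 0) (hq : ∀ m : ℕ, 0 < m → q ^ m ≠ 1) (a b : ℤ)
    (h : a - b ≠ 1) :
    ff q (a - b) = q * (q ^ b - q ^ a) / (q * q ^ b - q ^ a) ∧ q * q ^ b - q ^ a ≠ 0 := by
  have h1 : (1 : K) - q ≠ 0 := by
    have := hq 1 one_pos
    rw [pow_one] at this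
    exact sub_ne_zero.mpr (Ne.symm this)
  have hb : q ^ b ≠ 0 := zpow_ne_zero _ hq0
  have ha : q ^ a ≠ 0 := zpow_ne_zero _ hq0
  have h2 : (1 : K) - q ^ (a - b - 1) ≠ 0 :=
    sub_ne_zero.mpr (Ne.symm (qz_ne hq (a - b - 1) (by omega)))
  have e1 : q ^ (a - b) = q ^ a / q ^ b := zpow_sub₀ hq0 a b
  have e2 : q ^ (a - b - 1) = q ^ a / (q ^ b * q) := by
    rw [zpow_sub₀ hq0, zpow_sub₀ hq0, zpow_one, div_div]
  have h3 : q * q ^ b - q ^ a ≠ 0 := by
    intro h
    apply h2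
    rw [e2]
    have : q ^ a = q * q ^ b := (sub_eq_zero.mp h).symm
    rw [this]
    field_simp
    ring
  refine ⟨?_, h3⟩
  unfold ff br
  rw [if_neg h, div_div_div_cancel_right₀ h1, e1]
  rw [div_eq_div_iff h2 h3, e2]
  field_simp

theorem ff_ne_zero {q : K} (hq0 : q ≠ 0) (hq : ∀ m : ℕ, 0 < m → q ^ m ≠ 1) (d : ℤ)
    (hd : d ≠ 0) : ff q d ≠ 0 := by
  by_cases h1 : d = 1
  · rw [h1, ff_one]; exact one_ne_zero
  · have h := ff_sub hq0 hq d 0 (by simpa using h1)
    rw [sub_zero] at h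
    rw [h.1]
    apply div_ne_zero _ h.2
    apply mul_ne_zero hq0
    rw [zpow_zero]
    exact sub_ne_zero.mpr (Ne.symm (qz_ne hq d hd))

theorem one_add_q_ne {q : K} (hq : ∀ m : ℕ, 0 < m → q ^ m ≠ 1) : (1 : K) + q ≠ 0 := by
  intro h
  apply hq 2 two_pos
  have : q = -1 := by linear_combination h
  rw [this]
  ring

theorem ff_two {q : K} (hq : ∀ m : ℕ, 0 < m → q ^ m ≠ 1) : ff q 2 = 1 + q := by
  have h1 : (1 : K) - q ≠ 0 := by
    have := hq 1 one_pos
    rw [pow_one] at this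
    exact sub_ne_zero.mpr (Ne.symm this)
  unfold ff br
  rw [if_neg (by norm_num), show (2 : ℤ) - 1 = 1 by norm_num, zpow_one, div_self h1, div_one,
    show (2 : ℤ) = ((2 : ℕ) : ℤ) by norm_num, zpow_natCast]
  rw [div_eq_iff h1]
  ring

/-- the generic identity, right end. -/
theorem id_gen {q : K} (hq0 : q ≠ 0) (hq : ∀ m : ℕ, 0 < m → q ^ m ≠ 1) (a b x : ℤ)
    (h1 : a - b ≠ 1) (h2 : b - a ≠ 1) (h3 : x - a ≠ 1) (h4 : x - b ≠ 1) :
    (1 + q) * (ff q (a - b) * ff q (x - a) + ff q (b - a) * ff q (x - b)) =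
      (ff q (a - b) + ff q (b - a)) * (q + ff q (x - a) * ff q (x - b)) := by
  obtain ⟨e1, n1⟩ := ff_sub hq0 hq a b h1
  obtain ⟨e2, n2⟩ := ff_sub hq0 hq b a h2
  obtain ⟨e3, n3⟩ := ff_sub hq0 hq x a h3
  obtain ⟨e4, n4⟩ := ff_sub hq0 hq x b h4
  rw [e1, e2, e3, e4]
  field_simp
  ring

/-- the generic identity, left end. -/
theorem id_gen' {q : K} (hq0 : q ≠ 0) (hq : ∀ m : ℕ, 0 < m → q ^ m ≠ 1) (a b x : ℤ)
    (h1 : a - b ≠ 1) (h2 : b - a ≠ 1) (h3 : a - x ≠ 1) (h4 : b - x ≠ 1) :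
    (1 + q) * (ff q (a - b) * ff q (b - x) + ff q (b - a) * ff q (a - x)) =
      (ff q (a - b) + ff q (b - a)) * (q + ff q (a - x) * ff q (b - x)) := by
  obtain ⟨e1, n1⟩ := ff_sub hq0 hq a b h1
  obtain ⟨e2, n2⟩ := ff_sub hq0 hq b a h2
  obtain ⟨e3, n3⟩ := ff_sub hq0 hq a x h3
  obtain ⟨e4, n4⟩ := ff_sub hq0 hq b x h4
  rw [e1, e2, e3, e4]
  field_simp
  ring

/-- `(1+q) f(a-b) = (f(a-b) + f(b-a)) f(a+1-b)`. -/
theorem id_up {q : K} (hq0 : q ≠ 0) (hq : ∀ m : ℕ, 0 < m → q ^ m ≠ 1) (a b : ℤ)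
    (h0 : a ≠ b) (h1 : a - b ≠ 1) (h2 : b - a ≠ 1) :
    (1 + q) * ff q (a - b) = (ff q (a - b) + ff q (b - a)) * ff q (a + 1 - b) := by
  obtain ⟨e1, n1⟩ := ff_sub hq0 hq a b h1
  obtain ⟨e2, n2⟩ := ff_sub hq0 hq b a h2
  obtain ⟨e3, n3⟩ := ff_sub hq0 hq (a + 1) b (by omega)
  have hA : q ^ (a + 1) = q ^ a * q := by rw [zpow_add₀ hq0, zpow_one]
  have n3' : q ^ b - q ^ a ≠ 0 := by
    intro h
    apply n3
    rw [hA]
    linear_combination q * h
  rw [hA] at e3 n3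
  have e3' : ff q (a + 1 - b) = (q ^ b - q ^ a * q) / (q ^ b - q ^ a) := by
    rw [e3]
    rw [div_eq_div_iff n3 n3']
    ring
  rw [e1, e2, e3']
  field_simp
  ring

/-- `(1+q) f(d-1) = q + f(d-1) f(d)`, `d = x - b`. -/
theorem id_near {q : K} (hq0 : q ≠ 0) (hq : ∀ m : ℕ, 0 < m → q ^ m ≠ 1) (x b : ℤ)
    (h1 : x - b ≠ 1) (h2 : x - b ≠ 2) :
    (1 + q) * ff q (x - (b + 1)) = q + ff q (x - (b + 1)) * ff q (x - b) := by
  obtain ⟨e1, n1⟩ := ff_sub hq0 hq x b h1
  obtain ⟨e2, n2⟩ := ff_sub hq0 hq x (b + 1) (by omega)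
  have hB : q ^ (b + 1) = q ^ b * q := by rw [zpow_add₀ hq0, zpow_one]
  rw [hB] at e2 n2
  rw [e1, e2]
  have n2' : q ^ 2 * q ^ b - q ^ x ≠ 0 := by
    intro h
    apply n2
    linear_combination h
  field_simp
  ring

/-- `(1+q) f(d) f(-d) = q (f(d) + f(-d))`, `d = a - b`. -/
theorem id_mul {q : K} (hq0 : q ≠ 0) (hq : ∀ m : ℕ, 0 < m → q ^ m ≠ 1) (a b : ℤ)
    (h1 : a - b ≠ 1) (h2 : b - a ≠ 1) :
    (1 + q) * (ff q (a - b) * ff q (b - a)) = q * (ff q (a - b) + ff q (b - a)) := by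
  obtain ⟨e1, n1⟩ := ff_sub hq0 hq a b h1
  obtain ⟨e2, n2⟩ := ff_sub hq0 hq b a h2
  rw [e1, e2]
  field_simp
  ring

/-! ### type I -/

theorem co_append_one (q : K) (x y : ℕ) (L : List ℕ) :
    co q x (L ++ [y]) = if (x = 1 ∨ ∃ t ∈ L, x = t + 1) ∨ x = y + 1 then
      (L.map fun t : ℕ => ff q ((x : ℤ) - (t : ℤ))).prod * ff q ((x : ℤ) - y) else 0 := by
  unfold co
  have : (x = 1 ∨ ∃ t ∈ L ++ [y], x = t + 1) ↔ ((x = 1 ∨ ∃ t ∈ L, x = t + 1) ∨ x = y + 1) := by
    simp only [List.mem_append, List.mem_singleton]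
    constructor
    · rintro (h | ⟨t, ht | ht, h⟩)
      · exact Or.inl (Or.inl h)
      · exact Or.inl (Or.inr ⟨t, ht, h⟩)
      · exact Or.inr (ht ▸ h)
    · rintro ((h | ⟨t, ht, h⟩) | h)
      · exact Or.inl h
      · exact Or.inr ⟨t, Or.inl ht, h⟩
      · exact Or.inr ⟨y, Or.inr rfl, h⟩
  simp only [this, List.map_append, List.prod_append, List.map_cons, List.map_nil,
    List.prod_cons, List.prod_nil, mul_one]

theorem co_append_two (q : K) (x y z : ℕ) (L : List ℕ) :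
    co q x (L ++ [y, z]) = if (x = 1 ∨ ∃ t ∈ L, x = t + 1) ∨ x = y + 1 ∨ x = z + 1 then
      (L.map fun t : ℕ => ff q ((x : ℤ) - (t : ℤ))).prod *
        (ff q ((x : ℤ) - y) * ff q ((x : ℤ) - z)) else 0 := by
  have e : L ++ [y, z] = (L ++ [y]) ++ [z] := by simp
  rw [e, co_append_one]
  have : ((x = 1 ∨ ∃ t ∈ L ++ [y], x = t + 1) ∨ x = z + 1) ↔
      ((x = 1 ∨ ∃ t ∈ L, x = t + 1) ∨ x = y + 1 ∨ x = z + 1) := by
    simp only [List.mem_append, List.mem_singleton]
    constructor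
    · rintro ((h | ⟨t, ht | ht, h⟩) | h)
      · exact Or.inl (Or.inl h)
      · exact Or.inl (Or.inr ⟨t, ht, h⟩)
      · exact Or.inr (Or.inl (ht ▸ h))
      · exact Or.inr (Or.inr h)
    · rintro ((h | ⟨t, ht, h⟩) | h | h)
      · exact Or.inl (Or.inl h)
      · exact Or.inl (Or.inr ⟨t, Or.inl ht, h⟩)
      · exact Or.inl (Or.inr ⟨y, Or.inr rfl, h⟩)
      · exact Or.inr h
  simp only [this, List.map_append, List.prod_append, List.map_cons, List.map_nil,
    List.prod_cons, List.prod_nil, mul_one, mul_assoc]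

/-- pointwise form of the type I law, far pair. -/
theorem co_typeI_far {q : K} (hq0 : q ≠ 0) (hq : ∀ m : ℕ, 0 < m → q ^ m ≠ 1) (x y z : ℕ)
    (L : List ℕ) (hy : y ∉ L) (hz : z ∉ L) (hy1 : 1 ≤ y) (hz1 : 1 ≤ z) (hyz : y ≠ z)
    (h1 : y ≠ z + 1) (h2 : z ≠ y + 1) :
    (1 + q) * (ff q ((y : ℤ) - z) * co q x (L ++ [y]) + ff q ((z : ℤ) - y) * co q x (L ++ [z])) =
      (ff q ((y : ℤ) - z) + ff q ((z : ℤ) - y)) * (q * co q x L + co q x (L ++ [y, z])) := by
  rw [co_append_one, co_append_one, co_append_two]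
  unfold co
  set P := (L.map fun t : ℕ => ff q ((x : ℤ) - (t : ℤ))).prod with hP
  by_cases h0 : (x = 1 ∨ ∃ t ∈ L, x = t + 1)
  · have hxy : x ≠ y + 1 := by
      rintro rfl
      rcases h0 with h0 | ⟨t, ht, h0⟩
      · omega
      · have : y = t := by omega
        exact hy (this ▸ ht)
    have hxz : x ≠ z + 1 := by
      rintro rfl
      rcases h0 with h0 | ⟨t, ht, h0⟩
      · omega
      · have : z = t := by omega
        exact hz (this ▸ ht)
    rw [if_pos (Or.inl h0), if_pos (Or.inl h0), if_pos h0, if_pos (Or.inl h0)]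
    clear h0
    have := id_gen hq0 hq (y : ℤ) z x (by omega) (by omega) (by omega) (by omega)
    linear_combination P * this
  · rw [if_neg h0]
    by_cases hxy : x = y + 1
    · rw [if_pos (Or.inr hxy), if_neg (by
        rintro (h | h)
        · exact h0 h
        · omega), if_pos (Or.inr (Or.inl hxy))]
      have e1 : (x : ℤ) - y = 1 := by omega
      have e2 : (x : ℤ) = y + 1 := by omega
      rw [e1, ff_one, e2]
      have := id_up hq0 hq (y : ℤ) z (by omega) (by omega) (by omega)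
      linear_combination P * this
    · by_cases hxz : x = z + 1
      · rw [if_neg (by
          rintro (h | h)
          · exact h0 h
          · omega), if_pos (Or.inr hxz), if_pos (Or.inr (Or.inr hxz))]
        have e1 : (x : ℤ) - z = 1 := by omega
        have e2 : (x : ℤ) = z + 1 := by omega
        rw [e1, ff_one, e2]
        have := id_up hq0 hq (z : ℤ) y (by omega) (by omega) (by omega)
        linear_combination P * this
      · rw [if_neg, if_neg, if_neg]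
        · ring
        · rintro (h | h | h)
          · exact h0 h
          · exact hxy h
          · exact hxz h
        · rintro (h | h)
          · exact h0 h
          · exact hxz h
        · rintro (h | h)
          · exact h0 h
          · exact hxy h

/-- pointwise form of the type I law, near pair. -/
theorem co_typeI_near {q : K} (hq0 : q ≠ 0) (hq : ∀ m : ℕ, 0 < m → q ^ m ≠ 1) (x y : ℕ)
    (L : List ℕ) (hy : y ∉ L) (hz : y + 1 ∉ L) (hy1 : 1 ≤ y) :
    (1 + q) * co q x (L ++ [y + 1]) = q * co q x L + co q x (L ++ [y + 1, y]) := by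
  rw [co_append_one, co_append_two]
  unfold co
  set P := (L.map fun t : ℕ => ff q ((x : ℤ) - (t : ℤ))).prod with hP
  by_cases h0 : (x = 1 ∨ ∃ t ∈ L, x = t + 1)
  · have hxy : x ≠ y + 1 := by
      rintro rfl
      rcases h0 with h0 | ⟨t, ht, h0⟩
      · omega
      · have : y = t := by omega
        exact hy (this ▸ ht)
    have hxz : x ≠ y + 2 := by
      rintro rfl
      rcases h0 with h0 | ⟨t, ht, h0⟩
      · omega
      · have : y + 1 = t := by omega
        exact hz (this ▸ ht)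
    rw [if_pos (Or.inl h0), if_pos h0, if_pos (Or.inl h0)]
    clear h0
    have := id_near hq0 hq (x : ℤ) y (by omega) (by omega)
    push_cast
    linear_combination P * this
  · rw [if_neg h0]
    by_cases hxy : x = y + 1 + 1
    · rw [if_pos (Or.inr hxy), if_pos (Or.inr (Or.inl hxy))]
      have e1 : (x : ℤ) - ((y + 1 : ℕ) : ℤ) = 1 := by push_cast; omega
      have e2 : (x : ℤ) - y = 2 := by omega
      rw [e1, ff_one, e2, ff_two hq]
      ring
    · by_cases hxz : x = y + 1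
      · rw [if_neg (by
          rintro (h | h)
          · exact h0 h
          · exact hxy h), if_pos (Or.inr (Or.inr hxz))]
        have e1 : (x : ℤ) - ((y + 1 : ℕ) : ℤ) = 0 := by push_cast; omega
        rw [e1, ff_zero]
        ring
      · rw [if_neg, if_neg]
        · ring
        · rintro (h | h | h)
          · exact h0 h
          · exact hxy h
          · exact hxz h
        · rintro (h | h)
          · exact h0 h
          · exact hxy h

end Crest.Agent.R059.Hik
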