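import Crest.Agent.R059.Hik

set_option autoImplicit false

/-!
The local type II identity of Hikita's formula (helper492).
-/

namespace Crest.Agent.R059.Hik

variable {K : Type} [Field K]

namespace TII

theorem zpow_ne_one {q : K} (hq0 : q ≠ 0) (hq : ∀ m : ℕ, 0 < m → q ^ m ≠ 1) {d : ℤ} (hd : d ≠ 0) :
    q ^ d ≠ 1 := by
  rcases lt_or_gt_of_ne hd with h | h
  · intro h1
    obtain ⟨m, hm⟩ : ∃ m : ℕ, d = -(m : ℤ) := ⟨d.natAbs, by omega⟩
    have hm0 : 0 < m := by omega
    apply hq m hm0
    rw [hm, zpow_neg, inv_eq_one, zpow_natCast] at h1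
    exact h1
  · intro h1
    obtain ⟨m, hm⟩ : ∃ m : ℕ, d = (m : ℤ) := ⟨d.natAbs, by omega⟩
    have hm0 : 0 < m := by omega
    apply hq m hm0
    rw [hm, zpow_natCast] at h1
    exact h1

theorem q_sub_ne {q : K} (hq0 : q ≠ 0) (hq : ∀ m : ℕ, 0 < m → q ^ m ≠ 1) {d : ℤ} (hd : d ≠ 1) :
    q - q ^ d ≠ 0 := by
  intro h
  have h1 : q ^ d = q := by
    have := sub_eq_zero.1 h
    exact this.symm
  apply zpow_ne_one hq0 hq (d := d - 1) (by omega)
  rw [zpow_sub_one₀ hq0, h1, mul_inv_cancel₀ hq0]

theorem ff_eq {q : K} (hq0 : q ≠ 0) (hq : ∀ m : ℕ, 0 < m → q ^ m ≠ 1) {d : ℤ} (hd : d ≠ 1) :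
    ff q d = q * (1 - q ^ d) / (q - q ^ d) := by
  unfold ff br
  rw [if_neg hd]
  have h1 : (1 : K) - q ≠ 0 := by
    intro h
    have := hq 1 one_pos
    rw [pow_one] at this
    exact this (sub_eq_zero.1 h).symm
  have h2 := q_sub_ne hq0 hq hd
  have h3 : (1 : K) - q ^ (d - 1) ≠ 0 := by
    intro h
    exact zpow_ne_one hq0 hq (d := d - 1) (by omega) (sub_eq_zero.1 h).symm
  rw [zpow_sub_one₀ hq0] at h3 ⊢
  field_simp

theorem ff_zero {q : K} : ff q 0 = 0 := by
  unfold ff br
  simp

theorem ff_one {q : K} : ff q 1 = 1 := by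
  unfold ff
  simp

theorem ff_two {q : K} (hq0 : q ≠ 0) (hq : ∀ m : ℕ, 0 < m → q ^ m ≠ 1) : ff q 2 = 1 + q := by
  rw [ff_eq hq0 hq (by norm_num)]
  have h2 := q_sub_ne hq0 hq (d := 2) (by norm_num)
  have e : (q : K) ^ (2 : ℤ) = q ^ 2 := by norm_cast
  rw [e] at h2 ⊢
  rw [div_eq_iff h2]
  ring

/-- pair identity. -/
theorem ff_pair {q : K} (hq0 : q ≠ 0) (hq : ∀ m : ℕ, 0 < m → q ^ m ≠ 1) {d : ℤ} (h0 : d ≠ 0)
    (h1 : d ≠ 1) (h2 : d ≠ -1) :
    (1 + q) * ff q d = (ff q d + ff q (-d)) * ff q (d + 1) := by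
  rw [ff_eq hq0 hq h1, ff_eq hq0 hq (d := -d) (by omega), ff_eq hq0 hq (d := d + 1) (by omega)]
  have e1 := q_sub_ne hq0 hq h1
  have e2 := q_sub_ne hq0 hq (d := -d) (by omega)
  have e3 := q_sub_ne hq0 hq (d := d + 1) (by omega)
  have hQ : (q : K) ^ d ≠ 0 := zpow_ne_zero _ hq0
  rw [zpow_neg] at e2 ⊢
  rw [zpow_add_one₀ hq0] at e3 ⊢
  generalize q ^ d = Q at *
  have e2' : q * Q - 1 ≠ 0 := by
    intro h; apply e2
    field_simp
    linear_combination h
  have e3' : 1 - Q ≠ 0 := by
    intro h; apply e3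
    linear_combination q * h
  rw [show q - Q⁻¹ = (q * Q - 1) / Q by field_simp, show 1 - Q⁻¹ = (Q - 1) / Q by field_simp,
    show q - Q * q = q * (1 - Q) by ring]
  field_simp
  ring

/-- product identity. -/
theorem ff_prod {q : K} (hq0 : q ≠ 0) (hq : ∀ m : ℕ, 0 < m → q ^ m ≠ 1) {d : ℤ}
    (h1 : d ≠ 1) (h2 : d ≠ -1) :
    (1 + q) * (ff q d * ff q (-d)) = q * (ff q d + ff q (-d)) := by
  rw [ff_eq hq0 hq h1, ff_eq hq0 hq (d := -d) (by omega)]
  have e1 := q_sub_ne hq0 hq h1
  have e2 := q_sub_ne hq0 hq (d := -d) (by omega)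
  have hQ : (q : K) ^ d ≠ 0 := zpow_ne_zero _ hq0
  rw [zpow_neg] at e2 ⊢
  generalize q ^ d = Q at *
  have e2' : q * Q - 1 ≠ 0 := by
    intro h; apply e2
    field_simp
    linear_combination h
  rw [show q - Q⁻¹ = (q * Q - 1) / Q by field_simp, show 1 - Q⁻¹ = (Q - 1) / Q by field_simp]
  field_simp
  ring

/-- shift identity. -/
theorem ff_shift {q : K} (hq0 : q ≠ 0) (hq : ∀ m : ℕ, 0 < m → q ^ m ≠ 1) {d : ℤ} (h0 : d ≠ 0)
    (h1 : d ≠ 1) :
    (1 + q) * ff q d = q + ff q (d + 1) * ff q d := by
  rw [ff_eq hq0 hq h1, ff_eq hq0 hq (d := d + 1) (by omega)]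
  have e1 := q_sub_ne hq0 hq h1
  have e3 := q_sub_ne hq0 hq (d := d + 1) (by omega)
  rw [zpow_add_one₀ hq0] at e3 ⊢
  generalize q ^ d = Q at *
  have e3' : 1 - Q ≠ 0 := by
    intro h; apply e3
    linear_combination q * h
  rw [show q - Q * q = q * (1 - Q) by ring]
  field_simp
  ring

theorem ff_neg_one {q : K} (hq0 : q ≠ 0) (hq : ∀ m : ℕ, 0 < m → q ^ m ≠ 1) :
    (1 + q) * ff q (-1) = q := by
  have h := ff_shift hq0 hq (d := -1) (by norm_num) (by norm_num)
  rw [show (-1 : ℤ) + 1 = 0 by norm_num, ff_zero] at h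
  linear_combination h

/-- generic identity. -/
theorem ff_gen {q : K} (hq0 : q ≠ 0) (hq : ∀ m : ℕ, 0 < m → q ^ m ≠ 1) {u v : ℤ}
    (hu : u ≠ 1) (hv : v ≠ 1) (h1 : u - v ≠ 1) (h2 : v - u ≠ 1) :
    (1 + q) * (ff q (u - v) * ff q v + ff q (v - u) * ff q u) =
      (ff q (u - v) + ff q (v - u)) * (q + ff q u * ff q v) := by
  rw [ff_eq hq0 hq hu, ff_eq hq0 hq hv, ff_eq hq0 hq h1, ff_eq hq0 hq h2]
  have e1 := q_sub_ne hq0 hq hu
  have e2 := q_sub_ne hq0 hq hv
  have e3 := q_sub_ne hq0 hq h1
  have e4 := q_sub_ne hq0 hq h2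
  have hQ : (q : K) ^ u ≠ 0 := zpow_ne_zero _ hq0
  have hR : (q : K) ^ v ≠ 0 := zpow_ne_zero _ hq0
  rw [zpow_sub₀ hq0] at e3 e4 ⊢
  rw [zpow_sub₀ hq0]
  generalize q ^ u = A at *
  generalize q ^ v = B at *
  have e3' : q * B - A ≠ 0 := by
    intro h; apply e3
    field_simp
    linear_combination h
  have e4' : q * A - B ≠ 0 := by
    intro h; apply e4
    field_simp
    linear_combination h
  rw [show q - A / B = (q * B - A) / B by field_simp, show q - B / A = (q * A - B) / A by field_simp,
    show 1 - A / B = (B - A) / B by field_simp, show 1 - B / A = (A - B) / A by field_simp]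
  field_simp
  ring

/-- `c` is admissible over the open vertices `L`. -/
def AD (c : ℕ) (L : List ℕ) : Prop := c = 1 ∨ ∃ y ∈ L, c = y + 1

/-- product of the edge factors. -/
def PR (q : K) (c : ℕ) (L : List ℕ) : K := (L.map fun x : ℕ => ff q ((c : ℤ) - (x : ℤ))).prod

theorem PR_zero (q : K) {c : ℕ} {L : List ℕ} (h : c ∈ L) : PR q c L = 0 := by
  unfold PR
  apply List.prod_eq_zero
  rw [List.mem_map]
  exact ⟨c, h, by rw [sub_self]; exact ff_zero⟩

open Classical in
theorem co_base (q : K) (c : ℕ) (L : List ℕ) : co q c L = if AD c L then PR q c L else 0 := by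
  unfold co AD PR
  congr

open Classical in
theorem co_cons (q : K) (c b : ℕ) (L : List ℕ) :
    co q c (b :: L) = if (AD c L ∨ c = b + 1) then ff q ((c : ℤ) - b) * PR q c L else 0 := by
  rw [co_base]
  have h1 : AD c (b :: L) ↔ (AD c L ∨ c = b + 1) := by
    unfold AD
    constructor
    · rintro (h | ⟨y, hy, h⟩)
      · exact Or.inl (Or.inl h)
      · rcases List.mem_cons.1 hy with h2 | h2
        · right; rw [h, h2]
        · exact Or.inl (Or.inr ⟨y, h2, h⟩)
    · rintro ((h | ⟨y, hy, h⟩) | h)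
      · exact Or.inl h
      · exact Or.inr ⟨y, List.mem_cons_of_mem _ hy, h⟩
      · exact Or.inr ⟨b, List.mem_cons_self, h⟩
  have h2 : PR q c (b :: L) = ff q ((c : ℤ) - b) * PR q c L := by
    unfold PR; rw [List.map_cons, List.prod_cons]
  rw [h2]
  simp only [h1]

open Classical in
theorem AD_snoc (c x : ℕ) (L : List ℕ) : AD c (L ++ [x]) ↔ (AD c L ∨ c = x + 1) := by
  unfold AD
  constructor
  · rintro (h | ⟨y, hy, h⟩)
    · exact Or.inl (Or.inl h)
    · rcases List.mem_append.1 hy with h2 | h2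
      · exact Or.inl (Or.inr ⟨y, h2, h⟩)
      · right; rw [h, List.mem_singleton.1 h2]
  · rintro ((h | ⟨y, hy, h⟩) | h)
    · exact Or.inl h
    · exact Or.inr ⟨y, List.mem_append_left _ hy, h⟩
    · exact Or.inr ⟨x, List.mem_append_right _ (List.mem_singleton.2 rfl), h⟩

theorem PR_snoc (q : K) (c x : ℕ) (L : List ℕ) :
    PR q c (L ++ [x]) = PR q c L * ff q ((c : ℤ) - x) := by
  unfold PR; rw [List.map_append, List.prod_append, List.map_singleton, List.prod_singleton]

open Classical in
theorem co_snoc (q : K) (c x : ℕ) (L : List ℕ) :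
    co q c (L ++ [x]) = if (AD c L ∨ c = x + 1) then PR q c L * ff q ((c : ℤ) - x) else 0 := by
  rw [co_base, PR_snoc]
  simp only [AD_snoc]

open Classical in
theorem co_cons_snoc (q : K) (c b x : ℕ) (L : List ℕ) :
    co q c (b :: (L ++ [x])) = if ((AD c L ∨ c = x + 1) ∨ c = b + 1) then
      ff q ((c : ℤ) - b) * (PR q c L * ff q ((c : ℤ) - x)) else 0 := by
  rw [co_cons, PR_snoc]
  simp only [AD_snoc]

end TII

/-- the type II defect. -/
def RII (q : K) (x : ℕ) (L : List ℕ) (a b : ℕ) : K :=
  (1 + q) * co q a (b :: L) * co q b (L ++ [x]) - q * co q a (b :: L) * co q b L -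
    co q a (b :: (L ++ [x])) * co q b (L ++ [x])

open TII

theorem RII_eq (q : K) (a b x : ℕ) (L : List ℕ) (A B A' B' Ab Ba : Prop) [Decidable A]
    [Decidable B] [Decidable A'] [Decidable B'] [Decidable Ab] [Decidable Ba]
    (hA : AD a L ↔ A) (hB : AD b L ↔ B) (hA' : a = x + 1 ↔ A') (hB' : b = x + 1 ↔ B')
    (hAb : a = b + 1 ↔ Ab) (hBa : b = a + 1 ↔ Ba) :
    RII q x L a b + RII q x L b a =
    (1 + q) * (if (A ∨ Ab) then ff q ((a : ℤ) - b) * PR q a L else 0) *
        (if (B ∨ B') then PR q b L * ff q ((b : ℤ) - x) else 0) -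
      q * (if (A ∨ Ab) then ff q ((a : ℤ) - b) * PR q a L else 0) *
        (if B then PR q b L else 0) -
      (if ((A ∨ A') ∨ Ab) then ff q ((a : ℤ) - b) * (PR q a L * ff q ((a : ℤ) - x)) else 0) *
        (if (B ∨ B') then PR q b L * ff q ((b : ℤ) - x) else 0) +
    ((1 + q) * (if (B ∨ Ba) then ff q ((b : ℤ) - a) * PR q b L else 0) *
        (if (A ∨ A') then PR q a L * ff q ((a : ℤ) - x) else 0) -
      q * (if (B ∨ Ba) then ff q ((b : ℤ) - a) * PR q b L else 0) *
        (if A then PR q a L else 0) -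
      (if ((B ∨ B') ∨ Ba) then ff q ((b : ℤ) - a) * (PR q b L * ff q ((b : ℤ) - x)) else 0) *
        (if (A ∨ A') then PR q a L * ff q ((a : ℤ) - x) else 0)) := by
  classical
  unfold RII
  rw [co_cons q a b L, co_snoc q b x L, co_base q b L, co_cons_snoc q a b x L, co_cons q b a L,
    co_snoc q a x L, co_base q a L, co_cons_snoc q b a x L]
  simp only [hA, hB, hA', hB', hAb, hBa]

theorem RII_far {q : K} (hq0 : q ≠ 0) (hq : ∀ m : ℕ, 0 < m → q ^ m ≠ 1) (a b x : ℕ) (L : List ℕ)
    (hx : x ∉ L) (hx1 : 1 ≤ x) (hab : a ≠ b) (h1 : a ≠ b + 1) (h2 : b ≠ a + 1) :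
    RII q x L a b + RII q x L b a = 0 := by
  classical
  have nA : a = x + 1 → ¬ AD a L := by
    rintro h (h3 | ⟨y, hy, h3⟩)
    · omega
    · apply hx; rw [show x = y by omega]; exact hy
  have nB : b = x + 1 → ¬ AD b L := by
    rintro h (h3 | ⟨y, hy, h3⟩)
    · omega
    · apply hx; rw [show x = y by omega]; exact hy
  have f1 : (a = b + 1) ↔ False := iff_false_intro h1
  have f2 : (b = a + 1) ↔ False := iff_false_intro h2
  by_cases hA : AD a L
  · have ha : a ≠ x + 1 := fun h => nA h hA
    by_cases hB : AD b L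
    · have hb : b ≠ x + 1 := fun h => nB h hB
      rw [RII_eq q a b x L True True False False False False (iff_true_intro hA)
        (iff_true_intro hB) (iff_false_intro ha) (iff_false_intro hb) f1 f2]
      simp only [or_false, if_true]
      have e := ff_gen hq0 hq (u := (a : ℤ) - x) (v := (b : ℤ) - x) (by omega) (by omega)
        (by omega) (by omega)
      rw [show (a : ℤ) - x - (b - x) = a - b by ring, show (b : ℤ) - x - (a - x) = b - a by ring]
        at e
      linear_combination (PR q a L * PR q b L) * e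
    · by_cases hb : b = x + 1
      · rw [RII_eq q a b x L True False False True False False (iff_true_intro hA)
          (iff_false_intro hB) (iff_false_intro ha) (iff_true_intro hb) f1 f2]
        simp only [or_false, false_or, if_true, if_false]
        have e := ff_pair hq0 hq (d := (a : ℤ) - b) (by omega) (by omega) (by omega)
        rw [show -((a : ℤ) - b) = b - a by ring, show (a : ℤ) - b + 1 = a - x by omega] at e
        have e1 : ff q ((b : ℤ) - x) = 1 := by
          rw [show (b : ℤ) - x = 1 by omega]; exact ff_one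
        rw [e1]
        linear_combination (PR q a L * PR q b L) * e
      · rw [RII_eq q a b x L True False False False False False (iff_true_intro hA)
          (iff_false_intro hB) (iff_false_intro ha) (iff_false_intro hb) f1 f2]
        simp only [or_false, if_true, if_false]
        ring
  · by_cases ha : a = x + 1
    · have hb : b ≠ x + 1 := by omega
      by_cases hB : AD b L
      · rw [RII_eq q a b x L False True True False False False (iff_false_intro hA)
          (iff_true_intro hB) (iff_true_intro ha) (iff_false_intro hb) f1 f2]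
        simp only [or_false, false_or, if_true, if_false]
        have e := ff_pair hq0 hq (d := (b : ℤ) - a) (by omega) (by omega) (by omega)
        rw [show -((b : ℤ) - a) = a - b by ring, show (b : ℤ) - a + 1 = b - x by omega] at e
        have e1 : ff q ((a : ℤ) - x) = 1 := by
          rw [show (a : ℤ) - x = 1 by omega]; exact ff_one
        rw [e1]
        linear_combination (PR q a L * PR q b L) * e
      · rw [RII_eq q a b x L False False True False False False (iff_false_intro hA)
          (iff_false_intro hB) (iff_true_intro ha) (iff_false_intro hb) f1 f2]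
        simp only [or_false, false_or, if_true, if_false]
        ring
    · by_cases hb : b = x + 1
      · rw [RII_eq q a b x L False (AD b L) False True False False (iff_false_intro hA)
          Iff.rfl (iff_false_intro ha) (iff_true_intro hb) f1 f2]
        simp only [or_false, if_false]
        ring
      · rw [RII_eq q a b x L False (AD b L) False False False False (iff_false_intro hA)
          Iff.rfl (iff_false_intro ha) (iff_false_intro hb) f1 f2]
        simp only [or_false, if_false]
        ring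

theorem RII_near {q : K} (hq0 : q ≠ 0) (hq : ∀ m : ℕ, 0 < m → q ^ m ≠ 1) (a b x : ℕ) (L : List ℕ)
    (hx : x ∉ L) (hx1 : 1 ≤ x) (hb0 : 1 ≤ b) (hb : b ∉ L) (h1 : a = b + 1) :
    RII q x L a b + RII q x L b a = 0 := by
  classical
  have nA : ¬ AD a L := by
    rintro (h3 | ⟨y, hy, h3⟩)
    · omega
    · apply hb; rw [show b = y by omega]; exact hy
  have nB : b = x + 1 → ¬ AD b L := by
    rintro h (h3 | ⟨y, hy, h3⟩)
    · omega
    · apply hx; rw [show x = y by omega]; exact hy
  have f1 : (a = b + 1) ↔ True := iff_true_intro h1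
  have f2 : (b = a + 1) ↔ False := iff_false_intro (by omega)
  have g1 : ff q ((a : ℤ) - b) = 1 := by
    rw [show (a : ℤ) - b = 1 by omega]; exact ff_one
  have g2 : (1 + q) * ff q ((b : ℤ) - a) = q := by
    rw [show (b : ℤ) - a = -1 by omega]; exact ff_neg_one hq0 hq
  by_cases hbx : b = x
  · have ha : a = x + 1 := by omega
    have hb' : b ≠ x + 1 := by omega
    have g3 : ff q ((b : ℤ) - x) = 0 := by
      rw [show (b : ℤ) - x = 0 by omega]; exact ff_zero
    have g4 : ff q ((a : ℤ) - x) = 1 := by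
      rw [show (a : ℤ) - x = 1 by omega]; exact ff_one
    rw [RII_eq q a b x L False (AD b L) True False True False (iff_false_intro nA)
          Iff.rfl (iff_true_intro ha) (iff_false_intro hb') f1 f2, g1, g3, g4]
    by_cases hB : AD b L
    · simp only [hB, or_true, or_false, if_true, if_false]
      linear_combination (PR q a L * PR q b L) * g2
    · simp only [hB, or_true, or_false, if_true, if_false]
      ring
  · have ha : a ≠ x + 1 := by omega
    by_cases hb' : b = x + 1
    · have hB := nB hb'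
      have g3 : ff q ((b : ℤ) - x) = 1 := by
        rw [show (b : ℤ) - x = 1 by omega]; exact ff_one
      have g4 : ff q ((a : ℤ) - x) = 1 + q := by
        rw [show (a : ℤ) - x = 2 by omega]; exact ff_two hq0 hq
      rw [RII_eq q a b x L False False False True True False (iff_false_intro nA)
          (iff_false_intro hB) (iff_false_intro ha) (iff_true_intro hb') f1 f2, g1, g3, g4]
      simp only [or_true, or_false, if_true, if_false]
      ring
    · by_cases hB : AD b L
      · rw [RII_eq q a b x L False True False False True False (iff_false_intro nA)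
          (iff_true_intro hB) (iff_false_intro ha) (iff_false_intro hb') f1 f2, g1]
        simp only [or_true, or_false, if_true, if_false]
        have e := ff_shift hq0 hq (d := (b : ℤ) - x) (by omega) (by omega)
        rw [show (b : ℤ) - x + 1 = a - x by omega] at e
        linear_combination (PR q a L * PR q b L) * e
      · rw [RII_eq q a b x L False False False False True False (iff_false_intro nA)
          (iff_false_intro hB) (iff_false_intro ha) (iff_false_intro hb') f1 f2, g1]
        simp only [or_false, if_false]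
        ring

/-- factorisation of the defect. -/
theorem RII_zero_left (q : K) (a b x : ℕ) (L : List ℕ) (ha : a = 0 ∨ a ∈ L) :
    RII q x L a b + RII q x L b a = 0 := by
  classical
  rw [RII_eq q a b x L _ _ _ _ _ _ Iff.rfl Iff.rfl Iff.rfl Iff.rfl Iff.rfl Iff.rfl]
  rcases ha with ha | ha
  · have h1 : ¬ AD a L := by
      rintro (h3 | ⟨y, hy, h3⟩)
      · omega
      · omega
    have h2 : ¬ (a = b + 1) := by omega
    have h3 : ¬ (a = x + 1) := by omega
    simp only [h1, h2, h3, or_false, if_false]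
    ring
  · have h1 : PR q a L = 0 := PR_zero q ha
    simp only [h1, mul_zero, zero_mul, ite_self, sub_zero, add_zero]

/-- **local type II identity** of Hikita's formula. -/
theorem co_typeII (q : K) (hq0 : q ≠ 0) (hq : ∀ m : ℕ, 0 < m → q ^ m ≠ 1) (a b x : ℕ)
    (L : List ℕ) (h : (L ++ [x]).Nodup) (h1 : ∀ y ∈ L ++ [x], 1 ≤ y) :
    RII q x L a b + RII q x L b a = 0 := by
  have hx : x ∉ L := by
    intro hx
    have := List.nodup_append.1 h
    exact (this.2.2 x hx x (List.mem_singleton.2 rfl)) rfl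
  have hx1 : 1 ≤ x := h1 x (List.mem_append_right _ (List.mem_singleton.2 rfl))
  by_cases ha : a = 0 ∨ a ∈ L
  · exact RII_zero_left q a b x L ha
  by_cases hb : b = 0 ∨ b ∈ L
  · rw [add_comm]; exact RII_zero_left q b a x L hb
  push Not at ha hb
  by_cases hab : a = b
  · subst hab
    have e : ff q ((a : ℤ) - a) = 0 := by rw [sub_self]; exact ff_zero
    classical
    rw [RII_eq q a a x L _ _ _ _ _ _ Iff.rfl Iff.rfl Iff.rfl Iff.rfl Iff.rfl Iff.rfl, e]
    simp only [zero_mul, mul_zero, ite_self, sub_zero, add_zero]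
  by_cases h2 : a = b + 1
  · exact RII_near hq0 hq a b x L hx hx1 (by omega) hb.2 h2
  by_cases h3 : b = a + 1
  · rw [add_comm]; exact RII_near hq0 hq b a x L hx hx1 (by omega) ha.2 h3
  exact RII_far hq0 hq a b x L hx hx1 hab h2 h3

end Crest.Agent.R059.Hik
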