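import Crest.Agent.R059.EPos

set_option autoImplicit false

open Crest.CombinatoricsR.UnitInterval

namespace Crest.Agent.R059

open Function

/-- Hessenberg functions, vertices `1..n`, values `1..n`. -/
def Hs (n : ℕ) (H : ℕ → ℕ) : Prop :=
  (∀ v, 1 ≤ v → v ≤ n → v ≤ H v ∧ H v ≤ n) ∧ (∀ v, 1 ≤ v → v < n → H v ≤ H (v + 1))

theorem Hs.mono {n : ℕ} {H : ℕ → ℕ} (h : Hs n H) {a b : ℕ} (ha : 1 ≤ a) (hab : a ≤ b)
    (hb : b ≤ n) : H a ≤ H b := by
  obtain ⟨k, rfl⟩ := Nat.exists_eq_add_of_le hab
  clear hab
  induction k with
  | zero => simp
  | succ k ih =>
    exact (ih (by omega)).trans (h.2 (a + k) (by omega) (by omega))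

theorem Hs.update {n : ℕ} {H : ℕ → ℕ} (h : Hs n H) {i x : ℕ} (hix : i ≤ x) (hxn : x ≤ n)
    (hl : ∀ v, v + 1 = i → 1 ≤ v → H v ≤ x) (hr : i < n → x ≤ H (i + 1)) :
    Hs n (Function.update H i x) := by
  constructor
  · intro v hv hvn
    by_cases hvi : v = i
    · subst hvi; simp only [Function.update_self]; exact ⟨hix, hxn⟩
    · rw [Function.update_of_ne hvi]; exact h.1 v hv hvn
  · intro v hv hvn
    by_cases hvi : v = i
    · subst hvi
      rw [Function.update_self, Function.update_of_ne (by omega)]
      exact hr hvn
    · rw [Function.update_of_ne hvi]
      by_cases hvi' : v + 1 = i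
      · subst hvi'
        rw [Function.update_self]
        exact hl v rfl hv
      · rw [Function.update_of_ne hvi']
        exact h.2 v hv hvn

/-- the linear laws that characterise the chromatic function (difference of two solutions). -/
structure Laws (n N : ℕ) (D : (ℕ → ℕ) → MvPolynomial (Fin N) (Polynomial ℤ)) : Prop where
  ext : ∀ H H' : ℕ → ℕ, (∀ v, 1 ≤ v → v ≤ n → H v = H' v) → D H = D H'
  typeI : ∀ (H : ℕ → ℕ) (i j : ℕ), 1 ≤ i → i < j → j + 1 ≤ n → H j = H (j + 1) →
    Hs n (update H i (j - 1)) → Hs n (update H i (j + 1)) →
    MvPolynomial.C (1 + Polynomial.X) * D (update H i j) =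
      MvPolynomial.C Polynomial.X * D (update H i (j - 1)) + D (update H i (j + 1))
  typeII : ∀ (H : ℕ → ℕ) (t b : ℕ), 1 ≤ t → t + 1 ≤ b → b + 1 ≤ n →
    (∀ v, 1 ≤ v → v ≤ n → v ≠ t → v ≠ t + 1 → H v ≠ t) →
    Hs n (update (update H t b) (t + 1) b) →
    Hs n (update (update H t (b + 1)) (t + 1) (b + 1)) →
    MvPolynomial.C (1 + Polynomial.X) * D (update (update H t b) (t + 1) (b + 1)) =
      MvPolynomial.C Polynomial.X * D (update (update H t b) (t + 1) b) +
        D (update (update H t (b + 1)) (t + 1) (b + 1))
  disc : ∀ H, Hs n H → ∀ v, 1 ≤ v → v < n → H v = v → D H = 0
  compl : D (fun _ => n) = 0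

theorem one_add_X_ne : (1 + Polynomial.X : Polynomial ℤ) ≠ 0 := by
  intro h
  have := congrArg (fun p : Polynomial ℤ => p.eval 0) h
  simp at this

section

variable {n N : ℕ} {D : (ℕ → ℕ) → MvPolynomial (Fin N) (Polynomial ℤ)}

theorem zero_of_one_add {x : MvPolynomial (Fin N) (Polynomial ℤ)}
    (h : MvPolynomial.C (1 + Polynomial.X) * x = 0) : x = 0 := by
  apply cancelC one_add_X_ne
  rw [h, mul_zero]

theorem lemmaS (L : Laws n N D) : ∀ (m c : ℕ), n - c ≤ m → 2 ≤ c → c ≤ n → ∀ p : ℕ → ℕ,
    (∀ v, 1 ≤ v → v + 2 ≤ c → p v ≠ c - 1) →
    (∀ H, Hs n H → (∀ v, 1 ≤ v → v + 2 ≤ c → H v = p v) → H (c - 1) = H c → D H = 0) →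
    ∀ H, Hs n H → (∀ v, 1 ≤ v → v + 2 ≤ c → H v = p v) → D H = 0 := by
  intro m
  induction m with
  | zero =>
    intro c hnc h2 hcn p hp hz H hH hHp
    have hc : c = n := by omega
    by_cases h1 : H (c - 1) = c - 1
    · exact L.disc H hH (c - 1) (by omega) (by omega) h1
    · have h3 := hH.1 (c - 1) (by omega) (by omega)
      have h4 := hH.1 c (by omega) (by omega)
      exact hz H hH hHp (by omega)
  | succ m ihm =>
    intro c hnc h2 hcn p hp hz
    have key : ∀ g : ℕ, ∀ H, Hs n H → (∀ v, 1 ≤ v → v + 2 ≤ c → H v = p v) →
        H c - H (c - 1) ≤ g → D H = 0 := by
      intro g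
      induction g with
      | zero =>
        intro H hH hHp hg
        have h5 : H (c - 1) ≤ H c := hH.mono (by omega) (by omega) hcn
        exact hz H hH hHp (by omega)
      | succ g ihg =>
        intro H hH hHp hg
        have h3 := hH.1 (c - 1) (by omega) (by omega)
        have h4 := hH.1 c (by omega) (by omega)
        have h5 : H (c - 1) ≤ H c := hH.mono (by omega) (by omega) hcn
        by_cases h1 : H (c - 1) = c - 1
        · exact L.disc H hH (c - 1) (by omega) (by omega) h1
        by_cases h6 : H c - H (c - 1) ≤ g
        · exact ihg H hH hHp h6
        by_cases h7 : H c = H (c - 1) + 1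
        · -- type II
          obtain ⟨t, ht⟩ : ∃ t, c = t + 1 := ⟨c - 1, by omega⟩
          subst ht
          simp only [Nat.add_sub_cancel] at *
          set b := H t with hb
          have e1 : update (update H t b) (t + 1) (b + 1) = H := by
            rw [hb, update_eq_self, ← hb, ← h7, update_eq_self]
          have Hs0 : Hs n (update (update H t b) (t + 1) b) := by
            rw [hb, update_eq_self, ← hb]
            apply hH.update (by omega) (by omega)
            · intro v hv hv1
              have : v = t := by omega
              subst this; omega
            · intro hlt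
              have := hH.mono (a := t + 1) (b := t + 2) (by omega) (by omega) (by omega)
              show b ≤ H (t + 2)
              omega
          have Hs2 : Hs n (update (update H t (b + 1)) (t + 1) (b + 1)) := by
            have : update (update H t (b + 1)) (t + 1) (b + 1) = update H t (b + 1) := by
              funext v
              by_cases hv : v = t + 1
              · rw [hv, update_self, update_of_ne (by omega), h7]
              · rw [update_of_ne hv]
            rw [this]
            apply hH.update (by omega) (by omega)
            · intro v hv hv1
              have := hH.mono (a := v) (b := t) hv1 (by omega) (by omega)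
              omega
            · intro _; omega
          have hlaw := L.typeII H t b (by omega) (by omega) (by omega)
            (fun v hv1 hvn hvt hvt1 hv => by
              by_cases hvl : v < t
              · have := hp v hv1 (by omega)
                rw [← hHp v hv1 (by omega)] at this
                exact this hv
              · have := hH.1 v hv1 hvn
                omega) Hs0 Hs2
          rw [e1] at hlaw
          have z0 : D (update (update H t b) (t + 1) b) = 0 := by
            apply hz _ Hs0
            · intro v hv1 hv2
              rw [update_of_ne (by omega), update_of_ne (by omega)]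
              exact hHp v hv1 hv2
            · rw [update_self, update_of_ne (by omega), update_self]
          have z2 : D (update (update H t (b + 1)) (t + 1) (b + 1)) = 0 := by
            apply hz _ Hs2
            · intro v hv1 hv2
              rw [update_of_ne (by omega), update_of_ne (by omega)]
              exact hHp v hv1 hv2
            · rw [update_self, update_of_ne (by omega), update_self]
          rw [z0, z2, mul_zero, add_zero] at hlaw
          exact zero_of_one_add hlaw
        · -- gap at least 2
          have h8 : H (c - 1) + 2 ≤ H c := by omega
          apply ihm (H c) (by omega) (by omega) (by omega) H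
          · intro v hv1 hv2
            by_cases hvc : v ≤ c - 1
            · have := hH.mono (a := v) (b := c - 1) hv1 hvc (by omega)
              omega
            · have := hH.mono (a := c) (b := v) (by omega) (by omega) (by omega)
              omega
          · intro H' hH' hHp' heq
            have hc' : H' c = H c := hHp' c (by omega) (by omega)
            have hc1' : H' (c - 1) = H (c - 1) := hHp' (c - 1) (by omega) (by omega)
            set e := H c with he
            have hj1 : e - 1 + 1 = e := by omega
            have e2 : update H' c (e - 1 + 1) = H' := by
              rw [hj1, ← hc', update_eq_self]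
            have e0' : e - 1 - 1 = e - 2 := by omega
            have hmon : c < n → e ≤ H' (c + 1) := by
              intro hlt
              have := hH'.2 c (by omega) hlt
              omega
            have Hs0 : Hs n (update H' c (e - 1 - 1)) := by
              apply hH'.update (by omega) (by omega)
              · intro v hv hv1
                have : v = c - 1 := by omega
                subst this; omega
              · intro hlt; have := hmon hlt; omega
            have Hs1 : Hs n (update H' c (e - 1)) := by
              apply hH'.update (by omega) (by omega)
              · intro v hv hv1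
                have : v = c - 1 := by omega
                subst this; omega
              · intro hlt; have := hmon hlt; omega
            have hlaw := L.typeI H' c (e - 1) (by omega) (by omega) (by omega)
              (by rw [hj1]; exact heq) Hs0 (by rw [e2]; exact hH')
            rw [e2] at hlaw
            have z1 : D (update H' c (e - 1)) = 0 := by
              apply ihg _ Hs1
              · intro v hv1 hv2
                rw [update_of_ne (by omega)]
                rw [hHp' v hv1 (by omega)]
                exact hHp v hv1 hv2
              · rw [update_self, update_of_ne (by omega), hc1']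
                omega
            have z0 : D (update H' c (e - 1 - 1)) = 0 := by
              apply ihg _ Hs0
              · intro v hv1 hv2
                rw [update_of_ne (by omega)]
                rw [hHp' v hv1 (by omega)]
                exact hHp v hv1 hv2
              · rw [update_self, update_of_ne (by omega), hc1']
                omega
            rw [z0, z1, mul_zero, mul_zero, zero_add] at hlaw
            exact hlaw.symm
          · exact hH
          · intro v _ _; rfl
    intro H hH hHp
    exact key _ H hH hHp le_rfl

/-- path of length `k`, then a clique. -/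
def Lk (n k : ℕ) : ℕ → ℕ := fun v => if v < k then v + 1 else n

theorem Hs_Lk {n k : ℕ} (hk : k ≤ n) : Hs n (Lk n k) := by
  constructor
  · intro v hv hvn
    unfold Lk
    split_ifs <;> omega
  · intro v hv hvn
    unfold Lk
    split_ifs <;> omega

/-- `[m]`. -/
noncomputable def qz (m : ℕ) : Polynomial ℤ := ∑ i ∈ Finset.range m, Polynomial.X ^ i

theorem qz_ne {m : ℕ} (hm : 1 ≤ m) : qz m ≠ 0 := by
  intro h
  have := congrArg (fun p : Polynomial ℤ => p.eval 1) h
  simp only [qz, Polynomial.eval_finsetSum, Polynomial.eval_pow, Polynomial.eval_X, one_pow,
    Finset.sum_const, Finset.card_range, nsmul_eq_mul, mul_one, Polynomial.eval_zero] at this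
  have : m = 0 := by exact_mod_cast this
  omega

theorem qz_rec (m : ℕ) : qz (m + 2) = (1 + Polynomial.X) * qz (m + 1) - Polynomial.X * qz m := by
  unfold qz
  rw [Finset.sum_range_succ, Finset.sum_range_succ]
  ring

theorem Lk_zero (L : Laws n N D) : ∀ k, 1 ≤ k → k + 1 ≤ n → D (Lk n k) = 0 := by
  intro k
  induction k with
  | zero => intro h; omega
  | succ k ih =>
    intro _ hkn
    by_cases hk : k = 0
    · subst hk
      rw [L.ext (Lk n (0 + 1)) (fun _ => n)]
      · exact L.compl
      · intro v hv _
        unfold Lk
        rw [if_neg (by omega)]
    · have hk1 : 1 ≤ k := by omega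
      have h0 := ih hk1 (by omega)
      have hL : Hs n (Lk n (k + 1)) := Hs_Lk (by omega)
      have hupd : ∀ x, k ≤ x → x ≤ n → Hs n (update (Lk n (k + 1)) k x) := by
        intro x hx hxn
        apply hL.update hx hxn
        · intro v hv hv1
          unfold Lk
          rw [if_pos (by omega)]; omega
        · intro _
          unfold Lk
          rw [if_neg (by omega)]; exact hxn
      have hd : ∀ s, k + 1 + s ≤ n →
          D (update (Lk n (k + 1)) k (k + 1 + s)) =
            MvPolynomial.C (qz (s + 1)) * D (update (Lk n (k + 1)) k (k + 1)) ∧
          (k + 2 + s ≤ n → D (update (Lk n (k + 1)) k (k + 2 + s)) =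
            MvPolynomial.C (qz (s + 2)) * D (update (Lk n (k + 1)) k (k + 1))) := by
        have hstep : ∀ j, k < j → j + 1 ≤ n →
            D (update (Lk n (k + 1)) k (j + 1)) =
              MvPolynomial.C (1 + Polynomial.X) * D (update (Lk n (k + 1)) k j) -
              MvPolynomial.C Polynomial.X * D (update (Lk n (k + 1)) k (j - 1)) := by
          intro j hj hjn
          have := L.typeI (Lk n (k + 1)) k j hk1 hj hjn
            (by unfold Lk; rw [if_neg (by omega), if_neg (by omega)])
            (hupd _ (by omega) (by omega)) (hupd _ (by omega) (by omega))
          rw [this]; ring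
        have hzero : D (update (Lk n (k + 1)) k k) = 0 := by
          apply L.disc _ (hupd k le_rfl (by omega)) k hk1 (by omega)
          rw [update_self]
        intro s
        induction s with
        | zero =>
          intro hs
          refine ⟨by simp [qz], ?_⟩
          intro hs2
          rw [show k + 2 + 0 = (k + 1) + 1 by omega, hstep (k + 1) (by omega) (by omega),
            show k + 1 - 1 = k by omega, hzero, mul_zero, sub_zero]
          congr 2
          simp [qz, Finset.sum_range_succ]
        | succ s ihs =>
          intro hs
          obtain ⟨i1, i2⟩ := ihs (by omega)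
          have i2' := i2 (by omega)
          refine ⟨?_, ?_⟩
          · rw [show k + 1 + (s + 1) = k + 2 + s by omega]; exact i2'
          · intro hs2
            rw [show k + 2 + (s + 1) = (k + 2 + s) + 1 by omega, hstep (k + 2 + s) (by omega) (by omega),
              show k + 2 + s - 1 = k + 1 + s by omega, i1, i2', show s + 1 + 2 = (s + 1) + 2 by rfl,
              qz_rec (s + 1)]
            simp only [map_sub, map_mul]
            ring
      have hfin := (hd (n - (k + 1)) (by omega)).1
      rw [show k + 1 + (n - (k + 1)) = n by omega] at hfin
      have e1 : D (update (Lk n (k + 1)) k n) = D (Lk n k) := by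
        apply L.ext
        intro v hv _
        by_cases hvk : v = k
        · subst hvk; rw [update_self]; unfold Lk; rw [if_neg (by omega)]
        · rw [update_of_ne hvk]
          unfold Lk
          split_ifs <;> omega
      have e2 : update (Lk n (k + 1)) k (k + 1) = Lk n (k + 1) := by
        funext v
        by_cases hv : v = k
        · rw [hv, update_self]; unfold Lk; rw [if_pos (by omega)]
        · rw [update_of_ne hv]
      rw [e1, h0, e2] at hfin
      have hq : qz (n - (k + 1) + 1) ≠ 0 := qz_ne (by omega)
      apply cancelC hq
      rw [← hfin, mul_zero]

theorem prefix_zero (L : Laws n N D) (hn : 2 ≤ n) : ∀ d k, k + d = n - 1 → 1 ≤ k →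
    ∀ H, Hs n H → (∀ v, 1 ≤ v → v < k → H v = v + 1) → D H = 0 := by
  intro d
  induction d with
  | zero =>
    intro k hk hk1 H hH hpre
    have h1 := hH.1 (n - 1) (by omega) (by omega)
    by_cases h2 : H (n - 1) = n - 1
    · exact L.disc H hH (n - 1) (by omega) (by omega) h2
    · rw [L.ext H (Lk n (n - 1))]
      · exact Lk_zero L (n - 1) (by omega) (by omega)
      · intro v hv hvn
        unfold Lk
        split_ifs with h3
        · exact hpre v hv (by omega)
        · have h4 := hH.1 v hv hvn
          have : v = n - 1 ∨ v = n := by omega
          rcases this with h5 | h5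
          · subst h5; omega
          · subst h5; omega
  | succ d ihd =>
    intro k hk hk1
    -- induction on `H k`
    have key : ∀ m : ℕ, ∀ H, Hs n H → (∀ v, 1 ≤ v → v < k → H v = v + 1) → H k ≤ m → D H = 0 := by
      intro m
      induction m with
      | zero =>
        intro H hH _ hm
        have := hH.1 k hk1 (by omega)
        omega
      | succ m ihm =>
        intro H hH hpre hm
        have h1 := hH.1 k hk1 (by omega)
        by_cases h2 : H k = k
        · exact L.disc H hH k hk1 (by omega) h2
        by_cases h3 : H k = k + 1
        · apply ihd (k + 1) (by omega) (by omega) H hH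
          intro v hv hvk
          by_cases h4 : v = k
          · subst h4; exact h3
          · exact hpre v hv (by omega)
        by_cases h4 : H k ≤ m
        · exact ihm H hH hpre h4
        have h5 : H k = m + 1 := by omega
        apply lemmaS L (n - H k) (H k) le_rfl (by omega) (by omega) H
        · intro v hv1 hv2
          by_cases hvk : v < k
          · rw [hpre v hv1 hvk]; omega
          · have := hH.mono (a := k) (b := v) hk1 (by omega) (by omega)
            omega
        · intro H' hH' hHp' heq
          have hk' : H' k = H k := hHp' k hk1 (by omega)
          set e := H k with he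
          have hj1 : e - 1 + 1 = e := by omega
          have e2 : update H' k (e - 1 + 1) = H' := by
            rw [hj1, ← hk', update_eq_self]
          have hmon : k < n → e ≤ H' (k + 1) := by
            intro hlt
            have := hH'.2 k (by omega) hlt
            omega
          have hpre' : ∀ v, 1 ≤ v → v < k → H' v = v + 1 := by
            intro v hv hvk
            rw [hHp' v hv (by omega)]
            exact hpre v hv hvk
          have hs : ∀ x, k ≤ x → x ≤ e → Hs n (update H' k x) := by
            intro x hx hxe
            apply hH'.update hx (by omega)
            · intro v hv hv1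
              rw [hpre' v hv1 (by omega)]; omega
            · intro hlt; have := hmon hlt; omega
          have hlaw := L.typeI H' k (e - 1) hk1 (by omega) (by omega)
            (by rw [hj1]; exact heq) (hs _ (by omega) (by omega)) (by rw [e2]; exact hH')
          rw [e2] at hlaw
          have z1 : D (update H' k (e - 1)) = 0 := by
            apply ihm _ (hs _ (by omega) (by omega))
            · intro v hv hvk
              rw [update_of_ne (by omega)]
              exact hpre' v hv hvk
            · rw [update_self]; omega
          have z0 : D (update H' k (e - 1 - 1)) = 0 := by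
            apply ihm _ (hs _ (by omega) (by omega))
            · intro v hv hvk
              rw [update_of_ne (by omega)]
              exact hpre' v hv hvk
            · rw [update_self]; omega
          rw [z0, z1, mul_zero, mul_zero, zero_add] at hlaw
          exact hlaw.symm
        · exact hH
        · intro v _ _; rfl
    intro H hH hpre
    exact key _ H hH hpre le_rfl

/-- uniqueness: the laws force `D = 0`. -/
theorem laws_unique (L : Laws n N D) : ∀ H, Hs n H → D H = 0 := by
  intro H hH
  by_cases hn : 2 ≤ n
  · exact prefix_zero L hn (n - 2) 1 (by omega) le_rfl H hH (fun v hv hv1 => by omega)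
  · rw [L.ext H (fun _ => n)]
    · exact L.compl
    · intro v hv hvn
      have := hH.1 v hv hvn
      show H v = n
      omega

end

end Crest.Agent.R059
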