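import Crest.Agent.R059.HikOp
import Crest.Agent.R059.HikTypeII
import Crest.Agent.R059.HikCut
import Crest.Agent.R059.Uniq

set_option autoImplicit false

namespace Crest.Agent.R059.Hik

open Crest.Agent.R059

variable {K : Type} [Field K]

/-- the defect of the local type II relation. -/
def chiII (q : K) (N : ℕ) (g : ℕ → K) (φ : St K) : St K :=
  (1 + q) • U q (D N g (U q φ)) - q • U q (U q (D N g φ)) - D N g (U q (U q φ))

theorem Good_smul {k : ℕ} {ψ : St K} (r : K) (h : Good k ψ) : Good k (r • ψ) := by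
  intro L hL
  apply h
  intro h0
  apply hL
  simp [h0]

theorem Good_sub {k : ℕ} {ψ χ : St K} (h : Good k ψ) (h' : Good k χ) : Good k (ψ - χ) := by
  intro L hL
  by_cases h0 : ψ L = 0
  · apply h'
    intro h1
    apply hL
    simp [h0, h1]
  · exact h L h0

theorem Good_chiII {q : K} {N : ℕ} {g : ℕ → K} {k : ℕ} {φ : St K} (h : Good (k + 1) φ) :
    Good (k + 2) (chiII q N g φ) := by
  unfold chiII
  apply Good_sub
  · apply Good_sub
    · exact Good_smul _ (Good_U (Good_D (Good_U h)))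
    · exact Good_smul _ (Good_U (Good_U (Good_D h)))
  · exact Good_D (Good_U (Good_U h))

theorem typeII_local {q : K} (hq0 : q ≠ 0) (hq : ∀ m : ℕ, 0 < m → q ^ m ≠ 1) {N : ℕ}
    {g : ℕ → K} {k : ℕ} {φ : St K} (hG : Good (k + 1) φ) : Anti k (chiII q N g φ) := by
  intro L1 L2 a b hL2
  cases L1 with
  | cons c L1 =>
    rw [(Good_chiII hG).zero (by simp; omega), (Good_chiII hG).zero (by simp; omega), neg_zero]
  | nil =>
    have key : ∀ a b : ℕ, chiII q N g φ (a :: b :: L2) =
        ∑ x ∈ Finset.range (N + 1), g x * φ (L2 ++ [x]) * RII q x L2 a b := by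
      intro a b
      unfold chiII
      simp only [Pi.sub_apply, Pi.smul_apply, smul_eq_mul, U_cons]
      rw [D_apply, D_apply, D_apply]
      simp only [Finset.mul_sum]
      rw [← Finset.sum_sub_distrib, ← Finset.sum_sub_distrib]
      refine Finset.sum_congr rfl fun x _ => ?_
      rw [List.cons_append, List.cons_append, List.cons_append, U_cons, U_cons, U_cons]
      unfold RII
      ring
    rw [List.nil_append, List.nil_append, key, key, eq_neg_iff_add_eq_zero,
      ← Finset.sum_add_distrib]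
    refine Finset.sum_eq_zero fun x _ => ?_
    by_cases h0 : φ (L2 ++ [x]) = 0
    · rw [h0]; ring
    · obtain ⟨_, h2, h3⟩ := hG _ h0
      have := co_typeII q hq0 hq a b x L2 h2 h3
      linear_combination g x * φ (L2 ++ [x]) * this

/-! ### words -/

/-- `tail` without its first closings. -/
def tailA (q : K) (N : ℕ) (g : ℕ → K) (H : ℕ → ℕ) : ℕ → Module.End K (St K)
  | 0 => 1
  | v + 1 => tail q N g H v * U q

theorem tail_eq (q : K) (N : ℕ) (g : ℕ → K) (H : ℕ → ℕ) (v : ℕ) :
    tail q N g H v = tailA q N g H v * D N g ^ (H (v + 1) - H v) := by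
  cases v with
  | zero => simp [tail, tailA]
  | succ v => rfl

theorem tailA_congr (q : K) (N : ℕ) (g : ℕ → K) (H H' : ℕ → ℕ) (v : ℕ)
    (h : ∀ w, w ≤ v → H w = H' w) : tailA q N g H v = tailA q N g H' v := by
  cases v with
  | zero => rfl
  | succ v =>
    show tail q N g H v * U q = tail q N g H' v * U q
    rw [tail_congr q N g H H' v (fun w hw => h w (by omega))]

/-- extended Hessenberg functions. -/
structure Ex (n : ℕ) (H : ℕ → ℕ) : Prop where
  zero : H 0 = 0
  mono : ∀ v, v ≤ n → H v ≤ H (v + 1)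
  ge : ∀ v, v ≤ n → v ≤ H v
  last : H (n + 1) = n

theorem Ex.extH {n : ℕ} {H : ℕ → ℕ} (h : Hs n H) : Ex n (extH n H) where
  zero := rfl
  mono := by
    intro v hv
    unfold Hik.extH
    by_cases h0 : v = 0
    · subst h0; simp
    · rw [if_neg h0, if_pos hv, if_neg (by omega)]
      split_ifs with h1
      · exact h.2 v (by omega) (by omega)
      · exact (h.1 v (by omega) hv).2
  ge := by
    intro v hv
    unfold Hik.extH
    by_cases h0 : v = 0
    · subst h0; simp
    · rw [if_neg h0, if_pos hv]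
      exact (h.1 v (by omega) hv).1
  last := by
    unfold Hik.extH
    rw [if_neg (by omega), if_neg (by omega)]

/-- state after adding the vertices `n, …, v`. -/
def hd (q : K) (N : ℕ) (g : ℕ → K) (n : ℕ) (H : ℕ → ℕ) (v : ℕ) : St K :=
  head q N g n H (n + 1 - v)

theorem hd_last (q : K) (N : ℕ) (g : ℕ → K) (n : ℕ) (H : ℕ → ℕ) : hd q N g n H (n + 1) = vac := by
  unfold hd
  rw [Nat.sub_self]
  rfl

theorem hd_step (q : K) (N : ℕ) (g : ℕ → K) (n : ℕ) (H : ℕ → ℕ) (v : ℕ) (hv : v ≤ n) :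
    hd q N g n H v = U q ((D N g ^ (H (v + 1) - H v)) (hd q N g n H (v + 1))) := by
  unfold hd
  rw [show n + 1 - v = (n - v) + 1 by omega, show n + 1 - (v + 1) = n - v by omega]
  simp only [head]
  rw [show n - (n - v) = v by omega]

theorem hd_good {q : K} {N : ℕ} {g : ℕ → K} {n : ℕ} {H : ℕ → ℕ} (hE : Ex n H) (v : ℕ)
    (hv : v ≤ n) : Good (H (v + 1) - v) (hd q N g n H (v + 1)) := by
  obtain ⟨d, rfl⟩ : ∃ d, v = n - d := ⟨n - v, by omega⟩
  clear hv
  induction d with
  | zero =>
    rw [Nat.sub_zero, hd_last, hE.last, Nat.sub_self]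
    exact Good_vac
  | succ d ih =>
    by_cases hd' : n ≤ d
    · rwa [show n - (d + 1) = n - d by omega]
    · rw [show n - (d + 1) + 1 = n - d by omega]
      rw [hd_step q N g n H (n - d) (by omega)]
      have h1 := hE.mono (n - d) (by omega)
      have h2 := hE.ge (n - d) (by omega)
      rw [show H (n - d) - (n - (d + 1)) = (H (n - d) - (n - d)) + 1 by omega]
      apply Good_U
      apply Good_Dpow
      rwa [show H (n - d) - (n - d) + (H (n - d + 1) - H (n - d)) = H (n - d + 1) - (n - d) by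
        omega]

theorem hd_congr (q : K) (N : ℕ) (g : ℕ → K) (n : ℕ) (H H' : ℕ → ℕ) (v : ℕ) (hv : v ≤ n + 1)
    (h : ∀ w, v ≤ w → w ≤ n + 1 → H w = H' w) : hd q N g n H v = hd q N g n H' v := by
  obtain ⟨d, rfl⟩ : ∃ d, v = n + 1 - d := ⟨n + 1 - v, by omega⟩
  clear hv
  induction d with
  | zero => rw [Nat.sub_zero, hd_last, hd_last]
  | succ d ih =>
    by_cases hd' : n + 1 ≤ d
    · rw [show n + 1 - (d + 1) = n + 1 - d by omega]
      exact ih (fun w hw hw' => h w (by omega) hw')
    · rw [hd_step q N g n H _ (by omega), hd_step q N g n H' _ (by omega)]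
      rw [show n + 1 - (d + 1) + 1 = n + 1 - d by omega,
        ih (fun w hw hw' => h w (by omega) hw'), h (n + 1 - d) (by omega) (by omega),
        h (n + 1 - (d + 1)) (by omega) (by omega)]

theorem tail_hd (q : K) (N : ℕ) (g : ℕ → K) (n : ℕ) (H : ℕ → ℕ) (v : ℕ) (hv : v ≤ n) :
    tail q N g H n vac = tail q N g H v (hd q N g n H (v + 1)) := by
  rw [tail_head q N g n H (n - v) (by omega)]
  unfold hd
  rw [show n - (n - v) = v by omega, show n + 1 - (v + 1) = n - v by omega]

/-- right twins stay symmetric. -/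
theorem hd_sym {q : K} {N : ℕ} {g : ℕ → K} {n : ℕ} {H : ℕ → ℕ} (hE : Ex n H) (j : ℕ)
    (hj1 : j + 1 ≤ n) (hjj : H j = H (j + 1)) (d : ℕ) (hdj : d < j)
    (hw : ∀ w, j - d ≤ w → w ≤ j → j + 1 ≤ H w) :
    Sym q (H (j - d) - (j + 1)) (hd q N g n H (j - d)) := by
  induction d with
  | zero =>
    rw [Nat.sub_zero, hd_step q N g n H j (by omega), hjj, Nat.sub_self, pow_zero,
      Module.End.one_apply, hd_step q N g n H (j + 1) hj1]
    apply UU_Sym
    apply Good_Dpow
    have h1 := hE.mono (j + 1) hj1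
    have h2 := hE.ge (j + 1) hj1
    rw [show H (j + 1) - (j + 1) + (H (j + 1 + 1) - H (j + 1)) = H (j + 1 + 1) - (j + 1) by omega]
    exact hd_good hE (j + 1) hj1
  | succ d ih =>
    have ih := ih (by omega) (fun w hw1 hw2 => hw w (by omega) hw2)
    rw [hd_step q N g n H (j - (d + 1)) (by omega)]
    have h1 := hE.mono (j - (d + 1)) (by omega)
    have h2 := hE.ge (j - (d + 1)) (by omega)
    have h3 := hw (j - (d + 1)) (by omega) (by omega)
    have h4 := hd_good (q := q) (N := N) (g := g) hE (j - (d + 1)) (by omega)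
    rw [show j - (d + 1) + 1 = j - d by omega] at h1 h4 ⊢
    have h5 : Good (H (j - (d + 1)) - (j - (d + 1)))
        ((D N g ^ (H (j - d) - H (j - (d + 1)))) (Hik.hd q N g n H (j - d))) := by
      apply Good_Dpow
      rwa [show H (j - (d + 1)) - (j - (d + 1)) + (H (j - d) - H (j - (d + 1))) =
        H (j - d) - (j - (d + 1)) by omega]
    apply Sym_U h5 (by omega)
    apply Sym_Dpow
    rwa [show H (j - (d + 1)) - (j + 1) + (H (j - d) - H (j - (d + 1))) =
        H (j - d) - (j + 1) by omega]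

/-- **type I law** for Hikita's sum. -/
theorem HF_typeI {q : K} (hq0 : q ≠ 0) (hq : ∀ m : ℕ, 0 < m → q ^ m ≠ 1) (N : ℕ) (g : ℕ → K)
    (n : ℕ) (H0 H1 H2 : ℕ → ℕ) (s0 : Hs n H0) (s1 : Hs n H1) (s2 : Hs n H2) (i j : ℕ)
    (hi : 1 ≤ i) (hij : i < j) (hj : j + 1 ≤ n) (h0 : H0 i = j - 1) (h1 : H1 i = j)
    (h2 : H2 i = j + 1) (e1 : ∀ v, 1 ≤ v → v ≤ n → v ≠ i → H1 v = H0 v)
    (e2 : ∀ v, 1 ≤ v → v ≤ n → v ≠ i → H2 v = H0 v) (hjk : H0 j = H0 (j + 1)) :
    (1 + q) * HF q N g n H1 = q * HF q N g n H0 + HF q N g n H2 := by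
  obtain ⟨i, rfl⟩ : ∃ i', i = i' + 1 := ⟨i - 1, by omega⟩
  set E0 := extH n H0 with hE0
  set E1 := extH n H1 with hE1
  set E2 := extH n H2 with hE2
  have x0 : Ex n E0 := Ex.extH s0
  have x1 : Ex n E1 := Ex.extH s1
  have x2 : Ex n E2 := Ex.extH s2
  have a1 : ∀ v, v ≠ i + 1 → E1 v = E0 v := by
    intro v hv
    rw [hE1, hE0]
    unfold extH
    split_ifs with c1 c2
    · rfl
    · exact e1 v (by omega) c2 hv
    · rfl
  have a2 : ∀ v, v ≠ i + 1 → E2 v = E0 v := by
    intro v hv
    rw [hE2, hE0]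
    unfold extH
    split_ifs with c1 c2
    · rfl
    · exact e2 v (by omega) c2 hv
    · rfl
  have b0 : E0 (i + 1) = j - 1 := by
    rw [hE0]; unfold extH; rw [if_neg (by omega), if_pos (by omega), h0]
  have b1 : E1 (i + 1) = j := by
    rw [hE1]; unfold extH; rw [if_neg (by omega), if_pos (by omega), h1]
  have b2 : E2 (i + 1) = j + 1 := by
    rw [hE2]; unfold extH; rw [if_neg (by omega), if_pos (by omega), h2]
  have hjk' : E2 j = E2 (j + 1) := by
    rw [a2 j (by omega), a2 (j + 1) (by omega), hE0]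
    unfold extH
    rw [if_neg (by omega), if_pos (by omega), if_neg (by omega), if_pos hj, hjk]
  -- the common data
  have hM : j + 1 ≤ E0 (i + 2) := by
    have := x2.mono (i + 1) (by omega)
    rw [b2, a2 (i + 1 + 1) (by omega)] at this
    exact this
  have hP : E0 i ≤ j - 1 := by
    have := x0.mono i (by omega)
    rwa [b0] at this
  set ψ : St K := (D N g ^ (E0 (i + 2) - (j + 1))) (hd q N g n E2 (i + 2)) with hψ
  have hs1 : hd q N g n E1 (i + 2) = hd q N g n E2 (i + 2) :=
    hd_congr q N g n E1 E2 (i + 2) (by omega) (fun w hw _ => by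
      rw [a1 w (by omega), a2 w (by omega)])
  have hs0 : hd q N g n E0 (i + 2) = hd q N g n E2 (i + 2) :=
    hd_congr q N g n E0 E2 (i + 2) (by omega) (fun w hw _ => by rw [a2 w (by omega)])
  have hgood : Good (j - 1 - (i + 1) + 2) ψ := by
    rw [hψ]
    apply Good_Dpow
    have h4 := hd_good (q := q) (N := N) (g := g) x2 (i + 1) (by omega)
    rw [show i + 1 + 1 = i + 2 by rfl, a2 (i + 2) (by omega)] at h4
    rwa [show j - 1 - (i + 1) + 2 + (E0 (i + 2) - (j + 1)) = E0 (i + 2) - (i + 1) by omega]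
  have hsym : Sym q 0 ψ := by
    rw [hψ]
    apply Sym_Dpow
    have h5 := hd_sym (q := q) (N := N) (g := g) x2 j hj hjk' (j - (i + 2)) (by omega) (by
      intro w hw1 hw2
      have h6 : ∀ w, i + 2 ≤ w → w ≤ j → E0 (i + 2) ≤ E2 w := by
        intro w hw1
        obtain ⟨d, rfl⟩ := Nat.exists_eq_add_of_le hw1
        clear hw1
        induction d with
        | zero => intro _; rw [Nat.add_zero, a2 (i + 2) (by omega)]
        | succ d ih =>
          intro h
          exact (ih (by omega)).trans (x2.mono (i + 2 + d) (by omega))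
      exact hM.trans (h6 w (by omega) hw2))
    rw [show j - (j - (i + 2)) = i + 2 by omega, a2 (i + 2) (by omega)] at h5
    rwa [Nat.zero_add]
  have law := typeI_local hq0 hq (N := N) (g := g) hgood hsym
  have tA1 : tailA q N g E1 i = tailA q N g E0 i :=
    tailA_congr q N g E1 E0 i (fun w hw => a1 w (by omega))
  have tA2 : tailA q N g E2 i = tailA q N g E0 i :=
    tailA_congr q N g E2 E0 i (fun w hw => a2 w (by omega))
  set B : Module.End K (St K) := tailA q N g E0 i * D N g ^ (j - 1 - E0 i) with hB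
  have f0 : tail q N g E0 n vac = B (U q (D N g (D N g ψ))) := by
    rw [tail_hd q N g n E0 (i + 1) (by omega)]
    rw [show tail q N g E0 (i + 1) = tail q N g E0 i * U q * D N g ^ (E0 (i + 2) - E0 (i + 1)) from
      rfl, tail_eq q N g E0 i, b0, show i + 1 + 1 = i + 2 from rfl, hs0,
      show E0 (i + 2) - (j - 1) = 1 + 1 + (E0 (i + 2) - (j + 1)) by omega, pow_add, pow_add,
      pow_one, hB, hψ]
    simp only [Module.End.mul_apply]
  have f1 : tail q N g E1 n vac = B (D N g (U q (D N g ψ))) := by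
    rw [tail_hd q N g n E1 (i + 1) (by omega)]
    rw [show tail q N g E1 (i + 1) = tail q N g E1 i * U q * D N g ^ (E1 (i + 2) - E1 (i + 1)) from
      rfl, tail_eq q N g E1 i, b1, show i + 1 + 1 = i + 2 from rfl, hs1, tA1,
      a1 (i + 2) (by omega), a1 i (by omega),
      show E0 (i + 2) - j = 1 + (E0 (i + 2) - (j + 1)) by omega,
      show j - E0 i = (j - 1 - E0 i) + 1 by omega, pow_add, pow_add,
      pow_one, hB, hψ]
    simp only [Module.End.mul_apply]
  have f2 : tail q N g E2 n vac = B (D N g (D N g (U q ψ))) := by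
    rw [tail_hd q N g n E2 (i + 1) (by omega)]
    rw [show tail q N g E2 (i + 1) = tail q N g E2 i * U q * D N g ^ (E2 (i + 2) - E2 (i + 1)) from
      rfl, tail_eq q N g E2 i, b2, show i + 1 + 1 = i + 2 from rfl, tA2,
      a2 (i + 2) (by omega), a2 i (by omega),
      show j + 1 - E0 i = (j - 1 - E0 i) + 1 + 1 by omega, pow_add, pow_add,
      pow_one, hB, hψ]
    simp only [Module.End.mul_apply]
  unfold HF
  rw [← hE0, ← hE1, ← hE2, f0, f1, f2]
  have := congrArg (fun x => B x []) law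
  simp only [map_smul, map_add, Pi.smul_apply, Pi.add_apply, smul_eq_mul] at this
  exact this

/-- a state antisymmetric in left twins `t, t+1` is killed. -/
theorem tail_kill {q : K} {N : ℕ} {g : ℕ → K} {n : ℕ} {H : ℕ → ℕ} (hE : Ex n H) (t : ℕ)
    (ht : 1 ≤ t) (htn : t + 1 ≤ n) (hv : ∀ v, 1 ≤ v → v < t → H v ≠ t) :
    ∀ v, v + 1 ≤ t → t + 1 ≤ H (v + 1) → ∀ ψ : St K, Good (H (v + 1) - v) ψ →
      Anti (H (v + 1) - (t + 1)) ψ → tail q N g H v ψ = 0 := by
  have kill : ∀ (k r m : ℕ) (ψ : St K), Good (k + r) ψ → Anti r ψ → r + 2 ≤ m →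
      (D N g ^ m) ψ = 0 := by
    intro k r m ψ hG hA hm
    rw [show m = (m - (r + 2)) + ((1 + 1) + r) by omega, pow_add, pow_add, pow_add, pow_one]
    simp only [Module.End.mul_apply]
    rw [Anti_DD (k := k) (Good_Dpow hG) (Anti_Dpow (by rwa [Nat.zero_add])), map_zero]
  intro v
  induction v with
  | zero =>
    intro _ h1 ψ hG hA
    show (D N g ^ (H 1 - H 0)) ψ = 0
    rw [hE.zero, Nat.sub_zero]
    refine kill (t + 1) (H 1 - (t + 1)) (H 1) ψ ?_ hA (by simp at h1; omega)
    simp only [Nat.zero_add, Nat.sub_zero] at hG h1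
    rwa [show t + 1 + (H 1 - (t + 1)) = H 1 by omega]
  | succ v ih =>
    intro hvt h1 ψ hG hA
    simp only [tail, Module.End.mul_apply]
    have m1 := hE.mono (v + 1) (by omega)
    have m2 := hE.ge (v + 1) (by omega)
    rw [show v + 1 + 1 = v + 2 from rfl] at *
    by_cases h2 : t + 1 ≤ H (v + 1)
    · have g1 : Good (H (v + 1) - (v + 1)) ((D N g ^ (H (v + 2) - H (v + 1))) ψ) := by
        apply Good_Dpow
        rwa [show H (v + 1) - (v + 1) + (H (v + 2) - H (v + 1)) = H (v + 2) - (v + 1) by omega]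
      have g2 : Anti (H (v + 1) - (t + 1)) ((D N g ^ (H (v + 2) - H (v + 1))) ψ) := by
        apply Anti_Dpow
        rwa [show H (v + 1) - (t + 1) + (H (v + 2) - H (v + 1)) = H (v + 2) - (t + 1) by omega]
      apply ih (by omega) h2
      · have := Good_U (q := q) g1
        rwa [show H (v + 1) - (v + 1) + 1 = H (v + 1) - v by omega] at this
      · exact Anti_U g1 (by omega) g2
    · have h3 := hv (v + 1) (by omega) (by omega)
      rw [kill (H (v + 2) - (v + 1) - (H (v + 2) - (t + 1))) (H (v + 2) - (t + 1)) _ ψ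
        (by rwa [show H (v + 2) - (v + 1) - (H (v + 2) - (t + 1)) + (H (v + 2) - (t + 1)) =
          H (v + 2) - (v + 1) by omega]) hA (by omega)]
      simp

/-- **type II law** for Hikita's sum. -/
theorem HF_typeII {q : K} (hq0 : q ≠ 0) (hq : ∀ m : ℕ, 0 < m → q ^ m ≠ 1) (N : ℕ) (g : ℕ → K)
    (n : ℕ) (H0 H1 H2 : ℕ → ℕ) (s0 : Hs n H0) (s1 : Hs n H1) (s2 : Hs n H2) (t b : ℕ)
    (ht : 1 ≤ t) (htb : t + 1 ≤ b) (hb : b + 1 ≤ n) (a0 : H0 t = b) (b0 : H0 (t + 1) = b)
    (a1 : H1 t = b) (b1 : H1 (t + 1) = b + 1) (a2 : H2 t = b + 1) (b2 : H2 (t + 1) = b + 1)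
    (e1 : ∀ v, 1 ≤ v → v ≤ n → v ≠ t → v ≠ t + 1 → H1 v = H0 v)
    (e2 : ∀ v, 1 ≤ v → v ≤ n → v ≠ t → v ≠ t + 1 → H2 v = H0 v)
    (hv : ∀ v, 1 ≤ v → v ≤ n → v ≠ t → v ≠ t + 1 → H0 v ≠ t) :
    (1 + q) * HF q N g n H1 = q * HF q N g n H0 + HF q N g n H2 := by
  obtain ⟨t, rfl⟩ : ∃ t', t = t' + 1 := ⟨t - 1, by omega⟩
  set E0 := extH n H0 with hE0
  set E1 := extH n H1 with hE1
  set E2 := extH n H2 with hE2
  have x0 : Ex n E0 := Ex.extH s0
  have x1 : Ex n E1 := Ex.extH s1
  have x2 : Ex n E2 := Ex.extH s2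
  have c1 : ∀ v, v ≠ t + 1 → v ≠ t + 2 → E1 v = E0 v := by
    intro v hv1 hv2
    rw [hE1, hE0]
    unfold extH
    split_ifs with c1 c2
    · rfl
    · exact e1 v (by omega) c2 hv1 hv2
    · rfl
  have c2 : ∀ v, v ≠ t + 1 → v ≠ t + 2 → E2 v = E0 v := by
    intro v hv1 hv2
    rw [hE2, hE0]
    unfold extH
    split_ifs with c1 c2
    · rfl
    · exact e2 v (by omega) c2 hv1 hv2
    · rfl
  have ev : ∀ (H : ℕ → ℕ) (v : ℕ), 1 ≤ v → v ≤ n → extH n H v = H v := by
    intro H v h1 h2
    unfold extH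
    rw [if_neg (by omega), if_pos h2]
  have ea0 : E0 (t + 1) = b := by rw [hE0, ev _ _ (by omega) (by omega), a0]
  have eb0 : E0 (t + 2) = b := by rw [hE0, ev _ _ (by omega) (by omega)]; exact b0
  have ea1 : E1 (t + 1) = b := by rw [hE1, ev _ _ (by omega) (by omega), a1]
  have eb1 : E1 (t + 2) = b + 1 := by rw [hE1, ev _ _ (by omega) (by omega)]; exact b1
  have ea2 : E2 (t + 1) = b + 1 := by rw [hE2, ev _ _ (by omega) (by omega), a2]
  have eb2 : E2 (t + 2) = b + 1 := by rw [hE2, ev _ _ (by omega) (by omega)]; exact b2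
  have hM : b + 1 ≤ E0 (t + 3) := by
    have := x2.mono (t + 2) (by omega)
    rw [eb2, c2 (t + 2 + 1) (by omega) (by omega)] at this
    exact this
  have hP : E0 t ≤ b := by
    have := x0.mono t (by omega)
    rwa [ea0] at this
  set φ : St K := (D N g ^ (E0 (t + 3) - (b + 1))) (hd q N g n E0 (t + 3)) with hφ
  have hs1 : hd q N g n E1 (t + 3) = hd q N g n E0 (t + 3) :=
    hd_congr q N g n E1 E0 (t + 3) (by omega) (fun w hw _ => c1 w (by omega) (by omega))
  have hs2 : hd q N g n E2 (t + 3) = hd q N g n E0 (t + 3) :=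
    hd_congr q N g n E2 E0 (t + 3) (by omega) (fun w hw _ => c2 w (by omega) (by omega))
  have hgood : Good (b - (t + 2) + 1) φ := by
    rw [hφ]
    apply Good_Dpow
    have h4 := hd_good (q := q) (N := N) (g := g) x0 (t + 2) (by omega)
    rw [show t + 2 + 1 = t + 3 from rfl] at h4
    rwa [show b - (t + 2) + 1 + (E0 (t + 3) - (b + 1)) = E0 (t + 3) - (t + 2) by omega]
  have hanti := typeII_local hq0 hq (N := N) (g := g) hgood
  have hgood2 := Good_chiII (q := q) (N := N) (g := g) hgood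
  have kill := tail_kill (q := q) (N := N) (g := g) x0 (t + 1) (by omega) (by omega) (by
    intro v hv1 hv2
    have := hv v hv1 (by omega) (by omega) (by omega)
    rwa [hE0, ev _ _ hv1 (by omega)]) t le_rfl (by rw [ea0]; omega) (chiII q N g φ)
    (by rw [ea0]; rwa [show b - (t + 2) + 2 = b - t by omega] at hgood2)
    (by rw [ea0]; exact hanti)
  have tA1 : tailA q N g E1 t = tailA q N g E0 t :=
    tailA_congr q N g E1 E0 t (fun w hw => c1 w (by omega) (by omega))
  have tA2 : tailA q N g E2 t = tailA q N g E0 t :=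
    tailA_congr q N g E2 E0 t (fun w hw => c2 w (by omega) (by omega))
  have step : ∀ E : ℕ → ℕ, tail q N g E n vac =
      tail q N g E t (U q ((D N g ^ (E (t + 2) - E (t + 1)))
        (U q ((D N g ^ (E (t + 3) - E (t + 2))) (hd q N g n E (t + 3)))))) := by
    intro E
    rw [tail_hd q N g n E t (by omega), hd_step q N g n E (t + 1) (by omega),
      hd_step q N g n E (t + 1 + 1) (by omega)]
  have f0 : tail q N g E0 n vac = tail q N g E0 t (U q (U q (D N g φ))) := by
    rw [step, ea0, eb0, Nat.sub_self, pow_zero, Module.End.one_apply,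
      show E0 (t + 3) - b = 1 + (E0 (t + 3) - (b + 1)) by omega, pow_add, pow_one, hφ]
    simp only [Module.End.mul_apply]
  have f1 : tail q N g E1 n vac = tail q N g E0 t (U q (D N g (U q φ))) := by
    rw [step, ea1, eb1, hs1, c1 (t + 3) (by omega) (by omega), show b + 1 - b = 1 by omega,
      pow_one, hφ, tail_eq q N g E1 t, tail_eq q N g E0 t, tA1, ea1, ea0, c1 t (by omega) (by omega)]
  have f2 : tail q N g E2 n vac = tail q N g E0 t (D N g (U q (U q φ))) := by
    rw [step, ea2, eb2, hs2, c2 (t + 3) (by omega) (by omega), Nat.sub_self, pow_zero,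
      Module.End.one_apply, hφ, tail_eq q N g E2 t, tail_eq q N g E0 t, tA2, ea2, ea0,
      c2 t (by omega) (by omega), show b + 1 - E0 t = (b - E0 t) + 1 by omega, pow_add, pow_one]
    simp only [Module.End.mul_apply]
  unfold HF
  rw [← hE0, ← hE1, ← hE2, f0, f1, f2]
  have := congrFun kill []
  unfold chiII at this
  simp only [map_sub, map_smul, Pi.sub_apply, Pi.smul_apply, smul_eq_mul, Pi.zero_apply] at this
  linear_combination this

end Crest.Agent.R059.Hik
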