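import Crest.Agent.R059.HikLoc

set_option autoImplicit false

namespace Crest.Agent.R059.Hik

variable {K : Type} [Field K]

theorem co_perm (q : K) (c : ℕ) {L L' : List ℕ} (h : L.Perm L') : co q c L = co q c L' := by
  unfold co
  have h1 : (c = 1 ∨ ∃ y ∈ L, c = y + 1) ↔ (c = 1 ∨ ∃ y ∈ L', c = y + 1) := by
    simp only [h.mem_iff]
  rw [(h.map _).prod_eq]
  simp only [h1]

theorem co_swap (q : K) (c a b : ℕ) (L1 L2 : List ℕ) :
    co q c (L1 ++ a :: b :: L2) = co q c (L1 ++ b :: a :: L2) :=
  co_perm q c ((List.Perm.swap _ _ _).append_left L1)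

theorem co_zero (q : K) (L : List ℕ) : co q 0 L = 0 := by
  unfold co
  rw [if_neg]
  rintro (h | ⟨y, _, h⟩)
  · omega
  · omega

theorem co_mem (q : K) {c : ℕ} {L : List ℕ} (h : c ∈ L) : co q c L = 0 := by
  unfold co
  split_ifs
  · apply List.prod_eq_zero
    rw [List.mem_map]
    exact ⟨c, h, by rw [sub_self, ff_zero]⟩
  · rfl

theorem Good_U {q : K} {k : ℕ} {ψ : St K} (h : Good k ψ) : Good (k + 1) (U q ψ) := by
  intro L hL
  cases L with
  | nil => exact absurd (U_nil q ψ) hL
  | cons c L =>
    rw [U_cons] at hL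
    obtain ⟨h1, h2, h3⟩ := h L (right_ne_zero_of_mul hL)
    have hc := left_ne_zero_of_mul hL
    refine ⟨by simp [h1], ?_, ?_⟩
    · rw [List.nodup_cons]
      exact ⟨fun hm => hc (co_mem q hm), h2⟩
    · intro x hx
      rw [List.mem_cons] at hx
      rcases hx with rfl | hx
      · by_contra hx0
        have : x = 0 := by omega
        subst this
        exact hc (co_zero q L)
      · exact h3 x hx

theorem Good_D {N : ℕ} {g : ℕ → K} {k : ℕ} {ψ : St K} (h : Good (k + 1) ψ) :
    Good k (D N g ψ) := by
  intro L hL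
  rw [D_apply] at hL
  obtain ⟨x, _, hx⟩ := Finset.exists_ne_zero_of_sum_ne_zero hL
  obtain ⟨h1, h2, h3⟩ := h _ (right_ne_zero_of_mul hx)
  refine ⟨by simpa using h1, (List.nodup_append.mp h2).1, ?_⟩
  intro y hy
  exact h3 y (by simp [hy])

theorem Good_Dpow {N : ℕ} {g : ℕ → K} {k m : ℕ} {ψ : St K} (h : Good (k + m) ψ) :
    Good k ((D N g ^ m) ψ) := by
  induction m generalizing ψ with
  | zero => simpa using h
  | succ m ih =>
    rw [pow_succ, Module.End.mul_apply]
    exact ih (Good_D (by rwa [show k + m + 1 = k + (m + 1) by omega]))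

theorem Good_vac : Good 0 (vac : St K) := by
  intro L hL
  unfold vac at hL
  split_ifs at hL with h
  · subst h; simp
  · exact absurd rfl hL

theorem Good.zero {k : ℕ} {ψ : St K} (h : Good k ψ) {L : List ℕ} (hL : L.length ≠ k) :
    ψ L = 0 := by
  by_contra h0
  exact hL (h L h0).1

theorem Sym_U {q : K} {k r : ℕ} {ψ : St K} (hG : Good k ψ) (hk : r + 2 ≤ k) (h : Sym q r ψ) :
    Sym q r (U q ψ) := by
  constructor
  · intro L1 L2 a b hL2 h1 h2
    cases L1 with
    | nil =>
      rw [List.nil_append, List.nil_append, U_cons, U_cons,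
        hG.zero (by simp; omega), hG.zero (by simp; omega)]
      simp
    | cons c L1 =>
      rw [List.cons_append, List.cons_append, U_cons, U_cons, co_swap]
      linear_combination co q c (L1 ++ b :: a :: L2) * h.far L1 L2 a b hL2 h1 h2
  · intro L1 L2 b hL2
    cases L1 with
    | nil =>
      rw [List.nil_append, U_cons, hG.zero (by simp; omega), mul_zero]
    | cons c L1 =>
      rw [List.cons_append, U_cons, h.near L1 L2 b hL2, mul_zero]

theorem Sym_D {q : K} {N : ℕ} {g : ℕ → K} {r : ℕ} {ψ : St K} (h : Sym q (r + 1) ψ) :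
    Sym q r (D N g ψ) := by
  constructor
  · intro L1 L2 a b hL2 h1 h2
    rw [D_apply, D_apply, Finset.mul_sum, Finset.mul_sum]
    refine Finset.sum_congr rfl fun x _ => ?_
    have := h.far L1 (L2 ++ [x]) a b (by simp [hL2]) h1 h2
    simp only [List.append_assoc, List.cons_append]
    linear_combination g x * this
  · intro L1 L2 b hL2
    rw [D_apply]
    refine Finset.sum_eq_zero fun x _ => ?_
    have := h.near L1 (L2 ++ [x]) b (by simp [hL2])
    simp only [List.append_assoc, List.cons_append]
    rw [this, mul_zero]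

theorem Sym_Dpow {q : K} {N : ℕ} {g : ℕ → K} {r m : ℕ} {ψ : St K} (h : Sym q (r + m) ψ) :
    Sym q r ((D N g ^ m) ψ) := by
  induction m generalizing ψ with
  | zero => simpa using h
  | succ m ih =>
    rw [pow_succ, Module.End.mul_apply]
    exact ih (Sym_D (by rwa [show r + m + 1 = r + (m + 1) by omega]))

theorem Anti_U {q : K} {k r : ℕ} {ψ : St K} (hG : Good k ψ) (hk : r + 2 ≤ k) (h : Anti r ψ) :
    Anti r (U q ψ) := by
  intro L1 L2 a b hL2
  cases L1 with
  | nil =>
    rw [List.nil_append, List.nil_append, U_cons, U_cons,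
      hG.zero (by simp; omega), hG.zero (by simp; omega)]
    simp
  | cons c L1 =>
    rw [List.cons_append, List.cons_append, U_cons, U_cons, co_swap, h L1 L2 a b hL2]
    ring

theorem Anti_D {N : ℕ} {g : ℕ → K} {r : ℕ} {ψ : St K} (h : Anti (r + 1) ψ) :
    Anti r (D N g ψ) := by
  intro L1 L2 a b hL2
  rw [D_apply, D_apply, ← Finset.sum_neg_distrib]
  refine Finset.sum_congr rfl fun x _ => ?_
  have := h L1 (L2 ++ [x]) a b (by simp [hL2])
  simp only [List.append_assoc, List.cons_append]
  linear_combination g x * this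

theorem Anti_Dpow {N : ℕ} {g : ℕ → K} {r m : ℕ} {ψ : St K} (h : Anti (r + m) ψ) :
    Anti r ((D N g ^ m) ψ) := by
  induction m generalizing ψ with
  | zero => simpa using h
  | succ m ih =>
    rw [pow_succ, Module.End.mul_apply]
    exact ih (Anti_D (by rwa [show r + m + 1 = r + (m + 1) by omega]))

theorem sum_anti {S : Finset ℕ} {B : ℕ → ℕ → K} (h : ∀ y z, B y z + B z y = 0)
    (h0 : ∀ y, B y y = 0) : ∑ y ∈ S, ∑ z ∈ S, B y z = 0 := by
  rw [← Finset.sum_product' (f := B)]
  refine Finset.sum_involution (fun p _ => (p.2, p.1)) ?_ ?_ ?_ ?_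
  · intro p _
    exact h p.1 p.2
  · intro p _ hp heq
    apply hp
    have : p.2 = p.1 := congrArg Prod.fst heq
    show B p.1 p.2 = 0
    rw [this]
    exact h0 _
  · intro p hp
    rw [Finset.mem_product] at hp ⊢
    exact ⟨hp.2, hp.1⟩
  · intro p _
    rfl

theorem DD_apply (N : ℕ) (g : ℕ → K) (ψ : St K) (L : List ℕ) :
    D N g (D N g ψ) L =
      ∑ y ∈ Finset.range (N + 1), ∑ z ∈ Finset.range (N + 1), g y * g z * ψ (L ++ [y, z]) := by
  rw [D_apply]
  refine Finset.sum_congr rfl fun y _ => ?_
  rw [D_apply, Finset.mul_sum]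
  refine Finset.sum_congr rfl fun z _ => ?_
  rw [List.append_assoc]
  simp only [List.cons_append, List.nil_append]
  ring

theorem Anti_DD {N : ℕ} {g : ℕ → K} {k : ℕ} {ψ : St K} (hG : Good k ψ) (h : Anti 0 ψ) :
    D N g (D N g ψ) = 0 := by
  funext L
  rw [DD_apply]
  apply sum_anti
  · intro y z
    have := h L [] y z rfl
    rw [this]
    ring
  · intro y
    by_contra h0
    have h1 := (hG _ (right_ne_zero_of_mul h0)).2.1
    rw [List.nodup_append] at h1
    simp at h1

theorem UU_Sym {q : K} {k : ℕ} {ψ : St K} (hG : Good k ψ) : Sym q k (U q (U q ψ)) := by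
  constructor
  · intro L1 L2 a b hL2 h1 h2
    cases L1 with
    | nil =>
      rw [List.nil_append, List.nil_append, U_cons, U_cons, U_cons, U_cons]
      unfold co
      simp only [List.map_cons, List.prod_cons]
      have ea : (a = 1 ∨ ∃ y ∈ b :: L2, a = y + 1) ↔ (a = 1 ∨ ∃ y ∈ L2, a = y + 1) := by
        simp only [List.mem_cons]
        constructor
        · rintro (h | ⟨y, rfl | hy, h⟩)
          · exact Or.inl h
          · exact absurd (by omega) h1
          · exact Or.inr ⟨y, hy, h⟩
        · rintro (h | ⟨y, hy, h⟩)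
          · exact Or.inl h
          · exact Or.inr ⟨y, Or.inr hy, h⟩
      have eb : (b = 1 ∨ ∃ y ∈ a :: L2, b = y + 1) ↔ (b = 1 ∨ ∃ y ∈ L2, b = y + 1) := by
        simp only [List.mem_cons]
        constructor
        · rintro (h | ⟨y, rfl | hy, h⟩)
          · exact Or.inl h
          · exact absurd (by omega) h2
          · exact Or.inr ⟨y, hy, h⟩
        · rintro (h | ⟨y, hy, h⟩)
          · exact Or.inl h
          · exact Or.inr ⟨y, Or.inr hy, h⟩
      simp only [ea, eb]
      split_ifs
      · ring
      · ring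
      · ring
      · ring
    | cons c L1 =>
      have hG2 := Good_U (q := q) (Good_U (q := q) hG)
      rw [hG2.zero (by simp; omega), hG2.zero (by simp; omega)]
      simp
  · intro L1 L2 b hL2
    cases L1 with
    | nil =>
      rw [List.nil_append, U_cons, U_cons]
      by_cases hb0 : b = 0
      · subst hb0; rw [co_zero, zero_mul]
      · by_cases hb : b ∈ L2
        · rw [co_mem q (List.mem_cons_of_mem _ hb), zero_mul]
        · have : co q (b + 1) L2 = 0 := by
            unfold co
            rw [if_neg]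
            rintro (h | ⟨y, hy, h⟩)
            · omega
            · have : b = y := by omega
              exact hb (this ▸ hy)
          rw [this]
          ring
    | cons c L1 =>
      have hG2 := Good_U (q := q) (Good_U (q := q) hG)
      exact hG2.zero (by simp; omega)

/-- the local type I law. -/
theorem typeI_local {q : K} (hq0 : q ≠ 0) (hq : ∀ m : ℕ, 0 < m → q ^ m ≠ 1) {N : ℕ} {g : ℕ → K}
    {k : ℕ} {ψ : St K} (hG : Good (k + 2) ψ) (hS : Sym q 0 ψ) :
    (1 + q) • D N g (U q (D N g ψ)) =
      q • U q (D N g (D N g ψ)) + D N g (D N g (U q ψ)) := by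
  funext L
  cases L with
  | nil =>
    have g1 : Good (k + 1) (D N g (U q (D N g ψ))) := Good_D (Good_U (Good_D hG))
    have g2 : Good (k + 1) (D N g (D N g (U q ψ))) := Good_D (Good_D (Good_U hG))
    simp only [Pi.smul_apply, Pi.add_apply, U_nil]
    rw [g1.zero (by simp), g2.zero (by simp)]
    simp
  | cons x L =>
    simp only [Pi.smul_apply, Pi.add_apply, U_cons, smul_eq_mul]
    rw [DD_apply, DD_apply, D_apply]
    have e : ∀ y ∈ Finset.range (N + 1), g y * (U q (D N g ψ)) (x :: L ++ [y]) =
        ∑ z ∈ Finset.range (N + 1), g y * g z * (co q x (L ++ [y]) * ψ (L ++ [y, z])) := by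
      intro y _
      rw [List.cons_append, U_cons, D_apply, Finset.mul_sum, Finset.mul_sum]
      refine Finset.sum_congr rfl fun z _ => ?_
      rw [List.append_assoc]
      simp only [List.cons_append, List.nil_append]
      ring
    rw [Finset.sum_congr rfl e]
    rw [← sub_eq_zero, Finset.mul_sum, Finset.mul_sum, Finset.mul_sum, ← Finset.sum_add_distrib,
      ← Finset.sum_sub_distrib]
    have e2 : ∀ y ∈ Finset.range (N + 1),
        ((1 + q) * ∑ z ∈ Finset.range (N + 1),
          g y * g z * (co q x (L ++ [y]) * ψ (L ++ [y, z])) -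
        (q * (co q x L * ∑ z ∈ Finset.range (N + 1), g y * g z * ψ (L ++ [y, z])) +
        ∑ z ∈ Finset.range (N + 1), g y * g z * (U q ψ) (x :: L ++ [y, z]))) =
        ∑ z ∈ Finset.range (N + 1), g y * g z * (ψ (L ++ [y, z]) *
          ((1 + q) * co q x (L ++ [y]) - q * co q x L - co q x (L ++ [y, z]))) := by
      intro y _
      rw [Finset.mul_sum, Finset.mul_sum, Finset.mul_sum, ← Finset.sum_add_distrib,
        ← Finset.sum_sub_distrib]
      refine Finset.sum_congr rfl fun z _ => ?_
      rw [List.cons_append, U_cons]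
      ring
    rw [Finset.sum_congr rfl e2]
    apply sum_anti
    · intro y z
      have hgood : ∀ a b : ℕ, ψ (L ++ [a, b]) ≠ 0 → a ∉ L ∧ b ∉ L ∧ 1 ≤ a ∧ 1 ≤ b ∧ a ≠ b := by
        intro a b h
        obtain ⟨_, h2, h3⟩ := hG _ h
        rw [List.nodup_append] at h2
        obtain ⟨_, h4, h5⟩ := h2
        refine ⟨fun ha => h5 a ha a (by simp) rfl, fun hb => h5 b hb b (by simp) rfl,
          h3 a (by simp), h3 b (by simp), by simpa using h4⟩
      have near : ∀ b : ℕ, ψ (L ++ [b + 1, b]) *
          ((1 + q) * co q x (L ++ [b + 1]) - q * co q x L - co q x (L ++ [b + 1, b])) = 0 := by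
        intro b
        by_cases h0 : ψ (L ++ [b + 1, b]) = 0
        · rw [h0, zero_mul]
        · obtain ⟨h1, h2, _, h4, _⟩ := hgood _ _ h0
          rw [co_typeI_near hq0 hq x b L h2 h1 h4]
          ring
      have near0 : ∀ b : ℕ, ψ (L ++ [b, b + 1]) = 0 := fun b => hS.near L [] b rfl
      by_cases hyz : y = z + 1
      · subst hyz
        rw [near, near0]
        ring
      · by_cases hzy : z = y + 1
        · subst hzy
          rw [near, near0]
          ring
        · have hfar := hS.far L [] y z rfl (by omega) (by omega)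
          by_cases h0 : ψ (L ++ [y, z]) = 0
          · rw [h0, mul_zero] at hfar
            have hyz0 : ψ (L ++ [z, y]) = 0 := by
              by_contra h1
              obtain ⟨_, _, _, _, h5⟩ := hgood _ _ h1
              have := ff_ne_zero hq0 hq ((y : ℤ) - z) (by omega)
              rcases mul_eq_zero.mp hfar.symm with h | h
              · exact this h
              · exact h1 h
            rw [h0, hyz0]
            ring
          · obtain ⟨h1, h2, h3, h4, h5⟩ := hgood _ _ h0
            have hid := co_typeI_far hq0 hq x y z L h1 h2 h3 h4 h5 hyz hzy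
            have hne := ff_ne_zero hq0 hq ((y : ℤ) - z) (by omega)
            have hsw : co q x (L ++ [z, y]) = co q x (L ++ [y, z]) := co_swap q x z y L []
            rw [hsw]
            have hψ : ψ (L ++ [z, y]) = ff q ((z : ℤ) - y) * ψ (L ++ [y, z]) / ff q ((y : ℤ) - z) := by
              rw [eq_div_iff hne]
              linear_combination -hfar
            rw [hψ]
            field_simp
            linear_combination g y * g z * ψ (L ++ [y, z]) * hid
    · intro y
      have : ψ (L ++ [y, y]) = 0 := by
        by_contra h0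
        have h1 := (hG _ h0).2.1
        rw [List.nodup_append] at h1
        simp at h1
      rw [this]
      ring

end Crest.Agent.R059.Hik
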