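import Crest.Agent.R059.HikDef
import Crest.Agent.R059.HikId

set_option autoImplicit false

open Crest.CombinatoricsR.UnitInterval

/-! Product form of Hikita's weights:
`W q h c = q ^ #desc * ∏_{d = 1..M} [d] ^ e_d`. -/

namespace Crest.Agent.R059.Hik

open Crest.Agent.R059 Crest.Agent.R059.HikId

section values

variable {K : Type} [Field K] {q : K}

theorem bp_ne (q1 : ∀ m : ℕ, 0 < m → q ^ m ≠ 1) (m : ℕ) : bp q m ≠ 0 := by
  unfold bp
  split_ifs with h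
  · exact one_ne_zero
  · exact br_ne_zero q q1 m (by omega)

theorem bp_zero : bp q 0 = 1 := by simp [bp]

theorem bp_one (q1 : ∀ m : ℕ, 0 < m → q ^ m ≠ 1) : bp q 1 = 1 := by
  unfold bp br
  rw [if_neg one_ne_zero]
  push_cast
  rw [zpow_one, div_self]
  exact one_sub_q_ne q1

/-- ascending edge (colour of the first end larger by `d ≥ 1`). -/
theorem ff_pos (q1 : ∀ m : ℕ, 0 < m → q ^ m ≠ 1) (d : ℕ) (hd : 1 ≤ d) :
    ff q (d : ℤ) = bp q d / bp q (d - 1) := by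
  have h := bp_mul q q1 (d - 1)
  rw [show ((d - 1 : ℕ) : ℤ) + 1 = (d : ℤ) by omega, show d - 1 + 1 = d by omega] at h
  rw [eq_div_iff (bp_ne q1 _)]
  exact h

/-- descending edge. -/
theorem ff_neg (q0 : q ≠ 0) (q1 : ∀ m : ℕ, 0 < m → q ^ m ≠ 1) (d : ℕ) (hd : 1 ≤ d) :
    ff q (-(d : ℤ)) = q * (bp q d / bp q (d + 1)) := by
  have hb : bp q d = br q (d : ℤ) := by rw [bp, if_neg (by omega)]
  have hb1 : bp q (d + 1) = br q ((d : ℤ) + 1) := by
    rw [bp, if_neg (by omega)]; push_cast; rfl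
  rw [hb, hb1, ff, if_neg (by omega)]
  unfold br
  have h1 : (1 : K) - q ≠ 0 := one_sub_q_ne q1
  have hd1 : q ^ (d + 1) ≠ 1 := q1 (d + 1) (by omega)
  have h2 : (1 : K) - q ^ ((d : ℤ) + 1) ≠ 0 := by
    have : q ^ ((d : ℤ) + 1) = q ^ (d + 1) := by
      rw [← zpow_natCast]; push_cast; rfl
    rw [this, sub_ne_zero]; exact hd1.symm
  have h3 : (1 : K) - q ^ (-(d : ℤ) - 1) ≠ 0 := by
    rw [sub_ne_zero]
    intro h
    apply hd1
    rw [show -(d : ℤ) - 1 = -((d + 1 : ℕ) : ℤ) by push_cast; ring, zpow_neg, zpow_natCast] at h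
    have := inv_eq_one.1 h.symm
    exact this
  have e1 : q ^ (-(d : ℤ)) = (q ^ (d : ℤ))⁻¹ := zpow_neg _ _
  have e2 : q ^ (-(d : ℤ) - 1) = (q ^ ((d : ℤ) + 1))⁻¹ := by
    rw [← zpow_neg]; congr 1; ring
  have e3 : q ^ ((d : ℤ) + 1) = q ^ (d : ℤ) * q := zpow_add_one₀ q0 _
  have hx : q ^ (d : ℤ) ≠ 0 := zpow_ne_zero _ q0
  rw [div_div_div_cancel_right₀ h1, div_div_div_cancel_right₀ h1, mul_div_assoc',
    div_eq_div_iff h3 h2, e1, e2, e3]
  field_simp
  ring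

/-- exponent vector of `[m]`. -/
theorem bp_eq_prod (_q1 : ∀ m : ℕ, 0 < m → q ^ m ≠ 1) (M m : ℕ) (hm : m ≤ M) :
    bp q m = ∏ d ∈ Finset.Icc 1 M, bp q d ^ (if m = d then (1 : ℤ) else 0) := by
  rcases Nat.eq_zero_or_pos m with h | h
  · subst h
    rw [bp_zero]
    symm
    apply Finset.prod_eq_one
    intro d hd
    rw [Finset.mem_Icc] at hd
    rw [if_neg (by omega), zpow_zero]
  · rw [Finset.prod_eq_single m]
    · rw [if_pos rfl, zpow_one]
    · intro d _ hd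
      rw [if_neg (Ne.symm hd), zpow_zero]
    · intro h2
      exact absurd (Finset.mem_Icc.2 ⟨h, hm⟩) h2

end values

section main

variable {n : ℕ} (h : Fin n → ℕ) (c : Fin n → ℕ)

/-- edges `a < b` with `c a = c b + d`. -/
def ascE (d : ℕ) : Finset (Fin n × Fin n) := (edges h).filter (fun p => c p.1 = c p.2 + d)

/-- edges `a < b` with `c b = c a + d`. -/
def dscE (d : ℕ) : Finset (Fin n × Fin n) := (edges h).filter (fun p => c p.2 = c p.1 + d)

/-- all the descents (`a < b`, `c a < c b`). -/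
def dscA : Finset (Fin n × Fin n) := (edges h).filter (fun p => c p.1 < c p.2)

/-- the exponent of `[d]` in the weight (`d ≥ 1`). -/
def expE (d : ℕ) : ℤ :=
  (mult c d : ℤ) - mult c (d + 1) + (ascE h c d).card + (dscE h c d).card
    - (ascE h c (d + 1)).card - (if d = 1 then 0 else ((dscE h c (d - 1)).card : ℤ))

variable {K : Type} [Field K] {q : K}

/-- exponent of `[d]` in one edge. -/
def edgeExp (p : Fin n × Fin n) (d : ℕ) : ℤ :=
  (if c p.1 = c p.2 + d then 1 else 0) + (if c p.2 = c p.1 + d then 1 else 0)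
    - (if c p.1 = c p.2 + (d + 1) then 1 else 0)
    - (if d = 1 then 0 else if c p.2 = c p.1 + (d - 1) then 1 else 0)

theorem zp_add (q1 : ∀ m : ℕ, 0 < m → q ^ m ≠ 1) (M : ℕ) (f g : ℕ → ℤ) :
    ∏ d ∈ Finset.Icc 1 M, bp q d ^ (f d + g d) =
      (∏ d ∈ Finset.Icc 1 M, bp q d ^ f d) * ∏ d ∈ Finset.Icc 1 M, bp q d ^ g d := by
  rw [← Finset.prod_mul_distrib]
  exact Finset.prod_congr rfl (fun d _ => zpow_add₀ (bp_ne q1 d) _ _)

theorem zp_sub (q1 : ∀ m : ℕ, 0 < m → q ^ m ≠ 1) (M : ℕ) (f g : ℕ → ℤ) :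
    ∏ d ∈ Finset.Icc 1 M, bp q d ^ (f d - g d) =
      (∏ d ∈ Finset.Icc 1 M, bp q d ^ f d) / ∏ d ∈ Finset.Icc 1 M, bp q d ^ g d := by
  rw [← Finset.prod_div_distrib]
  exact Finset.prod_congr rfl (fun d _ => zpow_sub₀ (bp_ne q1 d) _ _)

theorem edge_eq (q0 : q ≠ 0) (q1 : ∀ m : ℕ, 0 < m → q ^ m ≠ 1) (M : ℕ)
    (hpos : ∀ a, 1 ≤ c a) (hM : ∀ a, c a ≤ M) (p : Fin n × Fin n) (hp : c p.1 ≠ c p.2) :
    ff q ((c p.1 : ℤ) - (c p.2 : ℤ)) = q ^ (if c p.1 < c p.2 then 1 else 0) *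
      ∏ d ∈ Finset.Icc 1 M, bp q d ^ edgeExp c p d := by
  have hp1 := hpos p.1
  have hp2 := hpos p.2
  have hM1 := hM p.1
  have hM2 := hM p.2
  rcases Nat.lt_or_gt_of_ne hp with hlt | hgt
  · -- descent
    obtain ⟨m, hm, hm1⟩ : ∃ m, c p.2 = c p.1 + m ∧ 1 ≤ m := ⟨c p.2 - c p.1, by omega, by omega⟩
    rw [show (c p.1 : ℤ) - (c p.2 : ℤ) = -(m : ℤ) by omega, ff_neg q0 q1 m hm1, if_pos hlt, pow_one,
      bp_eq_prod q1 M m (by omega), bp_eq_prod q1 M (m + 1) (by omega), ← zp_sub q1]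
    congr 1
    apply Finset.prod_congr rfl
    intro d hd
    rw [Finset.mem_Icc] at hd
    congr 1
    unfold edgeExp
    split_ifs <;> omega
  · obtain ⟨m, hm, hm1⟩ : ∃ m, c p.1 = c p.2 + m ∧ 1 ≤ m := ⟨c p.1 - c p.2, by omega, by omega⟩
    rw [show (c p.1 : ℤ) - (c p.2 : ℤ) = (m : ℤ) by omega, ff_pos q1 m hm1, if_neg (by omega),
      pow_zero, one_mul, bp_eq_prod q1 M m (by omega), bp_eq_prod q1 M (m - 1) (by omega),
      ← zp_sub q1]
    apply Finset.prod_congr rfl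
    intro d hd
    rw [Finset.mem_Icc] at hd
    congr 1
    unfold edgeExp
    split_ifs <;> omega

theorem vertex_eq (q1 : ∀ m : ℕ, 0 < m → q ^ m ≠ 1) (M : ℕ) (x : ℕ) (hx : 1 ≤ x) (hM : x ≤ M) :
    bp q x / bp q (x - 1) = ∏ d ∈ Finset.Icc 1 M,
      bp q d ^ ((if x = d then (1 : ℤ) else 0) - (if x = d + 1 then 1 else 0)) := by
  rw [bp_eq_prod q1 M x hM, bp_eq_prod q1 M (x - 1) (by omega), ← zp_sub q1]
  apply Finset.prod_congr rfl
  intro d hd
  rw [Finset.mem_Icc] at hd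
  congr 1
  congr 1
  split_ifs <;> omega

theorem prod_zpow_sum {ι : Type} (s : Finset ι) (q1 : ∀ m : ℕ, 0 < m → q ^ m ≠ 1) (M : ℕ)
    (f : ι → ℕ → ℤ) :
    ∏ i ∈ s, ∏ d ∈ Finset.Icc 1 M, bp q d ^ f i d =
      ∏ d ∈ Finset.Icc 1 M, bp q d ^ (∑ i ∈ s, f i d) := by
  classical
  rw [Finset.prod_comm]
  apply Finset.prod_congr rfl
  intro d _
  induction s using Finset.induction_on with
  | empty => simp
  | insert a s ha ih =>
    rw [Finset.prod_insert ha, Finset.sum_insert ha, ih, zpow_add₀ (bp_ne q1 d)]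

/-- **Product form of Hikita's weight.** -/
theorem W_eq (q0 : q ≠ 0) (q1 : ∀ m : ℕ, 0 < m → q ^ m ≠ 1) (M : ℕ)
    (hpos : ∀ a, 1 ≤ c a) (hM : ∀ a, c a ≤ M) (hp : ∀ p ∈ edges h, c p.1 ≠ c p.2) :
    W q h c = q ^ (dscA h c).card * ∏ d ∈ Finset.Icc 1 M, bp q d ^ expE h c d := by
  classical
  unfold W
  rw [Finset.prod_congr rfl (fun p hp' => edge_eq c q0 q1 M hpos hM p (hp p hp')),
    Finset.prod_mul_distrib, Finset.prod_congr rfl (fun a _ => vertex_eq q1 M (c a) (hpos a) (hM a)),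
    prod_zpow_sum _ q1, prod_zpow_sum _ q1, mul_assoc, ← zp_add q1, Finset.prod_pow_eq_pow_sum]
  congr 1
  · congr 1
    rw [dscA, Finset.card_filter]
  · apply Finset.prod_congr rfl
    intro d hd
    rw [Finset.mem_Icc] at hd
    congr 1
    unfold expE edgeExp mult ascE dscE
    simp only [Finset.sum_sub_distrib, Finset.sum_add_distrib, Finset.card_filter]
    push_cast
    by_cases hd1 : d = 1
    · simp only [hd1, if_true, Finset.sum_const_zero]
      ring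
    · simp only [hd1, if_false]
      ring

/-- weight `0` for a colouring that is not proper. -/
theorem W_eq_zero (q0 : q ≠ 0) (q1 : ∀ m : ℕ, 0 < m → q ^ m ≠ 1)
    (p : Fin n × Fin n) (hp : p ∈ edges h) (hc : c p.1 = c p.2) : W q h c = 0 := by
  unfold W
  rw [Finset.prod_eq_zero hp, zero_mul]
  rw [hc, sub_self]
  exact ff_zero q0 q1

end main

end Crest.Agent.R059.Hik
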