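import Mathlib

set_option autoImplicit false

/-! Positivity from unimodality (Lemma U of helper238): palindromic polynomials given as sums of
fractions `P / [d]` whose numerators are unimodal. -/

namespace Crest.Agent.R059.LemU

open Polynomial

/-- the `q`-integer `[d] = 1 + X + … + X^(d-1)`. -/
noncomputable def qi (d : ℕ) : ℤ[X] := ∑ i ∈ Finset.range d, X ^ i

theorem one_sub_mul_qi (d : ℕ) : (1 - X : ℤ[X]) * qi d = 1 - X ^ d := by
  exact mul_neg_geom_sum X d

/-- palindromic with degree sum `s`. -/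
def Pal (s : ℕ) (V : ℤ[X]) : Prop :=
  (∀ k, s < k → V.coeff k = 0) ∧ ∀ k, k ≤ s → V.coeff k = V.coeff (s - k)

/-- coefficients `≥ 0` in the lower half. -/
def Half (s : ℕ) (V : ℤ[X]) : Prop := ∀ k, 2 * k ≤ s → 0 ≤ V.coeff k

theorem nonneg_of_half {s : ℕ} {V : ℤ[X]} (hp : Pal s V) (hh : Half s V) (k : ℕ) :
    0 ≤ V.coeff k := by
  rcases Nat.lt_or_ge s k with h | h
  · rw [hp.1 k h]
  · rcases Nat.le_total (2 * k) s with h2 | h2
    · exact hh k h2
    · rw [hp.2 k h]
      exact hh _ (by omega)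

theorem Half.add {s : ℕ} {U V : ℤ[X]} (hU : Half s U) (hV : Half s V) : Half s (U + V) := by
  intro k hk
  rw [coeff_add]
  exact add_nonneg (hU k hk) (hV k hk)

theorem Half.sum {ι : Type*} {s : ℕ} (J : Finset ι) {U : ι → ℤ[X]} (hU : ∀ j ∈ J, Half s (U j)) :
    Half s (∑ j ∈ J, U j) := by
  intro k hk
  rw [finsetSum_coeff]
  exact Finset.sum_nonneg (fun j hj => hU j hj k hk)

theorem Half.mul {s : ℕ} {U V : ℤ[X]} (hU : Half s U) (hV : Half s V) : Half s (U * V) := by
  intro k hk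
  rw [coeff_mul]
  apply Finset.sum_nonneg
  intro x hx
  rw [Finset.HasAntidiagonal.mem_antidiagonal] at hx
  exact mul_nonneg (hU _ (by omega)) (hV _ (by omega))

/-- dividing by `1 - X^d`. -/
theorem half_of_one_sub_pow_mul {s d : ℕ} (hd : 1 ≤ d) {V : ℤ[X]}
    (h : Half s ((1 - X ^ d) * V)) : Half s V := by
  intro k
  induction k using Nat.strong_induction_on with
  | _ k ih =>
    intro hk
    have h1 := h k hk
    rw [sub_mul, one_mul, coeff_sub, coeff_X_pow_mul'] at h1
    split_ifs at h1 with h2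
    · have := ih (k - d) (by omega) (by omega)
      linarith
    · linarith

/-- **Lemma U.** `U = [d] V`, `(1 - X) U` nonnegative in the lower half of `V`, `V` palindromic:
then `V ≥ 0`. -/
theorem lemU {s d : ℕ} (hd : 1 ≤ d) {U V : ℤ[X]} (hUV : U = qi d * V)
    (hU : Half s ((1 - X) * U)) (hV : Pal s V) (k : ℕ) : 0 ≤ V.coeff k := by
  apply nonneg_of_half hV
  apply half_of_one_sub_pow_mul hd
  rw [← one_sub_mul_qi, mul_assoc, ← hUV]
  exact hU

/-- `(1 - X) U` is nonnegative in the lower half iff `U` is weakly increasing there. -/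
theorem half_one_sub_iff {s : ℕ} {U : ℤ[X]} : Half s ((1 - X) * U) ↔
    0 ≤ U.coeff 0 ∧ ∀ k, 2 * (k + 1) ≤ s → U.coeff k ≤ U.coeff (k + 1) := by
  constructor
  · intro h
    refine ⟨?_, ?_⟩
    · have := h 0 (by omega)
      rwa [sub_mul, one_mul, coeff_sub, coeff_X_mul_zero, sub_zero] at this
    · intro k hk
      have := h (k + 1) hk
      rw [sub_mul, one_mul, coeff_sub, coeff_X_mul] at this
      linarith
  · rintro ⟨h0, h1⟩ k hk
    rw [sub_mul, one_mul, coeff_sub]
    rcases k with _ | k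
    · rw [coeff_X_mul_zero, sub_zero]; exact h0
    · rw [coeff_X_mul]
      have := h1 k hk
      linarith

/-! ### power series form: sums of fractions -/

/-- lower half of a power series. -/
def HalfS (s : ℕ) (V : PowerSeries ℤ) : Prop := ∀ k, 2 * k ≤ s → 0 ≤ PowerSeries.coeff k V

theorem HalfS.sum {ι : Type*} {s : ℕ} (J : Finset ι) {U : ι → PowerSeries ℤ}
    (hU : ∀ j ∈ J, HalfS s (U j)) : HalfS s (∑ j ∈ J, U j) := by
  intro k hk
  rw [map_sum]
  exact Finset.sum_nonneg (fun j hj => hU j hj k hk)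

theorem HalfS.mul {s : ℕ} {U V : PowerSeries ℤ} (hU : HalfS s U) (hV : HalfS s V) :
    HalfS s (U * V) := by
  intro k hk
  rw [PowerSeries.coeff_mul]
  apply Finset.sum_nonneg
  intro x hx
  rw [Finset.HasAntidiagonal.mem_antidiagonal] at hx
  exact mul_nonneg (hU _ (by omega)) (hV _ (by omega))

theorem HalfS.pow {s : ℕ} {U : PowerSeries ℤ} (hU : HalfS s U) (m : ℕ) : HalfS s (U ^ m) := by
  induction m with
  | zero =>
    intro k _
    rw [pow_zero, PowerSeries.coeff_one]
    split_ifs <;> simp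
  | succ m ih => rw [pow_succ]; exact ih.mul hU

/-- `1 / (1 - X^d)`. -/
noncomputable def gs (d : ℕ) : PowerSeries ℤ := PowerSeries.mk (fun n => if d ∣ n then 1 else 0)

theorem gs_half (s d : ℕ) : HalfS s (gs d) := by
  intro k _
  rw [gs, PowerSeries.coeff_mk]
  split_ifs <;> simp

theorem one_sub_mul_gs {d : ℕ} (hd : 1 ≤ d) :
    (1 - PowerSeries.X ^ d : PowerSeries ℤ) * gs d = 1 := by
  ext k
  rw [sub_mul, one_mul, map_sub, PowerSeries.coeff_X_pow_mul', gs, PowerSeries.coeff_mk,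
    PowerSeries.coeff_one]
  by_cases hk : d ≤ k
  · rw [if_pos hk, PowerSeries.coeff_mk, if_neg (by omega : ¬ k = 0)]
    have : d ∣ k - d ↔ d ∣ k := by
      constructor
      · intro h
        have h1 := Nat.dvd_add h (dvd_refl d)
        rwa [Nat.sub_add_cancel hk] at h1
      · intro h
        exact Nat.dvd_sub h (dvd_refl d)
    by_cases h : d ∣ k
    · rw [if_pos h, if_pos (this.2 h)]; ring
    · rw [if_neg h, if_neg (fun h' => h (this.1 h'))]; ring
  · rw [if_neg hk, sub_zero]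
    by_cases h0 : k = 0
    · subst h0; simp
    · rw [if_neg h0, if_neg]
      intro h
      exact hk (Nat.le_of_dvd (by omega) h)

/-- the inverse of `[d]` as a power series. -/
noncomputable def iq (d : ℕ) : PowerSeries ℤ := (1 - PowerSeries.X) * gs d

theorem qi_mul_iq {d : ℕ} (hd : 1 ≤ d) : ((qi d : ℤ[X]) : PowerSeries ℤ) * iq d = 1 := by
  have h := congrArg (fun p : ℤ[X] => (p : PowerSeries ℤ)) (one_sub_mul_qi d)
  simp only [Polynomial.coe_mul, Polynomial.coe_sub, Polynomial.coe_one, Polynomial.coe_X,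
    Polynomial.coe_pow] at h
  unfold iq
  rw [← mul_assoc, mul_comm _ (1 - PowerSeries.X), h]
  exact one_sub_mul_gs hd

/-- **Corollary 1.** `S` a polynomial, palindromic, `S = ∑ P_j / B_j` (cleared denominators), each
`B_j` a unit of the power series ring with inverse `G_j`, and `P_j G_j` nonnegative in the lower
half: then `S ≥ 0`. -/
theorem nonneg_of_fractions {ι : Type*} [DecidableEq ι] {s : ℕ} (J : Finset ι)
    (S : ℤ[X]) (P B : ι → ℤ[X]) (G : ι → PowerSeries ℤ)
    (hG : ∀ j ∈ J, ((B j : ℤ[X]) : PowerSeries ℤ) * G j = 1)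
    (hS : S * ∏ j ∈ J, B j = ∑ j ∈ J, P j * ∏ i ∈ J.erase j, B i)
    (hP : ∀ j ∈ J, HalfS s ((P j : PowerSeries ℤ) * G j)) (hpal : Pal s S) (k : ℕ) :
    0 ≤ S.coeff k := by
  have key : (S : PowerSeries ℤ) = ∑ j ∈ J, (P j : PowerSeries ℤ) * G j := by
    have h := congrArg (fun p : ℤ[X] => (p : PowerSeries ℤ)) hS
    simp only [Polynomial.coe_mul] at h
    have hprod : ∀ t : Finset ι, ((∏ j ∈ t, B j : ℤ[X]) : PowerSeries ℤ) =
        ∏ j ∈ t, ((B j : ℤ[X]) : PowerSeries ℤ) := fun t =>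
      map_prod (Polynomial.coeToPowerSeries.ringHom (R := ℤ)) _ _
    have hsum : ((∑ j ∈ J, P j * ∏ i ∈ J.erase j, B i : ℤ[X]) : PowerSeries ℤ) =
        ∑ j ∈ J, ((P j : ℤ[X]) : PowerSeries ℤ) * ∏ i ∈ J.erase j, ((B i : ℤ[X]) : PowerSeries ℤ) := by
      rw [show ((∑ j ∈ J, P j * ∏ i ∈ J.erase j, B i : ℤ[X]) : PowerSeries ℤ) =
        ∑ j ∈ J, ((P j * ∏ i ∈ J.erase j, B i : ℤ[X]) : PowerSeries ℤ) from
        map_sum (Polynomial.coeToPowerSeries.ringHom (R := ℤ)) _ _]
      apply Finset.sum_congr rfl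
      intro j _
      rw [Polynomial.coe_mul, hprod]
    rw [hprod, hsum] at h
    have hGall : (∏ j ∈ J, ((B j : ℤ[X]) : PowerSeries ℤ)) * ∏ j ∈ J, G j = 1 := by
      rw [← Finset.prod_mul_distrib]
      exact Finset.prod_eq_one (fun j hj => hG j hj)
    calc (S : PowerSeries ℤ) = S * ((∏ j ∈ J, ((B j : ℤ[X]) : PowerSeries ℤ)) * ∏ j ∈ J, G j) := by
          rw [hGall, mul_one]
      _ = (∑ j ∈ J, ((P j : ℤ[X]) : PowerSeries ℤ) *
            ∏ i ∈ J.erase j, ((B i : ℤ[X]) : PowerSeries ℤ)) * ∏ j ∈ J, G j := by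
          rw [← h]; ring
      _ = ∑ j ∈ J, (P j : PowerSeries ℤ) * G j := by
          rw [Finset.sum_mul]
          apply Finset.sum_congr rfl
          intro j hj
          rw [← Finset.mul_prod_erase J G hj]
          have h1 : (∏ i ∈ J.erase j, ((B i : ℤ[X]) : PowerSeries ℤ)) * ∏ i ∈ J.erase j, G i = 1 := by
            rw [← Finset.prod_mul_distrib]
            exact Finset.prod_eq_one (fun i hi => hG i (Finset.mem_of_mem_erase hi))
          calc _ = ((P j : ℤ[X]) : PowerSeries ℤ) * G j *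
              ((∏ i ∈ J.erase j, ((B i : ℤ[X]) : PowerSeries ℤ)) * ∏ i ∈ J.erase j, G i) := by ring
            _ = _ := by rw [h1, mul_one]
  apply nonneg_of_half hpal
  intro k hk
  have := (HalfS.sum J hP) k hk
  rw [← key, Polynomial.coeff_coe] at this
  exact this

/-- `P / [d]` with `(1 - X) P` nonnegative in the lower half. -/
theorem half_div {s d : ℕ} {P : ℤ[X]} (hP : Half s ((1 - X) * P)) :
    HalfS s ((P : PowerSeries ℤ) * iq d) := by
  have h : (P : PowerSeries ℤ) * iq d = (((1 - X) * P : ℤ[X]) : PowerSeries ℤ) * gs d := by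
    unfold iq
    rw [Polynomial.coe_mul, Polynomial.coe_sub, Polynomial.coe_one, Polynomial.coe_X]
    ring
  rw [h]
  apply HalfS.mul _ (gs_half s d)
  intro k hk
  rw [Polynomial.coeff_coe]
  exact hP k hk

/-- Corollary 1 in its simplest form: one missing bracket in every term. -/
theorem nonneg_of_brackets {ι : Type*} [DecidableEq ι] {s : ℕ} (J : Finset ι)
    (S : ℤ[X]) (P : ι → ℤ[X]) (d : ι → ℕ) (hd : ∀ j ∈ J, 1 ≤ d j)
    (hS : S * ∏ j ∈ J, qi (d j) = ∑ j ∈ J, P j * ∏ i ∈ J.erase j, qi (d i))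
    (hP : ∀ j ∈ J, Half s ((1 - X) * P j)) (hpal : Pal s S) (k : ℕ) : 0 ≤ S.coeff k :=
  nonneg_of_fractions J S P (fun j => qi (d j)) (fun j => iq (d j))
    (fun j hj => qi_mul_iq (hd j hj)) hS (fun j hj => half_div (hP j hj)) hpal k

/-! ### products of `q`-integers are palindromic and unimodal -/

theorem pal_iff {s : ℕ} {V : ℤ[X]} : Pal s V ↔ V.natDegree ≤ s ∧ reflect s V = V := by
  constructor
  · rintro ⟨h1, h2⟩
    refine ⟨?_, ?_⟩
    · rw [natDegree_le_iff_coeff_eq_zero]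
      exact fun k hk => h1 k hk
    · ext k
      rw [coeff_reflect]
      rcases Nat.lt_or_ge s k with h | h
      · rw [revAt_eq_self_of_lt h]
      · rw [revAt_le h, h2 k h]
  · rintro ⟨h1, h2⟩
    refine ⟨fun k hk => coeff_eq_zero_of_natDegree_lt (lt_of_le_of_lt h1 hk), fun k hk => ?_⟩
    conv_lhs => rw [← h2]
    rw [coeff_reflect, revAt_le hk]

theorem Pal.mul {s t : ℕ} {U V : ℤ[X]} (hU : Pal s U) (hV : Pal t V) : Pal (s + t) (U * V) := by
  rw [pal_iff] at *
  refine ⟨(natDegree_mul_le).trans (Nat.add_le_add hU.1 hV.1), ?_⟩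
  rw [reflect_mul U V hU.1 hV.1, hU.2, hV.2]

theorem Pal.add {s : ℕ} {U V : ℤ[X]} (hU : Pal s U) (hV : Pal s V) : Pal s (U + V) :=
  ⟨fun k hk => by rw [coeff_add, hU.1 k hk, hV.1 k hk, add_zero],
   fun k hk => by rw [coeff_add, coeff_add, hU.2 k hk, hV.2 k hk]⟩

theorem coeff_qi (d k : ℕ) : (qi d).coeff k = if k < d then 1 else 0 := by
  unfold qi
  rw [finsetSum_coeff]
  simp only [coeff_X_pow]
  rw [Finset.sum_ite_eq]
  simp only [Finset.mem_range]

theorem pal_qi {d : ℕ} (hd : 1 ≤ d) : Pal (d - 1) (qi d) := by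
  refine ⟨fun k hk => ?_, fun k hk => ?_⟩
  · rw [coeff_qi, if_neg (by omega)]
  · rw [coeff_qi, coeff_qi, if_pos (by omega), if_pos (by omega)]

theorem pal_X_pow (a : ℕ) : Pal (2 * a) (X ^ a : ℤ[X]) := by
  refine ⟨fun k hk => ?_, fun k hk => ?_⟩
  · rw [coeff_X_pow, if_neg (by omega)]
  · rw [coeff_X_pow, coeff_X_pow]
    split_ifs <;> first | rfl | omega

/-- palindromic (degree sum `s`), nonnegative and weakly increasing up to the middle. -/
def Uni (s : ℕ) (U : ℤ[X]) : Prop := Pal s U ∧ Half s ((1 - X) * U)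

theorem Uni.mono {s : ℕ} {U : ℤ[X]} (h : Uni s U) {i j : ℕ} (hij : i ≤ j) (hj : 2 * j ≤ s) :
    U.coeff i ≤ U.coeff j := by
  have h1 := (half_one_sub_iff.1 h.2).2
  induction j, hij using Nat.le_induction with
  | base => exact le_rfl
  | succ j hij ih => exact (ih (by omega)).trans (h1 j hj)

theorem Uni.half {s : ℕ} {U : ℤ[X]} (h : Uni s U) : Half s U := fun k hk =>
  ((half_one_sub_iff.1 h.2).1).trans (h.mono (Nat.zero_le k) hk)

theorem Uni.nonneg {s : ℕ} {U : ℤ[X]} (h : Uni s U) (k : ℕ) : 0 ≤ U.coeff k :=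
  nonneg_of_half h.1 h.half k

theorem Uni.add {s : ℕ} {U V : ℤ[X]} (hU : Uni s U) (hV : Uni s V) : Uni s (U + V) :=
  ⟨hU.1.add hV.1, by rw [mul_add]; exact hU.2.add hV.2⟩

theorem Uni.one : Uni 0 (1 : ℤ[X]) := by
  refine ⟨⟨fun k hk => ?_, fun k hk => ?_⟩, ?_⟩
  · rw [coeff_one, if_neg (by omega)]
  · rw [show k = 0 by omega]
  · rw [half_one_sub_iff]
    refine ⟨by simp, fun k hk => by omega⟩

theorem Uni.mul_qi {s d : ℕ} {U : ℤ[X]} (h : Uni s U) (hd : 1 ≤ d) :
    Uni (s + (d - 1)) (U * qi d) := by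
  refine ⟨h.1.mul (pal_qi hd), ?_⟩
  rw [show (1 - X) * (U * qi d) = (1 - X ^ d) * U by rw [← one_sub_mul_qi]; ring]
  intro k hk
  rw [sub_mul, one_mul, coeff_sub, coeff_X_pow_mul', sub_nonneg]
  rcases Nat.lt_or_ge k d with hkd | hkd
  · rw [if_neg (by omega)]; exact h.nonneg k
  · rw [if_pos hkd]
    rcases Nat.le_total (2 * k) s with h2 | h2
    · exact h.mono (by omega) h2
    · rw [h.1.2 k (by omega)]
      exact h.mono (by omega) (by omega)

theorem Uni.mul_X_pow {s : ℕ} {U : ℤ[X]} (h : Uni s U) (a : ℕ) : Uni (s + 2 * a) (U * X ^ a) := by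
  refine ⟨h.1.mul (pal_X_pow a), ?_⟩
  rw [← mul_assoc]
  intro k hk
  rw [coeff_mul_X_pow']
  split_ifs with h1
  · exact h.2 _ (by omega)
  · exact le_rfl

/-- products of `q`-integers. -/
theorem Uni.prod_qi {ι : Type*} (J : Finset ι) (d : ι → ℕ) (hd : ∀ j ∈ J, 1 ≤ d j) :
    Uni (∑ j ∈ J, (d j - 1)) (∏ j ∈ J, qi (d j)) := by
  classical
  induction J using Finset.induction_on with
  | empty => simpa using Uni.one
  | insert a s ha ih =>
    rw [Finset.sum_insert ha, Finset.prod_insert ha, mul_comm, add_comm]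
    exact (ih (fun j hj => hd j (Finset.mem_insert_of_mem hj))).mul_qi
      (hd a (Finset.mem_insert_self _ _))

/-- `(1 - X) U` is nonnegative in the lower half of every smaller degree sum. -/
theorem Uni.half_le {s t : ℕ} {U : ℤ[X]} (h : Uni s U) (hts : t ≤ s) : Half t ((1 - X) * U) :=
  fun k hk => h.2 k (by omega)

/-- **Lemma U, final form**: a palindromic unimodal polynomial divisible by `[d]` has a
nonnegative palindromic quotient. -/
theorem Uni.div {s d : ℕ} {U V : ℤ[X]} (h : Uni (s + (d - 1)) U) (hd : 1 ≤ d)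
    (hUV : U = qi d * V) : Pal s V ∧ ∀ k, 0 ≤ V.coeff k := by
  have hqi : qi d ≠ 0 := by
    intro h0
    have := coeff_qi d 0
    rw [h0, coeff_zero, if_pos (by omega)] at this
    exact one_ne_zero this.symm
  have hpal : Pal s V := by
    by_cases hV0 : V = 0
    · subst hV0
      exact ⟨fun k _ => coeff_zero k, fun k _ => by rw [coeff_zero, coeff_zero]⟩
    have hU := pal_iff.1 h.1
    have hq := pal_iff.1 (pal_qi hd)
    have hnd : (qi d).natDegree = d - 1 := by
      apply le_antisymm hq.1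
      apply le_natDegree_of_ne_zero
      rw [coeff_qi, if_pos (by omega)]
      exact one_ne_zero
    have hdeg : V.natDegree ≤ s := by
      have h1 := hU.1
      rw [hUV, natDegree_mul hqi hV0, hnd] at h1
      omega
    rw [pal_iff]
    refine ⟨hdeg, ?_⟩
    have h2 : reflect ((d - 1) + s) (qi d * V) = qi d * reflect s V := by
      rw [reflect_mul _ _ hq.1 hdeg, hq.2]
    have h3 : reflect ((d - 1) + s) (qi d * V) = qi d * V := by
      rw [← hUV, add_comm]; exact hU.2
    exact mul_left_cancel₀ hqi (h2.symm.trans h3)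
  exact ⟨hpal, fun k => lemU hd hUV (h.half_le (by omega)) hpal k⟩

end Crest.Agent.R059.LemU
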