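import Crest.Agent.R059.Words

/-!
# Row 59: the two `q`-modular laws for a word sum, from local rules

`wsum q h t = ∑_{σ ∈ descentSet h} q ^ ginv h σ * t σ` for a function `t` on words.
-/

set_option autoImplicit false

open Crest.CombinatoricsR.UnitInterval

namespace Crest.Agent.R059

variable {n : ℕ} {R : Type*} [CommRing R]

/-- one term of the word sum. -/
def wterm (q : R) (h : Fin n → ℕ) (t : Equiv.Perm (Fin n) → R) (σ : Equiv.Perm (Fin n)) : R :=
  if σ ∈ descentSet h then q ^ ginv h σ * t σ else 0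

/-- the word sum. -/
def wsum (q : R) (h : Fin n → ℕ) (t : Equiv.Perm (Fin n) → R) : R :=
  ∑ σ ∈ descentSet h, q ^ ginv h σ * t σ

theorem wsum_eq (q : R) (h : Fin n → ℕ) (t : Equiv.Perm (Fin n) → R) :
    wsum q h t = ∑ σ, wterm q h t σ := by
  classical
  unfold wsum wterm
  rw [← Finset.sum_filter]
  congr 1
  ext σ
  simp

theorem wterm_of_mem {q : R} {h : Fin n → ℕ} {t : Equiv.Perm (Fin n) → R}
    {σ : Equiv.Perm (Fin n)} (hσ : σ ∈ descentSet h) : wterm q h t σ = q ^ ginv h σ * t σ := by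
  simp [wterm, hσ]

theorem wterm_of_notMem {q : R} {h : Fin n → ℕ} {t : Equiv.Perm (Fin n) → R}
    {σ : Equiv.Perm (Fin n)} (hσ : σ ∉ descentSet h) : wterm q h t σ = 0 := by
  simp [wterm, hσ]

/-- the words with `j` before `k`. -/
def before (j k : Fin n) : Finset (Equiv.Perm (Fin n)) :=
  Finset.univ.filter (fun σ => σ.symm j < σ.symm k)

theorem mem_before {j k : Fin n} {σ : Equiv.Perm (Fin n)} :
    σ ∈ before j k ↔ σ.symm j < σ.symm k := by simp [before]

/-- pairing of the words by the exchange of `j` and `k`. -/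
theorem sum_pair {j k : Fin n} (hne : j ≠ k) (f : Equiv.Perm (Fin n) → R) :
    ∑ σ, f σ = ∑ σ ∈ before j k, (f σ + f (sw j k σ)) := by
  classical
  rw [Finset.sum_add_distrib, ← Finset.sum_filter_add_sum_filter_not Finset.univ
    (fun σ : Equiv.Perm (Fin n) => σ.symm j < σ.symm k) f]
  congr 1
  symm
  apply Finset.sum_bij' (fun σ _ => sw j k σ) (fun σ _ => sw j k σ)
  · intro σ hσ
    rw [mem_before] at hσ
    simp only [Finset.mem_filter, Finset.mem_univ, true_and, sw_symm_left, sw_symm_right, not_lt]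
    exact hσ.le
  · intro σ hσ
    simp only [Finset.mem_filter, Finset.mem_univ, true_and, not_lt] at hσ
    rw [mem_before, sw_symm_left, sw_symm_right]
    exact lt_of_le_of_ne hσ (fun h => hne (σ.symm.injective h).symm)
  · intro σ _; simp
  · intro σ _; simp
  · intro σ _; rfl

/-- twin symmetric word sums: `F = (1+q) F^<`. -/
theorem wterm_twin {q : R} {h : Fin n → ℕ} {j k : Fin n} (T : Twin h j k)
    {t : Equiv.Perm (Fin n) → R} {σ : Equiv.Perm (Fin n)} (hpos : σ.symm j < σ.symm k)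
    (ht : σ ∈ descentSet h → t (sw j k σ) = t σ) :
    wterm q h t (sw j k σ) = q * wterm q h t σ := by
  by_cases hσ : σ ∈ descentSet h
  · rw [wterm_of_mem hσ, wterm_of_mem ((T.mem σ).2 hσ), T.ginv σ hpos, ht hσ, pow_succ]
    ring
  · rw [wterm_of_notMem hσ, wterm_of_notMem (fun h1 => hσ ((T.mem σ).1 h1)), mul_zero]

/-- **The pairing form of the modular law** (both types).  If `t0`, `t2` are twin symmetric and the
half sums satisfy `∑ (t1 σ + t1 (sw σ)) = ∑ (q t0 σ + t2 σ)` over the words with `j` before `k`,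
then the modular law holds. -/
theorem modular_of_half (q : R) {h0 h1 h2 : Fin n → ℕ} {j k : Fin n}
    (T0 : Twin h0 j k) (T2 : Twin h2 j k) (t0 t1 t2 : Equiv.Perm (Fin n) → R)
    (tw0 : ∀ σ ∈ descentSet h0, σ.symm j < σ.symm k → t0 (sw j k σ) = t0 σ)
    (tw2 : ∀ σ ∈ descentSet h2, σ.symm j < σ.symm k → t2 (sw j k σ) = t2 σ)
    (H : ∑ σ ∈ before j k, (wterm q h1 t1 σ + wterm q h1 t1 (sw j k σ)) =
      ∑ σ ∈ before j k, (q * wterm q h0 t0 σ + wterm q h2 t2 σ)) :
    (1 + q) * wsum q h1 t1 = q * wsum q h0 t0 + wsum q h2 t2 := by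
  classical
  rw [wsum_eq, wsum_eq, wsum_eq, sum_pair T0.ne (wterm q h1 t1), H,
    sum_pair T0.ne (wterm q h0 t0), sum_pair T0.ne (wterm q h2 t2), Finset.mul_sum,
    Finset.mul_sum, ← Finset.sum_add_distrib]
  apply Finset.sum_congr rfl
  intro σ hσ
  rw [mem_before] at hσ
  rw [wterm_twin T0 hσ (fun h => tw0 σ h hσ), wterm_twin T2 hσ (fun h => tw2 σ h hσ)]
  ring

/-- **Type I from local rules.**  `i < j < k = j+1`; the graph `h1` is `h0` plus `i j`, `h2` is `h1`
plus `i k`; `j, k` are twins in `h0` and `h2`.  All rules are for words with `j` before `k`. -/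
theorem typeI_of_local (q : R) {h0 h1 h2 : Fin n → ℕ} {i j k : Fin n}
    (A1 : AddEdge h0 h1 i j) (A2 : AddEdge h1 h2 i k) (T0 : Twin h0 j k) (T2 : Twin h2 j k)
    (t0 t1 t2 : Equiv.Perm (Fin n) → R)
    (tw0 : ∀ σ ∈ descentSet h0, σ.symm j < σ.symm k → t0 (sw j k σ) = t0 σ)
    (tw2 : ∀ σ ∈ descentSet h2, σ.symm j < σ.symm k → t2 (sw j k σ) = t2 σ)
    (L1a : ∀ σ ∈ descentSet h0, σ.symm i < σ.symm j → σ.symm j < σ.symm k →
      t1 σ = t2 σ)
    (L1b : ∀ σ ∈ descentSet h0, σ.symm i < σ.symm j → σ.symm j < σ.symm k →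
      t1 (sw j k σ) = t0 σ)
    (L2a : ∀ σ ∈ descentSet h2, σ.symm j < σ.symm k → σ.symm k < σ.symm i →
      t1 (sw j k σ) = t2 σ)
    (L2b : ∀ σ ∈ descentSet h0, σ.symm j < σ.symm k → σ.symm k < σ.symm i →
      t1 σ = t0 σ)
    (L3a : ∀ σ ∈ descentSet h0, σ.symm j < σ.symm i → σ.symm i < σ.symm k →
      t1 σ + t1 (sw j k σ) = t2 σ + t0 σ)
    (L3b : ∀ σ ∈ descentSet h2, σ ∉ descentSet h0 → σ.symm j < σ.symm i → σ.symm i < σ.symm k →
      t1 σ = t2 σ) :
    (1 + q) * wsum q h1 t1 = q * wsum q h0 t0 + wsum q h2 t2 := by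
  classical
  have hij : i ≠ j := A1.lt.ne
  have hik : i ≠ k := A2.lt.ne
  have hjk : j ≠ k := T0.ne
  apply modular_of_half q T0 T2 t0 t1 t2 tw0 tw2
  apply Finset.sum_congr rfl
  intro σ hσ
  rw [mem_before] at hσ
  -- membership
  have m0 := A1.mem σ
  have m1 := A2.mem σ
  have ms0 := A1.mem (sw j k σ)
  have ms1 := A2.mem (sw j k σ)
  have g1 := A1.ginv σ
  have g2 := A2.ginv σ
  have gs1 := A1.ginv (sw j k σ)
  have gt0 := T0.ginv σ hσ
  rw [sw_symm_of_ne hij hik, sw_symm_left] at ms0 gs1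
  rw [sw_symm_of_ne hij hik, sw_symm_right] at ms1
  have mt0 := T0.mem σ
  have mt2 := T2.mem σ
  have p1 : (σ.symm j).val < (σ.symm k).val := hσ
  have n1 : (σ.symm i).val ≠ (σ.symm j).val := fun h => hij (σ.symm.injective (Fin.ext h))
  have n2 : (σ.symm i).val ≠ (σ.symm k).val := fun h => hik (σ.symm.injective (Fin.ext h))
  rcases lt_or_gt_of_ne n1 with c1 | c1
  · -- i first
    have c1' : σ.symm i < σ.symm j := c1
    have c2' : ¬ σ.symm j < σ.symm i := not_lt.2 c1'.le
    have c3' : ¬ σ.symm k < σ.symm i := not_lt.2 (c1'.trans hσ).le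
    rw [if_neg c2'] at g1
    rw [if_neg c3'] at g2 gs1
    by_cases hs : σ ∈ descentSet h0
    · have hs1 : σ ∈ descentSet h1 := (m0.1 hs).1
      have hs2 : σ ∈ descentSet h2 := (m1.1 hs1).1
      have hss : sw j k σ ∈ descentSet h1 := (ms0.1 (mt0.2 hs)).1
      rw [wterm_of_mem hs, wterm_of_mem hs1, wterm_of_mem hs2, wterm_of_mem hss,
        L1a σ hs c1' hσ, L1b σ hs c1' hσ, gs1, gt0, g2, g1]
      simp only [add_zero]
      rw [pow_succ]
      ring
    · have hs1 : σ ∉ descentSet h1 := fun h => hs (m0.2 ⟨h, by omega⟩)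
      have hs2 : σ ∉ descentSet h2 := fun h => hs1 (m1.2 ⟨h, by omega⟩)
      have hss : sw j k σ ∉ descentSet h1 := fun h => hs (mt0.1 (ms0.2 ⟨h, by omega⟩))
      rw [wterm_of_notMem hs, wterm_of_notMem hs1, wterm_of_notMem hs2, wterm_of_notMem hss]
      ring
  · rcases lt_or_gt_of_ne n2 with c2 | c2
    · -- j .. i .. k
      have c1' : σ.symm j < σ.symm i := c1
      have c2' : σ.symm i < σ.symm k := c2
      have c3' : ¬ σ.symm k < σ.symm i := not_lt.2 c2'.le
      rw [if_pos c1'] at g1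
      rw [if_neg c3'] at g2 gs1
      by_cases hs2 : σ ∈ descentSet h2
      · have hs1 : σ ∈ descentSet h1 := m1.2 ⟨hs2, by omega⟩
        by_cases hs : σ ∈ descentSet h0
        · have hss : sw j k σ ∈ descentSet h1 := (ms0.1 (mt0.2 hs)).1
          rw [wterm_of_mem hs, wterm_of_mem hs1, wterm_of_mem hs2, wterm_of_mem hss,
            gs1, gt0, g2, g1]
          simp only [add_zero]
          rw [← mul_add, L3a σ hs c1' c2', pow_succ]
          ring
        · have hss : sw j k σ ∉ descentSet h1 := by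
            intro h
            have hcon : (σ.symm i).val = (σ.symm j).val + 1 := by
              by_contra hcon
              exact hs (m0.2 ⟨hs1, hcon⟩)
            have h3 : sw j k σ ∈ descentSet h0 := ms0.2 ⟨h, by omega⟩
            exact hs (mt0.1 h3)
          rw [wterm_of_notMem hs, wterm_of_mem hs1, wterm_of_mem hs2, wterm_of_notMem hss,
            g2, L3b σ hs2 hs c1' c2']
          ring
      · have hs1 : σ ∉ descentSet h1 := fun h => hs2 (m1.1 h).1
        have hs : σ ∉ descentSet h0 := fun h => hs1 (m0.1 h).1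
        have hss : sw j k σ ∉ descentSet h1 := by
          intro h
          exact hs2 (mt2.1 (ms1.1 h).1)
        rw [wterm_of_notMem hs, wterm_of_notMem hs1, wterm_of_notMem hs2, wterm_of_notMem hss]
        ring
    · -- i last
      have c1' : σ.symm j < σ.symm i := c1
      have c2' : σ.symm k < σ.symm i := c2
      rw [if_pos c1'] at g1
      rw [if_pos c2'] at g2 gs1
      by_cases hs2 : σ ∈ descentSet h2
      · have hss : sw j k σ ∈ descentSet h1 := ms1.2 ⟨mt2.2 hs2, by omega⟩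
        have ginv_ss : ginv h1 (sw j k σ) = ginv h2 σ := by
          rw [gs1, gt0, g2, g1]
        by_cases hs1 : σ ∈ descentSet h1
        · have hs : σ ∈ descentSet h0 := m0.2 ⟨hs1, by omega⟩
          rw [wterm_of_mem hs, wterm_of_mem hs1, wterm_of_mem hs2, wterm_of_mem hss,
            ginv_ss, L2a σ hs2 hσ c2', L2b σ hs hσ c2', g1, pow_succ]
          ring
        · have hs : σ ∉ descentSet h0 := fun h => hs1 (m0.1 h).1
          rw [wterm_of_notMem hs, wterm_of_notMem hs1, wterm_of_mem hs2, wterm_of_mem hss,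
            ginv_ss, L2a σ hs2 hσ c2']
          ring
      · have hs1 : σ ∉ descentSet h1 := fun h => hs2 (m1.1 h).1
        have hs : σ ∉ descentSet h0 := fun h => hs1 (m0.1 h).1
        have hss : sw j k σ ∉ descentSet h1 := by
          intro h
          exact hs2 (mt2.1 (ms1.1 h).1)
        rw [wterm_of_notMem hs, wterm_of_notMem hs1, wterm_of_notMem hs2, wterm_of_notMem hss]
        ring

/-! ### Hessenberg functions -/

omit [CommRing R] in
/-- increasing the value `h x = y` to `y + 1` adds exactly the edge `x y`. -/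
theorem addEdge_of {h h' : Fin n → ℕ} {x y : Fin n} (hxy : x < y) (hx : h x = y.val)
    (hx' : h' x = y.val + 1) (off : ∀ a, a ≠ x → h' a = h a) : AddEdge h h' x y where
  lt := hxy
  not_edge := by
    rw [isEdge_of_lt hxy, hx]
    omega
  edge_iff := by
    intro a b
    have hxy' : x.val < y.val := hxy
    unfold IsEdge
    simp only [Fin.lt_def, Fin.ext_iff]
    by_cases ha : a = x
    · by_cases hb : b = x
      · subst ha; subst hb; omega
      · rw [off b hb, ha, hx, hx']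
        have hb' : b.val ≠ x.val := fun h => hb (Fin.ext h)
        omega
    · rw [off a ha]
      have ha' : a.val ≠ x.val := fun h => ha (Fin.ext h)
      by_cases hb : b = x
      · rw [hb, hx, hx']; omega
      · rw [off b hb]
        have hb' : b.val ≠ x.val := fun h => hb (Fin.ext h)
        omega

omit [CommRing R] in
theorem twin_of {h : Fin n → ℕ} {j k : Fin n} (hk : k.val = j.val + 1) (he : k.val + 1 ≤ h j)
    (hjk : h j = h k) (hleft : ∀ a, a < j → h a ≠ k.val) : Twin h j k where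
  succ := hk
  edge := by
    rw [isEdge_of_lt (by rw [Fin.lt_def]; omega)]
    exact he
  twin := by
    intro a haj hak
    have haj' : a.val ≠ j.val := fun h => haj (Fin.ext h)
    have hak' : a.val ≠ k.val := fun h => hak (Fin.ext h)
    unfold IsEdge
    simp only [Fin.lt_def]
    by_cases h1 : a.val < j.val
    · have := hleft a h1
      omega
    · rw [hjk]
      omega

/-- the four relations for a type I triple. -/
structure TrI (h0 h1 h2 : Fin n → ℕ) (i j k : Fin n) : Prop where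
  m0 : Monotone h0
  m2 : Monotone h2
  ge : ∀ a : Fin n, a.val + 1 ≤ h0 a
  succ : k.val = j.val + 1
  v0 : h0 i = j.val
  v1 : h1 i = j.val + 1
  v2 : h2 i = j.val + 2
  off1 : ∀ a, a ≠ i → h1 a = h0 a
  off2 : ∀ a, a ≠ i → h2 a = h0 a
  tw : h0 j = h0 k

omit [CommRing R] in
theorem TrI.lt {h0 h1 h2 : Fin n → ℕ} {i j k : Fin n} (Tr : TrI h0 h1 h2 i j k) :
    i < j := by
  rw [Fin.lt_def]; have := Tr.ge i; have := Tr.v0; omega

omit [CommRing R] in
theorem TrI.ik {h0 h1 h2 : Fin n → ℕ} {i j k : Fin n} (Tr : TrI h0 h1 h2 i j k) :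
    i < k := by
  have := Tr.lt
  rw [Fin.lt_def] at this ⊢; have := Tr.succ; omega

omit [CommRing R] in
theorem TrI.add1 {h0 h1 h2 : Fin n → ℕ} {i j k : Fin n} (Tr : TrI h0 h1 h2 i j k) :
    AddEdge h0 h1 i j := addEdge_of Tr.lt Tr.v0 Tr.v1 Tr.off1

omit [CommRing R] in
theorem TrI.add2 {h0 h1 h2 : Fin n → ℕ} {i j k : Fin n} (Tr : TrI h0 h1 h2 i j k) :
    AddEdge h1 h2 i k :=
  addEdge_of Tr.ik (by rw [Tr.v1, Tr.succ]) (by rw [Tr.v2, Tr.succ])
    (fun a ha => by rw [Tr.off1 a ha, Tr.off2 a ha])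

omit [CommRing R] in
theorem TrI.twin0 {h0 h1 h2 : Fin n → ℕ} {i j k : Fin n} (Tr : TrI h0 h1 h2 i j k) :
    Twin h0 j k := by
  have hk := Tr.succ
  refine twin_of hk ?_ Tr.tw ?_
  · have := Tr.ge k
    rw [Tr.tw]; exact this
  · intro a _ hcon
    rcases lt_trichotomy a i with h1 | h1 | h1
    · have := Tr.m0 h1.le
      rw [Tr.v0] at this
      omega
    · rw [h1, Tr.v0] at hcon
      omega
    · have := Tr.m2 h1.le
      rw [Tr.v2, Tr.off2 a h1.ne'] at this
      omega

omit [CommRing R] in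
theorem TrI.twin2 {h0 h1 h2 : Fin n → ℕ} {i j k : Fin n} (Tr : TrI h0 h1 h2 i j k) :
    Twin h2 j k := by
  have hk := Tr.succ
  have hji : j ≠ i := Tr.lt.ne'
  have hki : k ≠ i := Tr.ik.ne'
  refine twin_of hk ?_ ?_ ?_
  · have := Tr.ge k
    rw [Tr.off2 j hji, Tr.tw]; exact this
  · rw [Tr.off2 j hji, Tr.off2 k hki, Tr.tw]
  · intro a _ hcon
    rcases lt_trichotomy a i with h1 | h1 | h1
    · have := Tr.m0 h1.le
      rw [Tr.v0, ← Tr.off2 a h1.ne] at this
      omega
    · rw [h1, Tr.v2] at hcon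
      omega
    · have := Tr.m2 h1.le
      rw [Tr.v2] at this
      omega

/-- a type II triple: `j, k = j+1` left twins, `i > k`; `(h j, h k)` is `(i,i)`, `(i,i+1)`,
`(i+1,i+1)` in `h0, h1, h2`. -/
structure TrII (h0 h1 h2 : Fin n → ℕ) (j k i : Fin n) : Prop where
  succ : k.val = j.val + 1
  ki : k < i
  v0j : h0 j = i.val
  v0k : h0 k = i.val
  v1j : h1 j = i.val
  v1k : h1 k = i.val + 1
  v2j : h2 j = i.val + 1
  v2k : h2 k = i.val + 1
  off1 : ∀ a, a ≠ j → a ≠ k → h1 a = h0 a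
  off2 : ∀ a, a ≠ j → a ≠ k → h2 a = h0 a
  left : ∀ a : Fin n, h0 a ≠ k.val

omit [CommRing R] in
theorem TrII.jk {h0 h1 h2 : Fin n → ℕ} {i j k : Fin n} (Tr : TrII h0 h1 h2 j k i) :
    j ≠ k := by
  intro h; have := Tr.succ; rw [h] at this; omega

omit [CommRing R] in
theorem TrII.ji {h0 h1 h2 : Fin n → ℕ} {i j k : Fin n} (Tr : TrII h0 h1 h2 j k i) :
    j < i := by
  have := Tr.ki
  rw [Fin.lt_def] at this ⊢; have := Tr.succ; omega

omit [CommRing R] in
theorem TrII.add1 {h0 h1 h2 : Fin n → ℕ} {i j k : Fin n} (Tr : TrII h0 h1 h2 j k i) :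
    AddEdge h0 h1 k i :=
  addEdge_of Tr.ki Tr.v0k Tr.v1k (fun a ha => by
    by_cases h : a = j
    · rw [h, Tr.v0j, Tr.v1j]
    · exact Tr.off1 a h ha)

omit [CommRing R] in
theorem TrII.add2 {h0 h1 h2 : Fin n → ℕ} {i j k : Fin n} (Tr : TrII h0 h1 h2 j k i) :
    AddEdge h1 h2 j i :=
  addEdge_of Tr.ji Tr.v1j Tr.v2j (fun a ha => by
    by_cases h : a = k
    · rw [h, Tr.v2k, Tr.v1k]
    · rw [Tr.off1 a ha h, Tr.off2 a ha h])

omit [CommRing R] in
theorem TrII.twin0 {h0 h1 h2 : Fin n → ℕ} {i j k : Fin n} (Tr : TrII h0 h1 h2 j k i) :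
    Twin h0 j k := by
  have hki : k.val < i.val := Tr.ki
  exact twin_of Tr.succ (by rw [Tr.v0j]; omega) (by rw [Tr.v0j, Tr.v0k]) (fun a _ => Tr.left a)

omit [CommRing R] in
theorem TrII.twin2 {h0 h1 h2 : Fin n → ℕ} {i j k : Fin n} (Tr : TrII h0 h1 h2 j k i) :
    Twin h2 j k := by
  have hki : k.val < i.val := Tr.ki
  have hk := Tr.succ
  refine twin_of Tr.succ (by rw [Tr.v2j]; omega) (by rw [Tr.v2j, Tr.v2k]) ?_
  intro a ha
  have hak : a ≠ k := by
    intro h; rw [h, Fin.lt_def] at ha; omega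
  rw [Tr.off2 a ha.ne hak]
  exact Tr.left a

end Crest.Agent.R059
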