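import Crest.Agent.R059.Modular

set_option autoImplicit false

open Crest.CombinatoricsR.UnitInterval

namespace Crest.Agent.R059

variable {n : ℕ}

/-- `ginv` counted on edges. -/
theorem ginv_eq_edges (h : Fin n → ℕ) (σ : Equiv.Perm (Fin n)) :
    ginv h σ = ((edges h).filter (fun p => σ.symm p.2 < σ.symm p.1)).card := by
  unfold ginv
  apply Finset.card_bij (fun p _ => (σ p.2, σ p.1))
  · rintro ⟨a, b⟩ hp
    simp only [Finset.mem_filter, Finset.mem_univ, true_and] at hp
    obtain ⟨h1, h2, h3⟩ := hp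
    simp only [Finset.mem_filter, mem_edges, Equiv.symm_apply_apply]
    refine ⟨⟨h2, ?_⟩, h1⟩
    rcases h3 with ⟨h4, h5⟩ | ⟨h4, h5⟩
    · exact absurd h4 (not_lt.2 h2.le)
    · exact h5
  · rintro ⟨a, b⟩ _ ⟨c, d⟩ _ h
    simp only [Prod.mk.injEq, EmbeddingLike.apply_eq_iff_eq] at h
    rw [Prod.mk.injEq]; exact ⟨h.2, h.1⟩
  · rintro ⟨a, b⟩ hp
    simp only [Finset.mem_filter, mem_edges] at hp
    refine ⟨(σ.symm b, σ.symm a), ?_, by simp⟩
    simp only [Finset.mem_filter, Finset.mem_univ, true_and, Equiv.apply_symm_apply]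
    exact ⟨hp.2, hp.1.1, Or.inr ⟨hp.1.1, hp.1.2⟩⟩

/-- membership in the descent set, for `h` with `a + 1 ≤ h a`. -/
theorem mem_descentSet_iff {h : Fin n → ℕ} (hge : ∀ a : Fin n, a.val + 1 ≤ h a)
    (σ : Equiv.Perm (Fin n)) :
    σ ∈ descentSet h ↔ ∀ p r : Fin n, r.val = p.val + 1 → (σ p).val < h (σ r) := by
  unfold descentSet
  simp only [Finset.mem_filter, Finset.mem_univ, true_and]
  constructor
  · intro H p r hpr
    by_contra hc
    have hlt : σ r < σ p := by
      rw [Fin.lt_def]; have := hge (σ r); omega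
    rcases H p r hpr hlt with ⟨_, h2⟩ | ⟨h1, _⟩
    · omega
    · exact absurd h1 (not_lt.2 hlt.le)
  · intro H p r hpr hlt
    exact Or.inl ⟨hlt, H p r hpr⟩

/-- `j, k = j+1` are twins of the graph of `h`. -/
structure TwinH (h : Fin n → ℕ) (j k : Fin n) : Prop where
  hge : ∀ a : Fin n, a.val + 1 ≤ h a
  hk : k.val = j.val + 1
  hjk : h j = h k
  hne : ∀ a : Fin n, h a ≠ k.val

theorem TwinH.ne {h : Fin n → ℕ} {j k : Fin n} (T : TwinH h j k) : j ≠ k := by
  intro h; have := T.hk; rw [← h] at this; omega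

theorem TwinH.swap_lt {h : Fin n → ℕ} {j k : Fin n} (T : TwinH h j k) {x y : Fin n} (hxy : x ≠ y) :
    ((Equiv.swap j k x).val < h (Equiv.swap j k y) ↔ x.val < h y) := by
  have hk := T.hk
  have hjk := T.hjk
  have hgk := T.hge k
  have hne := T.ne
  by_cases hyj : y = j
  · subst hyj
    rw [Equiv.swap_apply_left]
    by_cases hxk : x = k
    · subst hxk
      rw [Equiv.swap_apply_right]; omega
    · rw [Equiv.swap_apply_of_ne_of_ne hxy hxk]; omega
  · by_cases hyk : y = k
    · subst hyk
      rw [Equiv.swap_apply_right]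
      by_cases hxj : x = j
      · subst hxj
        rw [Equiv.swap_apply_left]; omega
      · rw [Equiv.swap_apply_of_ne_of_ne hxj hxy]; omega
    · rw [Equiv.swap_apply_of_ne_of_ne hyj hyk]
      have h1 := T.hne y
      by_cases hxj : x = j
      · subst hxj
        rw [Equiv.swap_apply_left]; omega
      · by_cases hxk : x = k
        · subst hxk
          rw [Equiv.swap_apply_right]; omega
        · rw [Equiv.swap_apply_of_ne_of_ne hxj hxk]

theorem TwinH.mem_swap {h : Fin n → ℕ} {j k : Fin n} (T : TwinH h j k) (σ : Equiv.Perm (Fin n)) :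
    Equiv.swap j k * σ ∈ descentSet h ↔ σ ∈ descentSet h := by
  rw [mem_descentSet_iff T.hge, mem_descentSet_iff T.hge]
  constructor
  · intro H p r hpr
    have hne : σ p ≠ σ r := by
      intro h; have := σ.injective h; rw [this] at hpr; omega
    exact (T.swap_lt hne).1 (H p r hpr)
  · intro H p r hpr
    have hne : σ p ≠ σ r := by
      intro h; have := σ.injective h; rw [this] at hpr; omega
    exact (T.swap_lt hne).2 (H p r hpr)

theorem TwinH.mem_edges_swap {h : Fin n → ℕ} {j k : Fin n} (T : TwinH h j k)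
    (p : Fin n × Fin n) (hp : p ∈ (edges h).erase (j, k)) :
    (Equiv.swap j k p.1, Equiv.swap j k p.2) ∈ (edges h).erase (j, k) := by
  obtain ⟨a, b⟩ := p
  simp only [Finset.mem_erase, mem_edges, ne_eq, Prod.mk.injEq] at hp ⊢
  obtain ⟨hp1, hp2, hp3⟩ := hp
  have hne : b ≠ a := hp2.ne'
  have h2 := (T.swap_lt hne).2 (by omega)
  have hk := T.hk
  refine ⟨?_, ?_, by omega⟩
  · rintro ⟨h3, h4⟩
    have ha : a = k := by
      have := congrArg (Equiv.swap j k) h3
      simpa using this
    have hb : b = j := by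
      have := congrArg (Equiv.swap j k) h4
      simpa using this
    rw [ha, hb, Fin.lt_def] at hp2; omega
  · by_cases haj : a = j
    · subst haj
      have hbk : b ≠ k := fun h => hp1 ⟨rfl, h⟩
      rw [Equiv.swap_apply_left, Equiv.swap_apply_of_ne_of_ne hne hbk]
      rw [Fin.lt_def] at hp2 ⊢
      have : b.val ≠ k.val := fun h => hbk (Fin.ext h)
      omega
    · by_cases hak : a = k
      · subst hak
        have hbj : b ≠ j := by
          intro h; rw [h, Fin.lt_def] at hp2; omega
        rw [Equiv.swap_apply_right, Equiv.swap_apply_of_ne_of_ne hbj hne]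
        rw [Fin.lt_def] at hp2 ⊢; omega
      · rw [Equiv.swap_apply_of_ne_of_ne haj hak]
        have haj' : a.val ≠ j.val := fun h => haj (Fin.ext h)
        by_cases hbj : b = j
        · subst hbj
          rw [Equiv.swap_apply_left]
          rw [Fin.lt_def] at hp2 ⊢; omega
        · by_cases hbk : b = k
          · subst hbk
            rw [Equiv.swap_apply_right]
            rw [Fin.lt_def] at hp2 ⊢; omega
          · rw [Equiv.swap_apply_of_ne_of_ne hbj hbk]; exact hp2

/-- swapping the twins `j, k` (with `j` in front of `k`) adds one inversion. -/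
theorem TwinH.ginv_swap {h : Fin n → ℕ} {j k : Fin n} (T : TwinH h j k) (σ : Equiv.Perm (Fin n))
    (hlt : σ.symm j < σ.symm k) : ginv h (Equiv.swap j k * σ) = ginv h σ + 1 := by
  classical
  have hmem : (j, k) ∈ edges h := by
    rw [mem_edges]
    have h1 := T.hk
    have h2 := T.hjk
    have h3 := T.hge k
    constructor
    · show j < k
      rw [Fin.lt_def]; omega
    · show k.val + 1 ≤ h j
      omega
  have hsym : ∀ a, (Equiv.swap j k * σ).symm a = σ.symm (Equiv.swap j k a) := by
    intro a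
    rw [Equiv.symm_apply_eq]
    simp
  rw [ginv_eq_edges, ginv_eq_edges, ← Finset.insert_erase hmem, Finset.filter_insert,
    Finset.filter_insert]
  have h1 : (Equiv.swap j k * σ).symm k < (Equiv.swap j k * σ).symm j := by
    rw [hsym, hsym]; simpa using hlt
  have h2 : ¬ (σ.symm k < σ.symm j) := not_lt.2 hlt.le
  rw [if_pos h1, if_neg h2, Finset.card_insert_of_notMem (by simp)]
  congr 1
  apply Finset.card_bij' (fun p _ => (Equiv.swap j k p.1, Equiv.swap j k p.2))
    (fun p _ => (Equiv.swap j k p.1, Equiv.swap j k p.2))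
  · intro p hp
    rw [Finset.mem_filter] at hp ⊢
    refine ⟨T.mem_edges_swap p hp.1, ?_⟩
    have := hp.2
    rwa [hsym, hsym] at this
  · intro p hp
    rw [Finset.mem_filter] at hp ⊢
    refine ⟨T.mem_edges_swap p hp.1, ?_⟩
    rw [hsym, hsym]
    simpa using hp.2
  · intro p _; simp
  · intro p _; simp

/-- a type I triple. -/
structure TripleI (h0 h1 h2 : Fin n → ℕ) (i j k : Fin n) : Prop where
  m0 : Monotone h0
  m2 : Monotone h2
  hge : ∀ a : Fin n, a.val + 1 ≤ h0 a
  hk : k.val = j.val + 1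
  v0 : h0 i = j.val
  v1 : h1 i = j.val + 1
  v2 : h2 i = j.val + 2
  off1 : ∀ a, a ≠ i → h1 a = h0 a
  off2 : ∀ a, a ≠ i → h2 a = h0 a
  hjk : h0 j = h0 k

section triple

variable {h0 h1 h2 : Fin n → ℕ} {i j k : Fin n}

theorem TripleI.lt_ij (T : TripleI h0 h1 h2 i j k) : i.val < j.val := by
  have := T.hge i; have := T.v0; omega

theorem TripleI.ne_ij (T : TripleI h0 h1 h2 i j k) : i ≠ j := by
  intro h; have := T.lt_ij; rw [h] at this; omega

theorem TripleI.ne_ik (T : TripleI h0 h1 h2 i j k) : i ≠ k := by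
  intro h; have h1 := T.lt_ij; have h2 := T.hk; rw [h] at h1; omega

theorem TripleI.ne_jk (T : TripleI h0 h1 h2 i j k) : j ≠ k := by
  intro h; have := T.hk; rw [h] at this; omega

theorem TripleI.off12 (T : TripleI h0 h1 h2 i j k) (a : Fin n) (ha : a ≠ i) : h2 a = h1 a := by
  rw [T.off2 a ha, T.off1 a ha]

theorem TripleI.hge1 (T : TripleI h0 h1 h2 i j k) (a : Fin n) : a.val + 1 ≤ h1 a := by
  by_cases ha : a = i
  · subst ha
    have := T.lt_ij; have := T.v1; omega
  · rw [T.off1 a ha]; exact T.hge a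

theorem TripleI.hge2 (T : TripleI h0 h1 h2 i j k) (a : Fin n) : a.val + 1 ≤ h2 a := by
  by_cases ha : a = i
  · subst ha
    have := T.lt_ij; have := T.v2; omega
  · rw [T.off2 a ha]; exact T.hge a

theorem TripleI.twin0 (T : TripleI h0 h1 h2 i j k) : TwinH h0 j k where
  hge := T.hge
  hk := T.hk
  hjk := T.hjk
  hne := by
    intro a
    have hk := T.hk
    have v0 := T.v0
    have v2 := T.v2
    rcases lt_trichotomy a i with h | h | h
    · have := T.m0 h.le; omega
    · rw [h]; omega
    · have := T.m2 h.le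
      rw [T.off2 a h.ne'] at this; omega

theorem TripleI.twin2 (T : TripleI h0 h1 h2 i j k) : TwinH h2 j k where
  hge := T.hge2
  hk := T.hk
  hjk := by rw [T.off2 j T.ne_ij.symm, T.off2 k T.ne_ik.symm]; exact T.hjk
  hne := by
    intro a
    have hk := T.hk
    have v0 := T.v0
    have v2 := T.v2
    rcases lt_trichotomy a i with h | h | h
    · have := T.m0 h.le
      rw [T.off2 a h.ne]; omega
    · rw [h]; omega
    · have := T.m2 h.le; omega

theorem TripleI.mem_D1 (T : TripleI h0 h1 h2 i j k) (σ : Equiv.Perm (Fin n)) :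
    σ ∈ descentSet h1 ↔ σ ∈ descentSet h2 ∧
      ∀ p r : Fin n, r.val = p.val + 1 → σ p = k → σ r ≠ i := by
  rw [mem_descentSet_iff T.hge1, mem_descentSet_iff T.hge2]
  have hk := T.hk
  have v1 := T.v1
  have v2 := T.v2
  constructor
  · intro H
    refine ⟨?_, ?_⟩
    · intro p r hpr
      have := H p r hpr
      by_cases hr : σ r = i
      · rw [hr] at this ⊢; omega
      · rw [T.off12 _ hr]; exact this
    · intro p r hpr hp hr
      have := H p r hpr
      rw [hp, hr] at this; omega
  · rintro ⟨H, H2⟩ p r hpr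
    have := H p r hpr
    by_cases hr : σ r = i
    · rw [hr] at this ⊢
      have h3 : σ p ≠ k := fun h => H2 p r hpr h hr
      have h4 : (σ p).val ≠ k.val := fun h => h3 (Fin.ext h)
      omega
    · rw [← T.off12 _ hr]; exact this

theorem TripleI.mem_D0 (T : TripleI h0 h1 h2 i j k) (σ : Equiv.Perm (Fin n)) :
    σ ∈ descentSet h0 ↔ σ ∈ descentSet h1 ∧
      ∀ p r : Fin n, r.val = p.val + 1 → σ p = j → σ r ≠ i := by
  rw [mem_descentSet_iff T.hge, mem_descentSet_iff T.hge1]
  have v1 := T.v1
  have v0 := T.v0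
  constructor
  · intro H
    refine ⟨?_, ?_⟩
    · intro p r hpr
      have := H p r hpr
      by_cases hr : σ r = i
      · rw [hr] at this ⊢; omega
      · rw [T.off1 _ hr]; exact this
    · intro p r hpr hp hr
      have := H p r hpr
      rw [hp, hr] at this; omega
  · rintro ⟨H, H2⟩ p r hpr
    have := H p r hpr
    by_cases hr : σ r = i
    · rw [hr] at this ⊢
      have h3 : σ p ≠ j := fun h => H2 p r hpr h hr
      have h4 : (σ p).val ≠ j.val := fun h => h3 (Fin.ext h)
      omega
    · rw [← T.off1 _ hr]; exact this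

theorem TripleI.edges1 (T : TripleI h0 h1 h2 i j k) : edges h1 = insert (i, j) (edges h0) := by
  have hlt := T.lt_ij
  ext ⟨a, b⟩
  rw [Finset.mem_insert, mem_edges, mem_edges]
  simp only [Prod.mk.injEq]
  by_cases ha : a = i
  · subst ha
    rw [T.v0, T.v1]
    simp only [Fin.lt_def, Fin.ext_iff, true_and]
    omega
  · rw [T.off1 a ha]
    simp [ha]

theorem TripleI.edges2 (T : TripleI h0 h1 h2 i j k) : edges h2 = insert (i, k) (edges h1) := by
  have hlt := T.lt_ij
  have hk := T.hk
  ext ⟨a, b⟩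
  rw [Finset.mem_insert, mem_edges, mem_edges]
  simp only [Prod.mk.injEq]
  by_cases ha : a = i
  · subst ha
    rw [T.v1, T.v2]
    simp only [Fin.lt_def, Fin.ext_iff, true_and]
    omega
  · rw [T.off12 a ha]
    simp [ha]

theorem TripleI.ginv1 (T : TripleI h0 h1 h2 i j k) (σ : Equiv.Perm (Fin n)) :
    ginv h1 σ = ginv h0 σ + if σ.symm j < σ.symm i then 1 else 0 := by
  rw [ginv_eq_edges, ginv_eq_edges, T.edges1, Finset.filter_insert]
  have hn : (i, j) ∉ edges h0 := by
    rw [mem_edges]; simp only [T.v0]; omega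
  split_ifs with h
  · rw [Finset.card_insert_of_notMem]
    intro h'
    exact hn (Finset.mem_filter.1 h').1
  · rfl

theorem TripleI.ginv2 (T : TripleI h0 h1 h2 i j k) (σ : Equiv.Perm (Fin n)) :
    ginv h2 σ = ginv h1 σ + if σ.symm k < σ.symm i then 1 else 0 := by
  rw [ginv_eq_edges, ginv_eq_edges, T.edges2, Finset.filter_insert]
  have hn : (i, k) ∉ edges h1 := by
    rw [mem_edges]; simp only [T.v1]; have := T.hk; omega
  split_ifs with h
  · rw [Finset.card_insert_of_notMem]
    intro h'
    exact hn (Finset.mem_filter.1 h').1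
  · rfl

end triple

end Crest.Agent.R059
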