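import Crest.Agent.R059.LocalILem

set_option autoImplicit false

open Crest.CombinatoricsR.UnitInterval

namespace Crest.Agent.R059

variable {n : ℕ} {R : Type*} [CommRing R]

/-- weighted generating function of the descent set. -/
def FW (q : R) (h : Fin n → ℕ) (W : Equiv.Perm (Fin n) → R) : R :=
  ∑ σ ∈ descentSet h, q ^ ginv h σ * W σ

theorem swap_mul_symm (j k : Fin n) (σ : Equiv.Perm (Fin n)) (a : Fin n) :
    (Equiv.swap j k * σ).symm a = σ.symm (Equiv.swap j k a) := by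
  rw [Equiv.symm_apply_eq]
  simp

theorem sum_pairs (D : Finset (Equiv.Perm (Fin n))) (j k : Fin n) (hjk : j ≠ k)
    (f : Equiv.Perm (Fin n) → R) :
    ∑ σ ∈ D, f σ =
      ∑ σ ∈ Finset.univ.filter (fun σ : Equiv.Perm (Fin n) => σ.symm j < σ.symm k),
      ((if σ ∈ D then f σ else 0) +
        (if Equiv.swap j k * σ ∈ D then f (Equiv.swap j k * σ) else 0)) := by
  classical
  have h1 : ∑ σ ∈ D, f σ = ∑ σ : Equiv.Perm (Fin n), if σ ∈ D then f σ else 0 := by
    rw [Finset.sum_ite_mem, Finset.univ_inter]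
  rw [h1, ← Finset.sum_filter_add_sum_filter_not Finset.univ
    (fun σ : Equiv.Perm (Fin n) => σ.symm j < σ.symm k), Finset.sum_add_distrib]
  congr 1
  apply Finset.sum_bij' (fun σ _ => Equiv.swap j k * σ) (fun σ _ => Equiv.swap j k * σ)
  · intro σ hσ
    simp only [Finset.mem_filter, Finset.mem_univ, true_and, swap_mul_symm,
      Equiv.swap_apply_left, Equiv.swap_apply_right] at hσ ⊢
    have hne : σ.symm j ≠ σ.symm k := fun h => hjk (σ.symm.injective h)
    exact lt_of_le_of_ne (not_lt.1 hσ) hne.symm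
  · intro σ hσ
    simp only [Finset.mem_filter, Finset.mem_univ, true_and, swap_mul_symm,
      Equiv.swap_apply_left, Equiv.swap_apply_right] at hσ ⊢
    exact not_lt.2 hσ.le
  · intro σ _
    rw [← mul_assoc, Equiv.swap_mul_self, one_mul]
  · intro σ _
    rw [← mul_assoc, Equiv.swap_mul_self, one_mul]
  · intro σ _
    rw [← mul_assoc, Equiv.swap_mul_self, one_mul]

section triple

variable {h0 h1 h2 : Fin n → ℕ} {i j k : Fin n}

theorem pos_adj_iff (σ : Equiv.Perm (Fin n)) (a b : Fin n) :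
    (∀ p r : Fin n, r.val = p.val + 1 → σ p = a → σ r ≠ b) ↔
      (σ.symm b).val ≠ (σ.symm a).val + 1 := by
  constructor
  · intro H h
    exact H (σ.symm a) (σ.symm b) h (by simp) (by simp)
  · intro H p r hpr hp hr
    apply H
    rw [← hp, ← hr]
    simpa using hpr

theorem TripleI.mem_D1' (T : TripleI h0 h1 h2 i j k) (σ : Equiv.Perm (Fin n)) :
    σ ∈ descentSet h1 ↔ σ ∈ descentSet h2 ∧ (σ.symm i).val ≠ (σ.symm k).val + 1 := by
  rw [T.mem_D1, pos_adj_iff]

theorem TripleI.mem_D0' (T : TripleI h0 h1 h2 i j k) (σ : Equiv.Perm (Fin n)) :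
    σ ∈ descentSet h0 ↔ σ ∈ descentSet h1 ∧ (σ.symm i).val ≠ (σ.symm j).val + 1 := by
  rw [T.mem_D0, pos_adj_iff]

theorem TripleI.mem_D1s (T : TripleI h0 h1 h2 i j k) (σ : Equiv.Perm (Fin n)) :
    Equiv.swap j k * σ ∈ descentSet h1 ↔
      σ ∈ descentSet h2 ∧ (σ.symm i).val ≠ (σ.symm j).val + 1 := by
  rw [T.mem_D1', T.twin2.mem_swap, swap_mul_symm, swap_mul_symm, Equiv.swap_apply_right,
    Equiv.swap_apply_of_ne_of_ne T.ne_ij T.ne_ik]

/-- **Type I law from the local law.** -/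
theorem TripleI.sum (T : TripleI h0 h1 h2 i j k) (q : R) (W0 W1 W2 : Equiv.Perm (Fin n) → R)
    (T0 : ∀ σ ∈ descentSet h0, W0 (Equiv.swap j k * σ) = W0 σ)
    (T2 : ∀ σ ∈ descentSet h2, W2 (Equiv.swap j k * σ) = W2 σ)
    (HA : ∀ σ ∈ descentSet h0, σ.symm i < σ.symm j → σ.symm j < σ.symm k →
      W1 σ + q * W1 (Equiv.swap j k * σ) = W2 σ + q * W0 σ)
    (HB1 : ∀ σ ∈ descentSet h0, σ.symm j < σ.symm i → σ.symm i < σ.symm k →
      W1 σ + W1 (Equiv.swap j k * σ) = W2 σ + W0 σ)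
    (HB2 : ∀ σ ∈ descentSet h1, (σ.symm i).val = (σ.symm j).val + 1 → σ.symm i < σ.symm k →
      W1 σ = W2 σ)
    (HC1 : ∀ σ ∈ descentSet h0, σ.symm j < σ.symm k → σ.symm k < σ.symm i →
      W1 σ + q * W1 (Equiv.swap j k * σ) = W0 σ + q * W2 σ)
    (HC2 : ∀ σ ∈ descentSet h2, σ.symm j < σ.symm k → (σ.symm i).val = (σ.symm k).val + 1 →
      W1 (Equiv.swap j k * σ) = W2 σ) :
    (1 + q) * FW q h1 W1 = q * FW q h0 W0 + FW q h2 W2 := by
  classical
  unfold FW
  rw [sum_pairs (descentSet h0) j k T.ne_jk, sum_pairs (descentSet h1) j k T.ne_jk,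
    sum_pairs (descentSet h2) j k T.ne_jk, Finset.mul_sum, Finset.mul_sum,
    ← Finset.sum_add_distrib]
  apply Finset.sum_congr rfl
  intro σ hσ
  rw [Finset.mem_filter] at hσ
  have hjk : σ.symm j < σ.symm k := hσ.2
  have g0s : ginv h0 (Equiv.swap j k * σ) = ginv h0 σ + 1 := T.twin0.ginv_swap σ hjk
  have g2s : ginv h2 (Equiv.swap j k * σ) = ginv h2 σ + 1 := T.twin2.ginv_swap σ hjk
  have g1s := T.ginv1 (Equiv.swap j k * σ)
  rw [swap_mul_symm, swap_mul_symm, Equiv.swap_apply_left,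
    Equiv.swap_apply_of_ne_of_ne T.ne_ij T.ne_ik, g0s] at g1s
  have g1 := T.ginv1 σ
  have g2 := T.ginv2 σ
  have m0s : Equiv.swap j k * σ ∈ descentSet h0 ↔ σ ∈ descentSet h0 := T.twin0.mem_swap σ
  have m2s : Equiv.swap j k * σ ∈ descentSet h2 ↔ σ ∈ descentSet h2 := T.twin2.mem_swap σ
  have m1s := T.mem_D1s σ
  have m1 := T.mem_D1' σ
  have m0 := T.mem_D0' σ
  have hij : (σ.symm i).val ≠ (σ.symm j).val := fun h => T.ne_ij (σ.symm.injective (Fin.ext h))
  have hik : (σ.symm i).val ≠ (σ.symm k).val := fun h => T.ne_ik (σ.symm.injective (Fin.ext h))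
  have hjk' : (σ.symm j).val < (σ.symm k).val := hjk
  simp only [m0s, m2s]
  rcases lt_or_ge (σ.symm i).val (σ.symm j).val with hA | hA
  · -- case A
    have c1 : ¬ (σ.symm j < σ.symm i) := by rw [Fin.lt_def]; omega
    have c2 : ¬ (σ.symm k < σ.symm i) := by rw [Fin.lt_def]; omega
    rw [if_neg c1] at g1
    rw [if_neg c2] at g1s g2
    by_cases hD : σ ∈ descentSet h2
    · have d1 : σ ∈ descentSet h1 := m1.2 ⟨hD, by omega⟩
      have d0 : σ ∈ descentSet h0 := m0.2 ⟨d1, by omega⟩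
      have d1s : Equiv.swap j k * σ ∈ descentSet h1 := m1s.2 ⟨hD, by omega⟩
      have e := HA σ d0 hA hjk
      rw [if_pos hD, if_pos hD, if_pos d1, if_pos d1s, if_pos d0, if_pos d0, g0s, g2s, g1s, g2, g1,
        T0 σ d0, T2 σ hD]
      simp only [pow_add, pow_one, pow_zero, add_zero]
      linear_combination (1 + q) * q ^ ginv h0 σ * e
    · have d1 : σ ∉ descentSet h1 := fun h => hD (m1.1 h).1
      have d0 : σ ∉ descentSet h0 := fun h => d1 (m0.1 h).1
      have d1s : Equiv.swap j k * σ ∉ descentSet h1 := fun h => hD (m1s.1 h).1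
      rw [if_neg hD, if_neg hD, if_neg d1, if_neg d1s, if_neg d0, if_neg d0]
      ring
  · rcases lt_or_ge (σ.symm i).val (σ.symm k).val with hB | hB
    · -- case B
      have c1 : σ.symm j < σ.symm i := by rw [Fin.lt_def]; omega
      have c2 : ¬ (σ.symm k < σ.symm i) := by rw [Fin.lt_def]; omega
      rw [if_pos c1] at g1
      rw [if_neg c2] at g1s g2
      by_cases hD : σ ∈ descentSet h2
      · have d1 : σ ∈ descentSet h1 := m1.2 ⟨hD, by omega⟩
        by_cases hadj : (σ.symm i).val = (σ.symm j).val + 1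
        · have d0 : σ ∉ descentSet h0 := fun h => (m0.1 h).2 hadj
          have d1s : Equiv.swap j k * σ ∉ descentSet h1 := fun h => (m1s.1 h).2 hadj
          have e := HB2 σ d1 hadj hB
          rw [if_pos hD, if_pos hD, if_pos d1, if_neg d1s, if_neg d0, if_neg d0, g2s, g2,
            g1, T2 σ hD, e]
          simp only [pow_add, pow_one, pow_zero, add_zero]
          ring
        · have d0 : σ ∈ descentSet h0 := m0.2 ⟨d1, hadj⟩
          have d1s : Equiv.swap j k * σ ∈ descentSet h1 := m1s.2 ⟨hD, hadj⟩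
          have e := HB1 σ d0 c1 hB
          rw [if_pos hD, if_pos hD, if_pos d1, if_pos d1s, if_pos d0, if_pos d0, g0s, g2s, g1s, g2,
            g1, T0 σ d0, T2 σ hD]
          simp only [pow_add, pow_one, pow_zero, add_zero]
          linear_combination (1 + q) * q ^ ginv h0 σ * q * e
      · have d1 : σ ∉ descentSet h1 := fun h => hD (m1.1 h).1
        have d0 : σ ∉ descentSet h0 := fun h => d1 (m0.1 h).1
        have d1s : Equiv.swap j k * σ ∉ descentSet h1 := fun h => hD (m1s.1 h).1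
        rw [if_neg hD, if_neg hD, if_neg d1, if_neg d1s, if_neg d0, if_neg d0]
        ring
    · -- case C
      have c1 : σ.symm j < σ.symm i := by rw [Fin.lt_def]; omega
      have c2 : σ.symm k < σ.symm i := by rw [Fin.lt_def]; omega
      rw [if_pos c1] at g1
      rw [if_pos c2] at g1s g2
      by_cases hD : σ ∈ descentSet h2
      · have d1s : Equiv.swap j k * σ ∈ descentSet h1 := m1s.2 ⟨hD, by omega⟩
        by_cases hadj : (σ.symm i).val = (σ.symm k).val + 1
        · have d1 : σ ∉ descentSet h1 := fun h => (m1.1 h).2 hadj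
          have d0 : σ ∉ descentSet h0 := fun h => d1 (m0.1 h).1
          have e := HC2 σ hD hjk hadj
          rw [if_pos hD, if_pos hD, if_neg d1, if_pos d1s, if_neg d0, if_neg d0, g2s, g1s, g2,
            g1, T2 σ hD, e]
          simp only [pow_add, pow_one, pow_zero, add_zero]
          ring
        · have d1 : σ ∈ descentSet h1 := m1.2 ⟨hD, hadj⟩
          have d0 : σ ∈ descentSet h0 := m0.2 ⟨d1, by omega⟩
          have e := HC1 σ d0 hjk c2
          rw [if_pos hD, if_pos hD, if_pos d1, if_pos d1s, if_pos d0, if_pos d0, g0s, g2s, g1s, g2,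
            g1, T0 σ d0, T2 σ hD]
          simp only [pow_add, pow_one, pow_zero, add_zero]
          linear_combination (1 + q) * q ^ ginv h0 σ * q * e
      · have d1 : σ ∉ descentSet h1 := fun h => hD (m1.1 h).1
        have d0 : σ ∉ descentSet h0 := fun h => d1 (m0.1 h).1
        have d1s : Equiv.swap j k * σ ∉ descentSet h1 := fun h => hD (m1s.1 h).1
        rw [if_neg hD, if_neg hD, if_neg d1, if_neg d1s, if_neg d0, if_neg d0]
        ring

/-- the relevant twin of `i` is `j`: orders `i j k`, `j i k`, `k j i`. -/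
def RelJ (σ : Equiv.Perm (Fin n)) (i j k : Fin n) : Prop :=
  (σ.symm i < σ.symm j ∧ σ.symm j < σ.symm k) ∨ (σ.symm j < σ.symm i ∧ σ.symm i < σ.symm k) ∨
    (σ.symm k < σ.symm j ∧ σ.symm j < σ.symm i)

/-- the relevant twin of `i` is `k`: orders `i k j`, `k i j`, `j k i`. -/
def RelK (σ : Equiv.Perm (Fin n)) (i j k : Fin n) : Prop :=
  (σ.symm i < σ.symm k ∧ σ.symm k < σ.symm j) ∨ (σ.symm k < σ.symm i ∧ σ.symm i < σ.symm j) ∨
    (σ.symm j < σ.symm k ∧ σ.symm k < σ.symm i)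

/-- pointwise form: in `G1` only the relation of `i` to the relevant twin counts. -/
theorem TripleI.sum_pointwise (T : TripleI h0 h1 h2 i j k) (q : R)
    (W0 W1 W2 : Equiv.Perm (Fin n) → R)
    (T0 : ∀ σ ∈ descentSet h0, W0 (Equiv.swap j k * σ) = W0 σ)
    (T2 : ∀ σ ∈ descentSet h2, W2 (Equiv.swap j k * σ) = W2 σ)
    (LJ : ∀ σ ∈ descentSet h1, RelJ σ i j k → W1 σ = W2 σ)
    (LK : ∀ σ ∈ descentSet h1, RelK σ i j k → W1 σ = W0 σ) :
    (1 + q) * FW q h1 W1 = q * FW q h0 W0 + FW q h2 W2 := by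
  have d01 : ∀ σ : Equiv.Perm (Fin n), σ ∈ descentSet h0 → σ ∈ descentSet h1 :=
    fun σ h => ((T.mem_D0' σ).1 h).1
  have d12 : ∀ σ : Equiv.Perm (Fin n), σ ∈ descentSet h1 → σ ∈ descentSet h2 :=
    fun σ h => ((T.mem_D1' σ).1 h).1
  have ms : ∀ σ : Equiv.Perm (Fin n), σ ∈ descentSet h0 →
      Equiv.swap j k * σ ∈ descentSet h1 := fun σ h => d01 _ ((T.twin0.mem_swap σ).2 h)
  have hi : Equiv.swap j k i = i := Equiv.swap_apply_of_ne_of_ne T.ne_ij T.ne_ik
  apply T.sum q W0 W1 W2 T0 T2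
  · intro σ h a b
    rw [LJ σ (d01 σ h) (Or.inl ⟨a, b⟩), LK _ (ms σ h), T0 σ h]
    left
    simp only [swap_mul_symm, Equiv.swap_apply_left, Equiv.swap_apply_right, hi]
    exact ⟨a, b⟩
  · intro σ h a b
    rw [LJ σ (d01 σ h) (Or.inr (Or.inl ⟨a, b⟩)), LK _ (ms σ h), T0 σ h]
    right; left
    simp only [swap_mul_symm, Equiv.swap_apply_left, Equiv.swap_apply_right, hi]
    exact ⟨a, b⟩
  · intro σ h a b
    exact LJ σ h (Or.inr (Or.inl ⟨by rw [Fin.lt_def]; omega, b⟩))
  · intro σ h a b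
    rw [LK σ (d01 σ h) (Or.inr (Or.inr ⟨a, b⟩)), LJ _ (ms σ h), T2 σ (d12 σ (d01 σ h))]
    right; right
    simp only [swap_mul_symm, Equiv.swap_apply_left, Equiv.swap_apply_right, hi]
    exact ⟨a, b⟩
  · intro σ h a b
    have hjki : (σ.symm j).val < (σ.symm k).val := a
    have m : Equiv.swap j k * σ ∈ descentSet h1 := (T.mem_D1s σ).2 ⟨h, by omega⟩
    rw [LJ _ m, T2 σ h]
    right; right
    simp only [swap_mul_symm, Equiv.swap_apply_left, Equiv.swap_apply_right, hi]
    exact ⟨a, by rw [Fin.lt_def]; omega⟩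

end triple

end Crest.Agent.R059
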