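import Crest.Agent.R059.LocalI

/-!
# Row 59: the modular laws for `F n h N = ∑_σ q^ginv(σ) e_{θ(σ)}` with an abstract `θ`

* `Fth_typeI`: type I from the word-level rules (multiset valued `θ`).
* `Fth_of_half`: both types, from the half sums.
* `defectII`: the defect of a word for type II, in closed form.
-/

set_option autoImplicit false

open Crest.CombinatoricsR.UnitInterval

namespace Crest.Agent.R059

variable {n : ℕ}

/-- `e_m` for a multiset `m`. -/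
noncomputable def eM (N : ℕ) (m : Multiset ℕ) : MvPolynomial (Fin N) (Polynomial ℤ) :=
  (m.map (MvPolynomial.esymm (Fin N) (Polynomial ℤ))).prod

/-- the variable `q`. -/
noncomputable def qv (N : ℕ) : MvPolynomial (Fin N) (Polynomial ℤ) :=
  MvPolynomial.C (Polynomial.X : Polynomial ℤ)

/-- `F n h N`. -/
noncomputable def Fth (h : Fin n → ℕ) (t : Equiv.Perm (Fin n) → Multiset ℕ) (N : ℕ) :
    MvPolynomial (Fin N) (Polynomial ℤ) :=
  ∑ σ ∈ descentSet h, MvPolynomial.C (Polynomial.X ^ ginv h σ) *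
    ((t σ).map (MvPolynomial.esymm (Fin N) (Polynomial ℤ))).prod

theorem Fth_eq (h : Fin n → ℕ) (t : Equiv.Perm (Fin n) → Multiset ℕ) (N : ℕ) :
    Fth h t N = wsum (qv N) h (fun σ => eM N (t σ)) := by
  unfold Fth wsum eM qv
  apply Finset.sum_congr rfl
  intro σ _
  rw [map_pow]

/-- **Type I** for `F`, from local rules for a multiset valued `θ`. -/
theorem Fth_typeI {h0 h1 h2 : Fin n → ℕ} {i j k : Fin n} (Tr : TrI h0 h1 h2 i j k)
    (t0 t1 t2 : Equiv.Perm (Fin n) → Multiset ℕ)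
    (tw0 : ∀ σ ∈ descentSet h0, σ.symm j < σ.symm k → t0 (sw j k σ) = t0 σ)
    (tw2 : ∀ σ ∈ descentSet h2, σ.symm j < σ.symm k → t2 (sw j k σ) = t2 σ)
    (L1a : ∀ σ ∈ descentSet h0, σ.symm i < σ.symm j → σ.symm j < σ.symm k →
      t1 σ = t2 σ)
    (L1b : ∀ σ ∈ descentSet h0, σ.symm i < σ.symm j → σ.symm j < σ.symm k →
      t1 (sw j k σ) = t0 σ)
    (L2a : ∀ σ ∈ descentSet h2, σ.symm j < σ.symm k → σ.symm k < σ.symm i →
      t1 (sw j k σ) = t2 σ)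
    (L2b : ∀ σ ∈ descentSet h0, σ.symm j < σ.symm k → σ.symm k < σ.symm i →
      t1 σ = t0 σ)
    (L3a : ∀ σ ∈ descentSet h0, σ.symm j < σ.symm i → σ.symm i < σ.symm k →
      (t1 σ = t2 σ ∧ t1 (sw j k σ) = t0 σ) ∨ (t1 σ = t0 σ ∧ t1 (sw j k σ) = t2 σ))
    (L3b : ∀ σ ∈ descentSet h2, σ ∉ descentSet h0 → σ.symm j < σ.symm i → σ.symm i < σ.symm k →
      t1 σ = t2 σ) (N : ℕ) :
    MvPolynomial.C (1 + Polynomial.X) * Fth h1 t1 N =
      MvPolynomial.C Polynomial.X * Fth h0 t0 N + Fth h2 t2 N := by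
  rw [Fth_eq, Fth_eq, Fth_eq, map_add, map_one]
  apply typeI_of_local (qv N) Tr.add1 Tr.add2 Tr.twin0 Tr.twin2
  · intro σ h1 h2; simp only [tw0 σ h1 h2]
  · intro σ h1 h2; simp only [tw2 σ h1 h2]
  · intro σ h1 h2 h3; simp only [L1a σ h1 h2 h3]
  · intro σ h1 h2 h3; simp only [L1b σ h1 h2 h3]
  · intro σ h1 h2 h3; simp only [L2a σ h1 h2 h3]
  · intro σ h1 h2 h3; simp only [L2b σ h1 h2 h3]
  · intro σ h1 h2 h3
    rcases L3a σ h1 h2 h3 with ⟨h4, h5⟩ | ⟨h4, h5⟩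
    · simp only [h4, h5]
    · simp only [h4, h5]
      exact add_comm _ _
  · intro σ h1 h2 h3 h4; simp only [L3b σ h1 h2 h3 h4]

/-- both types for `F`, from the half sums. -/
theorem Fth_of_half {h0 h1 h2 : Fin n → ℕ} {j k : Fin n} (T0 : Twin h0 j k) (T2 : Twin h2 j k)
    (t0 t1 t2 : Equiv.Perm (Fin n) → Multiset ℕ)
    (tw0 : ∀ σ ∈ descentSet h0, σ.symm j < σ.symm k → t0 (sw j k σ) = t0 σ)
    (tw2 : ∀ σ ∈ descentSet h2, σ.symm j < σ.symm k → t2 (sw j k σ) = t2 σ) (N : ℕ)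
    (H : ∑ σ ∈ before j k, (wterm (qv N) h1 (fun σ => eM N (t1 σ)) σ +
        wterm (qv N) h1 (fun σ => eM N (t1 σ)) (sw j k σ)) =
      ∑ σ ∈ before j k, (qv N * wterm (qv N) h0 (fun σ => eM N (t0 σ)) σ +
        wterm (qv N) h2 (fun σ => eM N (t2 σ)) σ)) :
    MvPolynomial.C (1 + Polynomial.X) * Fth h1 t1 N =
      MvPolynomial.C Polynomial.X * Fth h0 t0 N + Fth h2 t2 N := by
  rw [Fth_eq, Fth_eq, Fth_eq, map_add, map_one]
  apply modular_of_half (qv N) T0 T2 _ _ _ _ _ H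
  · intro σ h1 h2; simp only [tw0 σ h1 h2]
  · intro σ h1 h2; simp only [tw2 σ h1 h2]

/-! ### Type II: the defect of one word -/

variable {R : Type*} [CommRing R]

/-- the defect `f1 σ + f1 (sw σ) - q f0 σ - f2 σ` of a word with `j` before `k`. -/
def defect (q : R) (h0 h1 h2 : Fin n → ℕ) (j k : Fin n) (t0 t1 t2 : Equiv.Perm (Fin n) → R)
    (σ : Equiv.Perm (Fin n)) : R :=
  wterm q h1 t1 σ + wterm q h1 t1 (sw j k σ) - q * wterm q h0 t0 σ - wterm q h2 t2 σ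

/-- grouping: it suffices that the defects sum to zero on the fibres of some key. -/
theorem half_of_fibre {K : Type*} [DecidableEq K] (q : R) (h0 h1 h2 : Fin n → ℕ) (j k : Fin n)
    (t0 t1 t2 : Equiv.Perm (Fin n) → R) (key : Equiv.Perm (Fin n) → K)
    (H : ∀ c : K, ∑ σ ∈ (before j k).filter (fun σ => key σ = c),
      defect q h0 h1 h2 j k t0 t1 t2 σ = 0) :
    ∑ σ ∈ before j k, (wterm q h1 t1 σ + wterm q h1 t1 (sw j k σ)) =
      ∑ σ ∈ before j k, (q * wterm q h0 t0 σ + wterm q h2 t2 σ) := by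
  classical
  rw [← sub_eq_zero, ← Finset.sum_sub_distrib]
  have h1' : ∀ σ ∈ before j k, (wterm q h1 t1 σ + wterm q h1 t1 (sw j k σ)) -
      (q * wterm q h0 t0 σ + wterm q h2 t2 σ) = defect q h0 h1 h2 j k t0 t1 t2 σ := by
    intro σ _
    unfold defect
    ring
  rw [Finset.sum_congr rfl h1', ← Finset.sum_fiberwise_of_maps_to (s := before j k)
    (t := (before j k).image key) (g := key) (fun σ hσ => Finset.mem_image_of_mem _ hσ)]
  exact Finset.sum_eq_zero (fun c _ => H c)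

/-- words outside the largest descent set have no defect (type II). -/
theorem defectII_out (q : R) {h0 h1 h2 : Fin n → ℕ} {i j k : Fin n}
    (Tr : TrII h0 h1 h2 j k i) (t0 t1 t2 : Equiv.Perm (Fin n) → R)
    (σ : Equiv.Perm (Fin n)) (hσ : σ ∉ descentSet h2) :
    defect q h0 h1 h2 j k t0 t1 t2 σ = 0 := by
  have m0 := Tr.add1.mem σ
  have m1 := Tr.add2.mem σ
  have ms1 := Tr.add2.mem (sw j k σ)
  have mt2 := Tr.twin2.mem σ
  have hs1 : σ ∉ descentSet h1 := fun h => hσ (m1.1 h).1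
  have hs : σ ∉ descentSet h0 := fun h => hs1 (m0.1 h).1
  have hss : sw j k σ ∉ descentSet h1 := fun h => hσ (mt2.1 (ms1.1 h).1)
  unfold defect
  rw [wterm_of_notMem hs, wterm_of_notMem hs1, wterm_of_notMem hσ, wterm_of_notMem hss]
  ring

/-- the defect of a word of the largest descent set (type II), `m = ginv h0 σ`:
* `i .. j .. k`: `q^(m+1) [σ ∈ D0] (t1 σ - t0 σ) + q^(m+2) (t1 (sw σ) - t2 σ)`;
* `j .. i .. k`: `q^(m+1) (t1 σ - t2 σ + [σ ∈ D0] (t1 (sw σ) - t0 σ))`;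
* `j .. k .. i`: `q^m (t1 σ - t2 σ) + q^(m+1) (t1 (sw σ) - t0 σ)`. -/
theorem defectII_first (q : R) {h0 h1 h2 : Fin n → ℕ} {i j k : Fin n}
    (Tr : TrII h0 h1 h2 j k i) (t0 t1 t2 : Equiv.Perm (Fin n) → R)
    (σ : Equiv.Perm (Fin n)) (hσ : σ ∈ descentSet h2) (hij : σ.symm i < σ.symm j)
    (hjk : σ.symm j < σ.symm k) :
    defect q h0 h1 h2 j k t0 t1 t2 σ =
      (if (σ.symm j).val = (σ.symm i).val + 1 then 0 else
        q ^ (ginv h0 σ + 1) * (t1 σ - t0 σ)) + q ^ (ginv h0 σ + 2) * (t1 (sw j k σ) - t2 σ) := by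
  have hij' : i ≠ j := Tr.ji.ne'
  have hik' : i ≠ k := Tr.ki.ne'
  have m0 := Tr.add1.mem σ
  have m1 := Tr.add2.mem σ
  have ms0 := Tr.add1.mem (sw j k σ)
  have ms1 := Tr.add2.mem (sw j k σ)
  have g1 := Tr.add1.ginv σ
  have g2 := Tr.add2.ginv σ
  have gs1 := Tr.add1.ginv (sw j k σ)
  have gt0 := Tr.twin0.ginv σ hjk
  rw [sw_symm_of_ne hij' hik', sw_symm_right] at ms0 gs1
  rw [sw_symm_of_ne hij' hik', sw_symm_left] at ms1
  have mt2 := Tr.twin2.mem σ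
  have p1 : (σ.symm j).val < (σ.symm k).val := hjk
  have p2 : (σ.symm i).val < (σ.symm j).val := hij
  rw [if_pos (hij.trans hjk)] at g1
  rw [if_pos hij] at g2 gs1
  have hss : sw j k σ ∈ descentSet h1 := ms1.2 ⟨mt2.2 hσ, by omega⟩
  unfold defect
  rw [wterm_of_mem hss, wterm_of_mem hσ, gs1, gt0, g2, g1]
  split_ifs with hc
  · have hs1 : σ ∉ descentSet h1 := fun h => (m1.1 h).2 hc
    have hs : σ ∉ descentSet h0 := fun h => hs1 (m0.1 h).1
    rw [wterm_of_notMem hs1, wterm_of_notMem hs]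
    ring
  · have hs1 : σ ∈ descentSet h1 := m1.2 ⟨hσ, hc⟩
    have hs : σ ∈ descentSet h0 := m0.2 ⟨hs1, by omega⟩
    rw [wterm_of_mem hs1, wterm_of_mem hs, g1]
    ring

theorem defectII_mid (q : R) {h0 h1 h2 : Fin n → ℕ} {i j k : Fin n}
    (Tr : TrII h0 h1 h2 j k i) (t0 t1 t2 : Equiv.Perm (Fin n) → R)
    (σ : Equiv.Perm (Fin n)) (hσ : σ ∈ descentSet h2) (hji : σ.symm j < σ.symm i)
    (hik : σ.symm i < σ.symm k) :
    defect q h0 h1 h2 j k t0 t1 t2 σ =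
      q ^ (ginv h0 σ + 1) * (t1 σ - t2 σ) +
      (if (σ.symm k).val = (σ.symm i).val + 1 then 0 else
        q ^ (ginv h0 σ + 1) * (t1 (sw j k σ) - t0 σ)) := by
  have hjk : σ.symm j < σ.symm k := hji.trans hik
  have hij' : i ≠ j := Tr.ji.ne'
  have hik' : i ≠ k := Tr.ki.ne'
  have m0 := Tr.add1.mem σ
  have m1 := Tr.add2.mem σ
  have ms0 := Tr.add1.mem (sw j k σ)
  have ms1 := Tr.add2.mem (sw j k σ)
  have g1 := Tr.add1.ginv σ
  have g2 := Tr.add2.ginv σ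
  have gs1 := Tr.add1.ginv (sw j k σ)
  have gt0 := Tr.twin0.ginv σ hjk
  rw [sw_symm_of_ne hij' hik', sw_symm_right] at ms0 gs1
  rw [sw_symm_of_ne hij' hik', sw_symm_left] at ms1
  have mt2 := Tr.twin2.mem σ
  have mt0 := Tr.twin0.mem σ
  have p1 : (σ.symm j).val < (σ.symm i).val := hji
  have p2 : (σ.symm i).val < (σ.symm k).val := hik
  rw [if_pos hik] at g1
  rw [if_neg (not_lt.2 hji.le)] at g2 gs1
  have hs1 : σ ∈ descentSet h1 := m1.2 ⟨hσ, by omega⟩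
  unfold defect
  rw [wterm_of_mem hs1, wterm_of_mem hσ, g2, g1]
  split_ifs with hc
  · have hs : σ ∉ descentSet h0 := fun h => (m0.1 h).2 hc
    have hss : sw j k σ ∉ descentSet h1 := fun h => (ms1.1 h).2 hc
    rw [wterm_of_notMem hss, wterm_of_notMem hs]
    ring
  · have hs : σ ∈ descentSet h0 := m0.2 ⟨hs1, hc⟩
    have hss : sw j k σ ∈ descentSet h1 := ms1.2 ⟨mt2.2 hσ, hc⟩
    rw [wterm_of_mem hss, wterm_of_mem hs, gs1, gt0]
    ring

theorem defectII_last (q : R) {h0 h1 h2 : Fin n → ℕ} {i j k : Fin n}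
    (Tr : TrII h0 h1 h2 j k i) (t0 t1 t2 : Equiv.Perm (Fin n) → R)
    (σ : Equiv.Perm (Fin n)) (hσ : σ ∈ descentSet h2) (hjk : σ.symm j < σ.symm k)
    (hki : σ.symm k < σ.symm i) :
    defect q h0 h1 h2 j k t0 t1 t2 σ =
      q ^ ginv h0 σ * (t1 σ - t2 σ) + q ^ (ginv h0 σ + 1) * (t1 (sw j k σ) - t0 σ) := by
  have hij' : i ≠ j := Tr.ji.ne'
  have hik' : i ≠ k := Tr.ki.ne'
  have m0 := Tr.add1.mem σ
  have m1 := Tr.add2.mem σ
  have ms0 := Tr.add1.mem (sw j k σ)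
  have ms1 := Tr.add2.mem (sw j k σ)
  have g1 := Tr.add1.ginv σ
  have g2 := Tr.add2.ginv σ
  have gs1 := Tr.add1.ginv (sw j k σ)
  have gt0 := Tr.twin0.ginv σ hjk
  rw [sw_symm_of_ne hij' hik', sw_symm_right] at ms0 gs1
  rw [sw_symm_of_ne hij' hik', sw_symm_left] at ms1
  have mt2 := Tr.twin2.mem σ
  have p1 : (σ.symm j).val < (σ.symm k).val := hjk
  have p2 : (σ.symm k).val < (σ.symm i).val := hki
  rw [if_neg (not_lt.2 hki.le)] at g1
  rw [if_neg (not_lt.2 (hjk.trans hki).le)] at g2 gs1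
  have hs1 : σ ∈ descentSet h1 := m1.2 ⟨hσ, by omega⟩
  have hs : σ ∈ descentSet h0 := m0.2 ⟨hs1, by omega⟩
  have hss : sw j k σ ∈ descentSet h1 := ms1.2 ⟨mt2.2 hσ, by omega⟩
  unfold defect
  rw [wterm_of_mem hs1, wterm_of_mem hσ, wterm_of_mem hs, wterm_of_mem hss, gs1, gt0, g2, g1]
  ring

end Crest.Agent.R059
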