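import Crest.Agent.R059.Graph

set_option autoImplicit false

open Crest.CombinatoricsR.UnitInterval

namespace Crest.Agent.R059

section general

variable {V : Type*} [Fintype V] [DecidableEq V]

theorem prod_swap (E : Finset (V × V)) (j k : V) {N : ℕ}
    (hE : ∀ p : V × V, p ∈ E → (Equiv.swap j k p.1, Equiv.swap j k p.2) ∈ E) (f : V → Fin N) :
    ∏ p ∈ E, w ((f ∘ Equiv.swap j k) p.1) ((f ∘ Equiv.swap j k) p.2) =
      ∏ p ∈ E, w (f p.1) (f p.2) := by
  classical
  apply Finset.prod_bij' (fun p _ => (Equiv.swap j k p.1, Equiv.swap j k p.2))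
    (fun p _ => (Equiv.swap j k p.1, Equiv.swap j k p.2))
  · intro p hp; exact hE p hp
  · intro p hp; exact hE p hp
  · intro p _; simp
  · intro p _; simp
  · intro p _; simp

theorem prod_X_swap (j k : V) {N : ℕ} (f : V → Fin N) :
    ∏ a : V, (MvPolynomial.X ((f ∘ Equiv.swap j k) a) : MvPolynomial (Fin N) (Polynomial ℤ)) =
      ∏ a : V, MvPolynomial.X (f a) := by
  apply Fintype.prod_equiv (Equiv.swap j k)
  intro a; rfl

/-- `q`-modular law, first type: `i` below the pair `j < k`. -/
theorem modular1 (E : Finset (V × V)) (i j k : V) (hij : i ≠ j) (hik : i ≠ k) (hne : j ≠ k)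
    (hjk : (j, k) ∉ E) (hij' : (i, j) ∉ E) (hik' : (i, k) ∉ E)
    (hE : ∀ p : V × V, p ∈ E → (Equiv.swap j k p.1, Equiv.swap j k p.2) ∈ E) (N : ℕ) :
    MvPolynomial.C (1 + Polynomial.X) * chromE (insert (j, k) (insert (i, j) E)) N =
      MvPolynomial.C Polynomial.X * chromE (insert (j, k) E) N +
        chromE (insert (j, k) (insert (i, j) (insert (i, k) E))) N := by
  classical
  have key := exchange N j k
    (fun f : V → Fin N => MvPolynomial.C (∏ p ∈ E, w (f p.1) (f p.2)) *
      ∏ a : V, MvPolynomial.X (f a))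
    (fun f => w (f j) (f k) * ((1 + Polynomial.X) * w (f i) (f j) - Polynomial.X -
      w (f i) (f j) * w (f i) (f k)))
    (by
      intro f
      show MvPolynomial.C (∏ p ∈ E, w ((f ∘ Equiv.swap j k) p.1) ((f ∘ Equiv.swap j k) p.2)) *
        ∏ a : V, MvPolynomial.X ((f ∘ Equiv.swap j k) a) = _
      rw [prod_swap E j k hE, prod_X_swap])
    (by
      intro f
      have h1 : (f ∘ Equiv.swap j k) i = f i := by
        simp [Equiv.swap_apply_of_ne_of_ne hij hik]
      have h2 : (f ∘ Equiv.swap j k) j = f k := by simp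
      have h3 : (f ∘ Equiv.swap j k) k = f j := by simp
      rw [h1, h2, h3]
      exact local1 _ _ _)
  have e1 : (j, k) ∉ insert (i, j) E := by
    rw [Finset.mem_insert]; rintro (h | h)
    · exact hij (Prod.mk.inj h).1.symm
    · exact hjk h
  have e3 : (i, j) ∉ insert (i, k) E := by
    rw [Finset.mem_insert]; rintro (h | h)
    · exact hne (Prod.mk.inj h).2
    · exact hij' h
  have e2 : (j, k) ∉ insert (i, j) (insert (i, k) E) := by
    rw [Finset.mem_insert, Finset.mem_insert]; rintro (h | h | h)
    · exact hij (Prod.mk.inj h).1.symm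
    · exact hij (Prod.mk.inj h).1.symm
    · exact hjk h
  rw [← sub_eq_zero, ← key]
  unfold chromE
  simp only [Finset.prod_insert e1, Finset.prod_insert e2, Finset.prod_insert e3,
    Finset.prod_insert hij', Finset.prod_insert hik', Finset.prod_insert hjk]
  rw [Finset.mul_sum, Finset.mul_sum, ← Finset.sum_add_distrib, ← Finset.sum_sub_distrib]
  apply Finset.sum_congr rfl
  intro f _
  simp only [map_mul, map_sub, map_add, map_one]
  ring

/-- `q`-modular law, second type: `i` above the pair `j < k`. -/
theorem modular2 (E : Finset (V × V)) (i j k : V) (hij : i ≠ j) (hik : i ≠ k) (hne : j ≠ k)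
    (hjk : (j, k) ∉ E) (hij' : (j, i) ∉ E) (hik' : (k, i) ∉ E)
    (hE : ∀ p : V × V, p ∈ E → (Equiv.swap j k p.1, Equiv.swap j k p.2) ∈ E) (N : ℕ) :
    MvPolynomial.C (1 + Polynomial.X) * chromE (insert (j, k) (insert (k, i) E)) N =
      MvPolynomial.C Polynomial.X * chromE (insert (j, k) E) N +
        chromE (insert (j, k) (insert (k, i) (insert (j, i) E))) N := by
  classical
  have key := exchange N j k
    (fun f : V → Fin N => MvPolynomial.C (∏ p ∈ E, w (f p.1) (f p.2)) *
      ∏ a : V, MvPolynomial.X (f a))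
    (fun f => w (f j) (f k) * ((1 + Polynomial.X) * w (f k) (f i) - Polynomial.X -
      w (f j) (f i) * w (f k) (f i)))
    (by
      intro f
      show MvPolynomial.C (∏ p ∈ E, w ((f ∘ Equiv.swap j k) p.1) ((f ∘ Equiv.swap j k) p.2)) *
        ∏ a : V, MvPolynomial.X ((f ∘ Equiv.swap j k) a) = _
      rw [prod_swap E j k hE, prod_X_swap])
    (by
      intro f
      have h1 : (f ∘ Equiv.swap j k) i = f i := by
        simp [Equiv.swap_apply_of_ne_of_ne hij hik]
      have h2 : (f ∘ Equiv.swap j k) j = f k := by simp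
      have h3 : (f ∘ Equiv.swap j k) k = f j := by simp
      rw [h1, h2, h3]
      exact local2 _ _ _)
  have e1 : (j, k) ∉ insert (k, i) E := by
    rw [Finset.mem_insert]; rintro (h | h)
    · exact hik (Prod.mk.inj h).2.symm
    · exact hjk h
  have e3 : (k, i) ∉ insert (j, i) E := by
    rw [Finset.mem_insert]; rintro (h | h)
    · exact hne (Prod.mk.inj h).1.symm
    · exact hik' h
  have e2 : (j, k) ∉ insert (k, i) (insert (j, i) E) := by
    rw [Finset.mem_insert, Finset.mem_insert]; rintro (h | h | h)
    · exact hik (Prod.mk.inj h).2.symm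
    · exact hik (Prod.mk.inj h).2.symm
    · exact hjk h
  rw [← sub_eq_zero, ← key]
  unfold chromE
  simp only [Finset.prod_insert e1, Finset.prod_insert e2, Finset.prod_insert e3,
    Finset.prod_insert hij', Finset.prod_insert hik', Finset.prod_insert hjk]
  rw [Finset.mul_sum, Finset.mul_sum, ← Finset.sum_add_distrib, ← Finset.sum_sub_distrib]
  apply Finset.sum_congr rfl
  intro f _
  simp only [map_mul, map_sub, map_add, map_one]
  ring

end general

variable {n : ℕ}

theorem mem_edges {h : Fin n → ℕ} {p : Fin n × Fin n} :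
    p ∈ edges h ↔ p.1 < p.2 ∧ p.2.val + 1 ≤ h p.1 := by
  simp [edges]

/-- first type, for Hessenberg functions.  `j, k = j+1` are the two vertices; `h0,h1,h2` agree off
`i`, where they take the values `j, j+1, j+2`; `h j = h (j+1)`. -/
theorem modular_typeI {h0 h1 h2 : Fin n → ℕ} (m0 : Monotone h0) (m2 : Monotone h2)
    (hge : ∀ a : Fin n, a.val + 1 ≤ h0 a)
    (i j k : Fin n) (hk : k.val = j.val + 1) (v0 : h0 i = j.val) (v1 : h1 i = j.val + 1)
    (v2 : h2 i = j.val + 2) (off1 : ∀ a, a ≠ i → h1 a = h0 a) (off2 : ∀ a, a ≠ i → h2 a = h0 a)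
    (hjk : h0 j = h0 k) (N : ℕ) :
    MvPolynomial.C (1 + Polynomial.X) * chromaticQSym h1 N =
      MvPolynomial.C Polynomial.X * chromaticQSym h0 N + chromaticQSym h2 N := by
  classical
  have hilt : i < j := by
    rw [Fin.lt_def]; have := hge i; omega
  have hij : i ≠ j := hilt.ne
  have hik : i ≠ k := by
    intro h; rw [h, Fin.lt_def] at hilt; omega
  have hne : j ≠ k := by
    intro h; rw [← h] at hk; omega
  have hj1 := hge j
  have hk1 := hge k
  set E : Finset (Fin n × Fin n) := (edges h0).erase (j, k) with hEdef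
  have hjkE : (j, k) ∉ E := by simp [hEdef]
  have hijE : (i, j) ∉ E := by
    simp only [hEdef, Finset.mem_erase, mem_edges, not_and]
    intro _ _
    simp only [v0]; omega
  have hikE : (i, k) ∉ E := by
    simp only [hEdef, Finset.mem_erase, mem_edges, not_and]
    intro _ _
    simp only [v0]; omega
  have e0 : insert (j, k) E = edges h0 := by
    rw [hEdef, Finset.insert_erase]
    rw [mem_edges]
    simp only [Fin.lt_def]
    omega
  have hval : ∀ x : Fin n, x ≠ j ↔ x.val ≠ j.val := fun x => by rw [Ne, Fin.ext_iff]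
  have e1 : insert (j, k) (insert (i, j) E) = edges h1 := by
    ext ⟨a, b⟩
    simp only [Finset.mem_insert, hEdef, Finset.mem_erase, mem_edges, Prod.mk.injEq, ne_eq]
    have hi' : i.val < j.val := hilt
    by_cases ha : a = i
    · rw [ha, v0, v1]
      simp only [Fin.lt_def, Fin.ext_iff, true_and]
      omega
    · rw [off1 a ha]
      have ha' : a.val ≠ i.val := fun h => ha (Fin.ext h)
      by_cases haj : a = j
      · rw [haj]
        simp only [Fin.lt_def, Fin.ext_iff, true_and]
        omega
      · have haj' : a.val ≠ j.val := fun h => haj (Fin.ext h)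
        simp only [Fin.lt_def, Fin.ext_iff, true_and]
        omega
  have e2 : insert (j, k) (insert (i, j) (insert (i, k) E)) = edges h2 := by
    ext ⟨a, b⟩
    simp only [Finset.mem_insert, hEdef, Finset.mem_erase, mem_edges, Prod.mk.injEq, ne_eq]
    have hi' : i.val < j.val := hilt
    by_cases ha : a = i
    · rw [ha, v0, v2]
      simp only [Fin.lt_def, Fin.ext_iff, true_and]
      omega
    · rw [off2 a ha]
      have ha' : a.val ≠ i.val := fun h => ha (Fin.ext h)
      by_cases haj : a = j
      · rw [haj]
        simp only [Fin.lt_def, Fin.ext_iff, true_and]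
        omega
      · have haj' : a.val ≠ j.val := fun h => haj (Fin.ext h)
        simp only [Fin.lt_def, Fin.ext_iff, true_and]
        omega
  have hinv : ∀ p : Fin n × Fin n, p ∈ E → (Equiv.swap j k p.1, Equiv.swap j k p.2) ∈ E := by
    rintro ⟨a, b⟩ hp
    simp only [hEdef, Finset.mem_erase, mem_edges, ne_eq, Prod.mk.injEq] at hp ⊢
    obtain ⟨hp1, hp2, hp3⟩ := hp
    have hai : ∀ c : Fin n, c ≠ i → (j.val + 1 ≤ h0 c ↔ j.val + 2 ≤ h0 c) := by
      intro c hc
      constructor
      · intro h
        rcases lt_or_gt_of_ne hc with h4 | h4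
        · have := m0 h4.le
          omega
        · have := m2 h4.le
          rw [v2, off2 c hc] at this
          exact this
      · intro h; omega
    by_cases haj : a = j
    · subst haj
      have hbk : b ≠ k := by
        intro h; exact hp1 ⟨rfl, h⟩
      have hbj : b ≠ a := hp2.ne'
      rw [Equiv.swap_apply_left, Equiv.swap_apply_of_ne_of_ne hbj hbk]
      refine ⟨?_, ?_, ?_⟩
      · rintro ⟨h, _⟩; exact hne h.symm
      · rw [Fin.lt_def] at hp2 ⊢
        have : b.val ≠ k.val := fun h => hbk (Fin.ext h)
        omega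
      · show b.val + 1 ≤ h0 k
        rw [← hjk]; exact hp3
    · by_cases hak : a = k
      · subst hak
        have hba : b ≠ a := hp2.ne'
        have hbj : b ≠ j := by
          intro h; rw [h, Fin.lt_def] at hp2; omega
        rw [Equiv.swap_apply_right, Equiv.swap_apply_of_ne_of_ne hbj hba]
        refine ⟨?_, ?_, ?_⟩
        · rintro ⟨_, h⟩; exact hba h
        · rw [Fin.lt_def] at hp2 ⊢; omega
        · show b.val + 1 ≤ h0 j
          rw [hjk]; exact hp3
      · rw [Equiv.swap_apply_of_ne_of_ne haj hak]
        by_cases hbj : b = j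
        · subst hbj
          rw [Equiv.swap_apply_left]
          have hai' : a ≠ i := by
            intro h
            have hp3' : b.val + 1 ≤ h0 a := hp3
            rw [h, v0] at hp3'; omega
          refine ⟨?_, ?_, ?_⟩
          · rintro ⟨h, _⟩; exact haj h
          · rw [Fin.lt_def] at hp2 ⊢; omega
          · have := (hai a hai').1 hp3
            show k.val + 1 ≤ h0 a
            omega
        · by_cases hbk : b = k
          · subst hbk
            rw [Equiv.swap_apply_right]
            refine ⟨?_, ?_, ?_⟩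
            · rintro ⟨h, _⟩; exact haj h
            · rw [Fin.lt_def] at hp2 ⊢
              have : a.val ≠ j.val := fun h => haj (Fin.ext h)
              omega
            · have hp3' : b.val + 1 ≤ h0 a := hp3
              show j.val + 1 ≤ h0 a
              omega
          · rw [Equiv.swap_apply_of_ne_of_ne hbj hbk]
            exact ⟨hp1, hp2, hp3⟩
  rw [chromaticQSym_eq, chromaticQSym_eq, chromaticQSym_eq, ← e0, ← e1, ← e2]
  exact modular1 E i j k hij hik hne hjkE hijE hikE hinv N

end Crest.Agent.R059
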