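import Crest.Agent.R059.MutBin2

set_option autoImplicit false

/-! Mutation of finitely supported functions on a lattice with a skew form: regularity in root
form is preserved (P1). -/

namespace Crest.Agent.R059.Mut

open Finset Function

variable {M : Type*} [AddCommGroup M] {K : Type*} [Field K] {A : Type*} [AddCommGroup A]
  [Module K A]

/-- regularity in root form. -/
def Reg (v : K) (L : M →+ M →+ ℤ) (z : M) (F : M → A) : Prop :=
  ∀ (m : M) (n : ℕ), L z m = -((n : ℤ) + 1) → ∀ e : ℤ, |e| ≤ n → (e - n) % 2 = 0 →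
    ∑ᶠ t : ℤ, ((-1 : K) ^ t * v ^ (e * t)) • F (m + t • z) = 0

/-- no torsion. -/
def NT (z : M) : Prop := ∀ t : ℤ, t • z = 0 → t = 0

theorem line_fin {F : M → A} (hF : (support F).Finite) {z : M} (hz : NT z) (m : M) :
    (support fun t : ℤ => F (m + t • z)).Finite := by
  apply hF.preimage (f := fun t : ℤ => m + t • z)
  intro a _ b _ h
  have h1 : (a - b) • z = 0 := by
    have := add_left_cancel h
    rw [sub_smul, this, sub_self]
  have := hz _ h1
  omega

theorem supp_smul {ι : Type*} (c : ι → K) (f : ι → A) (hf : (support f).Finite) :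
    (support fun t => c t • f t).Finite := by
  apply hf.subset
  intro t ht h
  apply ht
  simp only [h, smul_zero]

theorem Reg.comb {v : K} {L : M →+ M →+ ℤ} {z : M} {F : M → A} (h : Reg v L z F)
    (hF : (support F).Finite) (hz : NT z) {m : M} {n : ℕ} (hm : L z m = -((n : ℤ) + 1))
    {g : ℤ → K} (hg : Comb v n g) :
    ∑ᶠ t : ℤ, ((-1 : K) ^ t * g t) • F (m + t • z) = 0 := by
  apply hg.induct (p := fun g => ∑ᶠ t : ℤ, ((-1 : K) ^ t * g t) • F (m + t • z) = 0)
  · intro e he he'; exact h m n hm e he he'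
  · intro f f' hf hf'
    have e1 : (fun t : ℤ => ((-1 : K) ^ t * (f t + f' t)) • F (m + t • z)) =
        fun t => ((-1 : K) ^ t * f t) • F (m + t • z) + ((-1 : K) ^ t * f' t) • F (m + t • z) := by
      funext t; rw [mul_add, add_smul]
    rw [e1, finsum_add_distrib (supp_smul _ _ (line_fin hF hz m))
      (supp_smul _ _ (line_fin hF hz m)), hf, hf', add_zero]
  · intro c f hf
    have e1 : (fun t : ℤ => ((-1 : K) ^ t * (c * f t)) • F (m + t • z)) =
        fun t => c • (((-1 : K) ^ t * f t) • F (m + t • z)) := by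
      funext t; rw [smul_smul]; congr 1; ring
    rw [e1, ← smul_finsum' c (supp_smul _ _ (line_fin hF hz m)), hf, smul_zero]

/-- double sums. -/
theorem finsum_swap {F : M → A} (hF : (support F).Finite) {y z : M}
    (hind : ∀ a b : ℤ, a • y + b • z = 0 → a = 0 ∧ b = 0) (q : M) (c : ℤ → ℕ → K) :
    ∑ᶠ t : ℤ, ∑ᶠ i : ℕ, c t i • F (q + t • z + (i : ℤ) • y) =
      ∑ᶠ i : ℕ, ∑ᶠ t : ℤ, c t i • F (q + t • z + (i : ℤ) • y) := by
  have hfin : (support fun p : ℤ × ℕ => c p.1 p.2 • F (q + p.1 • z + (p.2 : ℤ) • y)).Finite := by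
    apply supp_smul
    apply hF.preimage (f := fun p : ℤ × ℕ => q + p.1 • z + (p.2 : ℤ) • y)
    rintro ⟨a, b⟩ _ ⟨a', b'⟩ _ h
    have h1 : ((b : ℤ) - b') • y + (a - a') • z = 0 := by
      simp only at h
      rw [sub_smul, sub_smul]
      have h2 : q + a • z + (b : ℤ) • y - (q + a' • z + (b' : ℤ) • y) = 0 := by rw [h, sub_self]
      rw [← h2]; abel
    obtain ⟨h3, h4⟩ := hind _ _ h1
    ext
    · simp only; omega
    · simp only; omega
  have hfin' : (support fun p : ℕ × ℤ => c p.2 p.1 • F (q + p.2 • z + (p.1 : ℤ) • y)).Finite := by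
    have := hfin.preimage (f := fun p : ℕ × ℤ => (p.2, p.1))
      (by rintro ⟨a, b⟩ _ ⟨a', b'⟩ _ h; simp only [Prod.mk.injEq] at h ⊢; exact ⟨h.2, h.1⟩)
    exact this
  rw [← finsum_curry _ hfin, ← finsum_curry _ hfin']
  apply finsum_eq_of_bijective (fun p : ℤ × ℕ => (p.2, p.1))
  · exact (Equiv.prodComm ℤ ℕ).bijective
  · intro p; rfl

/-- key computation for (P1): `y'` stands for `± y`. -/
theorem reg_key {v : K} (hv : NR v) {L : M →+ M →+ ℤ} {y z : M} {F : M → A}
    (hF : (support F).Finite) (hind : ∀ a b : ℤ, a • y + b • z = 0 → a = 0 ∧ b = 0)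
    (hz : Reg v L z F) {q : M} {n : ℕ} (hq : L z q = -((n : ℤ) + 1)) {C : ℕ}
    (hC : L z y = -(C : ℤ)) {c : ℤ} (hc : c = C ∨ c = -C) (a0 : ℤ) {e : ℤ} (he : |e| ≤ n)
    (he' : (e - n) % 2 = 0) :
    ∑ᶠ t : ℤ, ((-1 : K) ^ t * v ^ (e * t)) •
      ∑ᶠ i : ℕ, bin v (a0 + c * t) i • F (q + t • z + (i : ℤ) • y) = 0 := by
  have hNTz : NT z := fun t ht => (hind 0 t (by simp [ht])).2
  have hNTy : NT y := fun t ht => (hind t 0 (by simp [ht])).1
  have e1 : ∀ t : ℤ, ((-1 : K) ^ t * v ^ (e * t)) •
      ∑ᶠ i : ℕ, bin v (a0 + c * t) i • F (q + t • z + (i : ℤ) • y) =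
      ∑ᶠ i : ℕ, ((-1 : K) ^ t * (bin v (a0 + c * t) i * v ^ (e * t))) •
        F (q + t • z + (i : ℤ) • y) := by
    intro t
    rw [smul_finsum']
    · apply finsum_congr
      intro i
      rw [smul_smul]
      congr 1
      ring
    · apply supp_smul
      exact ((line_fin hF hNTy (q + t • z)).preimage (f := fun i : ℕ => (i : ℤ))
        (fun a _ b _ h => by simpa using h))
  rw [finsum_congr e1, finsum_swap hF hind q
    (fun t i => (-1 : K) ^ t * (bin v (a0 + c * t) i * v ^ (e * t)))]
  have e2 : ∀ i : ℕ, ∑ᶠ t : ℤ, ((-1 : K) ^ t * (bin v (a0 + c * t) i * v ^ (e * t))) •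
      F (q + t • z + (i : ℤ) • y) = 0 := by
    intro i
    have e3 : ∀ t : ℤ, q + t • z + (i : ℤ) • y = (q + (i : ℤ) • y) + t • z := by
      intro t; abel
    simp only [e3]
    apply hz.comb hF hNTz (n := n + i * C) (g := fun t => bin v (a0 + c * t) i * v ^ (e * t))
    · rw [map_add, map_zsmul, hq, hC]
      push_cast
      rw [smul_eq_mul]
      ring
    · have h1 : Comb v (i * C) (fun t => bin v (a0 + c * t) i) := by
        apply (comb_bin hv.1 i).subst hv.1 a0 c
        intro e' h h'
        have habs : |e' * c| = |e'| * C := by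
          rw [abs_mul]
          rcases hc with rfl | rfl
          · simp
          · simp
        constructor
        · rw [habs]; push_cast
          exact mul_le_mul_of_nonneg_right h (by positivity)
        · have h2 : (2 : ℤ) ∣ e' - i := Int.dvd_of_emod_eq_zero h'
          apply Int.emod_eq_zero_of_dvd
          push_cast
          rcases hc with rfl | rfl
          · have : e' * (C : ℤ) - i * C = (e' - i) * C := by ring
            rw [this]; exact h2.mul_right _
          · have : e' * (-(C : ℤ)) - i * C = (e' - i) * (-C) - 2 * (i * C) := by ring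
            rw [this]
            exact (h2.mul_right _).sub (Dvd.intro _ rfl)
      apply h1.mul_exp hv.1
      intro e' h h'
      rw [abs_le] at he h ⊢
      push_cast at h h' ⊢
      constructor
      · constructor <;> linarith [he.1, he.2, h.1, h.2]
      · omega
  rw [finsum_congr e2, finsum_zero]

/-- the mutation of `F` in direction `y`. -/
noncomputable def mt (v : K) (L : M →+ M →+ ℤ) (y : M) (F : M → A) (p : M) : A :=
  ∑ᶠ i : ℕ, bin v (L y p) i • F (p - (i : ℤ) • y)

/-- (P1), case `L y z ≤ 0`. -/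
theorem reg_mut_of_nonpos {v : K} (hv : NR v) {L : M →+ M →+ ℤ} (hL : ∀ a b, L a b = -L b a)
    {y z : M} {F : M → A} (hF : (support F).Finite)
    (hind : ∀ a b : ℤ, a • y + b • z = 0 → a = 0 ∧ b = 0)
    (hz : Reg v L z F) (hc : L y z ≤ 0) : Reg v L z (mt v L y F) := by
  intro m n hm e he he'
  obtain ⟨C, hC⟩ := Int.eq_ofNat_of_zero_le (a := -(L y z)) (by omega)
  have hind' : ∀ a b : ℤ, a • (-y) + b • z = 0 → a = 0 ∧ b = 0 := by
    intro a b h
    have := hind (-a) b (by rw [← h, neg_smul, smul_neg])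
    omega
  have hzy : L z (-y) = -(C : ℤ) := by rw [map_neg, hL z y]; omega
  have := reg_key hv hF hind' hz hm hzy (c := -C) (Or.inr rfl) (L y m) he he'
  rw [← this]
  apply finsum_congr
  intro t
  congr 1
  unfold mt
  apply finsum_congr
  intro i
  have h1 : L y (m + t • z) = L y m + -↑C * t := by
    rw [map_add, map_zsmul, smul_eq_mul]
    have : L y z = -(C : ℤ) := by omega
    rw [this]; ring
  rw [h1, smul_neg, sub_eq_add_neg]

end Crest.Agent.R059.Mut
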