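import Crest.Agent.R059.Mut

set_option autoImplicit false

/-! Mutation, part B: the two-sided formula, finite support, (P1) for `L y z ≥ 0`. -/

namespace Crest.Agent.R059.Mut

open Finset Function

variable {M : Type*} [AddCommGroup M] {K : Type*} [Field K] {A : Type*} [AddCommGroup A]
  [Module K A]

theorem bin_self {v : K} (hv : NR v) (n : ℕ) : bin v n n = 1 := by
  induction n with
  | zero => simp
  | succ n ih =>
    have h := bin_pascal hv (n : ℤ) n
    rw [bin_eq_zero n (n + 1) (Nat.lt_succ_self n), ih] at h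
    push_cast
    rw [h]; simp

theorem bin_symm {v : K} (hv : NR v) (n : ℕ) : ∀ i ≤ n, bin v n i = bin v n (n - i) := by
  induction n with
  | zero => intro i hi; simp at hi; subst hi; rfl
  | succ n ih =>
    intro i hi
    rcases Nat.eq_zero_or_pos i with rfl | hi0
    · rw [Nat.sub_zero, bin_self hv]; rfl
    rcases Nat.lt_or_ge i (n + 1) with h1 | h1
    · obtain ⟨j, rfl⟩ : ∃ j, i = j + 1 := ⟨i - 1, by omega⟩
      obtain ⟨k, hk⟩ : ∃ k, n = j + 1 + k := ⟨n - j - 1, by omega⟩
      have e1 : n + 1 - (j + 1) = k + 1 := by omega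
      rw [e1]
      have a1 := bin_pascal hv (n : ℤ) j
      have a2 := bin_pascal' hv (n : ℤ) k
      push_cast
      rw [a1, a2]
      have b1 := ih (j + 1) (by omega)
      have b2 := ih j (by omega)
      have e2 : n - (j + 1) = k := by omega
      have e3 : n - j = k + 1 := by omega
      rw [b1, b2, e2, e3]
      have c1 : (j : ℤ) + 1 = n - k := by omega
      have c2 : (j : ℤ) - n = -((k : ℤ) + 1) := by omega
      rw [c1, c2]
      ring
    · have : i = n + 1 := by omega
      subst this
      rw [Nat.sub_self, bin_self hv]; rfl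

/-- splitting a sum over `ℤ`. -/
theorem finsum_split (f : ℤ → A) (hf : (support f).Finite) (n : ℕ)
    (h0 : ∀ t : ℤ, 0 < t → t < n + 1 → f t = 0) :
    ∑ᶠ t : ℤ, f t = ∑ᶠ i : ℕ, f (-(i : ℤ)) + ∑ᶠ i : ℕ, f ((n : ℤ) + 1 + i) := by
  have i1 : Injective (fun i : ℕ => -(i : ℤ)) := fun a b h => by simpa using h
  have i2 : Injective (fun i : ℕ => (n : ℤ) + 1 + i) := fun a b h => by simpa using h
  rw [← finsum_mem_range i1, ← finsum_mem_range i2, ← finsum_mem_union']
  · rw [← finsum_mem_univ]
    apply finsum_mem_inter_support_eq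
    rw [Set.univ_inter]
    symm
    rw [Set.inter_eq_right]
    intro t ht
    rcases le_or_gt t 0 with h | h
    · left; exact ⟨(-t).toNat, by simp only; omega⟩
    · right
      rcases lt_or_ge t (n + 1) with h' | h'
      · exact absurd (h0 t h h') ht
      · exact ⟨(t - (n + 1)).toNat, by simp only; omega⟩
  · rw [Set.disjoint_left]
    rintro _ ⟨a, rfl⟩ ⟨b, hb⟩
    simp only at hb
    omega
  · exact hf.subset Set.inter_subset_right
  · exact hf.subset Set.inter_subset_right

theorem L_self {L : M →+ M →+ ℤ} (hL : ∀ a b, L a b = -L b a) (y : M) : L y y = 0 := by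
  have := hL y y; omega

/-- two-sided formula for the mutation. -/
theorem mt_eq {v : K} (hv : NR v) {L : M →+ M →+ ℤ}
    {y : M} (hy : NT y) {F : M → A} (hF : (support F).Finite) (hr : Reg v L y F) (p : M) :
    mt v L y F p = ∑ᶠ i : ℕ, bin v (L y p) i • F (p - (L y p) • y + (i : ℤ) • y) := by
  unfold mt
  obtain ⟨n, hn⟩ | ⟨n, hn⟩ : (∃ n : ℕ, L y p = n) ∨ (∃ n : ℕ, L y p = -((n : ℤ) + 1)) := by
    rcases le_or_gt 0 (L y p) with h | h
    · left; exact ⟨(L y p).toNat, by omega⟩
    · right; exact ⟨(-(L y p) - 1).toNat, by omega⟩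
  · rw [hn]
    rw [finsum_eq_sum_of_support_subset (s := range (n + 1)),
      finsum_eq_sum_of_support_subset (s := range (n + 1))]
    · rw [← sum_range_reflect]
      apply sum_congr rfl
      intro i hi
      rw [mem_range] at hi
      have e1 : n + 1 - 1 - i = n - i := by omega
      rw [e1, ← bin_symm hv n i (by omega)]
      congr 2
      have e2 : ((n - i : ℕ) : ℤ) = (n : ℤ) - i := by omega
      rw [e2, sub_smul]; abel
    · intro i hi
      simp only [coe_range, Set.mem_Iio]
      by_contra h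
      apply hi
      simp only
      rw [bin_eq_zero n i (by omega), zero_smul]
    · intro i hi
      simp only [coe_range, Set.mem_Iio]
      by_contra h
      apply hi
      simp only
      rw [bin_eq_zero n i (by omega), zero_smul]
  · have hg : Comb v n (fun t => gN v n (0 + (-1) * t)) := by
      apply (comb_gN hv.1 n).subst hv.1
      intro e h h'
      rw [mul_neg_one, abs_neg]
      exact ⟨h, by omega⟩
    have h := hr.comb hF hy hn hg
    rw [finsum_split _ (supp_smul _ _ (line_fin hF hy p)) n] at h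
    · have h1 : ∀ i : ℕ, ((-1 : K) ^ (-(i : ℤ)) * gN v n (0 + (-1) * (-(i : ℤ)))) •
          F (p + (-(i : ℤ)) • y) = bin v (L y p) i • F (p - (i : ℤ) • y) := by
        intro i
        rw [hn, bin_neg hv]
        have e1 : (0 : ℤ) + (-1) * (-(i : ℤ)) = i := by ring
        rw [e1, zpow_neg, zpow_natCast, neg_smul, ← sub_eq_add_neg]
        congr 2
        rcases neg_one_pow_eq_or K i with h | h <;> rw [h] <;> simp
      have h2 : ∀ i : ℕ, ((-1 : K) ^ ((n : ℤ) + 1 + i) * gN v n (0 + (-1) * ((n : ℤ) + 1 + i))) •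
          F (p + ((n : ℤ) + 1 + i) • y) =
          -(bin v (L y p) i • F (p - (L y p) • y + (i : ℤ) • y)) := by
        intro i
        rw [hn, bin_neg hv]
        have e1 : (0 : ℤ) + (-1) * ((n : ℤ) + 1 + i) = -(n + 1) - i := by ring
        rw [e1, gN_refl, ← neg_smul]
        have e2 : p + ((n : ℤ) + 1 + i) • y = p - (-((n : ℤ) + 1)) • y + (i : ℤ) • y := by
          rw [neg_smul, sub_neg_eq_add, add_smul]; abel
        rw [e2]
        congr 1
        have e3 : ((n : ℤ) + 1 + i) = ((n + 1 + i : ℕ) : ℤ) := by push_cast; ring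
        rw [e3, zpow_natCast]
        rw [← mul_assoc, ← pow_add]
        have e4 : n + 1 + i + n = 2 * n + 1 + i := by ring
        rw [e4, pow_add, pow_add, pow_mul]
        simp
      rw [finsum_congr h1, finsum_congr h2, finsum_neg_distrib] at h
      rw [← sub_eq_add_neg, sub_eq_zero] at h
      exact h
    · intro t h1 h2
      rw [gN_mid n (by omega) (by omega), mul_zero, zero_smul]

/-- where the support of a mutation sits. -/
theorem mt_ne {v : K} (hv : NR v) {L : M →+ M →+ ℤ}
    {y : M} (hy : NT y) {F : M → A} (hF : (support F).Finite) (hr : Reg v L y F) {p : M}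
    (hp : mt v L y F p ≠ 0) :
    (∃ i : ℕ, F (p - (i : ℤ) • y) ≠ 0) ∧
      ∃ i : ℕ, F (p - (L y p) • y + (i : ℤ) • y) ≠ 0 := by
  constructor
  · by_contra h
    push Not at h
    apply hp
    unfold mt
    apply finsum_eq_zero_of_forall_eq_zero
    intro i
    rw [h i, smul_zero]
  · by_contra h
    push Not at h
    apply hp
    rw [mt_eq hv hy hF hr]
    apply finsum_eq_zero_of_forall_eq_zero
    intro i
    rw [h i, smul_zero]

theorem mt_fin {v : K} (hv : NR v) {L : M →+ M →+ ℤ} (hL : ∀ a b, L a b = -L b a)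
    {y : M} (hy : NT y) {F : M → A} (hF : (support F).Finite) (hr : Reg v L y F) :
    (support (mt v L y F)).Finite := by
  have h1 : support (mt v L y F) ⊆ ⋃ s ∈ support F, ⋃ s' ∈ support F,
      {p | ∃ i j : ℕ, p = s + (i : ℤ) • y ∧ s' = s + ((i : ℤ) - L y s + j) • y} := by
    intro p hp
    obtain ⟨⟨i, hi⟩, ⟨j, hj⟩⟩ := mt_ne hv hy hF hr hp
    simp only [Set.mem_iUnion]
    refine ⟨_, hi, _, hj, i, j, by abel, ?_⟩
    have : L y (p - (i : ℤ) • y) = L y p := by
      rw [map_sub, map_zsmul, L_self hL, smul_zero, sub_zero]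
    rw [this]
    rw [add_smul, sub_smul]; abel
  apply Set.Finite.subset _ h1
  apply hF.biUnion
  intro s _
  apply hF.biUnion
  intro s' _
  by_cases h : ∃ i j : ℕ, s' = s + ((i : ℤ) - L y s + j) • y
  · obtain ⟨i0, j0, h0⟩ := h
    apply ((Set.finite_Iic (i0 + j0)).image (fun i : ℕ => s + (i : ℤ) • y)).subset
    rintro p ⟨i, j, hp, hs⟩
    refine ⟨i, ?_, hp.symm⟩
    rw [Set.mem_Iic]
    have h2 : ((i : ℤ) - L y s + j - (i0 - L y s + j0)) • y = 0 := by
      rw [sub_smul, sub_eq_zero]
      rw [h0] at hs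
      exact (add_left_cancel hs).symm
    have := hy _ h2
    omega
  · have : {p | ∃ i j : ℕ, p = s + (i : ℤ) • y ∧ s' = s + ((i : ℤ) - L y s + j) • y} = ∅ := by
      ext p
      simp only [Set.mem_ofPred_eq, Set.mem_empty_iff_false, iff_false]
      rintro ⟨i, j, _, hs⟩
      exact h ⟨i, j, hs⟩
    rw [this]
    exact Set.finite_empty

/-- (P1), case `L y z ≥ 0`. -/
theorem reg_mt_of_nonneg {v : K} (hv : NR v) {L : M →+ M →+ ℤ} (hL : ∀ a b, L a b = -L b a)
    {y z : M} {F : M → A} (hF : (support F).Finite)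
    (hind : ∀ a b : ℤ, a • y + b • z = 0 → a = 0 ∧ b = 0) (hr : Reg v L y F)
    (hz : Reg v L z F) (hc : 0 ≤ L y z) : Reg v L (z + (L y z) • y) (mt v L y F) := by
  intro m n hm e he he'
  have hy : NT y := fun t ht => (hind t 0 (by simp [ht])).1
  obtain ⟨C, hC⟩ := Int.eq_ofNat_of_zero_le hc
  have hzy : L z y = -(C : ℤ) := by rw [hL z y, hC]
  have hyy := L_self hL y
  set q : M := m - (L y m) • y with hq
  have hLq : L z q = -((n : ℤ) + 1) := by
    rw [← hm, hq, map_sub, map_zsmul, smul_eq_mul, hzy, map_add, AddMonoidHom.add_apply,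
      map_zsmul, AddMonoidHom.smul_apply, smul_eq_mul, hC]
    ring
  have := reg_key hv hF hind hz hLq hzy (c := C) (Or.inl rfl) (L y m) he he'
  rw [← this]
  apply finsum_congr
  intro t
  congr 1
  rw [mt_eq hv hy hF hr]
  have h1 : L y (m + t • (z + (L y z) • y)) = L y m + C * t := by
    rw [map_add, map_zsmul, map_add, map_zsmul, hyy, smul_zero, add_zero, smul_eq_mul, hC]; ring
  rw [h1]
  apply finsum_congr
  intro i
  congr 2
  rw [hq, hC, smul_add, add_smul, smul_smul, mul_comm t]
  abel

end Crest.Agent.R059.Mut
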