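import Mathlib

set_option autoImplicit false

/-! Symmetric `q`-binomials `[l; a]` for all integers `l` over a field `K` with a parameter `v`. -/

namespace Crest.Agent.R059.Mut

open Finset

variable {K : Type*} [Field K]

/-- unnormalised symmetric `q`-integer `v^x - v^(-x)`. -/
def br (v : K) (x : ℤ) : K := v ^ x - v ^ (-x)

/-- `v` is not zero and no power of it is one. -/
def NR (v : K) : Prop := v ≠ 0 ∧ ∀ n : ℤ, n ≠ 0 → v ^ n ≠ 1

theorem br_neg (v : K) (x : ℤ) : br v (-x) = - br v x := by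
  simp [br]

theorem br_zero (v : K) : br v 0 = 0 := by simp [br]

theorem br_ne {v : K} (hv : NR v) {x : ℤ} (hx : x ≠ 0) : br v x ≠ 0 := by
  intro h
  have h1 : v ^ x = v ^ (-x) := sub_eq_zero.1 h
  apply hv.2 (2 * x) (by omega)
  rw [two_mul, zpow_add₀ hv.1]
  nth_rewrite 1 [h1]
  rw [← zpow_add₀ hv.1]
  simp

/-- the symmetric `q`-binomial, top any integer. -/
def bin (v : K) (l : ℤ) : ℕ → K
  | 0 => 1
  | a + 1 => bin v l a * br v (l - a) / br v (a + 1)

@[simp] theorem bin_zero (v : K) (l : ℤ) : bin v l 0 = 1 := rfl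

theorem bin_succ (v : K) (l : ℤ) (a : ℕ) :
    bin v l (a + 1) = bin v l a * br v (l - a) / br v (a + 1) := rfl

/-- combinations of the exponentials `t ↦ v^(e t)`, `|e| ≤ a`, `e ≡ a mod 2`. -/
def Comb (v : K) (a : ℕ) (g : ℤ → K) : Prop :=
  g ∈ Submodule.span K {f : ℤ → K | ∃ e : ℤ, |e| ≤ a ∧ (e - a) % 2 = 0 ∧ f = fun t => v ^ (e * t)}

theorem Comb.single (v : K) {a : ℕ} {e : ℤ} (h1 : |e| ≤ a) (h2 : (e - a) % 2 = 0) :
    Comb v a (fun t => v ^ (e * t)) := Submodule.subset_span ⟨e, h1, h2, rfl⟩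

theorem Comb.add {v : K} {a : ℕ} {f g : ℤ → K} (hf : Comb v a f) (hg : Comb v a g) :
    Comb v a (fun t => f t + g t) := Submodule.add_mem _ hf hg

theorem Comb.smul {v : K} {a : ℕ} (c : K) {f : ℤ → K} (hf : Comb v a f) :
    Comb v a (fun t => c * f t) := Submodule.smul_mem _ c hf

theorem Comb.sub {v : K} {a : ℕ} {f g : ℤ → K} (hf : Comb v a f) (hg : Comb v a g) :
    Comb v a (fun t => f t - g t) := Submodule.sub_mem _ hf hg

theorem Comb.congr {v : K} {a : ℕ} {f g : ℤ → K} (hf : Comb v a f) (h : ∀ t, g t = f t) :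
    Comb v a g := by
  have : g = f := funext h
  rw [this]; exact hf

theorem Comb.induct {v : K} {a : ℕ} {p : (ℤ → K) → Prop} {g : ℤ → K} (hg : Comb v a g)
    (h1 : ∀ e : ℤ, |e| ≤ a → (e - a) % 2 = 0 → p (fun t => v ^ (e * t)))
    (h2 : ∀ f f' : ℤ → K, p f → p f' → p (fun t => f t + f' t))
    (h3 : ∀ (c : K) (f : ℤ → K), p f → p (fun t => c * f t)) : p g := by
  unfold Comb at hg
  induction hg using Submodule.span_induction with
  | mem x hx => obtain ⟨e, he, he', rfl⟩ := hx; exact h1 e he he'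
  | zero =>
    have h := h3 0 _ (h1 (a : ℤ) (by simp) (by simp))
    have e : (fun t : ℤ => (0 : K) * v ^ ((a : ℤ) * t)) = 0 := by funext t; simp
    rw [← e]; exact h
  | add x y _ _ hx hy => exact h2 x y hx hy
  | smul c x _ hx => exact h3 c x hx

/-- multiplication by `v^(e t)`. -/
theorem Comb.mul_exp {v : K} (hv : v ≠ 0) {a b : ℕ} {g : ℤ → K} (hg : Comb v a g) {d : ℤ}
    (h1 : ∀ e : ℤ, |e| ≤ a → (e - a) % 2 = 0 → |e + d| ≤ b ∧ (e + d - b) % 2 = 0) :
    Comb v b (fun t => g t * v ^ (d * t)) := by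
  apply hg.induct (p := fun g => Comb v b (fun t => g t * v ^ (d * t)))
  · intro e he he'
    obtain ⟨h, h'⟩ := h1 e he he'
    refine (Comb.single v h h').congr fun t => ?_
    rw [← zpow_add₀ hv]
    congr 1
    ring
  · intro f f' hf hf'
    refine (hf.add hf').congr fun t => ?_
    ring
  · intro c f hf
    refine (hf.smul c).congr fun t => ?_
    ring

/-- substitution `t ↦ α + c t`. -/
theorem Comb.subst {v : K} (hv : v ≠ 0) {a b : ℕ} {g : ℤ → K} (hg : Comb v a g) (α c : ℤ)
    (h1 : ∀ e : ℤ, |e| ≤ a → (e - a) % 2 = 0 → |e * c| ≤ b ∧ (e * c - b) % 2 = 0) :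
    Comb v b (fun t => g (α + c * t)) := by
  apply hg.induct (p := fun g => Comb v b (fun t => g (α + c * t)))
  · intro e he he'
    obtain ⟨h, h'⟩ := h1 e he he'
    refine ((Comb.single v h h').smul (v ^ (e * α))).congr fun t => ?_
    beta_reduce
    rw [← zpow_add₀ hv]
    congr 1
    ring
  · intro f f' hf hf'
    exact hf.add hf'
  · intro c' f hf
    exact hf.smul c'

/-- step of `Comb` : multiplication by `v^(t+s) - v^(-(t+s))`. -/
theorem Comb.mul_br {v : K} (hv : v ≠ 0) {a : ℕ} {g : ℤ → K} (hg : Comb v a g) (s : ℤ) :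
    Comb v (a + 1) (fun t => g t * br v (t + s)) := by
  have h1 : Comb v (a + 1) (fun t => g t * v ^ (1 * t)) := by
    apply hg.mul_exp hv
    intro e he he'
    rw [abs_le] at he ⊢
    push_cast
    constructor
    · constructor <;> omega
    · omega
  have h2 : Comb v (a + 1) (fun t => g t * v ^ ((-1) * t)) := by
    apply hg.mul_exp hv
    intro e he he'
    rw [abs_le] at he ⊢
    push_cast
    constructor
    · constructor <;> omega
    · omega
  refine ((h1.smul (v ^ s)).sub (h2.smul (v ^ (-s)))).congr fun t => ?_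
  unfold br
  rw [neg_add, zpow_add₀ hv, zpow_add₀ hv, one_mul, neg_one_mul]
  ring

theorem comb_one (v : K) : Comb v 0 (fun _ => 1) := by
  refine (Comb.single v (a := 0) (e := 0) (by simp) (by simp)).congr fun t => ?_
  simp

/-- (B1) -/
theorem comb_bin {v : K} (hv : v ≠ 0) (a : ℕ) : Comb v a (fun l => bin v l a) := by
  induction a with
  | zero => exact comb_one v
  | succ a ih =>
    refine ((ih.mul_br hv (-(a : ℤ))).smul (br v (a + 1))⁻¹).congr fun t => ?_
    rw [bin_succ, ← sub_eq_add_neg, div_eq_mul_inv]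
    ring

/-- the function `i ↦ [i+1][i+2]..[i+n]/[n]!`. -/
def gN (v : K) (n : ℕ) (i : ℤ) : K := ∏ j ∈ range n, br v (i + (j + 1)) / br v (j + 1)

theorem gN_succ (v : K) (n : ℕ) (i : ℤ) :
    gN v (n + 1) i = gN v n i * (br v (i + (n + 1)) / br v (n + 1)) := by
  unfold gN
  rw [prod_range_succ]

theorem comb_gN {v : K} (hv : v ≠ 0) (n : ℕ) : Comb v n (gN v n) := by
  induction n with
  | zero => exact (comb_one v).congr fun t => by simp [gN]
  | succ n ih =>
    refine ((ih.mul_br hv (n + 1)).smul (br v (n + 1))⁻¹).congr fun t => ?_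
    rw [gN_succ, div_eq_mul_inv]
    ring

theorem gN_step {v : K} (n : ℕ) (i : ℤ) :
    gN v n (i + 1) * br v (i + 1) = gN v n i * br v (i + 1 + n) := by
  induction n with
  | zero => simp [gN]
  | succ n ih =>
    rw [gN_succ, gN_succ]
    have e1 : i + 1 + ((n : ℤ) + 1) = i + 1 + ((n + 1 : ℕ) : ℤ) := by push_cast; ring
    have e2 : i + ((n : ℤ) + 1) = i + 1 + n := by ring
    rw [e1, e2]
    calc _ = (gN v n (i + 1) * br v (i + 1)) * (br v (i + 1 + ((n + 1 : ℕ) : ℤ)) / br v (n + 1)) := by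
            ring
      _ = _ := by rw [ih]; ring

theorem gN_zero {v : K} (hv : NR v) (n : ℕ) : gN v n 0 = 1 := by
  unfold gN
  apply prod_eq_one
  intro j _
  rw [zero_add]
  exact div_self (br_ne hv (by positivity))

theorem bin_neg {v : K} (hv : NR v) (n : ℕ) (i : ℕ) :
    bin v (-(n + 1 : ℤ)) i = (-1) ^ i * gN v n i := by
  induction i with
  | zero => simp [gN_zero hv]
  | succ i ih =>
    rw [bin_succ, ih]
    have h := gN_step (v := v) n i
    have h0 : br v ((i : ℤ) + 1) ≠ 0 := br_ne hv (by positivity)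
    rw [div_eq_iff h0]
    have e1 : -((n : ℤ) + 1) - i = -((i : ℤ) + 1 + n) := by ring
    rw [e1, br_neg]
    push_cast
    calc _ = -(-1) ^ i * (gN v n i * br v ((i : ℤ) + 1 + n)) := by ring
      _ = _ := by rw [← h]; ring

theorem gN_mid {v : K} (n : ℕ) {i : ℤ} (h1 : i < 0) (h2 : -(n + 1 : ℤ) < i) : gN v n i = 0 := by
  unfold gN
  apply prod_eq_zero (i := (-i - 1).toNat)
  · rw [mem_range]; omega
  · have : i + (((-i - 1).toNat : ℤ) + 1) = 0 := by omega
    rw [this, br_zero, zero_div]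

theorem gN_refl {v : K} (n : ℕ) (i : ℤ) : gN v n (-(n + 1) - i) = (-1) ^ n * gN v n i := by
  unfold gN
  rw [prod_div_distrib, prod_div_distrib, ← mul_div_assoc]
  congr 1
  rw [← prod_range_reflect (fun j : ℕ => br v (i + ((j : ℤ) + 1)))]
  rw [← card_range n, ← prod_const, card_range, ← prod_mul_distrib]
  apply prod_congr rfl
  intro j hj
  rw [mem_range] at hj
  rw [neg_one_mul, ← br_neg]
  congr 1
  omega

/-- `[n; i] = 0` for `i > n ≥ 0`. -/
theorem bin_eq_zero {v : K} (n i : ℕ) (h : n < i) : bin v n i = 0 := by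
  induction i with
  | zero => omega
  | succ i ih =>
    rw [bin_succ]
    rcases Nat.lt_or_ge n i with h' | h'
    · rw [ih h']; simp
    · have : n = i := by omega
      subst this
      simp [br_zero]

end Crest.Agent.R059.Mut
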