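import Crest.Agent.R059.MutBin

set_option autoImplicit false

/-! Pascal rules, `D_k D_{-k} = 1`, roots of `D_l`. -/

namespace Crest.Agent.R059.Mut

open Finset

variable {K : Type*} [Field K]

theorem bin_pascal_aux {v : K} (l : ℤ) (a : ℕ) :
    bin v (l + 1) a * br v (l + 1 - a) = bin v l a * br v (l + 1) := by
  induction a with
  | zero => simp
  | succ a ih =>
    rw [bin_succ, bin_succ]
    have e1 : l + 1 - ((a + 1 : ℕ) : ℤ) = l - a := by push_cast; ring
    rw [e1]
    calc _ = (bin v (l + 1) a * br v (l + 1 - a)) * br v (l - a) / br v (a + 1) := by ring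
      _ = _ := by rw [ih]; ring

/-- `[l+1; a+1] = v^(a+1) [l; a+1] + v^(a-l) [l; a]`. -/
theorem bin_pascal {v : K} (hv : NR v) (l : ℤ) (a : ℕ) :
    bin v (l + 1) (a + 1) = v ^ ((a : ℤ) + 1) * bin v l (a + 1) + v ^ ((a : ℤ) - l) * bin v l a := by
  have h0 : br v ((a : ℤ) + 1) ≠ 0 := br_ne hv (by positivity)
  rw [bin_succ, bin_succ]
  have e1 := bin_pascal_aux (v := v) l a
  rw [e1, ← mul_div_assoc, div_eq_iff h0, add_mul, div_mul_cancel₀ _ h0]
  have e2 : br v (l + 1) = v ^ ((a : ℤ) + 1) * br v (l - a) + v ^ ((a : ℤ) - l) * br v ((a : ℤ) + 1) := by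
    unfold br
    rw [mul_sub, mul_sub, ← zpow_add₀ hv.1, ← zpow_add₀ hv.1, ← zpow_add₀ hv.1, ← zpow_add₀ hv.1]
    have h1 : (a : ℤ) + 1 + (l - a) = l + 1 := by ring
    have h2 : (a : ℤ) + 1 + -(l - a) = (a : ℤ) - l + (a + 1) := by ring
    have h3 : (a : ℤ) - l + -(a + 1) = -(l + 1) := by ring
    rw [h1, h2, h3]
    ring
  rw [e2]
  ring

/-- the mirror rule `[l+1; a+1] = v^(-(a+1)) [l; a+1] + v^(l-a) [l; a]`. -/
theorem bin_pascal' {v : K} (hv : NR v) (l : ℤ) (a : ℕ) :
    bin v (l + 1) (a + 1) =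
      v ^ (-((a : ℤ) + 1)) * bin v l (a + 1) + v ^ (l - (a : ℤ)) * bin v l a := by
  have h0 : br v ((a : ℤ) + 1) ≠ 0 := br_ne hv (by positivity)
  rw [bin_succ, bin_succ]
  have e1 := bin_pascal_aux (v := v) l a
  rw [e1, ← mul_div_assoc, div_eq_iff h0, add_mul, div_mul_cancel₀ _ h0]
  have e2 : br v (l + 1) = v ^ (-((a : ℤ) + 1)) * br v (l - a) + v ^ (l - (a : ℤ)) * br v ((a : ℤ) + 1) := by
    unfold br
    rw [mul_sub, mul_sub, ← zpow_add₀ hv.1, ← zpow_add₀ hv.1, ← zpow_add₀ hv.1, ← zpow_add₀ hv.1]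
    have h1 : -((a : ℤ) + 1) + (l - a) = l - a + -(a + 1) := by ring
    have h2 : -((a : ℤ) + 1) + -(l - a) = -(l + 1) := by ring
    have h3 : l - (a : ℤ) + (a + 1) = l + 1 := by ring
    rw [h1, h2, h3]
    ring
  rw [e2]
  ring

/-- generating series. -/
noncomputable def D (v : K) (l : ℤ) : PowerSeries K := PowerSeries.mk (bin v l)

theorem D_step {v : K} (hv : NR v) (l : ℤ) :
    D v (l + 1) = PowerSeries.rescale v (D v l) * (1 + PowerSeries.C (v ^ (-l)) * PowerSeries.X) := by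
  ext n
  cases n with
  | zero =>
    simp only [D, PowerSeries.coeff_zero_eq_constantCoeff, map_mul, map_add, map_one,
      PowerSeries.constantCoeff_X, mul_zero, add_zero, mul_one]
    rw [← PowerSeries.coeff_zero_eq_constantCoeff_apply,
      ← PowerSeries.coeff_zero_eq_constantCoeff_apply, PowerSeries.coeff_rescale,
      PowerSeries.coeff_mk, PowerSeries.coeff_mk]
    simp
  | succ n =>
    rw [mul_add, mul_one, map_add, ← mul_assoc, PowerSeries.coeff_succ_mul_X,
      PowerSeries.coeff_mul_C]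
    simp only [D, PowerSeries.coeff_mk, PowerSeries.coeff_rescale]
    rw [bin_pascal hv]
    rw [← zpow_natCast, ← zpow_natCast]
    have : v ^ ((n : ℤ) - l) = v ^ (n : ℤ) * v ^ (-l) := by rw [← zpow_add₀ hv.1]; rfl
    rw [this]
    push_cast
    ring

theorem D_step' {v : K} (hv : NR v) (l : ℤ) :
    D v (l + 1) = PowerSeries.rescale v⁻¹ (D v l) * (1 + PowerSeries.C (v ^ l) * PowerSeries.X) := by
  ext n
  cases n with
  | zero =>
    simp only [D, PowerSeries.coeff_zero_eq_constantCoeff, map_mul, map_add, map_one,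
      PowerSeries.constantCoeff_X, mul_zero, add_zero, mul_one]
    rw [← PowerSeries.coeff_zero_eq_constantCoeff_apply,
      ← PowerSeries.coeff_zero_eq_constantCoeff_apply, PowerSeries.coeff_rescale,
      PowerSeries.coeff_mk, PowerSeries.coeff_mk]
    simp
  | succ n =>
    rw [mul_add, mul_one, map_add, ← mul_assoc, PowerSeries.coeff_succ_mul_X,
      PowerSeries.coeff_mul_C]
    simp only [D, PowerSeries.coeff_mk, PowerSeries.coeff_rescale]
    rw [bin_pascal' hv]
    rw [← zpow_natCast, ← zpow_natCast, inv_zpow', inv_zpow']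
    have : v ^ (l - (n : ℤ)) = v ^ (-(n : ℤ)) * v ^ l := by
      rw [← zpow_add₀ hv.1]; congr 1; ring
    rw [this]
    push_cast
    ring

theorem D_mul_neg {v : K} (hv : NR v) (k : ℕ) : D v k * D v (-(k : ℤ)) = 1 := by
  induction k with
  | zero =>
    have : D v 0 = 1 := by
      ext n
      simp only [D, PowerSeries.coeff_mk, PowerSeries.coeff_one]
      split_ifs with h
      · subst h; simp
      · have := bin_eq_zero (v := v) 0 n (Nat.pos_of_ne_zero h)
        simpa using this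
    simp [this]
  | succ k ih =>
    -- D_{k+1} = D_k(v t)(1 + v^{-k} t);  D_{-k}(v t) = D_{-k-1}(t) (1 + v^{-k} t)
    have h1 := D_step hv (k : ℤ)
    have h2 := D_step' hv (-(k : ℤ) - 1)
    have h3 : PowerSeries.rescale v (D v (-(k : ℤ))) =
        D v (-(k : ℤ) - 1) * (1 + PowerSeries.C (v ^ (-(k : ℤ))) * PowerSeries.X) := by
      have e : (-(k : ℤ) - 1) + 1 = -(k : ℤ) := by ring
      rw [e] at h2
      rw [h2, map_mul, PowerSeries.rescale_rescale]
      rw [inv_mul_cancel₀ hv.1, PowerSeries.rescale_one]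
      congr 1
      rw [map_add, map_one, map_mul, PowerSeries.rescale_X]
      have e2 : PowerSeries.rescale v (PowerSeries.C (v ^ (-(k : ℤ) - 1))) =
          PowerSeries.C (v ^ (-(k : ℤ) - 1)) := by
        ext n
        rw [PowerSeries.coeff_rescale, PowerSeries.coeff_C]
        split_ifs with h
        · subst h; simp
        · simp
      rw [e2, ← mul_assoc, ← map_mul]
      congr 3
      rw [← zpow_add_one₀ hv.1, sub_add_cancel]
    have h4 : PowerSeries.rescale v (D v k) * PowerSeries.rescale v (D v (-(k : ℤ))) = 1 := by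
      rw [← map_mul, ih, map_one]
    rw [h3] at h4
    have e5 : -((k + 1 : ℕ) : ℤ) = -(k : ℤ) - 1 := by push_cast; ring
    have e6 : ((k + 1 : ℕ) : ℤ) = (k : ℤ) + 1 := by push_cast; ring
    rw [e5, e6, h1]
    calc _ = PowerSeries.rescale v (D v ↑k) *
        (D v (-(k : ℤ) - 1) * (1 + PowerSeries.C (v ^ (-(k : ℤ))) * PowerSeries.X)) := by ring
      _ = 1 := h4

/-- `Σ_{i+j=s} [k;i][-k;j] = δ`. -/
theorem bin_conv {v : K} (hv : NR v) (k s : ℕ) :
    ∑ p ∈ antidiagonal s, bin v k p.1 * bin v (-(k : ℤ)) p.2 = if s = 0 then 1 else 0 := by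
  have h := congrArg (PowerSeries.coeff s) (D_mul_neg hv k)
  rw [PowerSeries.coeff_mul, PowerSeries.coeff_one] at h
  simpa [D] using h

/-- roots of `D_l`, `l ≥ 1`. -/
theorem bin_root {v : K} (hv : NR v) (l : ℕ) (e : ℤ) (h1 : |e| ≤ (l : ℤ)) (h2 : (e - l) % 2 = 0) :
    ∑ i ∈ range (l + 2), (-1) ^ i * v ^ (e * i) * bin v ((l : ℤ) + 1) i = 0 := by
  have key : ∀ (l : ℕ) (e : ℤ), ∑ i ∈ range (l + 2), (-1) ^ i * v ^ (e * i) * bin v ((l : ℤ) + 1) i =
      (1 - v ^ (e - l)) * ∑ i ∈ range (l + 1), (-1) ^ i * v ^ ((e + 1) * i) * bin v (l : ℤ) i := by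
    intro l e
    rw [sum_range_succ']
    simp only [bin_pascal hv]
    have e1 : ∀ i ∈ range (l + 1), (-1 : K) ^ (i + 1) * v ^ (e * ((i + 1 : ℕ) : ℤ)) *
        (v ^ ((i : ℤ) + 1) * bin v l (i + 1) + v ^ ((i : ℤ) - l) * bin v l i) =
        (-1) ^ (i + 1) * v ^ ((e + 1) * ((i + 1 : ℕ) : ℤ)) * bin v l (i + 1) +
        -(v ^ (e - l) * ((-1) ^ i * v ^ ((e + 1) * (i : ℤ)) * bin v l i)) := by
      intro i _
      have a1 : v ^ (e * ((i + 1 : ℕ) : ℤ)) * v ^ ((i : ℤ) + 1) = v ^ ((e + 1) * ((i + 1 : ℕ) : ℤ)) := by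
        rw [← zpow_add₀ hv.1]; congr 1; push_cast; ring
      have a2 : v ^ (e * ((i + 1 : ℕ) : ℤ)) * v ^ ((i : ℤ) - l) = v ^ (e - l) * v ^ ((e + 1) * (i : ℤ)) := by
        rw [← zpow_add₀ hv.1, ← zpow_add₀ hv.1]; congr 1; push_cast; ring
      calc _ = (-1 : K) ^ (i + 1) * (v ^ (e * ((i + 1 : ℕ) : ℤ)) * v ^ ((i : ℤ) + 1)) * bin v l (i + 1)
            + (-1 : K) ^ (i + 1) * (v ^ (e * ((i + 1 : ℕ) : ℤ)) * v ^ ((i : ℤ) - l)) * bin v l i := by
              ring
        _ = _ := by rw [a1, a2]; ring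
    rw [sum_congr rfl e1, sum_add_distrib, sum_neg_distrib, ← mul_sum]
    have e3 : ∑ i ∈ range (l + 1), (-1 : K) ^ (i + 1) * v ^ ((e + 1) * ((i + 1 : ℕ) : ℤ)) *
        bin v l (i + 1) + 1 = ∑ i ∈ range (l + 1), (-1) ^ i * v ^ ((e + 1) * i) * bin v (l : ℤ) i := by
      have := sum_range_succ' (fun i : ℕ => (-1 : K) ^ i * v ^ ((e + 1) * i) * bin v (l : ℤ) i) (l + 1)
      rw [sum_range_succ] at this
      rw [bin_eq_zero l (l + 1) (Nat.lt_succ_self l)] at this
      simp only [mul_zero, add_zero] at this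
      rw [this]
      simp
    simp only [Nat.cast_zero, mul_zero, zpow_zero, pow_zero, bin_zero, mul_one]
    rw [sub_mul, one_mul, ← e3]
    ring
  induction l generalizing e with
  | zero =>
    rw [key]
    have : e = 0 := by
      have := abs_nonneg e
      have h : |e| = 0 := le_antisymm (by simpa using h1) this
      exact abs_eq_zero.1 h
    subst this
    simp
  | succ l ih =>
    rw [key]
    rw [abs_le] at h1
    push_cast at h1 h2
    by_cases he : e = l + 1
    · subst he; push_cast; simp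
    · have := ih (e + 1) (by rw [abs_le]; constructor <;> omega) (by omega)
      have e2 : ((l + 1 : ℕ) : ℤ) = (l : ℤ) + 1 := by push_cast; ring
      rw [e2, this, mul_zero]

end Crest.Agent.R059.Mut
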