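import Crest.Agent.R059.MutB

set_option autoImplicit false

/-! Mutation, part C: regularity at `-y`, inverse, the move, heredity (I3), string length. -/

namespace Crest.Agent.R059.Mut

open Finset Function

variable {M : Type*} [AddCommGroup M] {K : Type*} [Field K] {A : Type*} [AddCommGroup A]
  [Module K A]

/-- heredity of lower bounds (I3). -/
theorem I3 {v : K} (hv : NR v) {L : M →+ M →+ ℤ} (hL : ∀ a b, L a b = -L b a)
    {y : M} (hy : NT y) {F : M → A} (hF : (support F).Finite) (hr : Reg v L y F) {w : M} {B : ℤ}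
    (h : ∀ p, F p ≠ 0 → B ≤ L w p) :
    ∀ p, mt v L y F p ≠ 0 → B ≤ L (w + (max (L y w) 0) • y) p := by
  intro p hp
  obtain ⟨⟨i, hi⟩, ⟨j, hj⟩⟩ := mt_ne hv hy hF hr hp
  have hwy := hL w y
  rcases le_total (L y w) 0 with h0 | h0
  · rw [max_eq_right h0, zero_smul, add_zero]
    have h1 := h _ hi
    rw [map_sub, map_zsmul, smul_eq_mul] at h1
    have : 0 ≤ (i : ℤ) * (-L y w) := mul_nonneg (by positivity) (by omega)
    rw [hwy] at h1
    linarith
  · rw [max_eq_left h0]
    have h1 := h _ hj
    rw [map_add, map_sub, map_zsmul, map_zsmul, smul_eq_mul, smul_eq_mul, hwy] at h1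
    rw [map_add, AddMonoidHom.add_apply, map_zsmul, AddMonoidHom.smul_apply, smul_eq_mul]
    have : 0 ≤ (j : ℤ) * (L y w) := mul_nonneg (by positivity) h0
    linarith [mul_comm (L y w) (L y p)]

/-- heredity of upper bounds. -/
theorem I3' {v : K} (hv : NR v) {L : M →+ M →+ ℤ} (hL : ∀ a b, L a b = -L b a)
    {y : M} (hy : NT y) {F : M → A} (hF : (support F).Finite) (hr : Reg v L y F) {w : M} {B : ℤ}
    (h : ∀ p, F p ≠ 0 → L w p ≤ B) :
    ∀ p, mt v L y F p ≠ 0 → L (w - (max (-(L y w)) 0) • y) p ≤ B := by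
  intro p hp
  have h1 := I3 hv hL hy hF hr (w := -w) (B := -B) (fun p hp => by
    have := h p hp
    rw [map_neg, AddMonoidHom.neg_apply]; omega) p hp
  have e1 : -w + (max (L y (-w)) 0) • y = -(w - (max (-(L y w)) 0) • y) := by
    rw [map_neg]; abel
  rw [e1, map_neg, AddMonoidHom.neg_apply] at h1
  omega

/-- (P1) at `-y`. -/
theorem reg_mt_neg {v : K} (hv : NR v) {L : M →+ M →+ ℤ} (hL : ∀ a b, L a b = -L b a)
    {y : M} (hy : NT y) {F : M → A} (hF : (support F).Finite) :
    Reg v L (-y) (mt v L y F) := by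
  intro m n hm e he he'
  have hyy := L_self hL y
  have hm' : L y m = (n : ℤ) + 1 := by
    rw [map_neg, AddMonoidHom.neg_apply] at hm; omega
  have hNT : NT (-y) := by
    intro t ht; apply hy; rw [smul_neg, neg_eq_zero] at ht; exact ht
  set c : ℤ → K := fun t => (-1 : K) ^ t * v ^ (e * t) with hc
  have e1 : ∀ t : ℤ, c t • mt v L y F (m + t • (-y)) =
      ∑ i ∈ range (n + 2), (c t * bin v ((n : ℤ) + 1) i) • F (m + (t + (i : ℤ)) • (-y)) := by
    intro t
    unfold mt
    have h1 : L y (m + t • (-y)) = (n : ℤ) + 1 := by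
      rw [map_add, map_zsmul, map_neg, hyy, neg_zero, smul_zero, add_zero, hm']
    rw [h1, finsum_eq_sum_of_support_subset (s := range (n + 2)), smul_sum]
    · apply sum_congr rfl
      intro i _
      rw [smul_smul]
      congr 2
      rw [add_smul, smul_neg, smul_neg]; abel
    · intro i hi
      simp only [coe_range, Set.mem_Iio]
      by_contra h
      apply hi
      have := bin_eq_zero (v := v) (n + 1) i (by omega)
      push_cast at this
      simp only
      rw [this, zero_smul]
  rw [finsum_congr e1, finsum_sum_comm]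
  · set T : A := ∑ᶠ s : ℤ, c s • F (m + s • (-y)) with hT
    have e2 : ∀ i ∈ range (n + 2), ∑ᶠ t : ℤ, (c t * bin v ((n : ℤ) + 1) i) •
        F (m + (t + (i : ℤ)) • (-y)) =
        ((-1) ^ i * v ^ ((-e) * i) * bin v ((n : ℤ) + 1) i) • T := by
      intro i _
      rw [hT, smul_finsum' _ (supp_smul _ _ (line_fin hF hNT m))]
      rw [← finsum_comp_equiv (Equiv.addRight (i : ℤ))
        (f := fun s : ℤ => ((-1) ^ i * v ^ ((-e) * i) * bin v ((n : ℤ) + 1) i) •
          c s • F (m + s • (-y)))]
      apply finsum_congr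
      intro t
      simp only [Equiv.coe_addRight]
      rw [smul_smul]
      congr 1
      rw [hc]
      simp only
      rw [mul_add, zpow_add₀ (by norm_num : (-1 : K) ≠ 0), zpow_add₀ hv.1, zpow_natCast]
      have h3 : v ^ (-e * (i : ℤ)) * v ^ (e * (i : ℤ)) = 1 := by
        rw [← zpow_add₀ hv.1]; simp
      have h4 : (-1 : K) ^ i * (-1) ^ i = 1 := by
        rw [← pow_add, ← two_mul, pow_mul]; simp
      calc _ = (-1 : K) ^ t * v ^ (e * t) * bin v (↑n + 1) i * 1 * 1 := by ring
        _ = (-1 : K) ^ t * v ^ (e * t) * bin v (↑n + 1) i * ((-1 : K) ^ i * (-1) ^ i) *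
              (v ^ (-e * (i : ℤ)) * v ^ (e * (i : ℤ))) := by rw [h3, h4]
        _ = _ := by ring
    rw [sum_congr rfl e2, ← sum_smul]
    rw [bin_root hv n (-e) (by rwa [abs_neg]) (by omega), zero_smul]
  · intro i _
    apply supp_smul
    exact (line_fin hF hNT m).preimage (f := fun t : ℤ => t + (i : ℤ))
      (fun a _ b _ h => by simpa using h)

theorem conv_all {v : K} (hv : NR v) (l : ℤ) (s : ℕ) :
    ∑ p ∈ antidiagonal s, bin v (-l) p.1 * bin v l p.2 = if s = 0 then 1 else 0 := by
  rcases le_total 0 l with h | h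
  · obtain ⟨k, rfl⟩ := Int.eq_ofNat_of_zero_le h
    rw [← bin_conv hv k s, ← Finset.Nat.sum_antidiagonal_swap]
    apply sum_congr rfl
    intro p _
    simp only [Prod.fst_swap, Prod.snd_swap]
    ring
  · obtain ⟨k, hk⟩ := Int.eq_ofNat_of_zero_le (a := -l) (by omega)
    have : l = -(k : ℤ) := by omega
    subst this
    rw [neg_neg, ← bin_conv hv k s]

/-- the inverse formula. -/
theorem mt_inv {v : K} (hv : NR v) {L : M →+ M →+ ℤ} (hL : ∀ a b, L a b = -L b a)
    {y : M} (hy : NT y) {F : M → A} (hF : (support F).Finite) (m : M) :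
    F m = ∑ᶠ j : ℕ, bin v (-(L y m)) j • mt v L y F (m - (j : ℤ) • y) := by
  set l := L y m with hl
  set a : ℕ → A := fun s => F (m - (s : ℤ) • y) with ha
  have hfin : (support a).Finite := by
    have := (line_fin hF hy m).preimage (f := fun s : ℕ => -(s : ℤ))
      (fun a _ b _ h => by simpa using h)
    apply this.subset
    intro s hs
    simpa [ha, sub_eq_add_neg] using hs
  obtain ⟨N, hN⟩ : ∃ N : ℕ, ∀ s, N ≤ s → a s = 0 := by
    obtain ⟨N, hN⟩ := hfin.bddAbove
    refine ⟨N + 1, fun s hs => ?_⟩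
    by_contra h
    have := hN h
    omega
  have hN' : ∀ s, N + 1 ≤ s → a s = 0 := fun s hs => hN s (by omega)
  have e1 : ∀ j : ℕ, mt v L y F (m - (j : ℤ) • y) =
      ∑ i ∈ range (N + 1), bin v l i • a (j + i) := by
    intro j
    unfold mt
    have h1 : L y (m - (j : ℤ) • y) = l := by
      rw [map_sub, map_zsmul, L_self hL, smul_zero, sub_zero]
    rw [h1]
    have h2 : ∀ i : ℕ, m - (j : ℤ) • y - (i : ℤ) • y = m - ((j + i : ℕ) : ℤ) • y := by
      intro i; push_cast; rw [add_smul]; abel
    simp only [h2]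
    apply finsum_eq_sum_of_support_subset
    intro i hi
    simp only [coe_range, Set.mem_Iio]
    by_contra h
    apply hi
    simp only
    have := hN' (j + i) (by omega)
    simp only [ha] at this
    rw [this, smul_zero]
  have e2 : ∑ᶠ j : ℕ, bin v (-l) j • mt v L y F (m - (j : ℤ) • y) =
      ∑ j ∈ range (N + 1), ∑ i ∈ range (N + 1), (bin v (-l) j * bin v l i) • a (j + i) := by
    rw [finsum_eq_sum_of_support_subset (s := range (N + 1))]
    · apply sum_congr rfl
      intro j _
      rw [e1, smul_sum]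
      apply sum_congr rfl
      intro i _
      rw [smul_smul]
    · intro j hj
      simp only [coe_range, Set.mem_Iio]
      by_contra h
      apply hj
      simp only
      rw [e1, sum_eq_zero, smul_zero]
      intro i _
      rw [hN' (j + i) (by omega), smul_zero]
  rw [e2, ← sum_product']
  have e3 : ∑ x ∈ range (N + 1) ×ˢ range (N + 1), (bin v (-l) x.1 * bin v l x.2) • a (x.1 + x.2) =
      ∑ x ∈ (range (N + 1) ×ˢ range (N + 1)) with x.1 + x.2 < N + 1,
        (bin v (-l) x.1 * bin v l x.2) • a (x.1 + x.2) := by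
    symm
    apply sum_filter_of_ne
    intro x _ hx
    by_contra h
    apply hx
    rw [hN' _ (by omega), smul_zero]
  rw [e3, ← sum_fiberwise_of_maps_to (g := fun x : ℕ × ℕ => x.1 + x.2) (t := range (N + 1))]
  · have e4 : ∀ s ∈ range (N + 1), ∑ x ∈ (range (N + 1) ×ˢ range (N + 1)).filter
        (fun x => x.1 + x.2 < N + 1) with x.1 + x.2 = s,
        (bin v (-l) x.1 * bin v l x.2) • a (x.1 + x.2) = (if s = 0 then (1 : K) else 0) • a s := by
      intro s hs
      rw [mem_range] at hs
      have e5 : ((range (N + 1) ×ˢ range (N + 1)).filter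
        (fun x => x.1 + x.2 < N + 1)).filter (fun x => x.1 + x.2 = s) = antidiagonal s := by
        ext x
        simp only [mem_filter, mem_product, mem_range, HasAntidiagonal.mem_antidiagonal]
        constructor
        · rintro ⟨_, h⟩; exact h
        · intro h; refine ⟨⟨⟨?_, ?_⟩, ?_⟩, h⟩ <;> omega
      rw [e5, ← conv_all hv l s, sum_smul]
      apply sum_congr rfl
      intro x hx
      rw [HasAntidiagonal.mem_antidiagonal] at hx
      rw [hx]
    rw [sum_congr rfl e4, sum_eq_single 0]
    · simp [ha]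
    · intro s _ hs
      simp [hs]
    · intro h
      simp at h
  · intro x hx
    simp only [mem_filter] at hx
    simpa using hx.2

theorem eq_zero_of_mt {v : K} (hv : NR v) {L : M →+ M →+ ℤ} (hL : ∀ a b, L a b = -L b a)
    {y : M} (hy : NT y) {F : M → A} (hF : (support F).Finite)
    (h : ∀ p, mt v L y F p = 0) (m : M) : F m = 0 := by
  rw [mt_inv hv hL hy hF m]
  apply finsum_eq_zero_of_forall_eq_zero
  intro j
  rw [h, smul_zero]

/-- **the move**. -/
theorem move {v : K} (hv : NR v) {L : M →+ M →+ ℤ} (hL : ∀ a b, L a b = -L b a)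
    {y : M} (hy : NT y) {F : M → A} (hF : (support F).Finite) (m : M) (k : ℕ)
    (hk : L y m = -(k : ℤ)) :
    F m = ∑ j ∈ range (k + 1), bin v k j • mt v L y F (m - (j : ℤ) • y) := by
  rw [mt_inv hv hL hy hF m, hk, neg_neg]
  apply finsum_eq_sum_of_support_subset
  intro j hj
  simp only [coe_range, Set.mem_Iio]
  by_contra h
  apply hj
  simp only
  rw [bin_eq_zero k j (by omega), zero_smul]

theorem comb_prod {v : K} (hv : v ≠ 0) (s : Finset ℤ) :
    Comb v s.card (fun t => ∏ j ∈ s, br v (t - j)) := by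
  classical
  induction s using Finset.induction_on with
  | empty => exact (comb_one v).congr fun t => by simp
  | insert a s ha ih =>
    rw [card_insert_of_notMem ha]
    refine (ih.mul_br hv (-a)).congr fun t => ?_
    rw [prod_insert ha, ← sub_eq_add_neg, mul_comm]

/-- regular strings are long. -/
theorem Reg.long {v : K} (hv : NR v) {L : M →+ M →+ ℤ} {z : M} (hz : NT z) {F : M → A}
    (hF : (support F).Finite) (hr : Reg v L z F) {p : M} (hp : F p ≠ 0) (hneg : L z p < 0) :
    ∃ i j : ℤ, F (p + i • z) ≠ 0 ∧ F (p + j • z) ≠ 0 ∧ -(L z p) ≤ j - i := by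
  classical
  by_contra hcon
  push Not at hcon
  obtain ⟨n, hn⟩ : ∃ n : ℕ, L z p = -((n : ℤ) + 1) := ⟨(-(L z p) - 1).toNat, by omega⟩
  set T : Set ℤ := support fun t : ℤ => F (p + t • z) with hT
  have hTf : T.Finite := line_fin hF hz p
  have h0 : (0 : ℤ) ∈ T := by simp [hT, hp]
  obtain ⟨b, hb, hbmin⟩ := Set.exists_min_image T id hTf ⟨0, h0⟩
  have hT2 : ∀ t ∈ T, b ≤ t ∧ t ≤ b + n := by
    intro t ht
    refine ⟨hbmin t ht, ?_⟩
    have := hcon b t hb ht
    omega
  set s : Finset ℤ := (Finset.Icc b (b + n)).erase 0 with hs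
  have hcard : s.card = n := by
    rw [hs, card_erase_of_mem (by rw [Finset.mem_Icc]; exact hT2 0 h0), Int.card_Icc]
    omega
  have hg := comb_prod hv.1 s
  rw [hcard] at hg
  have h := hr.comb hF hz hn hg
  rw [finsum_eq_single _ 0] at h
  · simp only [zpow_zero, one_mul, zero_smul, add_zero] at h
    rcases smul_eq_zero.1 h with h' | h'
    · rw [prod_eq_zero_iff] at h'
      obtain ⟨j, hj, hj0⟩ := h'
      have : j ≠ 0 := by rw [hs, Finset.mem_erase] at hj; exact hj.1
      exact br_ne hv (by omega) hj0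
    · exact hp h'
  · intro t ht
    by_cases h1 : t ∈ T
    · have : t ∈ s := by rw [hs, Finset.mem_erase, Finset.mem_Icc]; exact ⟨ht, hT2 t h1⟩
      rw [prod_eq_zero this (by rw [sub_self, br_zero]), mul_zero, zero_smul]
    · have : F (p + t • z) = 0 := by simpa [hT] using h1
      rw [this, smul_zero]

end Crest.Agent.R059.Mut
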