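import Crest.Agent.R059.EPos

set_option autoImplicit false

open Crest.CombinatoricsR.UnitInterval

namespace Crest.Agent.R059

section general

variable {V W : Type*} [Fintype V] [DecidableEq V] [Fintype W] [DecidableEq W]

/-- edges of a disjoint union. -/
def sumE (E : Finset (V × V)) (F : Finset (W × W)) : Finset ((V ⊕ W) × (V ⊕ W)) :=
  E.image (fun p => (Sum.inl p.1, Sum.inl p.2)) ∪ F.image (fun p => (Sum.inr p.1, Sum.inr p.2))

theorem prod_sumE (E : Finset (V × V)) (F : Finset (W × W)) {M : Type*} [CommMonoid M]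
    (u : (V ⊕ W) → (V ⊕ W) → M) :
    ∏ p ∈ sumE E F, u p.1 p.2 = (∏ p ∈ E, u (Sum.inl p.1) (Sum.inl p.2)) *
      ∏ p ∈ F, u (Sum.inr p.1) (Sum.inr p.2) := by
  classical
  unfold sumE
  rw [Finset.prod_union, Finset.prod_image, Finset.prod_image]
  · intro p _ q _ h
    simpa [Prod.ext_iff] using h
  · intro p _ q _ h
    simpa [Prod.ext_iff] using h
  · rw [Finset.disjoint_left]
    intro p hp hq
    simp only [Finset.mem_image] at hp hq
    obtain ⟨a, _, rfl⟩ := hp
    obtain ⟨b, _, hb⟩ := hq
    simp at hb

theorem chromE_sumE (E : Finset (V × V)) (F : Finset (W × W)) (N : ℕ) :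
    chromE (sumE E F) N = chromE E N * chromE F N := by
  classical
  unfold chromE
  rw [Finset.sum_mul_sum, ← Finset.sum_product']
  simp only [Finset.univ_product_univ]
  symm
  apply Fintype.sum_equiv (Equiv.sumArrowEquivProdArrow V W (Fin N)).symm
  rintro ⟨f, g⟩
  simp only
  have h1 := prod_sumE E F (M := Polynomial ℤ)
    (fun a b => w (((Equiv.sumArrowEquivProdArrow V W (Fin N)).symm (f, g)) a)
      (((Equiv.sumArrowEquivProdArrow V W (Fin N)).symm (f, g)) b))
  rw [h1, Fintype.prod_sum_type]
  simp only [Equiv.sumArrowEquivProdArrow_symm_apply_inl,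
    Equiv.sumArrowEquivProdArrow_symm_apply_inr, map_mul]
  ring

theorem chromE_equiv (e : V ≃ W) (E : Finset (V × V)) (F : Finset (W × W))
    (h : ∀ a b : V, (a, b) ∈ E ↔ (e a, e b) ∈ F) (N : ℕ) : chromE F N = chromE E N := by
  classical
  rw [← chromE_map e E N]
  congr 1
  ext ⟨a, b⟩
  simp only [Finset.mem_map_equiv, Equiv.prodCongr_symm]
  rw [show ((e.symm.prodCongr e.symm) (a, b)) = (e.symm a, e.symm b) from rfl, h]
  simp

end general

variable {m k : ℕ}

/-- multiplicativity at a cut. -/
theorem chromatic_cut (h : Fin (m + k) → ℕ) (h1 : Fin m → ℕ) (h2 : Fin k → ℕ)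
    (v1 : ∀ a : Fin m, h1 a = h (Fin.castAdd k a)) (v2 : ∀ a : Fin k, h2 a + m = h (Fin.natAdd m a))
    (hcut : ∀ a : Fin m, h (Fin.castAdd k a) ≤ m) (N : ℕ) :
    chromaticQSym h N = chromaticQSym h1 N * chromaticQSym h2 N := by
  classical
  rw [chromaticQSym_eq, chromaticQSym_eq, chromaticQSym_eq, ← chromE_sumE]
  apply chromE_equiv finSumFinEquiv
  intro a b
  rw [mem_edges]
  unfold sumE
  simp only [Finset.mem_union, Finset.mem_image, Prod.mk.injEq, Prod.exists]
  rcases a with a | a <;> rcases b with b | b
  · simp only [Sum.inl.injEq, reduceCtorEq, and_false, exists_false, or_false, false_and,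
      finSumFinEquiv_apply_left]
    constructor
    · rintro ⟨a', b', h3, rfl, rfl⟩
      rw [mem_edges] at h3
      refine ⟨h3.1, ?_⟩
      rw [← v1]
      simpa using h3.2
    · rintro ⟨h3, h4⟩
      refine ⟨a, b, ?_, rfl, rfl⟩
      rw [mem_edges]
      rw [← v1] at h4
      exact ⟨h3, by simpa using h4⟩
  · simp only [Sum.inl.injEq, reduceCtorEq, and_false, exists_false, or_false, false_and,
      finSumFinEquiv_apply_left, finSumFinEquiv_apply_right, false_iff, not_and, not_le]
    intro _
    have := hcut a
    simp only [Fin.val_natAdd]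
    omega
  · simp only [reduceCtorEq, and_false, exists_false, or_false, false_and,
      finSumFinEquiv_apply_left, finSumFinEquiv_apply_right, false_iff, not_and, not_le]
    intro h3
    exfalso
    rw [Fin.lt_def] at h3
    simp only [Fin.val_natAdd, Fin.val_castAdd] at h3
    have := b.isLt
    omega
  · simp only [Sum.inr.injEq, reduceCtorEq, and_false, exists_false, false_or, false_and,
      finSumFinEquiv_apply_right]
    constructor
    · rintro ⟨a', b', h3, rfl, rfl⟩
      rw [mem_edges] at h3
      refine ⟨by simpa using h3.1, ?_⟩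
      rw [← v2]
      have := h3.2
      simp only [Fin.val_natAdd] at this ⊢
      omega
    · rintro ⟨h3, h4⟩
      refine ⟨a, b, ?_, rfl, rfl⟩
      rw [mem_edges]
      rw [← v2] at h4
      simp only [Fin.val_natAdd] at h4
      exact ⟨by simpa using h3, by show b.val + 1 ≤ h2 a; omega⟩

/-- complete graphs: `X = (∑_σ q^ginv) e_n`. -/
theorem chromatic_complete {n : ℕ} (h : Fin n → ℕ) (hn : ∀ i, h i = n) (N : ℕ) :
    chromaticQSym h N = MvPolynomial.C (∑ σ : Equiv.Perm (Fin n),
      (Polynomial.X : Polynomial ℤ) ^ ginv h σ) * MvPolynomial.esymm (Fin N) (Polynomial ℤ) n := by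
  classical
  have hm : Monotone h := by intro a b _; rw [hn, hn]
  have hedge : ∀ a b : Fin n, a ≠ b → IsEdge h a b := by
    intro a b hab
    unfold IsEdge
    rcases lt_or_gt_of_ne hab with h1 | h1
    · left; refine ⟨h1, ?_⟩; rw [hn]; exact b.isLt
    · right; refine ⟨h1, ?_⟩; rw [hn]; exact a.isLt
  unfold chromaticQSym
  rw [sum_proper hm, map_sum, Finset.sum_mul]
  apply Finset.sum_congr rfl
  intro σ _
  have hcompat : ∀ g : Fin n → Fin N, Compat h σ g ↔ StrictAnti g := by
    intro g
    constructor
    · intro hc i j hij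
      rcases hc.lt hm i j hij with h1 | ⟨_, h2, h3⟩
      · exact h1
      · exact absurd (hedge _ _ h2.ne) h3
    · intro hg i j hij
      left
      apply hg
      rw [Fin.lt_def]; omega
  have h1 : ∑ g ∈ (Finset.univ : Finset (Fin n → Fin N)).filter (fun g => Compat h σ g),
      (MvPolynomial.C ((Polynomial.X : Polynomial ℤ) ^ ascents h (fun a => g (σ.symm a))) *
        ∏ a : Fin n, (MvPolynomial.X (g (σ.symm a)) : MvPolynomial (Fin N) (Polynomial ℤ))) =
      ∑ g ∈ (Finset.univ : Finset (Fin n → Fin N)).filter (fun g => StrictAnti g),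
      (MvPolynomial.C ((Polynomial.X : Polynomial ℤ) ^ ginv h σ) *
        ∏ a : Fin n, (MvPolynomial.X (g a) : MvPolynomial (Fin N) (Polynomial ℤ))) := by
    apply Finset.sum_congr
    · ext g
      simp only [Finset.mem_filter, Finset.mem_univ, true_and]
      exact hcompat g
    · intro g hg
      simp only [Finset.mem_filter, Finset.mem_univ, true_and] at hg
      rw [((hcompat g).2 hg).ascents_eq hm]
      congr 1
      exact Equiv.prod_comp σ.symm (fun a => MvPolynomial.X (g a))
  rw [h1, ← Finset.mul_sum]
  congr 1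
  unfold MvPolynomial.esymm
  apply Finset.sum_bij (fun (g : Fin n → Fin N) _ => Finset.univ.image g)
  · intro g hg
    simp only [Finset.mem_filter, Finset.mem_univ, true_and] at hg
    rw [Finset.mem_powersetCard]
    refine ⟨Finset.subset_univ _, ?_⟩
    rw [Finset.card_image_of_injective _ hg.injective]
    simp
  · intro f hf g hg heq
    simp only [Finset.mem_filter, Finset.mem_univ, true_and] at hf hg
    have hr : Set.range f = Set.range g := by
      have := congrArg (fun s : Finset (Fin N) => (s : Set (Fin N))) heq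
      simpa using this
    have h2 : (fun i => OrderDual.toDual (f i)) = (fun i => OrderDual.toDual (g i)) := by
      apply (StrictMono.range_inj (f := fun i => OrderDual.toDual (f i))
        (g := fun i => OrderDual.toDual (g i)) ?_ ?_).1
      · exact congrArg (fun s : Set (Fin N) => (OrderDual.toDual '' s)) hr |> fun h => by
          simpa [← Set.range_comp, Function.comp_def] using h
      · intro a b hab; exact hf hab
      · intro a b hab; exact hg hab
    funext i
    exact OrderDual.toDual.injective (congrFun h2 i)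
  · intro s hs
    rw [Finset.mem_powersetCard] at hs
    refine ⟨fun i => s.orderEmbOfFin hs.2 i.rev, ?_, ?_⟩
    · simp only [Finset.mem_filter, Finset.mem_univ, true_and]
      intro a b hab
      exact (s.orderEmbOfFin hs.2).strictMono (Fin.rev_lt_rev.2 hab)
    · apply Finset.coe_injective
      rw [Finset.coe_image, Finset.coe_univ, Set.image_univ]
      have : Set.range (fun i => s.orderEmbOfFin hs.2 (Fin.rev i)) =
          Set.range (s.orderEmbOfFin hs.2) := by
        ext x
        simp only [Set.mem_range]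
        constructor
        · rintro ⟨y, rfl⟩; exact ⟨y.rev, rfl⟩
        · rintro ⟨y, rfl⟩; exact ⟨y.rev, by rw [Fin.rev_rev]⟩
      rw [this]
      simp
  · intro g hg
    simp only [Finset.mem_filter, Finset.mem_univ, true_and] at hg
    rw [Finset.prod_image]
    intro a _ b _ hab
    exact hg.injective hab

theorem EP_complete {n : ℕ} (h : Fin n → ℕ) (hn : ∀ i, h i = n) :
    EP n (fun N => chromaticQSym h N) := by
  classical
  refine ((EP.esymm n).smul' (∑ σ : Equiv.Perm (Fin n),
      (Polynomial.X : Polynomial ℤ) ^ ginv h σ)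
      ⟨∑ σ : Equiv.Perm (Fin n), (Polynomial.X : Polynomial ℕ) ^ ginv h σ, ?_⟩).congr rfl
    (fun N => chromatic_complete h hn N)
  simp [cast, Polynomial.map_sum]

theorem EP_cut (h : Fin (m + k) → ℕ) (h1 : Fin m → ℕ) (h2 : Fin k → ℕ)
    (v1 : ∀ a : Fin m, h1 a = h (Fin.castAdd k a)) (v2 : ∀ a : Fin k, h2 a + m = h (Fin.natAdd m a))
    (hcut : ∀ a : Fin m, h (Fin.castAdd k a) ≤ m)
    (H1 : EP m (fun N => chromaticQSym h1 N)) (H2 : EP k (fun N => chromaticQSym h2 N)) :
    EP (m + k) (fun N => chromaticQSym h N) :=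
  (H1.mul H2).congr rfl (fun N => chromatic_cut h h1 h2 v1 v2 hcut N)

end Crest.Agent.R059
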