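import Crest.Agent.R059.MutFinal
import Crest.Agent.R059.Prod

set_option autoImplicit false

open Crest.CombinatoricsR.UnitInterval

/-! Reduction of `EPos` to connected unit interval graphs. -/

namespace Crest.Agent.R059.MutConn

/-- connected: `a` and `a + 1` are adjacent for all `a`. -/
def Conn {n : ℕ} (h : Fin n → ℕ) : Prop := ∀ a : Fin n, a.val + 1 < n → a.val + 2 ≤ h a

theorem EPos_of_conn (H : ∀ (n : ℕ) (h : Fin n → ℕ), IsHessenberg h → Conn h → EPos h) :
    ∀ (n : ℕ) (h : Fin n → ℕ), IsHessenberg h → EPos h := by
  intro n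
  induction n using Nat.strong_induction_on with
  | _ n ih =>
    intro h hh
    by_cases hc : Conn h
    · exact H n h hh hc
    · unfold Conn at hc
      push Not at hc
      obtain ⟨a, ha, ha2⟩ := hc
      have hha : h a = a.val + 1 := by
        have := (hh.2 a).1
        omega
      obtain ⟨k, hk⟩ : ∃ k, n = (a.val + 1) + k := ⟨n - (a.val + 1), by omega⟩
      obtain ⟨m, hm⟩ : ∃ m, m = a.val + 1 := ⟨_, rfl⟩
      rw [← hm] at hk
      subst hk
      have hma : ∀ b : Fin m, h (Fin.castAdd k b) ≤ m := by
        intro b
        have h1 : Fin.castAdd k b ≤ a := by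
          rw [Fin.le_def]
          simp only [Fin.val_castAdd]
          have := b.isLt
          omega
        have := hh.1 h1
        omega
      have hbig : ∀ b : Fin k, m + b.val + 1 ≤ h (Fin.natAdd m b) := by
        intro b
        have := (hh.2 (Fin.natAdd m b)).1
        simpa using this
      have e1 : IsHessenberg (fun b : Fin m => h (Fin.castAdd k b)) := by
        refine ⟨fun b c hbc => hh.1 ?_, fun b => ⟨?_, hma b⟩⟩
        · rw [Fin.le_def] at hbc ⊢
          simpa using hbc
        · have := (hh.2 (Fin.castAdd k b)).1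
          simpa using this
      have e2 : IsHessenberg (fun b : Fin k => h (Fin.natAdd m b) - m) := by
        refine ⟨fun b c hbc => ?_, fun b => ⟨?_, ?_⟩⟩
        · have h2 : h (Fin.natAdd m b) ≤ h (Fin.natAdd m c) := hh.1 (by
            rw [Fin.le_def] at hbc ⊢
            simpa using hbc)
          show h (Fin.natAdd m b) - m ≤ h (Fin.natAdd m c) - m
          omega
        · have := hbig b
          show b.val + 1 ≤ h (Fin.natAdd m b) - m
          omega
        · have := (hh.2 (Fin.natAdd m b)).2
          show h (Fin.natAdd m b) - m ≤ k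
          omega
      exact EP_cut h _ _ (fun _ => rfl)
        (fun b => by
          have := hbig b
          show h (Fin.natAdd m b) - m + m = h (Fin.natAdd m b)
          omega)
        hma (ih m (by omega) _ e1) (ih k (by omega) _ e2)

/-- **S0081 from the positive cone for connected graphs.** -/
theorem main_of_PC
    (H : ∀ (n : ℕ) (h : Fin n → ℕ), IsHessenberg h → Conn h →
      ∃ N, n ≤ N ∧ MutInit.Wn (Pieri.Adj h) (MutFinal.vv N) (MutFinal.xx N) N (fun _ => 1) ∈
        MutFinal.PC N) :
    ∀ (n : ℕ) (h : Fin n → ℕ), IsHessenberg h →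
      ∃ θ : {σ : Equiv.Perm (Fin n) // σ ∈ descentSet h} → Nat.Partition n,
        ∀ N : ℕ, chromaticQSym h N =
          ∑ σ : {σ : Equiv.Perm (Fin n) // σ ∈ descentSet h},
            MvPolynomial.C (Polynomial.X ^ ginv h σ.1) *
              MvPolynomial.esymmPart (Fin N) (Polynomial ℤ) (θ σ) :=
  main_of_EPos (EPos_of_conn (fun n h hh hc => by
    obtain ⟨N, hN, hG⟩ := H n h hh hc
    exact MutFinal.EPos_of_PC h hh hN hG))

end Crest.Agent.R059.MutConn
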