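import Crest.Agent.R059.MutC

set_option autoImplicit false

/-! Mutation, part D: seeds, all-direction regularity, transport of the good direction property. -/

namespace Crest.Agent.R059.Mut

open Finset Function

variable {M : Type*} [AddCommGroup M] {K : Type*} [Field K] {A : Type*} [AddCommGroup A]
  [Module K A]

/-- tropical rule for directions and first monomials. -/
def muV (L : M →+ M →+ ℤ) (y w : M) : M := w + (max (L y w) 0) • y

/-- tropical rule for last monomials. -/
def muL (L : M →+ M →+ ℤ) (y w : M) : M := w - (max (-(L y w)) 0) • y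

/-- the transvection. -/
def tau (L : M →+ M →+ ℤ) (y p : M) : M := p + (L y p) • y

theorem max_sub_max (c : ℤ) : max c 0 - max (-c) 0 = c := by omega

section tau

variable {L : M →+ M →+ ℤ} (hL : ∀ a b, L a b = -L b a) (y : M)

include hL

theorem L_tau (p : M) : L y (tau L y p) = L y p := by
  unfold tau
  rw [map_add, map_zsmul, L_self hL, smul_zero, add_zero]

theorem tau_form (a b : M) : L (tau L y a) (tau L y b) = L a b := by
  unfold tau
  simp only [map_add, AddMonoidHom.add_apply, map_zsmul, AddMonoidHom.smul_apply, smul_eq_mul,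
    L_self hL, mul_zero, add_zero]
  rw [hL a y]
  ring

omit hL in
theorem tau_add (a b : M) : tau L y (a + b) = tau L y a + tau L y b := by
  unfold tau
  rw [map_add, add_smul]; abel

omit hL in
theorem tau_zsmul (t : ℤ) (a : M) : tau L y (t • a) = t • tau L y a := by
  unfold tau
  rw [map_zsmul, smul_add, smul_smul, smul_eq_mul]

theorem tau_inv (p : M) : tau L y (p - (L y p) • y) = p := by
  unfold tau
  have : L y (p - (L y p) • y) = L y p := by
    rw [map_sub, map_zsmul, L_self hL, smul_zero, sub_zero]
  rw [this]; abel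

theorem tau_injective : Injective (tau L y) := by
  intro a b h
  have h1 : L y a = L y b := by rw [← L_tau hL y a, ← L_tau hL y b, h]
  unfold tau at h
  rw [h1] at h
  exact add_right_cancel h

theorem muV_muV (w : M) : muV L (-y) (muV L y w) = tau L y w := by
  unfold muV tau
  have h1 : L (-y) (w + (max (L y w) 0) • y) = -(L y w) := by
    rw [map_neg, AddMonoidHom.neg_apply, map_add, map_zsmul, L_self hL, smul_zero, add_zero]
  rw [h1, smul_neg, add_assoc, ← sub_eq_add_neg, ← sub_smul, max_sub_max]

theorem muL_muL (w : M) : muL L (-y) (muL L y w) = tau L y w := by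
  unfold muL tau
  have h1 : L (-y) (w - (max (-(L y w)) 0) • y) = -(L y w) := by
    rw [map_neg, AddMonoidHom.neg_apply, map_sub, map_zsmul, L_self hL, smul_zero, sub_zero]
  rw [h1, neg_neg, smul_neg, sub_neg_eq_add]
  have : w - max (-(L y w)) 0 • y + max (L y w) 0 • y =
      w + (max (L y w) 0 - max (-(L y w)) 0) • y := by rw [sub_smul]; abel
  rw [this, max_sub_max]

theorem reg_tau {v : K} {z : M} {Z : M → A} (h : Reg v L (tau L y z) Z) :
    Reg v L z (fun p => Z (tau L y p)) := by
  intro m n hm e he he'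
  have := h (tau L y m) n (by rw [tau_form hL]; exact hm) e he he'
  rw [← this]
  apply finsum_congr
  intro t
  show _ • Z (tau L y (m + t • z)) = _
  rw [tau_add, tau_zsmul]

end tau

variable {ι : Type*} [Fintype ι] [DecidableEq ι]

/-- linear independence over `ℤ`. -/
def LI (Y : ι → M) : Prop := ∀ a : ι → ℤ, ∑ j, a j • Y j = 0 → ∀ j, a j = 0

/-- mutation of the directions. -/
def step (L : M →+ M →+ ℤ) (Y : ι → M) (i : ι) : ι → M :=
  fun j => if j = i then -Y i else muV L (Y i) (Y j)

theorem LI.nt {Y : ι → M} (h : LI Y) (i : ι) : NT (Y i) := by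
  intro t ht
  have := h (Pi.single i t) (by
    rw [Finset.sum_eq_single i]
    · simpa using ht
    · intro j _ hj; simp [hj]
    · simp) i
  simpa using this

theorem LI.pair {Y : ι → M} (h : LI Y) {i j : ι} (hij : j ≠ i) :
    ∀ a b : ℤ, a • Y i + b • Y j = 0 → a = 0 ∧ b = 0 := by
  intro a b hab
  have := h (Pi.single i a + Pi.single j b) (by
    simp only [Pi.add_apply, add_smul, Finset.sum_add_distrib]
    rw [Finset.sum_eq_single i, Finset.sum_eq_single j]
    · simpa using hab
    · intro k _ hk; simp [hk]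
    · simp
    · intro k _ hk; simp [hk]
    · simp)
  have h1 := this i
  have h2 := this j
  simp [Pi.single_apply, hij, hij.symm] at h1 h2
  exact ⟨h1, h2⟩

theorem LI.step {L : M →+ M →+ ℤ} {Y : ι → M} (h : LI Y) (i : ι) : LI (step L Y i) := by
  intro a ha
  have key : ∑ j, a j • Mut.step L Y i j =
      ∑ j, (if j = i then (∑ k ∈ univ.erase i, a k * max (L (Y i) (Y k)) 0) - a i else a j) • Y j := by
    rw [← Finset.add_sum_erase _ _ (mem_univ i), ← Finset.add_sum_erase _ _ (mem_univ i)]
    simp only [Mut.step, if_true]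
    rw [sub_smul, sum_smul]
    have e1 : ∀ k ∈ univ.erase i, a k • (if k = i then -Y i else muV L (Y i) (Y k)) =
        a k • Y k + (a k * max (L (Y i) (Y k)) 0) • Y i := by
      intro k hk
      rw [if_neg (Finset.ne_of_mem_erase hk), muV, smul_add, smul_smul]
    have e2 : ∀ k ∈ univ.erase i, (if k = i then
        (∑ k ∈ univ.erase i, a k * max (L (Y i) (Y k)) 0) - a i else a k) • Y k = a k • Y k := by
      intro k hk
      rw [if_neg (Finset.ne_of_mem_erase hk)]
    rw [sum_congr rfl e1, sum_congr rfl e2, sum_add_distrib, smul_neg]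
    abel
  rw [key] at ha
  have h1 := h _ ha
  have h2 : ∀ j, j ≠ i → a j = 0 := by
    intro j hj
    have := h1 j
    rwa [if_neg hj] at this
  intro j
  by_cases hj : j = i
  · subst hj
    have := h1 j
    rw [if_pos rfl, sum_eq_zero] at this
    · omega
    · intro k hk
      rw [h2 k (Finset.ne_of_mem_erase hk), zero_mul]
  · exact h2 j hj

/-- regular in all directions. -/
def RegAll (v : K) (L : M →+ M →+ ℤ) (Y : ι → M) (F : M → A) : Prop := ∀ j, Reg v L (Y j) F

theorem RegAll.step {v : K} (hv : NR v) {L : M →+ M →+ ℤ} (hL : ∀ a b, L a b = -L b a)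
    {Y : ι → M} (hY : LI Y) {F : M → A} (hF : (support F).Finite) (h : RegAll v L Y F) (i : ι) :
    RegAll v L (step L Y i) (mt v L (Y i) F) := by
  intro j
  unfold Mut.step
  split_ifs with hj
  · exact reg_mt_neg hv hL (hY.nt i) hF
  · unfold muV
    rcases le_total (L (Y i) (Y j)) 0 with h0 | h0
    · rw [max_eq_right h0, zero_smul, add_zero]
      exact reg_mut_of_nonpos hv hL hF (hY.pair hj) (h j) h0
    · rw [max_eq_left h0]
      exact reg_mt_of_nonneg hv hL hF (hY.pair hj) (h i) (h j) h0

/-- the good direction property of a seed. -/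
def GDp (v : K) (L : M →+ M →+ ℤ) (A : Type*) [AddCommGroup A] [Module K A] {κ κ' : Type*}
    (Y : ι → M) (f : κ → M) (l : κ' → M) : Prop :=
  ∀ Z : M → A, (support Z).Finite → (∃ p, Z p ≠ 0) → RegAll v L Y Z →
    (∀ k p, Z p ≠ 0 → 0 ≤ L (f k) p) → (∀ k p, Z p ≠ 0 → L (l k) p ≤ 0) →
    ∀ k, ∃ p, Z p ≠ 0 ∧ L (f k) p ≤ 0

theorem GDp.step {v : K} (hv : NR v) {L : M →+ M →+ ℤ} (hL : ∀ a b, L a b = -L b a)
    {κ κ' : Type*} {Y : ι → M} (hY : LI Y) {f : κ → M} {l : κ' → M} (h : GDp v L A Y f l)
    (i : ι) :
    GDp v L A (step L Y i) (fun k => muV L (Y i) (f k)) (fun k => muL L (Y i) (l k)) := by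
  intro Z' hfin hne hreg hf hl
  set y := Y i with hy
  have hYi : Mut.step L Y i i = -y := by simp [Mut.step, hy]
  have hY' : LI (Mut.step L Y i) := hY.step i
  have hNT : NT (-y) := by rw [← hYi]; exact hY'.nt i
  have hr0 : Reg v L (-y) Z' := by rw [← hYi]; exact hreg i
  set Z'' := mt v L (-y) Z' with hZ''
  have hreg'' : RegAll v L (Mut.step L (Mut.step L Y i) i) Z'' := by
    have := RegAll.step hv hL hY' hfin hreg i
    rwa [hYi] at this
  have hfin'' : (support Z'').Finite := mt_fin hv hL hNT hfin hr0
  have hstep : ∀ j, Mut.step L (Mut.step L Y i) i j = tau L y (Y j) := by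
    intro j
    by_cases hj : j = i
    · subst hj
      simp only [Mut.step, if_true, neg_neg]
      unfold tau
      rw [← hy, L_self hL, zero_smul, add_zero]
    · have e1 : Mut.step L Y i j = muV L y (Y j) := if_neg hj
      have e2 : Mut.step L (Mut.step L Y i) i j =
          muV L (Mut.step L Y i i) (Mut.step L Y i j) := if_neg hj
      rw [e2, hYi, e1, muV_muV hL]
  -- the pulled back function
  set Z : M → A := fun p => Z'' (tau L y p) with hZ
  have hZreg : RegAll v L Y Z := by
    intro j
    apply reg_tau hL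
    rw [← hstep]
    exact hreg'' j
  have hZfin : (support Z).Finite := hfin''.preimage (tau_injective hL y).injOn
  have hZne : ∃ p, Z p ≠ 0 := by
    by_contra hcon
    push Not at hcon
    obtain ⟨p, hp⟩ := hne
    apply hp
    apply eq_zero_of_mt hv hL hNT hfin
    intro q
    have := hcon (q - (L y q) • y)
    simpa [hZ, tau_inv hL] using this
  have hZf : ∀ k p, Z p ≠ 0 → 0 ≤ L (f k) p := by
    intro k p hp
    have := I3 hv hL hNT hfin hr0 (w := muV L y (f k)) (B := 0) (hf k) (tau L y p) hp
    have e : muV L y (f k) + (max (L (-y) (muV L y (f k))) 0) • (-y) = tau L y (f k) :=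
      muV_muV hL y (f k)
    rw [e, tau_form hL] at this
    exact this
  have hZl : ∀ k p, Z p ≠ 0 → L (l k) p ≤ 0 := by
    intro k p hp
    have := I3' hv hL hNT hfin hr0 (w := muL L y (l k)) (B := 0) (hl k) (tau L y p) hp
    have e : muL L y (l k) - (max (-(L (-y) (muL L y (l k)))) 0) • (-y) = tau L y (l k) :=
      muL_muL hL y (l k)
    rw [e, tau_form hL] at this
    exact this
  intro k
  by_contra hcon
  push Not at hcon
  obtain ⟨p, hp, hp'⟩ := h Z hZfin hZne hZreg hZf hZl k
  have := I3 hv hL hNT hfin hr0 (w := muV L y (f k)) (B := 1)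
    (fun q hq => by have := hcon q hq; omega) (tau L y p) hp
  have e : muV L y (f k) + (max (L (-y) (muV L y (f k))) 0) • (-y) = tau L y (f k) :=
    muV_muV hL y (f k)
  rw [e, tau_form hL] at this
  omega

/-- at a state without good direction all `L (f k) m` vanish. -/
theorem GDp.terminal {v : K} {L : M →+ M →+ ℤ} (hL : ∀ a b, L a b = -L b a)
    {κ κ' : Type*} {Y : ι → M} {f : κ → M} {l : κ' → M} (h : GDp v L A Y f l)
    (hA : ∃ a : A, a ≠ 0) {m : M} (hf : ∀ k, 0 ≤ L (f k) m) (hl : ∀ k, L (l k) m ≤ 0)
    (hm : ∀ j, 0 ≤ L (Y j) m) : ∀ k, L (f k) m = 0 := by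
  classical
  obtain ⟨a, ha⟩ := hA
  intro k
  have hs : ∀ p, (Pi.single m a : M → A) p ≠ 0 → p = m := by
    intro p hp
    by_contra h'
    exact hp (by simp [h'])
  obtain ⟨p, hp, hp'⟩ := h (Pi.single m a) ((Set.finite_singleton m).subset (fun p hp => hs p hp))
    ⟨m, by simpa using ha⟩ (by
      intro j q n hq e he he'
      apply finsum_eq_zero_of_forall_eq_zero
      intro t
      have : q + t • Y j ≠ m := by
        rintro rfl
        have := hm j
        rw [map_add, map_zsmul, L_self hL, smul_zero] at this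
        omega
      simp [this]) (fun k p hp => by rw [hs p hp]; exact hf k)
    (fun k p hp => by rw [hs p hp]; exact hl k) k
  rw [hs p hp] at hp'
  have := hf k
  omega

end Crest.Agent.R059.Mut
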