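import Crest.Agent.R059.Mut

set_option autoImplicit false
set_option linter.unusedSectionVars false

/-! Face transport and sign coherence for the mutation game (row 59), abstract form. -/

namespace Crest.Agent.R059.MutFace

open Function Crest.Agent.R059.Mut

variable {M : Type*} [AddCommGroup M] {K : Type*} [Field K] {A : Type*} [AddCommGroup A]
  [Module K A]

/-- the face data of a seed: first monomials `f j`, function `F`, cone `C`. -/
structure Face (L : M →+ M →+ ℤ) (C : Set A) {J : Type*} (f : J → M) (F : M → A) : Prop where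
  nonneg : ∀ j p, F p ≠ 0 → 0 ≤ L (f j) p
  mem : ∀ j, F (f j) ≠ 0
  span : ∀ p, (∀ j, L (f j) p = 0) → F p ≠ 0 → p ∈ AddSubgroup.closure (Set.range f)
  val : ∀ p, (∀ j, L (f j) p = 0) → F p ∈ C

/-- tropical move of a vector. -/
def mv (L : M →+ M →+ ℤ) (y w : M) : M := w + (max (L y w) 0) • y

/-- the transvection. -/
def Tv (L : M →+ M →+ ℤ) (y : M) : M →+ M :=
  AddMonoidHom.id M + (AddMonoidHom.flip (smulAddHom ℤ M) y).comp (L y)

theorem Tv_apply (L : M →+ M →+ ℤ) (y p : M) : Tv L y p = p + (L y p) • y := rfl

theorem self_zero {L : M →+ M →+ ℤ} (hL : ∀ a b, L a b = -L b a) (y : M) : L y y = 0 := by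
  have := hL y y
  omega

theorem L_Tv {L : M →+ M →+ ℤ} (hL : ∀ a b, L a b = -L b a) (y a b : M) :
    L (Tv L y a) (Tv L y b) = L a b := by
  rw [Tv_apply, Tv_apply, map_add L, AddMonoidHom.add_apply, map_add, map_add, map_zsmul,
    map_zsmul, map_zsmul, AddMonoidHom.zsmul_apply, AddMonoidHom.zsmul_apply, self_zero hL y,
    hL a y]
  simp only [smul_eq_mul]
  ring

/-- what is needed about one mutation `G` of `F` in direction `y`. -/
structure Step (L : M →+ M →+ ℤ) (y : M) (F G : M → A) : Prop where
  zero : ∀ p, (∀ t : ℤ, F (p + t • y) = 0) → G p = 0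
  lev0 : ∀ p, L y p = 0 → G p = F p
  lo : ∀ p, (∀ j : ℤ, 0 < j → F (p - j • y) = 0) → G p = F p
  hi : ∀ p, (∀ j : ℤ, 0 < j → F (p + j • y) = 0) → G (p + (L y p) • y) = F p
  low : ∀ (w : M) (B : ℤ), (∀ p, F p ≠ 0 → B ≤ L w p) → ∀ p, G p ≠ 0 → B ≤ L (mv L y w) p
  two : ∀ p, F p ≠ 0 → L y p < 0 → ∃ c : ℤ, c ≠ 0 ∧ F (p + c • y) ≠ 0

variable {L : M →+ M →+ ℤ} {C : Set A} {J : Type*} {f : J → M} {F G : M → A} {y : M}

theorem Face.comm (hL : ∀ a b, L a b = -L b a) (h : Face L C f F) (i j : J) :
    L (f i) (f j) = 0 := by
  have h1 := h.nonneg i (f j) (h.mem j)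
  have h2 := h.nonneg j (f i) (h.mem i)
  have h3 := hL (f i) (f j)
  omega

/-- **sign coherence.** -/
theorem Face.coherent (hL : ∀ a b, L a b = -L b a) (h : Face L C f F) (hs : Step L y F G)
    (i j : J) (hi : L y (f i) < 0) (hj : 0 < L y (f j)) : False := by
  obtain ⟨c, hc, hne⟩ := hs.two (f i) (h.mem i) hi
  have h1 := h.nonneg i _ hne
  have h2 := h.nonneg j _ hne
  rw [map_add, map_zsmul, h.comm hL, smul_eq_mul, zero_add, hL (f i) y] at h1
  rw [map_add, map_zsmul, h.comm hL, smul_eq_mul, zero_add, hL (f j) y] at h2
  rcases lt_or_gt_of_ne hc with h3 | h3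
  · nlinarith
  · nlinarith

/-- **face transport.** -/
theorem Face.transport (hL : ∀ a b, L a b = -L b a) (h : Face L C f F) (hs : Step L y F G) :
    Face L C (fun j => mv L y (f j)) G := by
  by_cases hpos : ∃ i, 0 < L y (f i)
  · -- some positive: the face is moved by the transvection
    obtain ⟨i, hi⟩ := hpos
    have hall : ∀ j, 0 ≤ L y (f j) := by
      intro j
      by_contra hj
      exact h.coherent hL hs j i (not_le.1 hj) hi
    have hf : ∀ j, mv L y (f j) = Tv L y (f j) := by
      intro j
      rw [mv, Tv_apply, max_eq_left (hall j)]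
    have key : ∀ p, (∀ j, L (f j) p = 0) → G (Tv L y p) = F p := by
      intro p hp
      rw [Tv_apply]
      apply hs.hi
      intro j hj
      by_contra hne
      have := h.nonneg i _ hne
      rw [map_add, map_zsmul, hp, smul_eq_mul, zero_add, hL (f i) y] at this
      nlinarith
    have hinv : ∀ p, Tv L y (p - (L y p) • y) = p := by
      intro p
      rw [Tv_apply, map_sub, map_zsmul, self_zero hL, smul_zero, sub_zero, sub_add_cancel]
    have hface : ∀ p, (∀ j, L (mv L y (f j)) p = 0) →
        ∀ j, L (f j) (p - (L y p) • y) = 0 := by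
      intro p hp j
      have := hp j
      rw [hf] at this
      rw [← L_Tv hL y, hinv]
      exact this
    refine ⟨?_, ?_, ?_, ?_⟩
    · intro j p hp
      exact hs.low (f j) 0 (h.nonneg j) p hp
    · intro j
      show G (mv L y (f j)) ≠ 0
      rw [hf, key (f j) (fun k => h.comm hL k j)]
      exact h.mem j
    · intro p hp hne
      have h1 := hface p hp
      have h2 := key _ h1
      rw [hinv] at h2
      have h3 := h.span _ h1 (by rw [← h2]; exact hne)
      have h4 : Tv L y (p - (L y p) • y) ∈ AddSubgroup.closure
          (Set.range fun j => mv L y (f j)) := by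
        have h5 : AddSubgroup.closure (Set.range f) ≤
            (AddSubgroup.closure (Set.range fun j => mv L y (f j))).comap (Tv L y) := by
          rw [AddSubgroup.closure_le]
          rintro _ ⟨j, rfl⟩
          show Tv L y (f j) ∈ AddSubgroup.closure _
          rw [← hf]
          exact AddSubgroup.subset_closure ⟨j, rfl⟩
        exact h5 h3
      rwa [hinv] at h4
    · intro p hp
      have h1 := hface p hp
      have h2 := key _ h1
      rw [hinv] at h2
      rw [h2]
      exact h.val _ h1
  · -- all `≤ 0`
    push Not at hpos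
    have hf : ∀ j, mv L y (f j) = f j := by
      intro j
      rw [mv, max_eq_right (hpos j), zero_smul, add_zero]
    have key : ∀ p, (∀ j, L (f j) p = 0) → G p = F p := by
      intro p hp
      by_cases hneg : ∃ i, L y (f i) < 0
      · obtain ⟨i, hi⟩ := hneg
        apply hs.lo
        intro j hj
        by_contra hne
        have := h.nonneg i _ hne
        rw [map_sub, map_zsmul, hp, smul_eq_mul, zero_sub, hL (f i) y] at this
        nlinarith
      · push Not at hneg
        have h0 : ∀ j, L y (f j) = 0 := fun j => le_antisymm (hpos j) (hneg j)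
        by_cases hline : ∀ t : ℤ, F (p + t • y) = 0
        · rw [hs.zero p hline]
          have := hline 0
          rw [zero_smul, add_zero] at this
          exact this.symm
        · push Not at hline
          obtain ⟨t, ht⟩ := hline
          have h1 : ∀ j, L (f j) (p + t • y) = 0 := by
            intro j
            rw [map_add, map_zsmul, hp, hL (f j) y, h0]
            simp
          have h2 := h.span _ h1 ht
          have h3 : AddSubgroup.closure (Set.range f) ≤ (L y).ker := by
            rw [AddSubgroup.closure_le]
            rintro _ ⟨j, rfl⟩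
            exact h0 j
          have h4 : L y (p + t • y) = 0 := h3 h2
          apply hs.lev0
          rw [map_add, map_zsmul, self_zero hL, smul_zero, add_zero] at h4
          exact h4
    refine ⟨?_, ?_, ?_, ?_⟩
    · intro j p hp
      exact hs.low (f j) 0 (h.nonneg j) p hp
    · intro j
      show G (mv L y (f j)) ≠ 0
      rw [hf, key (f j) (fun k => h.comm hL k j)]
      exact h.mem j
    · intro p hp hne
      have h1 : ∀ j, L (f j) p = 0 := by
        intro j
        have := hp j
        rwa [hf] at this
      have h2 := h.span p h1 (by rw [← key p h1]; exact hne)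
      have h3 : (fun j => mv L y (f j)) = f := funext hf
      rw [h3]
      exact h2
    · intro p hp
      have h1 : ∀ j, L (f j) p = 0 := by
        intro j
        have := hp j
        rwa [hf] at this
      rw [key p h1]
      exact h.val p h1

end Crest.Agent.R059.MutFace
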