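import Crest.Agent.R059.MutD
import Crest.Agent.R059.MutFace

set_option autoImplicit false

/-! Mutation, part E: the invariant of the game, terminal states, winning states. -/

namespace Crest.Agent.R059.Mut

open Finset Function Crest.Agent.R059.MutFace

variable {M : Type*} [AddCommGroup M] {K : Type*} [Field K] {A : Type*} [AddCommGroup A]
  [Module K A]

theorem step_of {v : K} (hv : NR v) {L : M →+ M →+ ℤ} (hL : ∀ a b, L a b = -L b a)
    {y : M} (hy : NT y) {F : M → A} (hF : (support F).Finite) (hr : Reg v L y F) :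
    MutFace.Step L y F (mt v L y F) where
  zero := by
    intro p hp
    unfold mt
    apply finsum_eq_zero_of_forall_eq_zero
    intro i
    have := hp (-(i : ℤ))
    rw [neg_smul, ← sub_eq_add_neg] at this
    rw [this, smul_zero]
  lev0 := by
    intro p hp
    unfold mt
    rw [hp, finsum_eq_single _ 0]
    · simp
    · intro i hi
      have := bin_eq_zero (v := v) 0 i (Nat.pos_of_ne_zero hi)
      push_cast at this
      rw [this, zero_smul]
  lo := by
    intro p hp
    unfold mt
    rw [finsum_eq_single _ 0]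
    · simp
    · intro i hi
      rw [hp i (by exact_mod_cast Nat.pos_of_ne_zero hi), smul_zero]
  hi := by
    intro p hp
    have h1 : L y (p + (L y p) • y) = L y p := by
      rw [map_add, map_zsmul, L_self hL, smul_zero, add_zero]
    rw [mt_eq hv hy hF hr, h1, finsum_eq_single _ 0]
    · simp
    · intro i hi
      rw [add_sub_cancel_right, hp i (by exact_mod_cast Nat.pos_of_ne_zero hi), smul_zero]
  low := fun w B h => I3 hv hL hy hF hr h
  two := by
    intro p hp hneg
    obtain ⟨i, j, hi, hj, hij⟩ := hr.long hv hy hF hp hneg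
    by_cases h0 : i = 0
    · exact ⟨j, by omega, hj⟩
    · exact ⟨i, h0, hi⟩

variable {ι : Type*} [Fintype ι] [DecidableEq ι]

/-- the invariant of the game. -/
structure Inv (v : K) (L : M →+ M →+ ℤ) (C : AddSubmonoid A) {κ κ' : Type*} (Y : ι → M)
    (f : κ → M) (l : κ' → M) (F : M → A) : Prop where
  li : LI Y
  fin : (support F).Finite
  reg : RegAll v L Y F
  face : Face L (C : Set A) f F
  up : ∀ k p, F p ≠ 0 → L (l k) p ≤ 0
  gd : GDp v L A Y f l

theorem Inv.step {v : K} (hv : NR v) {L : M →+ M →+ ℤ} (hL : ∀ a b, L a b = -L b a)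
    {C : AddSubmonoid A} {κ κ' : Type*} {Y : ι → M} {f : κ → M} {l : κ' → M} {F : M → A}
    (h : Inv v L C Y f l F) (i : ι) :
    Inv v L C (step L Y i) (fun k => muV L (Y i) (f k)) (fun k => muL L (Y i) (l k))
      (mt v L (Y i) F) where
  li := h.li.step i
  fin := mt_fin hv hL (h.li.nt i) h.fin (h.reg i)
  reg := h.reg.step hv hL h.li h.fin i
  face := h.face.transport hL (step_of hv hL (h.li.nt i) h.fin (h.reg i))
  up := fun k => I3' hv hL (h.li.nt i) h.fin (h.reg i) (h.up k)
  gd := h.gd.step hv hL h.li i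

/-- **no good direction: the value is in the cone.** -/
theorem Inv.terminal {v : K} {L : M →+ M →+ ℤ} (hL : ∀ a b, L a b = -L b a)
    {C : AddSubmonoid A} {κ κ' : Type*} {Y : ι → M} {f : κ → M} {l : κ' → M} {F : M → A}
    (h : Inv v L C Y f l F) {m : M} (hm : ∀ j, 0 ≤ L (Y j) m) : F m ∈ C := by
  by_cases h0 : F m = 0
  · rw [h0]; exact C.zero_mem
  · exact h.face.val m (h.gd.terminal hL ⟨F m, h0⟩ (fun k => h.face.nonneg k m h0)
      (fun k => h.up k m h0) hm)

/-- winning states. -/
inductive Win (v : K) (L : M →+ M →+ ℤ) (C : AddSubmonoid A) :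
    (ι → M) → (M → A) → M → Prop
  | mem {Y F m} (h : F m ∈ C) : Win v L C Y F m
  | move {Y F m} (i : ι) (k : ℕ) (hk : L (Y i) m = -(k : ℤ))
      (h : ∀ j ≤ k, Win v L C (step L Y i) (mt v L (Y i) F) (m - (j : ℤ) • Y i)) : Win v L C Y F m
  | lo {Y F m} (i : ι) (h0 : ∀ j : ℤ, 0 < j → F (m - j • Y i) = 0)
      (h : Win v L C (step L Y i) (mt v L (Y i) F) m) : Win v L C Y F m
  | hi {Y F m} (i : ι) (h0 : ∀ j : ℤ, 0 < j → F (m + j • Y i) = 0)
      (h : Win v L C (step L Y i) (mt v L (Y i) F) (m + (L (Y i) m) • Y i)) : Win v L C Y F m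

theorem Win.sound {v : K} (hv : NR v) {L : M →+ M →+ ℤ} (hL : ∀ a b, L a b = -L b a)
    {C : AddSubmonoid A} (hC : ∀ k j : ℕ, ∀ a ∈ C, bin v k j • a ∈ C) {κ κ' : Type*}
    {Y : ι → M} {F : M → A} {m : M} (h : Win v L C Y F m) :
    ∀ {f : κ → M} {l : κ' → M}, Inv v L C Y f l F → F m ∈ C := by
  induction h with
  | mem h => intro _ _ _; exact h
  | move i k hk h ih =>
    intro f l hI
    rw [Mut.move hv hL (hI.li.nt i) hI.fin _ k hk]
    apply C.sum_mem
    intro j hj
    apply hC
    exact ih j (by rw [Finset.mem_range] at hj; omega) (hI.step hv hL i)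
  | lo i h0 h ih =>
    intro f l hI
    rw [← (step_of hv hL (hI.li.nt i) hI.fin (hI.reg i)).lo _ h0]
    exact ih (hI.step hv hL i)
  | hi i h0 h ih =>
    intro f l hI
    rw [← (step_of hv hL (hI.li.nt i) hI.fin (hI.reg i)).hi _ h0]
    exact ih (hI.step hv hL i)

end Crest.Agent.R059.Mut
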