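import Crest.Agent.R059.Defl

set_option autoImplicit false

set_option linter.unusedSectionVars false

/-! Regularity of the initial seed of the mutation game (row 59). -/

namespace Crest.Agent.R059.MutInit

open Finset Crest.Agent.R059.Defl

/-- regularity in the direction `z`, root form. -/
def Reg {K : Type*} [Field K] {A : Type*} [AddCommGroup A] [Module K A] {M : Type*}
    [AddCommGroup M] (v : K) (L : M →+ M →+ ℤ) (z : M) (F : M → A) : Prop :=
  ∀ (m : M) (n : ℕ), L z m = -((n : ℤ) + 1) → ∀ e : ℤ, |e| ≤ n → (e - n) % 2 = 0 →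
    ∑ᶠ t : ℤ, ((-1 : K) ^ t * v ^ (e * t)) • F (m + t • z) = 0

section form

variable {ι : Type*} [LinearOrder ι] [Fintype ι] (R : ι → ι → Prop) [DecidableRel R]

/-- value of the skew form. -/
def Lfun (k m : ι → ℤ) : ℤ := ∑ a, k a * (nf R m a - nb R m a)

theorem Lfun_add_left (k k' m : ι → ℤ) : Lfun R (k + k') m = Lfun R k m + Lfun R k' m := by
  unfold Lfun
  rw [← Finset.sum_add_distrib]
  apply Finset.sum_congr rfl
  intro a _
  simp only [Pi.add_apply]
  ring

theorem Lfun_add_right (k m m' : ι → ℤ) : Lfun R k (m + m') = Lfun R k m + Lfun R k m' := by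
  unfold Lfun
  rw [← Finset.sum_add_distrib]
  apply Finset.sum_congr rfl
  intro a _
  rw [nf_add, nb_add]
  ring

/-- the skew form `L(e_a,e_b) = [R a b] - [R b a]`. -/
def LL : (ι → ℤ) →+ (ι → ℤ) →+ ℤ :=
  AddMonoidHom.mk' (fun k => AddMonoidHom.mk' (fun m => Lfun R k m) (Lfun_add_right R k))
    (fun k k' => by
      apply AddMonoidHom.ext
      intro m
      exact Lfun_add_left R k k' m)

theorem LL_apply (k m : ι → ℤ) : LL R k m = ∑ a, k a * (nf R m a - nb R m a) := rfl

theorem LL_skew (k m : ι → ℤ) : LL R k m = - LL R m k := by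
  rw [LL_apply, LL_apply]
  simp only [mul_sub, Finset.sum_sub_distrib]
  rw [swap_sum (R := R) k m, ← swap_sum (R := R) m k]
  ring

theorem LL_self (k : ι → ℤ) : LL R k k = 0 := by
  have := LL_skew R k k
  omega

theorem LL_ind (S : Finset ι) (m : ι → ℤ) : LL R (ind S) m = ∑ a ∈ S, (nf R m a - nb R m a) := by
  rw [LL_apply, sum_ind_mul]

/-- the direction `e_b - e_a`. -/
def yv (a b : ι) : ι → ℤ := ind {b} - ind {a}

theorem LL_yv (a b : ι) (m : ι → ℤ) :
    LL R (yv a b) m = (nf R m b - nb R m b) - (nf R m a - nb R m a) := by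
  unfold yv
  rw [map_sub, AddMonoidHom.sub_apply, LL_ind, LL_ind, Finset.sum_singleton, Finset.sum_singleton]

end form

section step

variable {ι : Type*} [LinearOrder ι] [Fintype ι] {R : ι → ι → Prop} [DecidableRel R]

theorem level_nonneg (hR : UI R) {a b : ι} (hab : a < b) (hc : ∀ c, a < c → ¬ c < b)
    {S : Finset ι} (hS : St R S) (ha : a ∉ S) (hb : b ∉ S) : 0 ≤ LL R (yv a b) (ind S) := by
  rw [LL_yv, nf_ind hR hS, nf_ind hR hS, nb_ind hR hS, nb_ind hR hS]
  have h1 : (∃ i ∈ S, R a i) → ∃ i ∈ S, R b i := by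
    rintro ⟨i, hi, hai⟩
    refine ⟨i, hi, ?_⟩
    have h2 : b < i := by
      rcases lt_trichotomy i b with h | h | h
      · exact absurd h (hc i (hR.lt hai))
      · subst h; exact absurd hi hb
      · exact h
    exact (hR.mid hai hab h2).2
  have h2 : (∃ i ∈ S, R i b) → ∃ i ∈ S, R i a := by
    rintro ⟨i, hi, hib⟩
    refine ⟨i, hi, ?_⟩
    have h2 : i < a := by
      rcases lt_trichotomy i a with h | h | h
      · exact h
      · subst h; exact absurd hi ha
      · exact absurd (hR.lt hib) (hc i h)
    exact (hR.mid hib h2 hab).1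
  by_cases p1 : ∃ i ∈ S, R b i <;> by_cases p2 : ∃ i ∈ S, R i b <;>
    by_cases p3 : ∃ i ∈ S, R a i <;> by_cases p4 : ∃ i ∈ S, R i a <;>
    first
    | exact absurd (h1 p3) p1
    | exact absurd (h2 p2) p4
    | (simp only [p1, p2, p3, p4, if_true, if_false]; norm_num)

/-- case `a ∈ S` with negative level. -/
theorem level_a (hR : UI R) {a b : ι} (hab : R a b) (hc : ∀ c, a < c → ¬ c < b)
    {S : Finset ι} (hS : St R S) (ha : a ∈ S) (hneg : LL R (yv a b) (ind S) < 0) :
    LL R (yv a b) (ind S) = -1 ∧ St R (insert b (S.erase a)) := by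
  rw [LL_yv, nf_ind hR hS, nf_ind hR hS, nb_ind hR hS, nb_ind hR hS] at hneg ⊢
  have h1 : ¬ ∃ i ∈ S, R a i := fun ⟨i, hi, h⟩ => hS a ha i hi h
  have h2 : ¬ ∃ i ∈ S, R i a := fun ⟨i, hi, h⟩ => hS i hi a ha h
  have h3 : ∃ i ∈ S, R i b := ⟨a, ha, hab⟩
  rw [if_neg h1, if_neg h2, if_pos h3] at hneg ⊢
  have h4 : ¬ ∃ i ∈ S, R b i := by
    intro h
    rw [if_pos h] at hneg
    omega
  rw [if_neg h4]
  refine ⟨by norm_num, ?_⟩
  have hbb : ¬ R b b := fun h => lt_irrefl _ (hR.lt h)
  have key : ∀ i ∈ S, i ≠ a → ¬ R i b := by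
    intro i hi hia h
    have h5 : i < a := by
      rcases lt_trichotomy i a with h' | h' | h'
      · exact h'
      · exact absurd h' hia
      · exact absurd (hR.lt h) (hc i h')
    exact hS i hi a ha (hR.mid h h5 (hR.lt hab)).1
  intro i hi j hj h
  rw [Finset.mem_insert, Finset.mem_erase] at hi hj
  rcases hi with rfl | ⟨hia, hi⟩
  · rcases hj with rfl | ⟨hja, hj⟩
    · exact hbb h
    · exact h4 ⟨j, hj, h⟩
  · rcases hj with rfl | ⟨hja, hj⟩
    · exact key i hi hia h
    · exact hS i hi j hj h

/-- case `b ∈ S` with negative level. -/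
theorem level_b (hR : UI R) {a b : ι} (hab : R a b) (hc : ∀ c, a < c → ¬ c < b)
    {S : Finset ι} (hS : St R S) (hb : b ∈ S) (hneg : LL R (yv a b) (ind S) < 0) :
    LL R (yv a b) (ind S) = -1 ∧ St R (insert a (S.erase b)) := by
  rw [LL_yv, nf_ind hR hS, nf_ind hR hS, nb_ind hR hS, nb_ind hR hS] at hneg ⊢
  have h1 : ¬ ∃ i ∈ S, R b i := fun ⟨i, hi, h⟩ => hS b hb i hi h
  have h2 : ¬ ∃ i ∈ S, R i b := fun ⟨i, hi, h⟩ => hS i hi b hb h
  have h3 : ∃ i ∈ S, R a i := ⟨b, hb, hab⟩
  rw [if_neg h1, if_neg h2, if_pos h3] at hneg ⊢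
  have h4 : ¬ ∃ i ∈ S, R i a := by
    intro h
    rw [if_pos h] at hneg
    omega
  rw [if_neg h4]
  refine ⟨by norm_num, ?_⟩
  have haa : ¬ R a a := fun h => lt_irrefl _ (hR.lt h)
  have key : ∀ i ∈ S, i ≠ b → ¬ R a i := by
    intro i hi hib h
    have h5 : b < i := by
      rcases lt_trichotomy i b with h' | h' | h'
      · exact absurd h' (hc i (hR.lt h))
      · exact absurd h' hib
      · exact h'
    exact hS b hb i hi (hR.mid h (hR.lt hab) h5).2
  intro i hi j hj h
  rw [Finset.mem_insert, Finset.mem_erase] at hi hj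
  rcases hi with rfl | ⟨hia, hi⟩
  · rcases hj with rfl | ⟨hja, hj⟩
    · exact haa h
    · exact key j hj hja h
  · rcases hj with rfl | ⟨hja, hj⟩
    · exact h4 ⟨i, hi, h⟩
    · exact hS i hi j hj h

theorem ind_swap_a {a b : ι} (hab : a ≠ b) {S : Finset ι} (ha : a ∈ S) (hb : b ∉ S) :
    ind (insert b (S.erase a)) = ind S + yv a b := by
  funext j
  simp only [ind, yv, Pi.add_apply, Pi.sub_apply, Finset.mem_insert, Finset.mem_erase,
    Finset.mem_singleton]
  by_cases h1 : j = b
  · subst h1
    have : ¬ j = a := fun h => hab h.symm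
    simp [hb, this]
  · by_cases h2 : j = a
    · subst h2; simp [ha, hab]
    · by_cases h3 : j ∈ S <;> simp [h1, h2, h3]

theorem ind_swap_b {a b : ι} (hab : a ≠ b) {S : Finset ι} (hb : b ∈ S) (ha : a ∉ S) :
    ind (insert a (S.erase b)) = ind S - yv a b := by
  funext j
  simp only [ind, yv, Pi.sub_apply, Finset.mem_insert, Finset.mem_erase,
    Finset.mem_singleton]
  by_cases h1 : j = a
  · subst h1
    simp [ha, hab]
  · by_cases h2 : j = b
    · subst h2; simp [hb, h1]
    · by_cases h3 : j ∈ S <;> simp [h1, h2, h3]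

/-- symmetric one colour operator. -/
def opE {K : Type*} [Field K] {A : Type*} [AddCommGroup A] [Module K A]
    (R : ι → ι → Prop) [DecidableRel R] (v : K) (c : ℕ → K) (F : (ι → ℤ) → A) (k : ι → ℤ) : A :=
  ∑ S ∈ (Finset.univ : Finset ι).powerset.filter (fun S => St R S),
    (c S.card * v ^ (LL R (ind S) k)) • F (k - ind S)

theorem yv_ne_zero {a b : ι} (hab : a ≠ b) : yv a b ≠ 0 := by
  intro h
  have := congrFun h b
  simp [yv, ind, hab.symm] at this

theorem row_finite {A : Type*} [Zero A] {F : (ι → ℤ) → A} (hF : (Function.support F).Finite)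
    {z : ι → ℤ} (hz : z ≠ 0) (m : ι → ℤ) : (Function.support fun t : ℤ => F (m + t • z)).Finite := by
  have hinj : Function.Injective (fun t : ℤ => m + t • z) := by
    intro t s h
    simp only at h
    have h1 : t • z = s • z := add_left_cancel h
    obtain ⟨j, hj⟩ : ∃ j, z j ≠ 0 := by
      by_contra hcon
      push Not at hcon
      exact hz (funext hcon)
    have h2 := congrFun h1 j
    simp only [Pi.smul_apply, smul_eq_mul] at h2
    exact mul_right_cancel₀ hj h2
  exact hF.preimage hinj.injOn

theorem opE_support {K : Type*} [Field K] {A : Type*} [AddCommGroup A] [Module K A]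
    (v : K) (c : ℕ → K) {F : (ι → ℤ) → A} (hF : (Function.support F).Finite) :
    (Function.support (opE R v c F)).Finite := by
  have h : Function.support (opE R v c F) ⊆
      ⋃ S ∈ (Finset.univ : Finset ι).powerset.filter (fun S => St R S),
        (fun k => k + ind S) '' Function.support F := by
    intro k hk
    rw [Function.mem_support] at hk
    obtain ⟨S, hS, hne⟩ := Finset.exists_ne_zero_of_sum_ne_zero hk
    simp only [Set.mem_iUnion]
    refine ⟨S, hS, k - ind S, ?_, by simp⟩
    intro h0
    apply hne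
    rw [h0, smul_zero]
  refine Set.Finite.subset ?_ h
  apply Set.Finite.biUnion (Finset.finite_toSet _)
  intro S _
  exact hF.image _

variable {K : Type*} [Field K] {A : Type*} [AddCommGroup A] [Module K A]

theorem inner_eq (v : K) (hv : v ≠ 0) (c : K) (F : (ι → ℤ) → A) (z m s : ι → ℤ) (e : ℤ) :
    ∑ᶠ t : ℤ, ((-1 : K) ^ t * v ^ (e * t)) • ((c * v ^ (LL R s (m + t • z))) • F (m + t • z - s)) =
      (c * v ^ (LL R s m)) •
        ∑ᶠ t : ℤ, ((-1 : K) ^ t * v ^ ((e - LL R z s) * t)) • F ((m - s) + t • z) := by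
  rw [smul_finsum]
  apply finsum_congr
  intro t
  rw [show m + t • z - s = (m - s) + t • z by abel, smul_smul, smul_smul]
  congr 1
  rw [map_add, map_zsmul, LL_skew R s z, zpow_add₀ hv,
    show (e - LL R z s) * t = e * t + t • -LL R z s by rw [smul_eq_mul]; ring, zpow_add₀ hv]
  ring

theorem shift_eq (v : K) (hv : v ≠ 0) (F : (ι → ℤ) → A) (z m : ι → ℤ) (e : ℤ) :
    ∑ᶠ t : ℤ, ((-1 : K) ^ t * v ^ (e * t)) • F ((m - z) + t • z) =
      (- v ^ e) • ∑ᶠ t : ℤ, ((-1 : K) ^ t * v ^ (e * t)) • F (m + t • z) := by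
  rw [smul_finsum]
  rw [← finsum_comp_equiv (Equiv.addRight (1 : ℤ))]
  apply finsum_congr
  intro t
  change ((-1 : K) ^ (t + 1) * v ^ (e * (t + 1))) • F ((m - z) + (t + 1) • z) = _
  rw [show (m - z) + (t + 1) • z = m + t • z by rw [add_smul, one_smul]; abel, smul_smul]
  congr 1
  rw [zpow_add₀ (by norm_num : (-1 : K) ≠ 0), show e * (t + 1) = e * t + e by ring, zpow_add₀ hv]
  ring

/-- **Regularity is preserved by the one colour operator.** -/
theorem Reg_opE (hR : UI R) (v : K) (hv : v ≠ 0) (c : ℕ → K) {a b : ι} (hab : R a b)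
    (hc : ∀ c, a < c → ¬ c < b) {F : (ι → ℤ) → A} (hfin : (Function.support F).Finite)
    (hF : Reg v (LL R) (yv a b) F) : Reg v (LL R) (yv a b) (opE R v c F) := by
  have hlt : a < b := hR.lt hab
  have hne : a ≠ b := ne_of_lt hlt
  intro m n hm e he hpar
  unfold opE
  have h1 : ∀ t : ℤ, ((-1 : K) ^ t * v ^ (e * t)) •
      (∑ S ∈ (Finset.univ : Finset ι).powerset.filter (fun S => St R S),
        (c S.card * v ^ (LL R (ind S) (m + t • yv a b))) • F (m + t • yv a b - ind S)) =
      ∑ S ∈ (Finset.univ : Finset ι).powerset.filter (fun S => St R S),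
        ((-1 : K) ^ t * v ^ (e * t)) •
          ((c S.card * v ^ (LL R (ind S) (m + t • yv a b))) • F (m + t • yv a b - ind S)) := by
    intro t
    rw [Finset.smul_sum]
  simp only [h1]
  rw [finsum_sum_comm]
  swap
  · intro S _
    have h2 := row_finite hfin (yv_ne_zero hne) (m - ind S)
    apply h2.subset
    intro t ht
    rw [Function.mem_support] at ht ⊢
    intro h0
    apply ht
    rw [show m + t • yv a b - ind S = (m - ind S) + t • yv a b by abel, h0, smul_zero, smul_zero]
  simp only [inner_eq v hv]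
  set H : Finset ι → A := fun S => (c S.card * v ^ (LL R (ind S) m)) •
        ∑ᶠ t : ℤ, ((-1 : K) ^ t * v ^ ((e - LL R (yv a b) (ind S)) * t)) •
          F ((m - ind S) + t • yv a b) with hH
  have hzero : ∀ S, 0 ≤ LL R (yv a b) (ind S) → H S = 0 := by
    intro S hS
    simp only [hH]
    obtain ⟨l, hl⟩ := Int.eq_ofNat_of_zero_le hS
    rw [hF (m - ind S) (n + l) (by rw [map_sub, hm, hl]; push_cast; ring) (e - LL R (yv a b) (ind S))
      (by rw [hl]; rw [abs_le] at he ⊢; push_cast; omega) (by rw [hl]; push_cast; omega), smul_zero]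
  -- the pairing
  have hpair : ∀ S : Finset ι, a ∈ S → b ∉ S → LL R (yv a b) (ind S) = -1 →
      H S + H (insert b (S.erase a)) = 0 := by
    intro S ha hb hl
    simp only [hH]
    have hcard : (insert b (S.erase a)).card = S.card := by
      rw [Finset.card_insert_of_notMem (fun h => hb (Finset.mem_of_mem_erase h)),
        Finset.card_erase_of_mem ha]
      have : 0 < S.card := Finset.card_pos.2 ⟨a, ha⟩
      omega
    rw [hcard, ind_swap_a hne ha hb, map_add (LL R (yv a b)), LL_self, hl, add_zero,
      show m - (ind S + yv a b) = (m - ind S) - yv a b by abel, shift_eq v hv,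
      map_add (LL R), AddMonoidHom.add_apply, hm, zpow_add₀ hv, smul_smul, ← add_smul]
    by_cases hen : e = n
    · have : c S.card * v ^ ((LL R) (ind S) m) +
          c S.card * (v ^ ((LL R) (ind S) m) * v ^ (-((n : ℤ) + 1))) * -v ^ (e - -1) = 0 := by
        rw [hen, show (n : ℤ) - -1 = (n : ℤ) + 1 by ring, zpow_neg]
        have := zpow_ne_zero ((n : ℤ) + 1) hv
        field_simp
        ring
      rw [this, zero_smul]
    · have hn : 1 ≤ n := by
        rw [abs_le] at he
        by_contra h
        have : n = 0 := by omega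
        subst this
        apply hen
        push_cast at he ⊢
        omega
      obtain ⟨n', rfl⟩ : ∃ n', n = n' + 1 := ⟨n - 1, by omega⟩
      rw [hF (m - ind S) n' (by rw [map_sub, hm, hl]; push_cast; ring) (e - -1)
        (by rw [abs_le] at he ⊢; push_cast at he hen hpar ⊢; omega)
        (by push_cast at hpar ⊢; omega), smul_zero]
  apply Finset.sum_involution
    (fun S _ => if LL R (yv a b) (ind S) < 0 then
      (if a ∈ S then insert b (S.erase a) else insert a (S.erase b)) else S)
  · intro S hS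
    have hSt : St R S := (Finset.mem_filter.1 hS).2
    by_cases hl : LL R (yv a b) (ind S) < 0
    · simp only [if_pos hl]
      by_cases ha : a ∈ S
      · rw [if_pos ha]
        have hb : b ∉ S := fun hb => hSt a ha b hb hab
        exact hpair S ha hb (level_a hR hab hc hSt ha hl).1
      · rw [if_neg ha]
        have hb : b ∈ S := by
          by_contra hb
          exact absurd (level_nonneg hR hlt hc hSt ha hb) (not_le.2 hl)
        obtain ⟨hl1, hst⟩ := level_b hR hab hc hSt hb hl
        have h2 := hpair (insert a (S.erase b)) (Finset.mem_insert_self _ _)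
          (by
            rw [Finset.mem_insert, Finset.mem_erase]
            rintro (h | h)
            · exact hne h.symm
            · exact h.1 rfl)
          (by rw [ind_swap_b hne hb ha, map_sub, LL_self, hl1]; rfl)
        have h3 : insert b ((insert a (S.erase b)).erase a) = S := by
          rw [Finset.erase_insert (fun h => ha (Finset.mem_of_mem_erase h)),
            Finset.insert_erase hb]
        rw [h3] at h2
        rw [add_comm]
        exact h2
    · simp only [if_neg hl]
      have h0 := hzero S (not_lt.1 hl)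
      change H S + H S = 0
      rw [h0, add_zero]
  · intro S hS hne0 heq
    by_cases hl : LL R (yv a b) (ind S) < 0
    · simp only [if_pos hl] at heq
      by_cases ha : a ∈ S
      · rw [if_pos ha] at heq
        have hSt : St R S := (Finset.mem_filter.1 hS).2
        have hb : b ∉ S := fun hb => hSt a ha b hb hab
        apply hb
        rw [← heq]
        exact Finset.mem_insert_self _ _
      · rw [if_neg ha] at heq
        apply ha
        rw [← heq]
        exact Finset.mem_insert_self _ _
    · exact hne0 (hzero S (not_lt.1 hl))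
  · intro S hS
    have hSt : St R S := (Finset.mem_filter.1 hS).2
    by_cases hl : LL R (yv a b) (ind S) < 0
    · simp only [if_pos hl]
      rw [Finset.mem_filter, Finset.mem_powerset]
      refine ⟨Finset.subset_univ _, ?_⟩
      by_cases ha : a ∈ S
      · rw [if_pos ha]
        exact (level_a hR hab hc hSt ha hl).2
      · rw [if_neg ha]
        have hb : b ∈ S := by
          by_contra hb
          exact absurd (level_nonneg hR hlt hc hSt ha hb) (not_le.2 hl)
        exact (level_b hR hab hc hSt hb hl).2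
    · simp only [if_neg hl]
      exact hS
  · intro S hS
    have hSt : St R S := (Finset.mem_filter.1 hS).2
    by_cases hl : LL R (yv a b) (ind S) < 0
    · simp only [if_pos hl]
      by_cases ha : a ∈ S
      · have hb : b ∉ S := fun hb => hSt a ha b hb hab
        have h4 : LL R (yv a b) (ind (insert b (S.erase a))) < 0 := by
          rw [ind_swap_a hne ha hb, map_add, LL_self, add_zero]; exact hl
        have h5 : a ∉ insert b (S.erase a) := by
          rw [Finset.mem_insert, Finset.mem_erase]
          rintro (h | h)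
          · exact hne h
          · exact h.1 rfl
        rw [if_pos ha, if_pos h4, if_neg h5,
          Finset.erase_insert (fun h => hb (Finset.mem_of_mem_erase h)), Finset.insert_erase ha]
      · have hb : b ∈ S := by
          by_contra hb
          exact absurd (level_nonneg hR hlt hc hSt ha hb) (not_le.2 hl)
        have h4 : LL R (yv a b) (ind (insert a (S.erase b))) < 0 := by
          rw [ind_swap_b hne hb ha, map_sub, LL_self, sub_zero]; exact hl
        rw [if_neg ha, if_pos h4, if_pos (Finset.mem_insert_self _ _),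
          Finset.erase_insert (fun h => ha (Finset.mem_of_mem_erase h)), Finset.insert_erase hb]
    · simp only [if_neg hl]

/-- `Reg` does not see `v ↦ v⁻¹`. -/
theorem Reg_inv {M : Type*} [AddCommGroup M] {v : K} {L : M →+ M →+ ℤ} {z : M} {F : M → A}
    (h : Reg v L z F) : Reg v⁻¹ L z F := by
  intro m n hm e he hpar
  have := h m n hm (-e) (by rwa [abs_neg]) (by omega)
  rw [← this]
  apply finsum_congr
  intro t
  congr 2
  rw [inv_zpow', neg_mul]

/-- the delta function is regular. -/
theorem Reg_delta (v : K) {M : Type*} [AddCommGroup M] (L : M →+ M →+ ℤ) (hL : ∀ m, L m m = 0)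
    (z : M) (x : A) [DecidableEq M] : Reg v L z (fun k => if k = 0 then x else 0) := by
  intro m n hm e he hpar
  apply finsum_eq_zero_of_forall_eq_zero
  intro t
  show ((-1 : K) ^ t * v ^ (e * t)) • (if m + t • z = 0 then x else 0) = 0
  rw [if_neg, smul_zero]
  intro h
  have : L z (m + t • z) = 0 := by rw [h, map_zero]
  rw [map_add, map_zsmul, hL, smul_zero, add_zero, hm] at this
  omega

end step

section W

variable {ι : Type*} [LinearOrder ι] [Fintype ι] (R : ι → ι → Prop) [DecidableRel R]
variable {K : Type*} [Field K]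

/-- exponent of the normalisation. -/
def th (k : ι → ℤ) : ℤ := - ∑ j, k j * nb R k j

/-- bar-symmetric normalisation of `W`. -/
noncomputable def Wn (v : K) (x : ℕ → K) (N : ℕ) (k : ι → ℤ) : K :=
  v ^ th R k * W R (v ^ 2) x N k

variable {R}

theorem th_sub {S : Finset ι} (hS : St R S) (k : ι → ℤ) :
    th R k + 2 * ∑ b ∈ S, nb R k b = - LL R (ind S) k + th R (k - ind S) := by
  have h1 : ∑ j, ind S j * nb R (ind S) j = 0 := by
    rw [sum_ind_mul]
    apply Finset.sum_eq_zero
    intro j hj
    unfold nb ind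
    apply Finset.sum_eq_zero
    intro i _
    split_ifs with h1 h2
    · exact absurd h1 (hS i h2 j hj)
    · rfl
    · rfl
  have h2 : ∑ j, (k - ind S) j * nb R (k - ind S) j =
      ∑ j, k j * nb R k j - ∑ b ∈ S, nb R k b - ∑ b ∈ S, nf R k b := by
    have h3 : ∀ j, (k - ind S) j * nb R (k - ind S) j =
        k j * nb R k j - ind S j * nb R k j - k j * nb R (ind S) j
          + ind S j * nb R (ind S) j := by
      intro j
      rw [nb_sub, Pi.sub_apply]
      ring
    simp only [h3]
    rw [Finset.sum_add_distrib, Finset.sum_sub_distrib, Finset.sum_sub_distrib, h1,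
      ← swap_sum (R := R) (ind S) k, sum_ind_mul, sum_ind_mul]
    ring
  unfold th
  rw [h2, LL_ind, Finset.sum_sub_distrib]
  ring

/-- the symmetric one variable recursion. -/
theorem Wn_succ (v : K) (hv : v ≠ 0) (x : ℕ → K) (N : ℕ) :
    Wn R v x (N + 1) = opE R v⁻¹ (fun n => x N ^ n) (Wn R v x N) := by
  funext k
  unfold opE Wn
  rw [W, Finset.mul_sum]
  apply Finset.sum_congr rfl
  intro S hS
  have hSt : St R S := (Finset.mem_filter.1 hS).2
  have h1 := th_sub hSt k
  have h2 : v ^ th R k * (v ^ 2) ^ (∑ b ∈ S, nb R k b) =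
      v⁻¹ ^ (LL R (ind S) k) * v ^ th R (k - ind S) := by
    rw [inv_zpow', ← zpow_add₀ hv, ← h1, zpow_add₀ hv]
    congr 1
    rw [show (v ^ 2 : K) = v ^ (2 : ℤ) by norm_cast, ← zpow_mul]
  calc v ^ th R k * (x N ^ S.card * (v ^ 2) ^ (∑ b ∈ S, nb R k b) * W R (v ^ 2) x N (k - ind S))
      = x N ^ S.card * (v ^ th R k * (v ^ 2) ^ (∑ b ∈ S, nb R k b)) *
          W R (v ^ 2) x N (k - ind S) := by ring
    _ = _ := by rw [h2, smul_eq_mul]; ring

theorem Wn_zero (v : K) (x : ℕ → K) :
    Wn R v x 0 = fun k => if k = 0 then 1 else 0 := by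
  funext k
  unfold Wn
  show v ^ th R k * (if k = 0 then 1 else 0) = if k = 0 then 1 else 0
  split_ifs with h
  · subst h
    have : th R (0 : ι → ℤ) = 0 := by simp [th]
    rw [this]; simp
  · rw [mul_zero]

theorem Wn_support (v : K) (hv : v ≠ 0) (x : ℕ → K) (N : ℕ) :
    (Function.support (Wn R v x N)).Finite := by
  induction N with
  | zero =>
    rw [Wn_zero]
    apply (Set.finite_singleton (0 : ι → ℤ)).subset
    intro k hk
    rw [Function.mem_support] at hk
    by_contra h
    exact hk (if_neg h)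
  | succ N ih =>
    rw [Wn_succ v hv]
    exact opE_support _ _ ih

/-- **the initial seed is regular.** -/
theorem Wn_Reg (hR : UI R) (v : K) (hv : v ≠ 0) (x : ℕ → K) {a b : ι} (hab : R a b)
    (hc : ∀ c, a < c → ¬ c < b) (N : ℕ) : Reg v (LL R) (yv a b) (Wn R v x N) := by
  induction N with
  | zero =>
    rw [Wn_zero]
    exact Reg_delta v (LL R) (LL_self R) _ _
  | succ N ih =>
    rw [Wn_succ v hv]
    have h1 : Reg v⁻¹ (LL R) (yv a b) (Wn R v x N) := Reg_inv ih
    have h2 := Reg_opE hR v⁻¹ (inv_ne_zero hv) (fun n => x N ^ n) hab hc (Wn_support v hv x N) h1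
    have h3 := Reg_inv h2
    rwa [inv_inv] at h3

end W

end Crest.Agent.R059.MutInit
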