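import Crest.Agent.R059.Reduce

set_option autoImplicit false

open Crest.CombinatoricsR.UnitInterval

namespace Crest.Agent.R059

variable {n : ℕ}

theorem exists_theta {D Λ : Type*} [Fintype D] [DecidableEq D] [Fintype Λ] [DecidableEq Λ]
    (g : D → ℕ) (c : Λ → ℕ → ℕ)
    (hc : ∀ j, ∑ l, c l j = ((Finset.univ : Finset D).filter (fun x => g x = j)).card) :
    ∃ θ : D → Λ, ∀ l j,
      ((Finset.univ : Finset D).filter (fun x => θ x = l ∧ g x = j)).card = c l j := by
  classical
  have hcard : ∀ j, Fintype.card {x : D // g x = j} = Fintype.card (Σ l, Fin (c l j)) := by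
    intro j
    rw [Fintype.card_subtype, ← hc j, Fintype.card_sigma]
    simp
  let e : ∀ j, {x : D // g x = j} ≃ (Σ l, Fin (c l j)) := fun j => Fintype.equivOfCardEq (hcard j)
  refine ⟨fun x => (e (g x) ⟨x, rfl⟩).1, ?_⟩
  intro l j
  have hk : ∀ (k : ℕ) (z : {x : D // g x = j}) (hk : g z.1 = k),
      (e k ⟨z.1, hk⟩).1 = (e j z).1 := by
    intro k z hk
    have : k = j := hk.symm.trans z.2
    subst this
    rfl
  have s1 : ((Finset.univ : Finset D).filter
      (fun x => (e (g x) ⟨x, rfl⟩).1 = l ∧ g x = j)).card =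
      ((Finset.univ : Finset {x : D // g x = j}).filter (fun z => (e j z).1 = l)).card := by
    symm
    apply Finset.card_bij (fun z _ => z.1)
    · intro z hz
      rw [Finset.mem_filter] at hz ⊢
      exact ⟨Finset.mem_univ _, (hk _ z rfl).trans hz.2, z.2⟩
    · intro a _ b _ hab
      exact Subtype.ext hab
    · intro x hx
      rw [Finset.mem_filter] at hx
      refine ⟨⟨x, hx.2.2⟩, ?_, rfl⟩
      rw [Finset.mem_filter]
      exact ⟨Finset.mem_univ _, (hk _ ⟨x, hx.2.2⟩ rfl).symm.trans hx.2.1⟩
  have s2 : ((Finset.univ : Finset {x : D // g x = j}).filter (fun z => (e j z).1 = l)).card =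
      ((Finset.univ : Finset (Σ l, Fin (c l j))).filter (fun z => z.1 = l)).card := by
    apply Finset.card_bij (fun z _ => e j z)
    · intro z hz
      rw [Finset.mem_filter] at hz ⊢
      exact ⟨Finset.mem_univ _, hz.2⟩
    · intro a _ b _ hab
      exact (e j).injective hab
    · intro x hx
      rw [Finset.mem_filter] at hx
      refine ⟨(e j).symm x, ?_, by simp⟩
      rw [Finset.mem_filter]
      exact ⟨Finset.mem_univ _, by simpa using hx.2⟩
  have s3 : ((Finset.univ : Finset (Σ l, Fin (c l j))).filter (fun z => z.1 = l)).card =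
      c l j := by
    have h3 : ((Finset.univ : Finset (Σ l, Fin (c l j))).filter (fun z => z.1 = l)) =
        (Finset.univ : Finset (Fin (c l j))).image (fun y => (⟨l, y⟩ : Σ l, Fin (c l j))) := by
      ext ⟨l', y⟩
      simp only [Finset.mem_filter, Finset.mem_univ, true_and, Finset.mem_image]
      constructor
      · rintro rfl
        exact ⟨y, rfl⟩
      · rintro ⟨z, hz⟩
        exact (congrArg Sigma.fst hz).symm
    rw [h3, Finset.card_image_of_injective]
    · simp
    · intro a b hab
      simpa using hab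
  rw [s1, s2, s3]

/-- `e`-positivity with coefficients in `ℕ[q]`, uniformly in the number of variables. -/
def EPos (h : Fin n → ℕ) : Prop :=
  ∃ c : Nat.Partition n → Polynomial ℕ, ∀ N : ℕ, chromaticQSym h N =
    ∑ μ : Nat.Partition n, MvPolynomial.C ((c μ).map (Nat.castRingHom ℤ)) *
      MvPolynomial.esymmPart (Fin N) (Polynomial ℤ) μ

theorem of_EPos {h : Fin n → ℕ} (hm : Monotone h) (hE : EPos h) :
    ∃ θ : {σ : Equiv.Perm (Fin n) // σ ∈ descentSet h} → Nat.Partition n,
        ∀ N : ℕ, chromaticQSym h N =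
          ∑ σ : {σ : Equiv.Perm (Fin n) // σ ∈ descentSet h},
            MvPolynomial.C (Polynomial.X ^ ginv h σ.1) *
              MvPolynomial.esymmPart (Fin N) (Polynomial ℤ) (θ σ) := by
  classical
  obtain ⟨c, hc⟩ := hE
  have h1 := sum_coeff hm (fun μ => (c μ).map (Nat.castRingHom ℤ)) hc
  have h2 : ∀ j, ∑ μ, (c μ).coeff j =
      ((Finset.univ : Finset {σ : Equiv.Perm (Fin n) // σ ∈ descentSet h}).filter
        (fun x => ginv h x.1 = j)).card := by
    intro j
    have h3 := congrArg (fun p : Polynomial ℤ => p.coeff j) h1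
    simp only [Polynomial.finsetSum_coeff, Polynomial.coeff_map, Polynomial.coeff_X_pow] at h3
    have h4 : ∑ σ ∈ descentSet h, (if j = ginv h σ then (1 : ℤ) else 0) =
        (((Finset.univ : Finset {σ : Equiv.Perm (Fin n) // σ ∈ descentSet h}).filter
        (fun x => ginv h x.1 = j)).card : ℤ) := by
      rw [← Finset.sum_coe_sort]
      rw [Finset.card_filter]
      push_cast
      apply Finset.sum_congr rfl
      intro x _
      simp only [eq_comm]
    rw [h4] at h3
    have h5 : ((∑ μ, (c μ).coeff j : ℕ) : ℤ) = (((Finset.univ : Finset {σ : Equiv.Perm (Fin n) //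
        σ ∈ descentSet h}).filter (fun x => ginv h x.1 = j)).card : ℤ) := by
      rw [← h3]
      simp
    exact_mod_cast h5
  obtain ⟨θ, hθ⟩ := exists_theta (fun x : {σ : Equiv.Perm (Fin n) // σ ∈ descentSet h} =>
    ginv h x.1) (fun μ j => (c μ).coeff j) h2
  refine ⟨θ, ?_⟩
  intro N
  rw [hc N, ← Finset.sum_fiberwise_of_maps_to (s := Finset.univ) (t := Finset.univ) (g := θ)
    (fun _ _ => Finset.mem_univ _)]
  apply Finset.sum_congr rfl
  intro μ _
  have h6 : ∑ σ ∈ Finset.univ.filter (fun σ => θ σ = μ),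
      MvPolynomial.C (Polynomial.X ^ ginv h σ.1) *
              MvPolynomial.esymmPart (Fin N) (Polynomial ℤ) (θ σ) =
      ∑ σ ∈ Finset.univ.filter (fun σ => θ σ = μ),
      MvPolynomial.C (Polynomial.X ^ ginv h σ.1) *
              MvPolynomial.esymmPart (Fin N) (Polynomial ℤ) μ := by
    apply Finset.sum_congr rfl
    intro σ hσ
    rw [Finset.mem_filter] at hσ
    rw [hσ.2]
  rw [h6, ← Finset.sum_mul, ← map_sum]
  congr 2
  ext j
  rw [Polynomial.coeff_map, Polynomial.finsetSum_coeff]
  simp only [Polynomial.coeff_X_pow]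
  have h7 := hθ μ j
  rw [← h7, ← Finset.filter_filter, Finset.card_filter]
  push_cast
  apply Finset.sum_congr rfl
  intro x _
  simp only [eq_comm]

/-- S0081 follows from `EPos` for all Hessenberg functions. -/
theorem main_of_EPos (H : ∀ (n : ℕ) (h : Fin n → ℕ), IsHessenberg h → EPos h) :
    ∀ (n : ℕ) (h : Fin n → ℕ), IsHessenberg h →
      ∃ θ : {σ : Equiv.Perm (Fin n) // σ ∈ descentSet h} → Nat.Partition n,
        ∀ N : ℕ, chromaticQSym h N =
          ∑ σ : {σ : Equiv.Perm (Fin n) // σ ∈ descentSet h},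
            MvPolynomial.C (Polynomial.X ^ ginv h σ.1) *
              MvPolynomial.esymmPart (Fin N) (Polynomial ℤ) (θ σ) :=
  fun n h hh => of_EPos hh.1 (H n h hh)

end Crest.Agent.R059
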