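import Crest.Agent.R059.Bridge37
import Crest.Agent.R059.MutInit1
import Crest.Agent.R059.Stab
import Crest.Agent.R059.Theta

set_option autoImplicit false

open Crest.CombinatoricsR.UnitInterval

/-! (L5): from the positive cone for the normalised function `Wn` at `k = 1` to `EPos`. -/

namespace Crest.Agent.R059.MutFinal

open MvPolynomial Crest.Agent.R059.Pieri
open Crest.Agent.R059.Defl (ee W nb ind)
open Crest.Agent.R059.MutInit (Wn)

/-! ### `chr` and ring homomorphisms -/

section chrmap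

variable {R S : Type*} [CommRing R] [CommRing S] {n : ℕ}

theorem map_ew (φ : R →+* S) (q : R) (a b : ℕ) : φ (ew q a b) = ew (φ q) a b := by
  unfold ew
  split_ifs <;> simp

theorem map_chr (φ : R →+* S) (q : R) (x : ℕ → R) (h : Fin n → ℕ) (U : Finset (Fin n)) (N : ℕ) :
    φ (chr q x h U N) = chr (φ q) (fun i => φ (x i)) h U N := by
  unfold chr
  rw [map_sum]
  apply Finset.sum_congr rfl
  intro f _
  rw [map_mul, map_prod, map_prod]
  congr 1
  apply Finset.prod_congr rfl
  intro p _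
  exact map_ew φ q _ _

theorem map_E (φ : R →+* S) (x : ℕ → R) : ∀ N k : ℕ, φ (E x N k) = E (fun i => φ (x i)) N k := by
  intro N
  induction N with
  | zero => intro k; cases k <;> simp [E]
  | succ N ih =>
    intro k
    cases k with
    | zero => simp [E]
    | succ k => simp only [E, map_add, map_mul, ih]

end chrmap

/-! ### the field -/

/-- the polynomial ring in `x_1..x_N` over `ℤ[v]`. -/
abbrev Pv (N : ℕ) : Type := MvPolynomial (Fin N) (Polynomial ℤ)

/-- its fraction field. -/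
abbrev Kv (N : ℕ) : Type := FractionRing (Pv N)

/-- the parameter `v` (`q = v ^ 2`). -/
noncomputable def vv (N : ℕ) : Kv N := algebraMap (Pv N) (Kv N) (C Polynomial.X)

/-- the variables. -/
noncomputable def xx (N : ℕ) : ℕ → Kv N := fun i => algebraMap (Pv N) (Kv N) (xv N i)

theorem alg_inj (N : ℕ) : Function.Injective (algebraMap (Pv N) (Kv N)) :=
  IsFractionRing.injective (Pv N) (Kv N)

theorem vv_ne_zero (N : ℕ) : vv N ≠ 0 := by
  intro h
  have h1 : (C Polynomial.X : Pv N) = 0 := by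
    apply alg_inj N
    rw [map_zero]
    exact h
  rw [C_eq_zero] at h1
  exact Polynomial.X_ne_zero h1

theorem vv_pow_ne (N : ℕ) : ∀ m : ℕ, 0 < m → vv N ^ m ≠ 1 := by
  intro m hm h
  have h1 : (C ((Polynomial.X : Polynomial ℤ) ^ m) : Pv N) = C 1 := by
    apply alg_inj N
    rw [map_pow, map_pow, map_one, map_one]
    exact h
  have h2 := C_injective _ _ h1
  have h3 := congrArg Polynomial.natDegree h2
  rw [Polynomial.natDegree_X_pow, Polynomial.natDegree_one] at h3
  omega

/-- the positive cone: sums of `v ^ z * ∏ e`. -/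
noncomputable def PC (N : ℕ) : AddSubmonoid (Kv N) :=
  AddSubmonoid.closure {a | ∃ (z : ℤ) (l : List ℤ), a = vv N ^ z * (l.map (ee (xx N) N)).prod}

theorem mem_PC_of {N : ℕ} (z : ℤ) (l : List ℤ) : vv N ^ z * (l.map (ee (xx N) N)).prod ∈ PC N :=
  AddSubmonoid.subset_closure ⟨z, l, rfl⟩

theorem PC_vmul {N : ℕ} (z : ℤ) {a : Kv N} (ha : a ∈ PC N) : vv N ^ z * a ∈ PC N := by
  induction ha using AddSubmonoid.closure_induction with
  | mem a ha =>
    obtain ⟨y, l, rfl⟩ := ha
    rw [← mul_assoc, ← zpow_add₀ (vv_ne_zero N)]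
    exact mem_PC_of _ _
  | zero => rw [mul_zero]; exact (PC N).zero_mem
  | add a b _ _ ha hb => rw [mul_add]; exact (PC N).add_mem ha hb

/-! ### integral representatives -/

/-- nonnegative polynomials. -/
noncomputable def NN (N : ℕ) : Subsemiring (Pv N) :=
  (MvPolynomial.map (σ := Fin N) (Polynomial.mapRingHom (Nat.castRingHom ℤ))).rangeS

theorem NN_C_X (N : ℕ) (k : ℕ) : (C (Polynomial.X ^ k) : Pv N) ∈ NN N :=
  ⟨C (Polynomial.X ^ k), by simp⟩

theorem NN_X (N : ℕ) (i : Fin N) : (X i : Pv N) ∈ NN N := ⟨X i, by simp⟩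

theorem NN_coeff {N : ℕ} {Q : Pv N} (hQ : Q ∈ NN N) (m : Fin N →₀ ℕ) (k : ℕ) :
    0 ≤ (coeff m Q).coeff k := by
  obtain ⟨P, rfl⟩ := hQ
  rw [coeff_map, Polynomial.coe_mapRingHom, Polynomial.coeff_map]
  simp

/-- symmetric polynomial attached to `Q`. -/
noncomputable def sy (N : ℕ) (Q : Pv N) : Pv N := (esymmAlgHom (Fin N) (Polynomial ℤ) N Q).val

theorem sy_mul {N : ℕ} (P Q : Pv N) : sy N (P * Q) = sy N P * sy N Q := by
  simp [sy]

theorem sy_add {N : ℕ} (P Q : Pv N) : sy N (P + Q) = sy N P + sy N Q := by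
  simp [sy]

theorem sy_one {N : ℕ} : sy N 1 = 1 := by simp [sy]

theorem sy_zero {N : ℕ} : sy N 0 = 0 := by simp [sy]

theorem sy_C {N : ℕ} (a : Polynomial ℤ) : sy N (C a) = C a := by
  unfold sy
  rw [← MvPolynomial.algebraMap_eq, AlgHom.commutes]
  rfl

theorem sy_X {N : ℕ} (i : Fin N) : sy N (X i) = esymm (Fin N) (Polynomial ℤ) (i.val + 1) := by
  unfold sy
  rw [esymmAlgHom_apply, aeval_X]

theorem sy_inj {N : ℕ} : Function.Injective (sy N) := by
  intro P Q h
  exact esymmAlgHom_injective (σ := Fin N) (Polynomial ℤ) (n := N) (by simp) (Subtype.ext h)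

theorem ee_rep (N : ℕ) (a : ℤ) : ∃ Q ∈ NN N, ee (xx N) N a = algebraMap (Pv N) (Kv N) (sy N Q) := by
  unfold ee
  split_ifs with h
  · have h1 : E (xx N) N a.toNat = algebraMap (Pv N) (Kv N) (esymm (Fin N) (Polynomial ℤ) a.toNat) := by
      rw [← E_xv, map_E]
      rfl
    rw [h1]
    rcases Nat.eq_zero_or_pos a.toNat with h0 | h0
    · refine ⟨1, (NN N).one_mem, ?_⟩
      rw [h0, sy_one]
      simp
    · by_cases h2 : a.toNat ≤ N
      · refine ⟨X ⟨a.toNat - 1, by omega⟩, NN_X N _, ?_⟩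
        rw [sy_X]
        congr 3
        simp only
        omega
      · refine ⟨0, (NN N).zero_mem, ?_⟩
        rw [sy_zero, esymm_eq_zero_of (by omega)]
  · exact ⟨0, (NN N).zero_mem, by rw [sy_zero, map_zero]⟩
where
  esymm_eq_zero_of {N m : ℕ} (h : N < m) : esymm (Fin N) (Polynomial ℤ) m = 0 := by
    unfold esymm
    rw [Finset.powersetCard_eq_empty.2 (by simpa using h)]
    simp

theorem list_rep (N : ℕ) (l : List ℤ) :
    ∃ Q ∈ NN N, (l.map (ee (xx N) N)).prod = algebraMap (Pv N) (Kv N) (sy N Q) := by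
  induction l with
  | nil => exact ⟨1, (NN N).one_mem, by simp [sy_one]⟩
  | cons a l ih =>
    obtain ⟨Q, hQ, h1⟩ := ih
    obtain ⟨P, hP, h2⟩ := ee_rep N a
    refine ⟨P * Q, (NN N).mul_mem hP hQ, ?_⟩
    rw [List.map_cons, List.prod_cons, h1, h2, sy_mul, map_mul]

theorem vpow (N k : ℕ) : vv N ^ k = algebraMap (Pv N) (Kv N) (sy N (C (Polynomial.X ^ k))) := by
  rw [sy_C, vv, ← map_pow, ← map_pow]

theorem PC_rep {N : ℕ} {a : Kv N} (ha : a ∈ PC N) :
    ∃ (M : ℕ) (Q : Pv N), Q ∈ NN N ∧ vv N ^ M * a = algebraMap (Pv N) (Kv N) (sy N Q) := by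
  induction ha using AddSubmonoid.closure_induction with
  | mem a ha =>
    obtain ⟨z, l, rfl⟩ := ha
    obtain ⟨Q, hQ, h1⟩ := list_rep N l
    refine ⟨z.natAbs, C (Polynomial.X ^ (z.natAbs + z).toNat) * Q,
      (NN N).mul_mem (NN_C_X N _) hQ, ?_⟩
    rw [sy_mul, map_mul, ← vpow, h1, ← mul_assoc]
    congr 1
    rw [← zpow_natCast, ← zpow_natCast, ← zpow_add₀ (vv_ne_zero N)]
    congr 1
    omega
  | zero => exact ⟨0, 0, (NN N).zero_mem, by rw [sy_zero, map_zero, mul_zero]⟩
  | add a b _ _ ha hb =>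
    obtain ⟨M1, Q1, h1, e1⟩ := ha
    obtain ⟨M2, Q2, h2, e2⟩ := hb
    refine ⟨M1 + M2, C (Polynomial.X ^ M2) * Q1 + C (Polynomial.X ^ M1) * Q2,
      (NN N).add_mem ((NN N).mul_mem (NN_C_X N _) h1) ((NN N).mul_mem (NN_C_X N _) h2), ?_⟩
    rw [sy_add, sy_mul, sy_mul, map_add, map_mul, map_mul, ← vpow, ← vpow, ← e1, ← e2]
    ring

/-! ### the bridge -/

variable {n : ℕ}

theorem isW (R : Fin n → Fin n → Prop) [DecidableRel R] {K : Type*} [Field K] (q : K) (x : ℕ → K) :
    Bridge37.IsW R q x (fun k N => W R q x N k) := by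
  refine ⟨fun k => rfl, fun k N => ?_⟩
  show W R q x (N + 1) k = _
  rw [W, Finset.powerset_univ]
  apply Finset.sum_congr
  · ext S
    simp only [Finset.mem_filter, Finset.mem_univ, true_and]
    rfl
  · intro S _
    congr 1
    congr 2
    apply Finset.sum_congr rfl
    intro b _
    unfold nb
    rw [Finset.sum_filter]

theorem chr_eq_W {K : Type*} [Field K] (q : K) (x : ℕ → K) (h : Fin n → ℕ) (N : ℕ) :
    chr q x h Finset.univ N = W (Adj h) q x N (fun _ => 1) := by
  classical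
  have h1 := Bridge37.bridge (isW (Adj h) q x) h id
    (fun a b => ⟨fun h => Or.inr h, fun h => h.elim (fun h2 => absurd h2.2 h2.1.ne) id⟩)
    (fun a b h => h.1) N Finset.univ
  have hc : ∀ J : Fin n, (Finset.univ.filter (fun b : Fin n => id b = J)).card = 1 := by
    intro J
    rw [Finset.card_eq_one]
    exact ⟨J, by ext b; simp⟩
  have hk : Bridge37.kU (id : Fin n → Fin n) Finset.univ = fun _ => 1 := by
    funext J
    unfold Bridge37.kU
    rw [hc J]
    rfl
  rw [h1, hk]
  have h2 : ∏ J : Fin n, Bridge37.qfac q (Finset.univ.filter (fun b : Fin n => id b = J)).card = 1 := by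
    apply Finset.prod_eq_one
    intro J _
    rw [hc J]
    simp [Bridge37.qfac, Bridge37.qi]
  rw [h2, one_mul]

/-- `q ↦ v ^ 2`. -/
noncomputable def psi (N : ℕ) : Pv N →+* Pv N :=
  MvPolynomial.map (Polynomial.expand ℤ 2).toRingHom

theorem psi_chr (N : ℕ) (h : Fin n → ℕ) :
    chr (vv N ^ 2) (xx N) h Finset.univ N = algebraMap (Pv N) (Kv N) (psi N (chromaticQSym h N)) := by
  rw [chromatic_eq_chr, map_chr, map_chr]
  have h1 : algebraMap (Pv N) (Kv N) (psi N (C Polynomial.X)) = vv N ^ 2 := by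
    unfold psi vv
    rw [map_C, ← map_pow, ← map_pow]
    congr 2
    exact Polynomial.expand_X 2
  have h2 : (fun i => algebraMap (Pv N) (Kv N) (psi N (xv N i))) = xx N := by
    funext i
    unfold xx psi xv
    split_ifs
    · rw [map_X]
    · rw [map_zero]
  rw [h1, h2]

theorem psi_esymmPart {N : ℕ} (μ : Nat.Partition n) :
    psi N (esymmPart (Fin N) (Polynomial ℤ) μ) = esymmPart (Fin N) (Polynomial ℤ) μ := by
  unfold esymmPart psi
  rw [map_multiset_prod, Multiset.map_map]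
  congr 1
  apply Multiset.map_congr rfl
  intro p _
  exact map_esymm (Fin N) (Polynomial ℤ) p _

/-- **(L5)**: the positive cone gives `EPos`. -/
theorem EPos_of_PC (h : Fin n → ℕ) (hh : IsHessenberg h) {N : ℕ} (hN : n ≤ N)
    (hG : Wn (Adj h) (vv N) (xx N) N (fun _ => 1) ∈ PC N) : EPos h := by
  classical
  have hG2 : W (Adj h) (vv N ^ 2) (xx N) N (fun _ => 1) ∈ PC N := by
    have := PC_vmul (-(MutInit.th (Adj h) (fun _ => (1 : ℤ)))) hG
    unfold MutInit.Wn at this
    rwa [← mul_assoc, ← zpow_add₀ (vv_ne_zero N), neg_add_cancel, zpow_zero, one_mul] at this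
  rw [← chr_eq_W, psi_chr] at hG2
  obtain ⟨M, Q, hQ, e1⟩ := PC_rep hG2
  obtain ⟨c, hc⟩ := Stab.exists_expansion h hh
  rw [vpow, ← map_mul] at e1
  have e2 := alg_inj N e1
  have e3 : sy N (C (Polynomial.X ^ M)) * psi N (chromaticQSym h N) =
      sy N (∑ μ : Nat.Partition n, monomial (Palin.expo N μ)
        (Polynomial.X ^ M * Polynomial.expand ℤ 2 (c μ))) := by
    have hsum : ∀ s : Finset (Nat.Partition n), ∀ f : Nat.Partition n → Pv N,
        sy N (∑ μ ∈ s, f μ) = ∑ μ ∈ s, sy N (f μ) := by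
      intro s f
      unfold sy
      rw [map_sum]
      simp
    rw [hc N, map_sum, hsum, Finset.mul_sum]
    apply Finset.sum_congr rfl
    intro μ _
    rw [map_mul, psi_esymmPart, Palin.esymmPart_eq_prod hN μ]
    have h5 : psi N (C (c μ)) = C (Polynomial.expand ℤ 2 (c μ)) := by
      unfold psi
      rw [map_C]
      rfl
    have h6 : (monomial (Palin.expo N μ) (Polynomial.X ^ M * Polynomial.expand ℤ 2 (c μ)) : Pv N) =
        C (Polynomial.X ^ M) * (C (Polynomial.expand ℤ 2 (c μ)) * monomial (Palin.expo N μ) 1) := by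
      rw [C_mul_monomial, C_mul_monomial, mul_one]
    rw [h5, h6, sy_mul, sy_mul, sy_C (Polynomial.expand ℤ 2 (c μ))]
    rfl
  rw [e3] at e2
  have e4 := sy_inj e2
  have hpos : ∀ μ k, 0 ≤ (c μ).coeff k := by
    intro μ k
    have h7 := NN_coeff hQ (Palin.expo N μ) (2 * k + M)
    rw [← e4, coeff_sum, Finset.sum_eq_single μ] at h7
    · rw [coeff_monomial, if_pos rfl, Polynomial.coeff_X_pow_mul] at h7
      rwa [mul_comm 2 k, Polynomial.coeff_expand_mul (by norm_num)] at h7
    · intro ν _ hν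
      rw [coeff_monomial, if_neg (fun h8 => hν (Palin.expo_inj hN h8))]
    · intro h8
      exact absurd (Finset.mem_univ _) h8
  have h1 : ∀ μ, ∃ r : Polynomial ℕ, cast r = c μ := fun μ => Stab.exists_cast (c μ) (hpos μ)
  choose r hr using h1
  apply Stab.EPos_of_one hN h r
  rw [hc N]
  exact Finset.sum_congr rfl (fun μ _ => by rw [hr μ])

end Crest.Agent.R059.MutFinal
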