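import Crest.Agent.R059.MutInit1

set_option autoImplicit false

/-!
# Mutation game: initial seed, greedy first monomials and the terminal face
-/

namespace Crest.Agent.R059.MutInit2

open Finset Crest.Agent.R059.Defl

variable {ι : Type*} [LinearOrder ι] [Fintype ι]

variable {R : ι → ι → Prop} [DecidableRel R]

open Crest.Agent.R059.MutInit (LL LL_apply LL_skew)

theorem LL_eq (p p' : ι → ℤ) : LL R p p' = ∑ b, p' b * (nb R p b - nf R p b) := by
  rw [LL_skew, LL_apply, ← Finset.sum_neg_distrib]
  apply Finset.sum_congr rfl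
  intro b _
  ring

/-- the greedy stable set. -/
structure Greedy (R : ι → ι → Prop) (S0 : Finset ι) : Prop where
  st : St R S0
  cov : ∀ v, v ∉ S0 → ∃ a ∈ S0, R a v ∧ ∀ b ∈ S0, a < b → v < b

theorem exists_greedy (hR : UI R) : ∃ S0 : Finset ι, Greedy R S0 := by
  have key : ∀ V : Finset ι, ∃ S ⊆ V, St R S ∧
      ∀ v ∈ V, v ∉ S → ∃ a ∈ S, R a v ∧ ∀ b ∈ S, a < b → v < b := by
    intro V
    induction V using Finset.induction_on_max with
    | empty =>
      refine ⟨∅, Finset.Subset.refl _, ?_, ?_⟩
      · intro a ha; simp at ha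
      · intro v hv; simp at hv
    | insert m V hm ih =>
      obtain ⟨S, hSV, hst, hcov⟩ := ih
      by_cases h : ∃ a ∈ S, R a m
      · obtain ⟨a, haS, ham⟩ := h
        have hne : S.Nonempty := ⟨a, haS⟩
        set c := S.max' hne with hc
        have hcS : c ∈ S := S.max'_mem hne
        have hcm : R c m := by
          rcases lt_or_eq_of_le (S.le_max' a haS) with h | h
          · exact (hR.mid ham h (hm c (hSV hcS))).2
          · rw [← h] at hc; rw [hc]; exact ham
        refine ⟨S, hSV.trans (Finset.subset_insert _ _), hst, ?_⟩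
        intro v hv hvS
        rcases Finset.mem_insert.1 hv with rfl | hv
        · exact ⟨c, hcS, hcm, fun b hb hcb => absurd (S.le_max' b hb) (not_le.2 hcb)⟩
        · exact hcov v hv hvS
      · push Not at h
        refine ⟨insert m S, Finset.insert_subset_insert _ hSV, ?_, ?_⟩
        · intro a ha b hb hab
          rcases Finset.mem_insert.1 ha with rfl | ha
          · rcases Finset.mem_insert.1 hb with hb' | hb'
            · rw [hb'] at hab
              exact lt_irrefl _ (hR.lt hab)
            · exact absurd (hR.lt hab) (not_lt.2 (hm b (hSV hb')).le)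
          · rcases Finset.mem_insert.1 hb with hb' | hb'
            · rw [hb'] at hab
              exact h a ha hab
            · exact hst a ha b hb' hab
        · intro v hv hvS
          have hvm : v ≠ m := fun h => hvS (h ▸ Finset.mem_insert_self _ _)
          have hvV : v ∈ V := (Finset.mem_insert.1 hv).resolve_left hvm
          obtain ⟨a, ha, hav, hab⟩ := hcov v hvV (fun h => hvS (Finset.mem_insert_of_mem h))
          refine ⟨a, Finset.mem_insert_of_mem ha, hav, ?_⟩
          intro b hb hlt
          rcases Finset.mem_insert.1 hb with rfl | hb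
          · exact hm v hvV
          · exact hab b hb hlt
  obtain ⟨S, _, hst, hcov⟩ := key Finset.univ
  exact ⟨S, hst, fun v hv => hcov v (Finset.mem_univ v) hv⟩

/-- first monomials. -/
def ff (S0 : Finset ι) (a : ι) : ι → ℤ := ind (S0.filter (fun i => i ≤ a))

theorem st_filter {S0 : Finset ι} (h : Greedy R S0) (a : ι) :
    St R (S0.filter (fun i => i ≤ a)) := fun x hx y hy =>
  h.st x (Finset.mem_filter.1 hx).1 y (Finset.mem_filter.1 hy).1

theorem coef_nonneg (hR : UI R) {S0 : Finset ι} (h : Greedy R S0) (a b : ι) :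
    0 ≤ nb R (ff S0 a) b - nf R (ff S0 a) b := by
  unfold ff
  rw [nb_ind hR (st_filter h a), nf_ind hR (st_filter h a)]
  by_cases h2 : ∃ i ∈ S0.filter (fun i => i ≤ a), R b i
  · rw [if_pos h2]
    obtain ⟨i, hi, hbi⟩ := h2
    rw [Finset.mem_filter] at hi
    have hbS : b ∉ S0 := fun hb => h.st b hb i hi.1 hbi
    obtain ⟨c, hc, hcb, _⟩ := h.cov b hbS
    rw [if_pos]
    · simp
    · refine ⟨c, Finset.mem_filter.2 ⟨hc, ?_⟩, hcb⟩
      exact ((hR.lt hcb).trans (hR.lt hbi)).le.trans hi.2
  · rw [if_neg h2]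
    split_ifs <;> simp

theorem LL_ff_nonneg (hR : UI R) {S0 : Finset ι} (h : Greedy R S0) (a : ι) (p : ι → ℤ)
    (hp : ∀ v, 0 ≤ p v) : 0 ≤ LL R (ff S0 a) p := by
  rw [LL_eq]
  exact Finset.sum_nonneg (fun b _ => mul_nonneg (hp b) (coef_nonneg hR h a b))

/-- the last letter. -/
theorem LL_last_nonpos (hR : UI R) (l : ι) (hl : ∀ j, j ≤ l) (p : ι → ℤ)
    (hp : ∀ v, 0 ≤ p v) : LL R (ind {l}) p ≤ 0 := by
  have hst : St R ({l} : Finset ι) := by
    intro x hx y hy hxy
    rw [Finset.mem_singleton] at hx hy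
    subst hx; subst hy
    exact lt_irrefl _ (hR.lt hxy)
  rw [LL_eq]
  apply Finset.sum_nonpos
  intro b _
  rw [nb_ind hR hst, nf_ind hR hst, if_neg]
  · split_ifs
    · have := hp b; linarith
    · simp
  · rintro ⟨i, hi, hib⟩
    rw [Finset.mem_singleton] at hi
    subst hi
    exact absurd (hR.lt hib) (not_lt.2 (hl b))

/-- the first letter is a first monomial. -/
theorem supp_of_face (hR : UI R) {S0 : Finset ι} (h : Greedy R S0) (p : ι → ℤ)
    (hp : ∀ v, 0 ≤ p v) (h0 : ∀ a ∈ S0, LL R (ff S0 a) p = 0) (v : ι) (hv : v ∉ S0) :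
    p v = 0 := by
  obtain ⟨a, ha, hav, hab⟩ := h.cov v hv
  have h1 := h0 a ha
  rw [LL_eq] at h1
  have h2 := (Finset.sum_eq_zero_iff_of_nonneg
    (fun b _ => mul_nonneg (hp b) (coef_nonneg hR h a b))).1 h1 v (Finset.mem_univ v)
  have h3 : nb R (ff S0 a) v - nf R (ff S0 a) v = 1 := by
    unfold ff
    rw [nb_ind hR (st_filter h a), nf_ind hR (st_filter h a), if_pos, if_neg]
    · simp
    · rintro ⟨i, hi, hvi⟩
      exact absurd ((hR.lt hav).trans (hR.lt hvi)) (not_lt.2 (Finset.mem_filter.1 hi).2)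
    · exact ⟨a, Finset.mem_filter.2 ⟨ha, le_rfl⟩, hav⟩
  rw [h3, mul_one] at h2
  exact h2

/-- elements supported on the greedy set lie on the face. -/
theorem LL_ff_zero (hR : UI R) {S0 : Finset ι} (h : Greedy R S0) (a : ι) (p : ι → ℤ)
    (hp : ∀ v, v ∉ S0 → p v = 0) : LL R (ff S0 a) p = 0 := by
  rw [LL_eq]
  apply Finset.sum_eq_zero
  intro b _
  by_cases hb : b ∈ S0
  · unfold ff
    rw [nb_ind hR (st_filter h a), nf_ind hR (st_filter h a), if_neg, if_neg]
    · simp
    · rintro ⟨i, hi, hvi⟩
      exact h.st b hb i (Finset.mem_filter.1 hi).1 hvi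
    · rintro ⟨i, hi, hvi⟩
      exact h.st i (Finset.mem_filter.1 hi).1 b hb hvi
  · rw [hp b hb, zero_mul]

theorem ff_supp (S0 : Finset ι) (a v : ι) (hv : v ∉ S0) : ff S0 a v = 0 := by
  unfold ff ind
  rw [if_neg]
  intro h
  exact hv (Finset.mem_filter.1 h).1

theorem LL_ff_ff (hR : UI R) {S0 : Finset ι} (h : Greedy R S0) (a b : ι) :
    LL R (ff S0 a) (ff S0 b) = 0 :=
  LL_ff_zero hR h a _ (ff_supp S0 b)

/-- elements supported on the greedy set are in the span of the `f_a`. -/
theorem mem_span_ff (S0 : Finset ι) (p : ι → ℤ) (hp : ∀ v, v ∉ S0 → p v = 0) :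
    p ∈ AddSubgroup.closure ((fun a => ff S0 a) '' (S0 : Set ι)) := by
  have hs : ∀ a : ι, a ∈ S0 →
      (Pi.single a 1 : ι → ℤ) ∈ AddSubgroup.closure ((fun a => ff S0 a) '' (S0 : Set ι)) := by
    intro a
    induction a using WellFoundedLT.induction with
    | _ a ih =>
    intro ha
    have h1 : (Pi.single a 1 : ι → ℤ) = ff S0 a -
        ∑ i ∈ S0.filter (fun i => i < a), (Pi.single i 1 : ι → ℤ) := by
      funext v
      simp only [Pi.sub_apply, Finset.sum_apply, ff, ind, Finset.mem_filter]
      by_cases hv : v ∈ S0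
      · rcases lt_trichotomy v a with h | h | h
        · rw [Pi.single_eq_of_ne h.ne, if_pos ⟨hv, h.le⟩,
            Finset.sum_eq_single v, Pi.single_eq_same, sub_self]
          · intro b _ hb
            exact Pi.single_eq_of_ne (Ne.symm hb) _
          · intro h'
            exact absurd (Finset.mem_filter.2 ⟨hv, h⟩) h'
        · subst h
          rw [Pi.single_eq_same, if_pos ⟨hv, le_rfl⟩, Finset.sum_eq_zero, sub_zero]
          intro b hb
          exact Pi.single_eq_of_ne (Finset.mem_filter.1 hb).2.ne' _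
        · rw [Pi.single_eq_of_ne h.ne', if_neg (fun h' => not_le.2 h h'.2), Finset.sum_eq_zero,
            sub_zero]
          intro b hb
          exact Pi.single_eq_of_ne ((Finset.mem_filter.1 hb).2.trans h).ne' _
      · rw [Pi.single_eq_of_ne (by rintro rfl; exact hv ha), if_neg (fun h' => hv h'.1),
          Finset.sum_eq_zero, sub_zero]
        intro b hb
        exact Pi.single_eq_of_ne (by rintro rfl; exact hv (Finset.mem_filter.1 hb).1) _
    rw [h1]
    apply AddSubgroup.sub_mem
    · exact AddSubgroup.subset_closure ⟨a, ha, rfl⟩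
    · apply AddSubgroup.sum_mem
      intro i hi
      exact ih i (Finset.mem_filter.1 hi).2 (Finset.mem_filter.1 hi).1
  have h2 : p = ∑ a ∈ S0, p a • (Pi.single a 1 : ι → ℤ) := by
    funext v
    simp only [Finset.sum_apply, Pi.smul_apply, smul_eq_mul]
    by_cases hv : v ∈ S0
    · rw [Finset.sum_eq_single v, Pi.single_eq_same, mul_one]
      · intro b _ hb
        rw [Pi.single_eq_of_ne (Ne.symm hb), mul_zero]
      · intro h; exact absurd hv h
    · rw [hp v hv, Finset.sum_eq_zero]
      intro b hb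
      rw [Pi.single_eq_of_ne (by rintro rfl; exact hv hb), mul_zero]
  rw [h2]
  apply AddSubgroup.sum_mem
  intro a ha
  exact AddSubgroup.zsmul_mem _ (hs a ha) _

variable {F : Type*} [Field F]

/-- the value on monomials supported on a stable set. -/
theorem W_stable (q : F) (x : ℕ → F) (S0 : Finset ι) (hS0 : St R S0) (N : ℕ) (p : ι → ℤ)
    (hp : ∀ v, v ∉ S0 → p v = 0) : W R q x N p = ∏ v ∈ S0, ee x N (p v) := by
  induction N generalizing p with
  | zero =>
    show (if p = 0 then (1 : F) else 0) = _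
    simp only [ee_zero]
    split_ifs with h
    · subst h
      rw [Finset.prod_eq_one]
      intro v _
      exact if_pos rfl
    · have : ∃ v ∈ S0, p v ≠ 0 := by
        by_contra hc
        push Not at hc
        apply h
        funext v
        by_cases hv : v ∈ S0
        · exact hc v hv
        · exact hp v hv
      obtain ⟨v, hv, hne⟩ := this
      rw [Finset.prod_eq_zero hv]
      rw [if_neg hne]
  | succ N ih =>
    have h1 : W R q x (N + 1) p =
        ∑ S ∈ (Finset.univ : Finset ι).powerset.filter (fun S => St R S),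
          x N ^ S.card * q ^ (∑ b ∈ S, nb R p b) * W R q x N (p - ind S) := rfl
    have hsub : S0.powerset ⊆ (Finset.univ : Finset ι).powerset.filter (fun S => St R S) := by
      intro S hS
      rw [Finset.mem_powerset] at hS
      refine Finset.mem_filter.2 ⟨Finset.mem_powerset.2 (Finset.subset_univ _), ?_⟩
      exact fun a ha b hb => hS0 a (hS ha) b (hS hb)
    rw [h1, ← Finset.sum_subset hsub]
    · have h2 : ∀ S ∈ S0.powerset, x N ^ S.card * q ^ (∑ b ∈ S, nb R p b) *
          W R q x N (p - ind S) =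
          (∏ v ∈ S, x N * ee x N (p v - 1)) * ∏ v ∈ S0 \ S, ee x N (p v) := by
        intro S hS
        rw [Finset.mem_powerset] at hS
        have hnb : ∑ b ∈ S, nb R p b = 0 := by
          apply Finset.sum_eq_zero
          intro b hb
          unfold nb
          apply Finset.sum_eq_zero
          intro a _
          split_ifs with h
          · apply hp
            intro ha
            exact hS0 a ha b (hS hb) h
          · rfl
        rw [hnb, zpow_zero, mul_one, ih (p - ind S)]
        · rw [Finset.prod_mul_distrib, Finset.prod_const, mul_assoc]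
          congr 1
          rw [← Finset.prod_sdiff hS, mul_comm]
          congr 1
          · apply Finset.prod_congr rfl
            intro v hv
            congr 1
            simp [ind, hv]
          · apply Finset.prod_congr rfl
            intro v hv
            congr 1
            simp [ind, (Finset.mem_sdiff.1 hv).2]
        · intro v hv
          simp only [Pi.sub_apply, ind]
          rw [hp v hv, if_neg (fun h => hv (hS h)), sub_zero]
      rw [Finset.sum_congr rfl h2, ← Finset.prod_add]
      apply Finset.prod_congr rfl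
      intro v _
      rw [ee_succ]; ring
    · intro S _ hS
      rw [Finset.mem_powerset, Finset.not_subset] at hS
      obtain ⟨v, hv, hvS⟩ := hS
      rw [W_neg q x N (p - ind S) ⟨v, ?_⟩, mul_zero]
      simp only [Pi.sub_apply, ind]
      rw [hp v hvS, if_pos hv]
      norm_num

theorem ee_one_zero (x : ℕ → F) (N : ℕ) : ee x N 0 = 1 := by
  unfold ee
  rw [if_pos le_rfl]
  exact Pieri.E_zero x N

/-- value at the first monomials. -/
theorem W_ff (q : F) (x : ℕ → F) {S0 : Finset ι} (h : Greedy R S0) (N : ℕ) (a : ι) :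
    W R q x N (ff S0 a) = ee x N 1 ^ (S0.filter (fun i => i ≤ a)).card := by
  rw [W_stable q x S0 h.st N _ (ff_supp S0 a)]
  rw [← Finset.prod_filter_mul_prod_filter_not S0 (fun i => i ≤ a)]
  have e1 : ∏ v ∈ S0.filter (fun i => i ≤ a), ee x N (ff S0 a v) =
      ee x N 1 ^ (S0.filter (fun i => i ≤ a)).card := by
    rw [← Finset.prod_const]
    apply Finset.prod_congr rfl
    intro v hv
    unfold ff ind
    rw [if_pos hv]
  have e2 : ∏ v ∈ S0.filter (fun i => ¬ i ≤ a), ee x N (ff S0 a v) = 1 := by
    apply Finset.prod_eq_one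
    intro v hv
    unfold ff ind
    rw [if_neg, ee_one_zero]
    intro h
    exact (Finset.mem_filter.1 hv).2 (Finset.mem_filter.1 h).2
  rw [e1, e2, mul_one]

theorem W_nonneg_of_ne (q : F) (x : ℕ → F) (N : ℕ) (p : ι → ℤ) (h : W R q x N p ≠ 0) (v : ι) :
    0 ≤ p v := by
  by_contra hv
  exact h (W_neg q x N p ⟨v, not_le.1 hv⟩)

/-- value on the full face. -/
theorem W_face (hR : UI R) (q : F) (x : ℕ → F) {S0 : Finset ι} (h : Greedy R S0) (N : ℕ)
    (p : ι → ℤ) (h0 : ∀ a ∈ S0, LL R (ff S0 a) p = 0) :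
    W R q x N p = 0 ∨ ((∀ v, v ∉ S0 → p v = 0) ∧ W R q x N p = ∏ v ∈ S0, ee x N (p v)) := by
  by_cases hW : W R q x N p = 0
  · exact Or.inl hW
  · right
    have hs : ∀ v, v ∉ S0 → p v = 0 :=
      supp_of_face hR h p (W_nonneg_of_ne q x N p hW) h0
    exact ⟨hs, W_stable q x S0 h.st N p hs⟩

theorem th_stable {S0 : Finset ι} (hS0 : St R S0) (p : ι → ℤ)
    (hp : ∀ v, v ∉ S0 → p v = 0) : MutInit.th R p = 0 := by
  unfold MutInit.th
  rw [neg_eq_zero]
  apply Finset.sum_eq_zero
  intro j _
  by_cases hj : j ∈ S0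
  · have : nb R p j = 0 := by
      unfold nb
      apply Finset.sum_eq_zero
      intro a _
      split_ifs with h
      · apply hp
        intro ha
        exact hS0 a ha j hj h
      · rfl
    rw [this, mul_zero]
  · rw [hp j hj, zero_mul]

/-- the normalised value on monomials supported on a stable set. -/
theorem Wn_stable (v : F) (x : ℕ → F) (S0 : Finset ι) (hS0 : St R S0) (N : ℕ) (p : ι → ℤ)
    (hp : ∀ v, v ∉ S0 → p v = 0) : MutInit.Wn R v x N p = ∏ v ∈ S0, ee x N (p v) := by
  show v ^ MutInit.th R p * W R (v ^ 2) x N p = _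
  rw [th_stable hS0 p hp, zpow_zero, one_mul, W_stable (v ^ 2) x S0 hS0 N p hp]

/-- value at the first monomials. -/
theorem Wn_ff (v : F) (x : ℕ → F) {S0 : Finset ι} (h : Greedy R S0) (N : ℕ) (a : ι) :
    MutInit.Wn R v x N (ff S0 a) = ee x N 1 ^ (S0.filter (fun i => i ≤ a)).card := by
  show v ^ MutInit.th R (ff S0 a) * W R (v ^ 2) x N (ff S0 a) = _
  rw [th_stable h.st _ (ff_supp S0 a), zpow_zero, one_mul, W_ff (v ^ 2) x h N a]

theorem Wn_nonneg_of_ne (v : F) (x : ℕ → F) (N : ℕ) (p : ι → ℤ)
    (h : MutInit.Wn R v x N p ≠ 0) (a : ι) : 0 ≤ p a := by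
  apply W_nonneg_of_ne (R := R) (v ^ 2) x N p _ a
  intro h0
  apply h
  show v ^ MutInit.th R p * W R (v ^ 2) x N p = 0
  rw [h0, mul_zero]

/-- normalised value on the full face. -/
theorem Wn_face (hR : UI R) (v : F) (x : ℕ → F) {S0 : Finset ι} (h : Greedy R S0) (N : ℕ)
    (p : ι → ℤ) (h0 : ∀ a ∈ S0, LL R (ff S0 a) p = 0) :
    MutInit.Wn R v x N p = 0 ∨
      ((∀ v, v ∉ S0 → p v = 0) ∧ MutInit.Wn R v x N p = ∏ v ∈ S0, ee x N (p v)) := by
  by_cases hW : MutInit.Wn R v x N p = 0
  · exact Or.inl hW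
  · right
    have hs : ∀ v, v ∉ S0 → p v = 0 :=
      supp_of_face hR h p (Wn_nonneg_of_ne v x N p hW) h0
    exact ⟨hs, Wn_stable v x S0 h.st N p hs⟩

end Crest.Agent.R059.MutInit2
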