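import Mathlib

/-!
# Mutation game, (K) chain lemma and (GD) good direction theorem (graph seed)

Pure finite-support combinatorics: regularity enters only through
`WReg L S z` (a row of level `-l < 0` has length at least `l`).
-/

set_option autoImplicit false

namespace Crest.Agent.R059.MutK

open Finset

variable {M : Type*} [AddCommGroup M]

/-- Weak regularity of the support `S` in the direction `z`. -/
def WReg (L : M →+ M →+ ℤ) (S : Set M) (z : M) : Prop :=
  ∀ p ∈ S, L z p < 0 → ∃ i j : ℤ, p + i • z ∈ S ∧ p + j • z ∈ S ∧ - L z p ≤ j - i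

/-- Faces defined by a functional which kills `z` inherit weak regularity at `z`. -/
theorem WReg.face {L : M →+ M →+ ℤ} {S : Set M} {z : M} (h : WReg L S z) (φ : M →+ ℤ)
    (hφ : φ z = 0) (P : ℤ → Prop) : WReg L {p | p ∈ S ∧ P (φ p)} z := by
  rintro p ⟨hp, hP⟩ hneg
  obtain ⟨i, j, hi, hj, hij⟩ := h p hp hneg
  have e : ∀ t : ℤ, φ (p + t • z) = φ p := by
    intro t
    rw [map_add, map_zsmul, hφ]
    simp
  exact ⟨i, j, ⟨hi, by rw [e]; exact hP⟩, ⟨hj, by rw [e]; exact hP⟩, hij⟩

/-- (K), one sided form: along a chain `w a, …, w (a+d)` with `L (w i) (w (i+1)) = 1`. -/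
theorem chain (L : M →+ M →+ ℤ) (hskew : ∀ x y, L x y = - L y x)
    (w : ℕ → M) (co : ℕ → M →+ ℤ) (A : ℤ) :
    ∀ (d a : ℕ) (S : Set M), S.Finite → S.Nonempty →
      (∀ i, a ≤ i → i < a + d → L (w i) (w (i + 1)) = 1) →
      (∀ i, a ≤ i → i < a + d → co i (w i) = 1) →
      (∀ i j, a ≤ i → i < j → j ≤ a + d → co i (w j) = 0) →
      (∀ i, a ≤ i → i < a + d → WReg L S (w (i + 1) - w i)) →
      (∀ p ∈ S, A ≤ L (w a) p) → ∃ p ∈ S, A ≤ L (w (a + d)) p := by
  intro d
  induction d with
  | zero =>
    intro a S _ hne _ _ _ _ hA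
    obtain ⟨p, hp⟩ := hne
    exact ⟨p, hp, hA p hp⟩
  | succ d ih =>
    intro a S hfin hne hL hco1 hco0 hreg hA
    obtain ⟨p0, hp0, hmin⟩ := Set.exists_min_image S (fun p => co a p) hfin hne
    set S' : Set M := {p | p ∈ S ∧ (fun x : ℤ => x = co a p0) (co a p)} with hS'
    have hxx : ∀ x, L x x = 0 := by
      intro x
      have := hskew x x
      omega
    have hcoy : co a (w (a + 1) - w a) = -1 := by
      rw [map_sub, hco1 a le_rfl (by omega), hco0 a (a + 1) le_rfl (by omega) (by omega)]
      norm_num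
    have hLy : L (w a) (w (a + 1) - w a) = 1 := by
      rw [map_sub, hL a le_rfl (by omega), hxx]
      norm_num
    have hA' : ∀ p ∈ S', A ≤ L (w (a + 1)) p := by
      rintro p ⟨hp, hpe⟩
      have hpe' : co a p = co a p0 := hpe
      have hyp : L (w (a + 1) - w a) p = L (w (a + 1)) p - L (w a) p := by
        rw [map_sub, AddMonoidHom.sub_apply]
      by_cases hneg : L (w (a + 1) - w a) p < 0
      · obtain ⟨i, j, hi, hj, hij⟩ := hreg a le_rfl (by omega) p hp hneg
        have h1 := hmin _ hj
        have h2 : co a (p + j • (w (a + 1) - w a)) = co a p - j := by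
          rw [map_add, map_zsmul, hcoy, smul_eq_mul]
          ring
        have h3 := hA _ hi
        have h4 : L (w a) (p + i • (w (a + 1) - w a)) = L (w a) p + i := by
          rw [map_add, map_zsmul, hLy, smul_eq_mul]
          ring
        rw [h2] at h1
        rw [h4] at h3
        omega
      · have := hA p hp
        omega
    have hreg' : ∀ i, a + 1 ≤ i → i < a + 1 + d → WReg L S' (w (i + 1) - w i) := by
      intro i hi1 hi2
      refine (hreg i (by omega) (by omega)).face (co a) ?_ (fun x : ℤ => x = co a p0)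
      rw [map_sub, hco0 a (i + 1) le_rfl (by omega) (by omega),
        hco0 a i le_rfl (by omega) (by omega)]
      norm_num
    obtain ⟨p, hp, hpA⟩ := ih (a + 1) S' (hfin.subset (fun p hp => hp.1)) ⟨p0, hp0, rfl⟩
      (fun i h1 h2 => hL i (by omega) (by omega))
      (fun i h1 h2 => hco1 i (by omega) (by omega))
      (fun i j h1 h2 h3 => hco0 i j (by omega) h2 (by omega)) hreg' hA'
    refine ⟨p, hp.1, ?_⟩
    have e : a + (d + 1) = a + 1 + d := by ring
    rw [e]
    exact hpA

/-- (K): `min_S L (w a) ≤ max_S L (w b)`. -/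
theorem chain_le (L : M →+ M →+ ℤ) (hskew : ∀ x y, L x y = - L y x)
    (w : ℕ → M) (co : ℕ → M →+ ℤ) (A B : ℤ) (a b : ℕ) (hab : a ≤ b)
    (S : Set M) (hfin : S.Finite) (hne : S.Nonempty)
    (hL : ∀ i, a ≤ i → i < b → L (w i) (w (i + 1)) = 1)
    (hco1 : ∀ i, a ≤ i → i < b → co i (w i) = 1)
    (hco0 : ∀ i j, a ≤ i → i < j → j ≤ b → co i (w j) = 0)
    (hreg : ∀ i, a ≤ i → i < b → WReg L S (w (i + 1) - w i))
    (hA : ∀ p ∈ S, A ≤ L (w a) p) (hB : ∀ p ∈ S, L (w b) p ≤ B) : A ≤ B := by
  obtain ⟨d, rfl⟩ := Nat.exists_eq_add_of_le hab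
  obtain ⟨p, hp, hpA⟩ := chain L hskew w co A d a S hfin hne hL hco1 hco0 hreg hA
  exact hpA.trans (hB p hp)

/-- (GD): the greedy face is met by every weakly regular finite nonempty support on which all
greedy functionals are nonnegative and the last letter is nonpositive. `h a` is the first index
beyond the neighbourhood of `a`; `g` is the greedy sequence. -/
theorem gd (L : M →+ M →+ ℤ) (hskew : ∀ x y, L x y = - L y x) (n : ℕ)
    (w : ℕ → M) (co : ℕ → M →+ ℤ) (h g : ℕ → ℕ)
    (hh : ∀ a, a < n → a < h a)
    (hconn : ∀ a, a + 1 < n → L (w a) (w (a + 1)) = 1)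
    (hzero : ∀ a b, a < n → h a ≤ b → b < n → L (w a) (w b) = 0)
    (hco1 : ∀ i, i < n → co i (w i) = 1)
    (hco0 : ∀ i j, i < j → j < n → co i (w j) = 0)
    (S : Set M) (hfin : S.Finite) (hne : S.Nonempty)
    (hreg : ∀ i, i + 1 < n → WReg L S (w (i + 1) - w i))
    (hg : ∀ j, g (j + 1) = h (g j))
    (hf : ∀ j, (∀ i, i ≤ j → g i < n) → ∀ p ∈ S, 0 ≤ ∑ i ∈ range (j + 1), L (w (g i)) p)
    (hl : ∀ p ∈ S, L (w (n - 1)) p ≤ 0) :
    ∃ p ∈ S, ∀ j, (∀ i, i ≤ j → g i < n) → L (w (g j)) p = 0 := by
  have key : ∀ (m j : ℕ) (F : Set M), F ⊆ S → F.Nonempty → (∀ i, i < j → g i < n) →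
      (∀ i, i < j → ∀ p ∈ F, L (w (g i)) p = 0) →
      (∀ i, g j ≤ i → i + 1 < n → WReg L F (w (i + 1) - w i)) → n - g j ≤ m →
      ∃ p ∈ F, ∀ j', (∀ i, i ≤ j' → g i < n) → L (w (g j')) p = 0 := by
    intro m
    induction m with
    | zero =>
      intro j F hFS hF hgj hz _ hm
      obtain ⟨p, hp⟩ := hF
      refine ⟨p, hp, fun j' hj' => ?_⟩
      by_cases hjj : j' < j
      · exact hz j' hjj p hp
      · have := hj' j (by omega)
        omega
    | succ m ih =>
      intro j F hFS hF hgj hz hregF hm
      by_cases hjn : g j < n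
      · obtain ⟨p0, hp0, hmin⟩ :=
          Set.exists_min_image F (fun p => L (w (g j)) p) (hfin.subset hFS) hF
        have h0 : 0 ≤ L (w (g j)) p0 := by
          have h1 := hf j (fun i hi => by
            rcases Nat.lt_or_ge i j with h2 | h2
            · exact hgj i h2
            · have : i = j := by omega
              subst this; exact hjn) p0 (hFS hp0)
          rw [sum_range_succ, sum_eq_zero (fun i hi => hz i (mem_range.1 hi) p0 hp0)] at h1
          simpa using h1
        have h1 : L (w (g j)) p0 ≤ 0 := by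
          refine chain_le L hskew w co (L (w (g j)) p0) 0 (g j) (n - 1) (by omega) F
            (hfin.subset hFS) hF ?_ ?_ ?_ ?_ (fun p hp => hmin p hp)
            (fun p hp => hl p (hFS hp))
          · intro i _ hi2
            exact hconn i (by omega)
          · intro i _ hi2
            exact hco1 i (by omega)
          · intro i k _ hik hk
            exact hco0 i k hik (by omega)
          · intro i hi1 hi2
            exact hregF i hi1 (by omega)
        have h2 : L (w (g j)) p0 = 0 := le_antisymm h1 h0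
        obtain ⟨p, hp, hpp⟩ := ih (j + 1)
          {p | p ∈ F ∧ (fun x : ℤ => x = 0) (L (w (g j)) p)} (fun p hp => hFS hp.1)
          ⟨p0, hp0, h2⟩
          (fun i hi => by
            rcases Nat.lt_or_ge i j with h3 | h3
            · exact hgj i h3
            · have : i = j := by omega
              subst this; exact hjn)
          (fun i hi p hp => by
            rcases Nat.lt_or_ge i j with h3 | h3
            · exact hz i h3 p hp.1
            · have : i = j := by omega
              subst this; exact hp.2)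
          (fun i hi1 hi2 => by
            rw [hg] at hi1
            have hlt := hh (g j) hjn
            refine (hregF i (by omega) hi2).face (L (w (g j))) ?_ (fun x : ℤ => x = 0)
            rw [map_sub, hzero (g j) (i + 1) hjn (by omega) hi2,
              hzero (g j) i hjn hi1 (by omega)]
            norm_num)
          (by
            have hlt := hh (g j) hjn
            rw [hg]
            omega)
        exact ⟨p, hp.1, hpp⟩
      · obtain ⟨p, hp⟩ := hF
        refine ⟨p, hp, fun j' hj' => ?_⟩
        by_cases hjj : j' < j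
        · exact hz j' hjj p hp
        · have := hj' j (by omega)
          omega
  exact key (n - g 0) 0 S (fun p hp => hp) hne (fun i hi => by omega)
    (fun i hi => by omega) (fun i _ hi2 => hreg i hi2) le_rfl

end Crest.Agent.R059.MutK
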