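import Crest.Agent.R059.MutE
import Crest.Agent.R059.MutK
import Crest.Agent.R059.MutInit2

set_option autoImplicit false

/-! The initial seed of a connected unit interval graph satisfies the invariant of the game. -/

namespace Crest.Agent.R059.MutG

open Finset Function Crest.Agent.R059.Mut Crest.Agent.R059.MutInit Crest.Agent.R059.MutInit2
  Crest.Agent.R059.Defl

variable {n : ℕ} {R : Fin (n + 1) → Fin (n + 1) → Prop} [DecidableRel R]

/-- the consecutive differences. -/
def Y0 (n : ℕ) (i : Fin n) : Fin (n + 1) → ℤ := yv i.castSucc i.succ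

theorem Y0_apply (i : Fin n) (v : Fin (n + 1)) :
    Y0 n i v = (if v = i.succ then 1 else 0) - (if v = i.castSucc then 1 else 0) := by
  simp [Y0, yv, ind]

theorem LI_Y0 : LI (Y0 n) := by
  intro a ha i
  have h1 : ∑ v ∈ univ.filter (fun v : Fin (n + 1) => i.castSucc < v),
      (∑ j, a j • Y0 n j) v = 0 := by
    rw [ha]; simp
  have h2 : ∀ j : Fin n, ∑ v ∈ univ.filter (fun v : Fin (n + 1) => i.castSucc < v),
      Y0 n j v = if j = i then 1 else 0 := by
    intro j
    simp only [Y0_apply, sum_sub_distrib, Finset.sum_ite_eq', mem_filter, mem_univ, true_and]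
    simp only [Fin.lt_def, Fin.val_castSucc, Fin.val_succ, Fin.ext_iff]
    split_ifs <;> omega
  simp only [Finset.sum_apply, Pi.smul_apply, smul_eq_mul] at h1
  rw [sum_comm] at h1
  simp only [← mul_sum, h2] at h1
  simpa using h1

variable {K : Type} [Field K]

theorem reg_init (hR : UI R) (hconn : ∀ i : Fin n, R i.castSucc i.succ) (v : K) (hv : v ≠ 0)
    (x : ℕ → K) (N : ℕ) : RegAll v (LL R) (Y0 n) (Wn R v x N) := by
  intro i
  exact Wn_Reg hR v hv x (hconn i) (fun c h1 h2 => by
    simp only [Fin.lt_def, Fin.val_castSucc, Fin.val_succ] at h1 h2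
    omega) N

theorem LL_single (a b : Fin (n + 1)) :
    LL R (ind {a}) (ind {b}) = (if R a b then 1 else 0) - (if R b a then 1 else 0) := by
  rw [LL_ind, sum_singleton]
  unfold nf nb ind
  simp only [mem_singleton]
  congr 1
  · rw [Finset.sum_eq_single b]
    · simp
    · intro c _ hc; simp [hc]
    · simp
  · rw [Finset.sum_eq_single b]
    · simp
    · intro c _ hc; simp [hc]
    · simp

/-- **good direction property of the initial seed.** -/
theorem gd_init (hR : UI R) (hconn : ∀ i : Fin n, R i.castSucc i.succ) {v : K} (hv : NR v)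
    {S0 : Finset (Fin (n + 1))} (hS : Greedy R S0) {A : Type*} [AddCommGroup A] [Module K A] :
    GDp v (LL R) A (Y0 n) (fun a : S0 => ff S0 a.1) (fun _ : Unit => ind {Fin.last n}) := by
  intro Z hfin hne hreg hf hl
  set w : ℕ → (Fin (n + 1) → ℤ) := fun i => if h : i < n + 1 then ind {⟨i, h⟩} else 0 with hw
  set co : ℕ → (Fin (n + 1) → ℤ) →+ ℤ :=
    fun i => if h : i < n + 1 then Pi.evalAddMonoidHom (fun _ => ℤ) ⟨i, h⟩ else 0 with hco
  have hw1 : ∀ (i : ℕ) (h : i < n + 1), w i = ind {⟨i, h⟩} := fun i h => dif_pos h
  have hco1 : ∀ (i : ℕ) (h : i < n + 1) (p), co i p = p ⟨i, h⟩ := fun i h p => by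
    have : co i = Pi.evalAddMonoidHom (fun _ => ℤ) ⟨i, h⟩ := dif_pos h
    rw [this]; rfl
  have hasym : ∀ a b, R a b → ¬ R b a := fun a b h1 h2 => absurd (hR.lt h1) (not_lt.2 (hR.lt h2).le)
  have hadj : ∀ i, i < n → LL R (w i) (w (i + 1)) = 1 := by
    intro i h
    rw [hw1 i (by omega), hw1 (i + 1) (by omega), LL_single]
    have h1 : R ⟨i, by omega⟩ ⟨i + 1, by omega⟩ := hconn ⟨i, h⟩
    rw [if_pos h1, if_neg (hasym _ _ h1)]
    ring
  have hyw : ∀ (i : ℕ) (h : i < n), w (i + 1) - w i = Y0 n ⟨i, h⟩ := by
    intro i h
    rw [hw1 i (by omega), hw1 (i + 1) (by omega)]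
    rfl
  have key : ∀ k : ℕ, k ≤ n + 1 → ∃ p, Z p ≠ 0 ∧ ∀ b ∈ S0, b.val < k → LL R (ind {b}) p = 0 := by
    intro k
    induction k with
    | zero => intro _; obtain ⟨p, hp⟩ := hne; exact ⟨p, hp, fun b _ h => by omega⟩
    | succ k ih =>
      intro hk
      obtain ⟨p0, hp0, hp0'⟩ := ih (by omega)
      by_cases hkS : (⟨k, by omega⟩ : Fin (n + 1)) ∈ S0
      · set a : Fin (n + 1) := ⟨k, by omega⟩ with ha
        set S : Set (Fin (n + 1) → ℤ) :=
          {p | Z p ≠ 0 ∧ ∀ b ∈ S0, b.val < k → LL R (ind {b}) p = 0} with hSdef
        by_contra hcon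
        push Not at hcon
        -- on `S`, `L (u_a) ≥ 1`
        have hA : ∀ p ∈ S, 1 ≤ LL R (w k) p := by
          rintro p ⟨hp, hp'⟩
          obtain ⟨b, hb, hbk, hne'⟩ := hcon p hp
          have hba : b = a := by
            apply Fin.ext
            by_contra h
            exact hne' (hp' b hb (by have : b.val ≠ k := h; omega))
          rw [hw1 k (by omega)]
          have h1 := hf ⟨a, hkS⟩ p hp
          have h2 : LL R (ff S0 a) p = LL R (ind {a}) p := by
            unfold ff
            rw [LL_ind, LL_ind, sum_singleton]
            rw [Finset.sum_eq_single a]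
            · intro c hc hca
              rw [mem_filter] at hc
              have h3 := hp' c hc.1 (by
                have h4 := hc.2
                rw [Fin.le_def] at h4
                have h5 : c.val ≠ k := fun h => hca (Fin.ext h)
                have h6 : a.val = k := rfl
                omega)
              rw [LL_ind, sum_singleton] at h3
              exact h3
            · intro h
              exfalso
              apply h
              rw [mem_filter]
              exact ⟨hkS, le_rfl⟩
          simp only at h1
          rw [h2] at h1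
          rw [hba] at hne'
          have : a = (⟨k, by omega⟩ : Fin (n + 1)) := rfl
          rw [← this]
          omega
        obtain ⟨p, hpS, hp⟩ := MutK.chain (LL R) (LL_skew R) w co 1 (n - k) k S
          (hfin.subset (fun p hp => hp.1)) ⟨p0, hp0, hp0'⟩
          (fun i h1 h2 => hadj i (by omega))
          (fun i h1 h2 => by rw [hco1 i (by omega), hw1 i (by omega)]; simp [ind])
          (fun i j h1 h2 h3 => by
            rw [hco1 i (by omega), hw1 j (by omega)]
            simp only [ind, mem_singleton]
            rw [if_neg]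
            intro h
            rw [Fin.ext_iff] at h
            simp only at h
            omega)
          (fun i h1 h2 => by
            rw [hyw i (by omega)]
            rintro p ⟨hp, hp'⟩ hneg
            obtain ⟨i1, j1, hi1, hj1, hij⟩ := (hreg ⟨i, by omega⟩).long hv (LI_Y0.nt _) hfin hp hneg
            have h0 : ∀ b ∈ S0, b.val < k → ∀ t : ℤ,
                LL R (ind {b}) (p + t • Y0 n ⟨i, by omega⟩) = 0 := by
              intro b hb hbk t
              rw [map_add, map_zsmul, hp' b hb hbk, zero_add]
              have h5 : ¬ R b a := hS.st b hb a hkS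
              have h6 : ∀ c : Fin (n + 1), k ≤ c.val → ¬ R b c := by
                intro c hc hbc
                by_cases hca : c = a
                · exact h5 (hca ▸ hbc)
                · exact h5 (hR.mid hbc (Fin.lt_def.2 (by show b.val < k; exact hbk))
                    (Fin.lt_def.2 (by
                      have : c.val ≠ k := fun h => hca (Fin.ext h)
                      show k < c.val
                      omega))).1
              have h7 : ∀ c : Fin (n + 1), k ≤ c.val → ¬ R c b := by
                intro c hc hcb
                have := hR.lt hcb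
                rw [Fin.lt_def] at this
                omega
              have h8 : LL R (ind {b}) (Y0 n ⟨i, by omega⟩) = 0 := by
                unfold Y0 yv
                rw [map_sub, LL_single, LL_single]
                rw [if_neg (h6 _ (by simp only [Fin.val_succ]; omega)),
                  if_neg (h7 _ (by simp only [Fin.val_succ]; omega)),
                  if_neg (h6 _ (by simp only [Fin.val_castSucc]; omega)),
                  if_neg (h7 _ (by simp only [Fin.val_castSucc]; omega))]
                ring
              rw [h8, smul_zero]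
            exact ⟨i1, j1, ⟨hi1, fun b hb hbk => h0 b hb hbk i1⟩,
              ⟨hj1, fun b hb hbk => h0 b hb hbk j1⟩, hij⟩)
          hA
        have h9 := hl () p hpS.1
        have h10 : k + (n - k) = n := by omega
        rw [h10, hw1 n (by omega)] at hp
        have h11 : (⟨n, by omega⟩ : Fin (n + 1)) = Fin.last n := rfl
        rw [h11] at hp
        simp only at h9
        omega
      · refine ⟨p0, hp0, fun b hb hbk => ?_⟩
        rcases Nat.lt_or_ge b.val k with h | h
        · exact hp0' b hb h
        · exfalso
          apply hkS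
          have : b = ⟨k, by omega⟩ := Fin.ext (by simp only; omega)
          rw [← this]; exact hb
  obtain ⟨p, hp, hp'⟩ := key (n + 1) le_rfl
  intro a
  refine ⟨p, hp, ?_⟩
  have : LL R (ff S0 a.1) p = 0 := by
    unfold ff
    rw [LL_ind]
    apply sum_eq_zero
    intro c hc
    rw [mem_filter] at hc
    have := hp' c hc.1 c.isLt
    rwa [LL_ind, sum_singleton] at this
  exact this.le

/-- **the invariant holds initially.** -/
theorem inv_init (hR : UI R) (hconn : ∀ i : Fin n, R i.castSucc i.succ) {v : K} (hv : NR v)
    {S0 : Finset (Fin (n + 1))} (hS : Greedy R S0) (x : ℕ → K) (N : ℕ) (C : AddSubmonoid K)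
    (hx : ee x N 1 ≠ 0)
    (hC : ∀ p : Fin (n + 1) → ℤ, ∏ v ∈ S0, ee x N (p v) ∈ C) :
    Inv v (LL R) C (Y0 n) (fun a : S0 => ff S0 a.1) (fun _ : Unit => ind {Fin.last n})
      (Wn R v x N) where
  li := LI_Y0
  fin := Wn_support v hv.1 x N
  reg := reg_init hR hconn v hv.1 x N
  face := by
    refine ⟨?_, ?_, ?_, ?_⟩
    · intro j p hp
      exact LL_ff_nonneg hR hS j.1 p (fun a => Wn_nonneg_of_ne v x N p hp a)
    · intro j
      rw [Wn_ff v x hS N j.1]
      exact pow_ne_zero _ hx
    · intro p h0 hne
      rcases Wn_face hR v x hS N p (fun a ha => h0 ⟨a, ha⟩) with h | ⟨h, _⟩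
      · exact absurd h hne
      · have h1 := mem_span_ff S0 p h
        have h2 : (fun a => ff S0 a) '' (S0 : Set (Fin (n + 1))) =
            Set.range (fun a : S0 => ff S0 a.1) := by
          ext q
          simp only [Set.mem_image, Set.mem_range, mem_coe, Subtype.exists, exists_prop]
        rwa [h2] at h1
    · intro p h0
      rcases Wn_face hR v x hS N p (fun a ha => h0 ⟨a, ha⟩) with h | ⟨_, h⟩
      · rw [h]; exact C.zero_mem
      · rw [h]; exact hC p
  up := by
    intro _ p hp
    exact LL_last_nonpos hR (Fin.last n) (fun j => Fin.le_last j) p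
      (fun a => Wn_nonneg_of_ne v x N p hp a)
  gd := gd_init hR hconn hv hS

end Crest.Agent.R059.MutG
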