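import Crest.Agent.R059.MutBin2
import Crest.Agent.R059.MutConn

set_option autoImplicit false

/-! The positive cone is closed under symmetric binomials. -/

namespace Crest.Agent.R059.MutPC

open Crest.Agent.R059.Mut Crest.Agent.R059.MutFinal

theorem NR_vv (N : ℕ) : NR (vv N) := by
  refine ⟨vv_ne_zero N, fun n hn h => ?_⟩
  rcases lt_trichotomy n 0 with h1 | h1 | h1
  · have h2 : vv N ^ (-n) = 1 := by rw [zpow_neg, h, inv_one]
    apply vv_pow_ne N n.natAbs (by omega)
    rw [← zpow_natCast, show ((n.natAbs : ℕ) : ℤ) = -n by omega, h2]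
  · exact hn h1
  · apply vv_pow_ne N n.natAbs (by omega)
    rw [← zpow_natCast, show ((n.natAbs : ℕ) : ℤ) = n by omega, h]

theorem PC_bin {N : ℕ} : ∀ (k j : ℕ) {a : Kv N}, a ∈ PC N → bin (vv N) (k : ℤ) j * a ∈ PC N := by
  intro k
  induction k with
  | zero =>
    intro j a ha
    cases j with
    | zero => rw [bin_zero, one_mul]; exact ha
    | succ j =>
      rw [bin_eq_zero 0 (j + 1) (by omega), zero_mul]
      exact (PC N).zero_mem
  | succ k ih =>
    intro j a ha
    cases j with
    | zero => rw [bin_zero, one_mul]; exact ha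
    | succ j =>
      have h1 := bin_pascal (NR_vv N) (k : ℤ) j
      rw [show ((k + 1 : ℕ) : ℤ) = (k : ℤ) + 1 by push_cast; ring, h1, add_mul]
      apply (PC N).add_mem
      · rw [mul_assoc]
        exact PC_vmul _ (ih _ ha)
      · rw [mul_assoc]
        exact PC_vmul _ (ih _ ha)

theorem PC_bin_smul {N : ℕ} (k j : ℕ) {a : Kv N} (ha : a ∈ PC N) :
    bin (vv N) (k : ℤ) j • a ∈ PC N := by
  rw [smul_eq_mul]
  exact PC_bin k j ha

theorem PC_prod_ee {N : ℕ} {ι : Type*} (s : Finset ι) (f : ι → ℤ) :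
    ∏ i ∈ s, Defl.ee (xx N) N (f i) ∈ PC N := by
  have h1 := mem_PC_of (N := N) 0 (s.toList.map f)
  rw [zpow_zero, one_mul, List.map_map] at h1
  rwa [Finset.prod_map_toList] at h1

end Crest.Agent.R059.MutPC
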