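import Crest.Agent.R059.MutG
import Crest.Agent.R059.MutConn
import Crest.Agent.R059.MutPC

set_option autoImplicit false

/-! `S0081` from winning initial states. -/

namespace Crest.Agent.R059.MutH

open Finset Function Crest.Agent.R059.Mut Crest.Agent.R059.MutInit Crest.Agent.R059.MutInit2
  Crest.Agent.R059.Defl Crest.Agent.R059.MutG Crest.CombinatoricsR.UnitInterval
  Crest.Agent.R059.MutFinal

theorem UI_Adj {n : ℕ} {h : Fin n → ℕ} (hh : IsHessenberg h) : UI (Pieri.Adj h) where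
  lt := fun {i j} h1 => h1.1
  mid := by
    intro i j l h1 h2 h3
    have h4 : h i ≤ h j := hh.1 h2.le
    have h5 : j.val < l.val := h3
    exact ⟨⟨h2, by have := h1.2; omega⟩, ⟨h3, by have := h1.2; omega⟩⟩

theorem conn_Adj {n : ℕ} {h : Fin (n + 1) → ℕ} (hc : MutConn.Conn h) (i : Fin n) :
    Pieri.Adj h i.castSucc i.succ := by
  refine ⟨Fin.castSucc_lt_succ, ?_⟩
  have := hc i.castSucc (by simp only [Fin.val_castSucc]; omega)
  simp only [Fin.val_castSucc, Fin.val_succ] at this ⊢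
  omega

theorem ee_one_ne (N : ℕ) (hN : 1 ≤ N) : ee (xx N) N 1 ≠ 0 := by
  have h1 : ee (xx N) N 1 = Pieri.E (xx N) N 1 := by
    unfold ee
    simp
  rw [h1]
  have h2 : Pieri.E (xx N) N 1 =
      algebraMap (Pv N) (Kv N) (MvPolynomial.esymm (Fin N) (Polynomial ℤ) 1) := by
    rw [← Pieri.E_xv, map_E]
    rfl
  rw [h2]
  intro h0
  rw [map_eq_zero_iff _ (alg_inj N)] at h0
  have h1 := congrArg (MvPolynomial.eval (fun _ : Fin N => (1 : Polynomial ℤ))) h0
  rw [MvPolynomial.esymm, map_sum, map_zero] at h1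
  simp only [map_prod, MvPolynomial.eval_X, Finset.prod_const_one, Finset.sum_const,
    Finset.card_powersetCard, Finset.card_univ, Fintype.card_fin, nsmul_eq_mul, mul_one,
    Nat.choose_one_right] at h1
  rw [Nat.cast_eq_zero] at h1
  omega

/-- the invariant at the initial seed of a connected Hessenberg function. -/
theorem inv_hess {n : ℕ} {h : Fin (n + 1) → ℕ} (hh : IsHessenberg h) (hc : MutConn.Conn h)
    (N : ℕ) (hN : 1 ≤ N) {S0 : Finset (Fin (n + 1))} (hS : Greedy (Pieri.Adj h) S0) :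
    Inv (vv N) (LL (Pieri.Adj h)) (PC N) (Y0 n) (fun a : S0 => ff S0 a.1)
      (fun _ : Unit => ind {Fin.last n}) (Wn (Pieri.Adj h) (vv N) (xx N) N) :=
  inv_init (UI_Adj hh) (conn_Adj hc) (MutPC.NR_vv N) hS (xx N) N (PC N) (ee_one_ne N hN)
    (fun p => MutPC.PC_prod_ee S0 p)

/-- **`S0081` from winning initial states.** -/
theorem main_of_win
    (H : ∀ (n : ℕ) (h : Fin (n + 1) → ℕ), IsHessenberg h → MutConn.Conn h →
      ∃ N, n + 1 ≤ N ∧ Win (vv N) (LL (Pieri.Adj h)) (PC N) (Y0 n)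
        (Wn (Pieri.Adj h) (vv N) (xx N) N) (fun _ => 1)) :
    ∀ (n : ℕ) (h : Fin n → ℕ), IsHessenberg h →
      ∃ θ : {σ : Equiv.Perm (Fin n) // σ ∈ descentSet h} → Nat.Partition n,
        ∀ N : ℕ, chromaticQSym h N =
          ∑ σ : {σ : Equiv.Perm (Fin n) // σ ∈ descentSet h},
            MvPolynomial.C (Polynomial.X ^ ginv h σ.1) *
              MvPolynomial.esymmPart (Fin N) (Polynomial ℤ) (θ σ) := by
  apply MutConn.main_of_PC
  intro n h hh hc
  cases n with
  | zero =>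
    refine ⟨0, le_rfl, ?_⟩
    have h1 : Wn (Pieri.Adj h) (vv 0) (xx 0) 0 (fun _ => 1) = 1 := by
      have h2 : (fun _ : Fin 0 => (1 : ℤ)) = 0 := Subsingleton.elim _ _
      rw [h2, Wn_zero]
      simp
    rw [h1]
    have := mem_PC_of (N := 0) 0 []
    simpa using this
  | succ n =>
    obtain ⟨N, hN, hW⟩ := H n h hh hc
    obtain ⟨S0, hS⟩ := exists_greedy (UI_Adj hh)
    refine ⟨N, hN, ?_⟩
    exact hW.sound (MutPC.NR_vv N) (LL_skew _) (fun k j a ha => MutPC.PC_bin_smul k j ha)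
      (inv_hess hh hc N (by omega) hS)

end Crest.Agent.R059.MutH
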