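import Crest.Agent.R059.Defl

set_option autoImplicit false

/-! Row 59, mutation game: regularity of the initial seed. -/

namespace Crest.Agent.R059.MutInit

open Finset Crest.Agent.R059.Defl

variable {ι : Type*} [LinearOrder ι] [Fintype ι] {R : ι → ι → Prop} [DecidableRel R]
variable {F : Type*} [Field F]

/-- the skew form: `L(u_a,u_b) = 1` for `a < b` adjacent. -/
def Lf (R : ι → ι → Prop) [DecidableRel R] (c k : ι → ℤ) : ℤ :=
  ∑ a, c a * (nf R k a - nb R k a)

theorem nb_smul (t : ℤ) (k : ι → ℤ) (j : ι) : nb R (t • k) j = t * nb R k j := by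
  unfold nb
  rw [Finset.mul_sum]
  apply Finset.sum_congr rfl
  intro i _
  split_ifs <;> simp

theorem nf_smul (t : ℤ) (k : ι → ℤ) (j : ι) : nf R (t • k) j = t * nf R k j := by
  unfold nf
  rw [Finset.mul_sum]
  apply Finset.sum_congr rfl
  intro i _
  split_ifs <;> simp

theorem nf_sub (k c : ι → ℤ) (j : ι) : nf R (k - c) j = nf R k j - nf R c j := by
  unfold nf
  rw [← Finset.sum_sub_distrib]
  apply Finset.sum_congr rfl
  intro i _
  split_ifs <;> simp

theorem Lf_add_left (a b k : ι → ℤ) : Lf R (a + b) k = Lf R a k + Lf R b k := by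
  unfold Lf
  rw [← Finset.sum_add_distrib]
  apply Finset.sum_congr rfl
  intro i _
  simp only [Pi.add_apply]
  ring

theorem Lf_add_right (c a b : ι → ℤ) : Lf R c (a + b) = Lf R c a + Lf R c b := by
  unfold Lf
  rw [← Finset.sum_add_distrib]
  apply Finset.sum_congr rfl
  intro i _
  rw [nf_add, nb_add]
  ring

theorem Lf_sub_right (c a b : ι → ℤ) : Lf R c (a - b) = Lf R c a - Lf R c b := by
  unfold Lf
  rw [← Finset.sum_sub_distrib]
  apply Finset.sum_congr rfl
  intro i _
  rw [nf_sub, nb_sub]
  ring

theorem Lf_smul_right (t : ℤ) (c a : ι → ℤ) : Lf R c (t • a) = t * Lf R c a := by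
  unfold Lf
  rw [Finset.mul_sum]
  apply Finset.sum_congr rfl
  intro i _
  rw [nf_smul, nb_smul]
  ring

theorem Lf_skew (c k : ι → ℤ) : Lf R c k = - Lf R k c := by
  unfold Lf
  simp only [mul_sub, Finset.sum_sub_distrib]
  rw [swap_sum c k, swap_sum k c]
  ring

theorem Lf_self (c : ι → ℤ) : Lf R c c = 0 := by
  have := Lf_skew (R := R) c c
  omega

theorem Lf_ind (S : Finset ι) (k : ι → ℤ) :
    Lf R (ind S) k = ∑ b ∈ S, (nf R k b - nb R k b) := by
  unfold Lf
  rw [sum_ind_mul]

/-- number of edges of the blow up. -/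
def ed (R : ι → ι → Prop) [DecidableRel R] (k : ι → ℤ) : ℤ := ∑ b, k b * nb R k b

theorem ed_sub (hR : UI R) (k : ι → ℤ) {S : Finset ι} (hS : St R S) :
    ed R k - ed R (k - ind S) = ∑ b ∈ S, (nb R k b + nf R k b) := by
  have h0 : ∑ b ∈ S, nb R (ind S) b = 0 := by
    apply Finset.sum_eq_zero
    intro b hb
    rw [nb_ind hR hS, if_neg]
    rintro ⟨i, hi, hib⟩
    exact hS i hi b hb hib
  have h1 : ed R (k - ind S) = ed R k - ∑ b, ind S b * nb R k b - ∑ b, k b * nb R (ind S) b
      + ∑ b, ind S b * nb R (ind S) b := by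
    unfold ed
    rw [← Finset.sum_sub_distrib, ← Finset.sum_sub_distrib, ← Finset.sum_add_distrib]
    apply Finset.sum_congr rfl
    intro b _
    rw [nb_sub]
    simp only [Pi.sub_apply]
    ring
  rw [h1, sum_ind_mul, sum_ind_mul, h0, ← swap_sum (ind S) k, sum_ind_mul,
    Finset.sum_add_distrib]
  ring

/-- bar symmetric normalisation. -/
noncomputable def FN (R : ι → ι → Prop) [DecidableRel R] (v : F) (x : ℕ → F) (N : ℕ)
    (k : ι → ℤ) : F := v ^ (- ed R k) * W R (v ^ 2) x N k

theorem FN_neg (v : F) (x : ℕ → F) (N : ℕ) (k : ι → ℤ) (h : ∃ j, k j < 0) :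
    FN R v x N k = 0 := by
  rw [FN, W_neg _ _ _ _ h, mul_zero]

theorem FN_zero (v : F) (x : ℕ → F) (k : ι → ℤ) :
    FN R v x 0 k = if k = 0 then 1 else 0 := by
  show v ^ (- ed R k) * (if k = 0 then (1 : F) else 0) = _
  split_ifs with h
  · subst h
    have : ed R (0 : ι → ℤ) = 0 := by unfold ed; simp
    rw [this]; simp
  · rw [mul_zero]

theorem FN_succ (hR : UI R) {v : F} (hv : v ≠ 0) (x : ℕ → F) (N : ℕ) (k : ι → ℤ) :
    FN R v x (N + 1) k = ∑ S ∈ (Finset.univ : Finset ι).powerset.filter (fun S => St R S),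
      x N ^ S.card * v ^ (- Lf R (ind S) k) * FN R v x N (k - ind S) := by
  have h : W R (v ^ 2) x (N + 1) k =
      ∑ S ∈ (Finset.univ : Finset ι).powerset.filter (fun S => St R S),
        x N ^ S.card * (v ^ 2) ^ (∑ b ∈ S, nb R k b) * W R (v ^ 2) x N (k - ind S) := rfl
  rw [FN, h, Finset.mul_sum]
  apply Finset.sum_congr rfl
  intro S hS
  have hSt := (Finset.mem_filter.1 hS).2
  have he := ed_sub hR k hSt
  rw [FN]
  have h2 : (v ^ 2) ^ (∑ b ∈ S, nb R k b) = v ^ (2 * ∑ b ∈ S, nb R k b) := by
    rw [zpow_mul]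
    norm_cast
  have key : v ^ (- ed R k) * v ^ (2 * ∑ b ∈ S, nb R k b) =
      v ^ (- Lf R (ind S) k) * v ^ (- ed R (k - ind S)) := by
    rw [← zpow_add₀ hv, ← zpow_add₀ hv]
    congr 1
    rw [Lf_ind]
    rw [Finset.sum_add_distrib] at he
    rw [Finset.sum_sub_distrib]
    linarith
  rw [h2]
  linear_combination (x N ^ S.card * W R (v ^ 2) x N (k - ind S)) * key

/-- the string functional. -/
noncomputable def D (R : ι → ι → Prop) [DecidableRel R] (v : F) (x : ℕ → F) (z : ι → ℤ)
    (N : ℕ) (m : ι → ℤ) (e : ℤ) : F :=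
  ∑ᶠ t : ℤ, (-1) ^ t * v ^ (e * t) * FN R v x N (m + t • z)

section main

variable {a b : ι}

/-- the direction. -/
def zz (a b : ι) : ι → ℤ := ind {b} - ind {a}

theorem supp_fin (hab : a < b) (v : F) (x : ℕ → F) (N : ℕ) (m : ι → ℤ) (c : ℤ → F) :
    (Function.support (fun t : ℤ => c t * FN R v x N (m + t • zz a b))).Finite := by
  apply Set.Finite.subset (Set.finite_Icc (- m b) (m a))
  intro t ht
  rw [Function.mem_support] at ht
  rw [Set.mem_Icc]
  have hne : a ≠ b := ne_of_lt hab
  constructor
  · by_contra h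
    apply ht
    rw [FN_neg, mul_zero]
    refine ⟨b, ?_⟩
    simp only [Pi.add_apply, Pi.smul_apply, zz, Pi.sub_apply, ind, Finset.mem_singleton,
      if_true, if_neg hne.symm, smul_eq_mul]
    omega
  · by_contra h
    apply ht
    rw [FN_neg, mul_zero]
    refine ⟨a, ?_⟩
    simp only [Pi.add_apply, Pi.smul_apply, zz, Pi.sub_apply, ind, Finset.mem_singleton,
      if_true, if_neg hne, smul_eq_mul]
    omega

theorem D_shift (hab : a < b) {v : F} (hv : v ≠ 0) (x : ℕ → F) (N : ℕ) (m : ι → ℤ) (e : ℤ) :
    D R v x (zz a b) N (m - zz a b) e = - v ^ e * D R v x (zz a b) N m e := by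
  unfold D
  rw [mul_finsum]
  rw [← finsum_comp_equiv (Equiv.addRight (1 : ℤ))]
  apply finsum_congr
  intro t
  simp only [Equiv.coe_addRight]
  have e1 : m - zz a b + (t + 1) • zz a b = m + t • zz a b := by
    rw [add_smul, one_smul]; abel
  rw [e1, mul_add, mul_one, zpow_add₀ hv, zpow_add₀ (by norm_num : (-1 : F) ≠ 0), zpow_one]
  ring

theorem D_succ (hR : UI R) (hab : a < b) {v : F} (hv : v ≠ 0) (x : ℕ → F) (N : ℕ)
    (m : ι → ℤ) (e : ℤ) :
    D R v x (zz a b) (N + 1) m e =
      ∑ S ∈ (Finset.univ : Finset ι).powerset.filter (fun S => St R S),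
      x N ^ S.card * v ^ (- Lf R (ind S) m) *
        D R v x (zz a b) N (m - ind S) (e - Lf R (ind S) (zz a b)) := by
  have h1 : D R v x (zz a b) (N + 1) m e =
      ∑ᶠ t : ℤ, ∑ S ∈ (Finset.univ : Finset ι).powerset.filter (fun S => St R S),
        x N ^ S.card * v ^ (- Lf R (ind S) m) * ((-1) ^ t *
          v ^ ((e - Lf R (ind S) (zz a b)) * t) * FN R v x N (m - ind S + t • zz a b)) := by
    unfold D
    apply finsum_congr
    intro t
    rw [FN_succ hR hv, Finset.mul_sum]
    apply Finset.sum_congr rfl
    intro S _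
    have e1 : m + t • zz a b - ind S = m - ind S + t • zz a b := by abel
    have e2 : v ^ (e * t) * v ^ (- Lf R (ind S) (m + t • zz a b)) =
        v ^ (- Lf R (ind S) m) * v ^ ((e - Lf R (ind S) (zz a b)) * t) := by
      rw [← zpow_add₀ hv, ← zpow_add₀ hv, Lf_add_right, Lf_smul_right]
      congr 1
      ring
    rw [e1]
    linear_combination ((-1) ^ t * x N ^ S.card * FN R v x N (m - ind S + t • zz a b)) * e2
  rw [h1, finsum_sum_comm]
  · apply Finset.sum_congr rfl
    intro S _
    unfold D
    rw [mul_finsum]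
  · intro S _
    have := supp_fin (R := R) hab v x N (m - ind S) (fun t => x N ^ S.card *
      v ^ (- Lf R (ind S) m) * ((-1) ^ t * v ^ ((e - Lf R (ind S) (zz a b)) * t)))
    refine this.subset ?_
    intro t ht
    rw [Function.mem_support] at ht ⊢
    intro h0
    apply ht
    rw [← h0]
    ring

/-- swapping `a` and `b`. -/
theorem ind_swap (hab : a ≠ b) {S : Finset ι} (ha : a ∈ S) (hb : b ∉ S) :
    ind (insert b (S.erase a)) = ind S + zz a b := by
  funext j
  simp only [Pi.add_apply, zz, Pi.sub_apply, ind, Finset.mem_insert, Finset.mem_erase,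
    Finset.mem_singleton]
  by_cases h1 : j = b
  · subst h1
    simp [hb, hab.symm]
  · by_cases h2 : j = a
    · subst h2
      simp [ha, hab]
    · simp [h1, h2]

theorem lev (hR : UI R) (hab : a < b) (hRab : R a b) {S : Finset ι} (hS : St R S) :
    Lf R (zz a b) (ind S) = ((if ∃ i ∈ S, R b i then 1 else 0) - (if ∃ i ∈ S, R i b then 1 else 0))
      - ((if ∃ i ∈ S, R a i then 1 else 0) - (if ∃ i ∈ S, R i a then 1 else 0)) := by
  have h1 : Lf R (zz a b) (ind S) = Lf R (ind {b}) (ind S) - Lf R (ind {a}) (ind S) := by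
    rw [Lf_skew, zz, Lf_sub_right, Lf_skew (ind S) (ind {b}), Lf_skew (ind S) (ind {a})]
    ring
  rw [h1, Lf_ind, Lf_ind, Finset.sum_singleton, Finset.sum_singleton, nf_ind hR hS, nf_ind hR hS,
    nb_ind hR hS, nb_ind hR hS]

theorem lev_a (hR : UI R) (hab : a < b) (hRab : R a b) {S : Finset ι} (hS : St R S)
    (ha : a ∈ S) : b ∉ S ∧ Lf R (zz a b) (ind S) = (if ∃ i ∈ S, R b i then 1 else 0) - 1 := by
  refine ⟨fun hb => hS a ha b hb hRab, ?_⟩
  rw [lev hR hab hRab hS, if_pos (c := ∃ i ∈ S, R i b) ⟨a, ha, hRab⟩,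
    if_neg (c := ∃ i ∈ S, R a i) (by rintro ⟨i, hi, h⟩; exact hS a ha i hi h),
    if_neg (c := ∃ i ∈ S, R i a) (by rintro ⟨i, hi, h⟩; exact hS i hi a ha h)]
  ring

theorem lev_b (hR : UI R) (hab : a < b) (hRab : R a b) {S : Finset ι} (hS : St R S)
    (hb : b ∈ S) : a ∉ S ∧ Lf R (zz a b) (ind S) = (if ∃ i ∈ S, R i a then 1 else 0) - 1 := by
  refine ⟨fun ha => hS a ha b hb hRab, ?_⟩
  rw [lev hR hab hRab hS, if_pos (c := ∃ i ∈ S, R a i) ⟨b, hb, hRab⟩,
    if_neg (c := ∃ i ∈ S, R b i) (by rintro ⟨i, hi, h⟩; exact hS b hb i hi h),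
    if_neg (c := ∃ i ∈ S, R i b) (by rintro ⟨i, hi, h⟩; exact hS i hi b hb h)]
  ring

theorem lev_n (hR : UI R) (hab : a < b) (hcov : ∀ c, a < c → b ≤ c) (hRab : R a b)
    {S : Finset ι} (hS : St R S) (ha : a ∉ S) (hb : b ∉ S) :
    0 ≤ Lf R (zz a b) (ind S) := by
  rw [lev hR hab hRab hS]
  have h1 : (∃ i ∈ S, R a i) → ∃ i ∈ S, R b i := by
    rintro ⟨i, hi, h⟩
    have h2 : b ≤ i := hcov i (hR.lt h)
    have h3 : b < i := lt_of_le_of_ne h2 (fun h => hb (h ▸ hi))
    exact ⟨i, hi, (hR.mid h hab h3).2⟩
  have h2 : (∃ i ∈ S, R i b) → ∃ i ∈ S, R i a := by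
    rintro ⟨i, hi, h⟩
    have h3 : i < a := by
      rcases lt_trichotomy i a with h4 | h4 | h4
      · exact h4
      · exact absurd (h4 ▸ hi) ha
      · exact absurd (hR.lt h) (not_lt.2 (hcov i h4))
    exact ⟨i, hi, (hR.mid h h3 hab).1⟩
  by_cases p1 : ∃ i ∈ S, R a i <;> by_cases p2 : ∃ i ∈ S, R i b
  · rw [if_pos (h1 p1), if_pos p2, if_pos p1, if_pos (h2 p2)]; norm_num
  · rw [if_pos (h1 p1), if_neg p2, if_pos p1]; split_ifs <;> norm_num
  · rw [if_pos p2, if_neg p1, if_pos (h2 p2)]; split_ifs <;> norm_num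
  · rw [if_neg p2, if_neg p1]; split_ifs <;> norm_num

theorem st_ab (hR : UI R) (hab : a < b) (hcov : ∀ c, a < c → b ≤ c) (hRab : R a b)
    {S : Finset ι} (hS : St R S) (ha : a ∈ S) (hn : ¬ ∃ i ∈ S, R b i) :
    St R (insert b (S.erase a)) ∧ ¬ ∃ i ∈ insert b (S.erase a), R i a := by
  have hnb : ∀ i ∈ S.erase a, ¬ R i b := by
    intro i hi h
    rw [Finset.mem_erase] at hi
    rcases lt_or_gt_of_ne hi.1 with h4 | h4
    · exact hS i hi.2 a ha (hR.mid h h4 hab).1
    · exact absurd (hR.lt h) (not_lt.2 (hcov i h4))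
  refine ⟨?_, ?_⟩
  · intro c hc d hd h
    rw [Finset.mem_insert] at hc hd
    rcases hc with rfl | hc
    · rcases hd with rfl | hd
      · exact lt_irrefl _ (hR.lt h)
      · exact hn ⟨d, Finset.mem_of_mem_erase hd, h⟩
    · rcases hd with rfl | hd
      · exact hnb c hc h
      · exact hS c (Finset.mem_of_mem_erase hc) d (Finset.mem_of_mem_erase hd) h
  · rintro ⟨i, hi, h⟩
    rw [Finset.mem_insert] at hi
    rcases hi with rfl | hi
    · exact lt_asymm hab (hR.lt h)
    · exact hS i (Finset.mem_of_mem_erase hi) a ha h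

theorem st_ba (hR : UI R) (hab : a < b) (hcov : ∀ c, a < c → b ≤ c) (hRab : R a b)
    {S : Finset ι} (hS : St R S) (hb : b ∈ S) (hn : ¬ ∃ i ∈ S, R i a) :
    St R (insert a (S.erase b)) ∧ ¬ ∃ i ∈ insert a (S.erase b), R b i := by
  have hna : ∀ i ∈ S.erase b, ¬ R a i := by
    intro i hi h
    rw [Finset.mem_erase] at hi
    have h2 : b ≤ i := hcov i (hR.lt h)
    have h3 : b < i := lt_of_le_of_ne h2 (fun h => hi.1 h.symm)
    exact hS b hb i hi.2 (hR.mid h hab h3).2
  refine ⟨?_, ?_⟩
  · intro c hc d hd h
    rw [Finset.mem_insert] at hc hd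
    rcases hc with rfl | hc
    · rcases hd with rfl | hd
      · exact lt_irrefl _ (hR.lt h)
      · exact hna d hd h
    · rcases hd with rfl | hd
      · exact hn ⟨c, Finset.mem_of_mem_erase hc, h⟩
      · exact hS c (Finset.mem_of_mem_erase hc) d (Finset.mem_of_mem_erase hd) h
  · rintro ⟨i, hi, h⟩
    rw [Finset.mem_insert] at hi
    rcases hi with rfl | hi
    · exact lt_asymm hab (hR.lt h)
    · exact hS b hb i (Finset.mem_of_mem_erase hi) h

/-- **Regularity of the initial seed.** -/
theorem D_zero (hR : UI R) (hab : a < b) (hcov : ∀ c, a < c → b ≤ c) (hRab : R a b)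
    {v : F} (hv : v ≠ 0) (x : ℕ → F) (N : ℕ) : ∀ (m : ι → ℤ) (n : ℕ),
    Lf R (zz a b) m = -((n : ℤ) + 1) → ∀ e : ℤ, |e| ≤ n → (e - n) % 2 = 0 →
      D R v x (zz a b) N m e = 0 := by
  classical
  have hzz : Lf R (zz a b) (zz a b) = 0 := Lf_self _
  induction N with
  | zero =>
    intro m n hm e _ _
    unfold D
    rw [finsum_eq_zero_of_forall_eq_zero]
    intro t
    rw [FN_zero, if_neg, mul_zero]
    intro h0
    have h1 : Lf R (zz a b) (m + t • zz a b) = Lf R (zz a b) m := by
      rw [Lf_add_right, Lf_smul_right, hzz]; ring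
    rw [h0] at h1
    have h2 : Lf R (zz a b) (0 : ι → ℤ) = 0 := by
      have := Lf_smul_right (R := R) 0 (zz a b) 0
      rw [zero_smul, zero_mul] at this
      exact this
    omega
  | succ N ih =>
    intro m n hm e he hpar
    rw [D_succ hR hab hv]
    have he' := abs_le.1 he
    -- general vanishing
    have hvan : ∀ S : Finset ι, (0 ≤ Lf R (zz a b) (ind S) ∨
        (Lf R (zz a b) (ind S) = -1 ∧ e ≠ -n)) →
        D R v x (zz a b) N (m - ind S) (e - Lf R (ind S) (zz a b)) = 0 := by
      intro S hS
      have h1 : Lf R (zz a b) (m - ind S) = Lf R (zz a b) m - Lf R (zz a b) (ind S) :=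
        Lf_sub_right _ _ _
      have h2 : Lf R (ind S) (zz a b) = - Lf R (zz a b) (ind S) := Lf_skew _ _
      rcases hS with hS | ⟨hS, hne⟩
      · obtain ⟨l, hl⟩ := Int.eq_ofNat_of_zero_le hS
        apply ih (m - ind S) (n + l)
        · rw [h1, hm, hl]; push_cast; ring
        · rw [h2, hl, abs_le]; push_cast; constructor <;> linarith [he'.1, he'.2]
        · rw [h2, hl]; push_cast; rw [show e - -(l : ℤ) - (n + l) = e - n by ring]; exact hpar
      · have hn1 : 1 ≤ n := by
          rcases Nat.eq_zero_or_pos n with h0 | h0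
          · subst h0
            exfalso; apply hne
            push_cast at he'
            push_cast
            omega
          · exact h0
        apply ih (m - ind S) (n - 1)
        · rw [h1, hm, hS]; push_cast [hn1]; ring
        · rw [h2, hS, abs_le]; push_cast [hn1]; constructor <;> omega
        · rw [h2, hS]; push_cast [hn1]; omega
    by_cases hen : e = -n
    · -- pair the stable sets
      have hDz : ∀ S : Finset ι, Lf R (zz a b) (ind S) = -1 → ∀ S' : Finset ι,
          ind S' = ind S + zz a b → S'.card = S.card →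
          x N ^ S'.card * v ^ (- Lf R (ind S') m) *
            D R v x (zz a b) N (m - ind S') (e - Lf R (ind S') (zz a b)) =
          - (x N ^ S.card * v ^ (- Lf R (ind S) m) *
            D R v x (zz a b) N (m - ind S) (e - Lf R (ind S) (zz a b))) := by
        intro S hS S' h1 h2
        have h3 : m - ind S' = m - ind S - zz a b := by rw [h1]; abel
        have h4 : Lf R (ind S) (zz a b) = 1 := by rw [Lf_skew, hS]; norm_num
        have h5 : Lf R (ind S') (zz a b) = 1 := by rw [h1, Lf_add_left, h4, hzz]; norm_num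
        have h6 : Lf R (ind S') m = Lf R (ind S) m - (n + 1) := by
          rw [h1, Lf_add_left, hm]; ring
        rw [h3, h5, h6, h4, D_shift hab hv, h2]
        have h7 : v ^ (-(Lf R (ind S) m - ((n : ℤ) + 1))) * v ^ (e - 1) =
            v ^ (- Lf R (ind S) m) := by
          rw [← zpow_add₀ hv]
          congr 1
          rw [hen]; ring
        linear_combination (- x N ^ S.card * D R v x (zz a b) N (m - ind S) (e - 1)) * h7
      -- data of the swap
      have hsw : ∀ S : Finset ι, St R S → Lf R (zz a b) (ind S) = -1 →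
          (a ∈ S ∧ b ∉ S ∧ ¬ ∃ i ∈ S, R b i) ∨ (b ∈ S ∧ a ∉ S ∧ ¬ ∃ i ∈ S, R i a) := by
        intro S hSt hl
        by_cases ha : a ∈ S
        · have h1 := lev_a hR hab hRab hSt ha
          left
          refine ⟨ha, h1.1, fun h => ?_⟩
          rw [if_pos h, hl] at h1
          omega
        · by_cases hb : b ∈ S
          · have h1 := lev_b hR hab hRab hSt hb
            right
            refine ⟨hb, ha, fun h => ?_⟩
            rw [if_pos h, hl] at h1
            omega
          · have := lev_n hR hab hcov hRab hSt ha hb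
            omega
      have hne : a ≠ b := ne_of_lt hab
      -- the swapped set
      let g : Finset ι → Finset ι := fun S => if Lf R (zz a b) (ind S) = -1 then
        (if a ∈ S then insert b (S.erase a) else insert a (S.erase b)) else S
      have gA : ∀ S : Finset ι, St R S → Lf R (zz a b) (ind S) = -1 → a ∈ S →
          g S = insert b (S.erase a) ∧ St R (g S) ∧ ind (g S) = ind S + zz a b ∧
            (g S).card = S.card ∧ a ∉ g S ∧ b ∈ g S := by
        intro S hSt hl ha
        rcases hsw S hSt hl with h | h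
        · have e1 : g S = insert b (S.erase a) := by
            show (if _ then _ else _) = _
            rw [if_pos hl, if_pos ha]
          rw [e1]
          refine ⟨rfl, (st_ab hR hab hcov hRab hSt ha h.2.2).1, ind_swap hne ha h.2.1, ?_, ?_, ?_⟩
          · rw [Finset.card_insert_of_notMem (fun h4 => h.2.1 (Finset.mem_of_mem_erase h4)),
              Finset.card_erase_of_mem ha]
            have : 0 < S.card := Finset.card_pos.2 ⟨a, ha⟩
            omega
          · rw [Finset.mem_insert, Finset.mem_erase]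
            rintro (h4 | h4)
            · exact hne h4
            · exact h4.1 rfl
          · exact Finset.mem_insert_self _ _
        · exact absurd ha h.2.1
      have gB : ∀ S : Finset ι, St R S → Lf R (zz a b) (ind S) = -1 → a ∉ S →
          g S = insert a (S.erase b) ∧ St R (g S) ∧ ind S = ind (g S) + zz a b ∧
            (g S).card = S.card ∧ a ∈ g S ∧ b ∉ g S := by
        intro S hSt hl ha
        rcases hsw S hSt hl with h | h
        · exact absurd h.1 ha
        · have e1 : g S = insert a (S.erase b) := by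
            show (if _ then _ else _) = _
            rw [if_pos hl, if_neg ha]
          rw [e1]
          have hb' : b ∉ insert a (S.erase b) := by
            rw [Finset.mem_insert, Finset.mem_erase]
            rintro (h4 | h4)
            · exact hne h4.symm
            · exact h4.1 rfl
          refine ⟨rfl, (st_ba hR hab hcov hRab hSt h.1 h.2.2).1, ?_, ?_,
            Finset.mem_insert_self _ _, hb'⟩
          · rw [← ind_swap hne (Finset.mem_insert_self _ _) hb']
            congr 1
            rw [Finset.erase_insert (fun h4 => ha (Finset.mem_of_mem_erase h4)),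
              Finset.insert_erase h.1]
          · rw [Finset.card_insert_of_notMem (fun h4 => ha (Finset.mem_of_mem_erase h4)),
              Finset.card_erase_of_mem h.1]
            have : 0 < S.card := Finset.card_pos.2 ⟨b, h.1⟩
            omega
      have gN : ∀ S : Finset ι, ¬ Lf R (zz a b) (ind S) = -1 → g S = S := by
        intro S hl
        show (if _ then _ else _) = _
        rw [if_neg hl]
      have hlevne : ∀ S : Finset ι, St R S → ¬ Lf R (zz a b) (ind S) = -1 →
          0 ≤ Lf R (zz a b) (ind S) := by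
        intro S hSt hl
        by_cases ha : a ∈ S
        · have h1 := (lev_a hR hab hRab hSt ha).2
          split_ifs at h1 <;> omega
        · by_cases hb : b ∈ S
          · have h1 := (lev_b hR hab hRab hSt hb).2
            split_ifs at h1 <;> omega
          · exact lev_n hR hab hcov hRab hSt ha hb
      have hlg : ∀ S : Finset ι, St R S → Lf R (zz a b) (ind S) = -1 →
          Lf R (zz a b) (ind (g S)) = -1 := by
        intro S hSt hl
        by_cases ha : a ∈ S
        · rw [(gA S hSt hl ha).2.2.1, Lf_add_right, hzz, hl]; norm_num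
        · have h1 := (gB S hSt hl ha).2.2.1
          rw [h1, Lf_add_right, hzz] at hl
          omega
      refine Finset.sum_involution (fun S _ => g S) ?_ ?_ ?_ ?_
      · intro S hS
        have hSt := (Finset.mem_filter.1 hS).2
        by_cases hl : Lf R (zz a b) (ind S) = -1
        · by_cases ha : a ∈ S
          · obtain ⟨_, _, h1, h2, _, _⟩ := gA S hSt hl ha
            rw [hDz S hl (g S) h1 h2]
            ring
          · obtain ⟨_, _, h1, h2, _, _⟩ := gB S hSt hl ha
            rw [hDz (g S) (hlg S hSt hl) S h1 h2.symm]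
            ring
        · show _ + x N ^ (g S).card * v ^ (- Lf R (ind (g S)) m) *
            D R v x (zz a b) N (m - ind (g S)) (e - Lf R (ind (g S)) (zz a b)) = 0
          rw [gN S hl, hvan S (Or.inl (hlevne S hSt hl))]
          ring
      · intro S hS hT
        have hSt := (Finset.mem_filter.1 hS).2
        by_cases hl : Lf R (zz a b) (ind S) = -1
        · by_cases ha : a ∈ S
          · intro h0
            have h1 := (gA S hSt hl ha).2.2.2.2.1
            have h2 : g S = S := h0
            rw [h2] at h1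
            exact h1 ha
          · intro h0
            have h1 := (gB S hSt hl ha).2.2.2.2.1
            have h2 : g S = S := h0
            rw [h2] at h1
            exact ha h1
        · exfalso
          apply hT
          rw [hvan S (Or.inl (hlevne S hSt hl)), mul_zero]
      · intro S hS
        have hSt := (Finset.mem_filter.1 hS).2
        rw [Finset.mem_filter]
        refine ⟨Finset.mem_powerset.2 (Finset.subset_univ _), ?_⟩
        by_cases hl : Lf R (zz a b) (ind S) = -1
        · by_cases ha : a ∈ S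
          · exact (gA S hSt hl ha).2.1
          · exact (gB S hSt hl ha).2.1
        · show St R (g S)
          rw [gN S hl]
          exact hSt
      · intro S hS
        have hSt := (Finset.mem_filter.1 hS).2
        show g (g S) = S
        by_cases hl : Lf R (zz a b) (ind S) = -1
        · by_cases ha : a ∈ S
          · obtain ⟨e1, h0, h1, h2, h3, h4⟩ := gA S hSt hl ha
            obtain ⟨e2, _⟩ := gB (g S) h0 (hlg S hSt hl) h3
            rw [e2, e1, Finset.erase_insert, Finset.insert_erase ha]
            intro h5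
            have h6 := lev_a hR hab hRab hSt ha
            exact h6.1 (Finset.mem_of_mem_erase h5)
          · obtain ⟨e1, h0, h1, h2, h3, h4⟩ := gB S hSt hl ha
            obtain ⟨e2, _⟩ := gA (g S) h0 (hlg S hSt hl) h3
            have hb : b ∈ S := by
              rcases hsw S hSt hl with h | h
              · exact absurd h.1 ha
              · exact h.1
            rw [e2, e1, Finset.erase_insert, Finset.insert_erase hb]
            intro h5
            exact ha (Finset.mem_of_mem_erase h5)
        · rw [gN S hl, gN S hl]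
    · apply Finset.sum_eq_zero
      intro S hS
      have hSt := (Finset.mem_filter.1 hS).2
      rw [hvan S, mul_zero]
      by_cases ha : a ∈ S
      · have := (lev_a hR hab hRab hSt ha).2
        split_ifs at this
        · left; omega
        · right; exact ⟨by omega, hen⟩
      · by_cases hb : b ∈ S
        · have := (lev_b hR hab hRab hSt hb).2
          split_ifs at this
          · left; omega
          · right; exact ⟨by omega, hen⟩
        · left; exact lev_n hR hab hcov hRab hSt ha hb

/-- regularity in the root form of the mutation game. -/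
theorem reg_init (hR : UI R) (hab : a < b) (hcov : ∀ c, a < c → b ≤ c) (hRab : R a b)
    {v : F} (hv : v ≠ 0) (x : ℕ → F) (N : ℕ) (m : ι → ℤ) (n : ℕ)
    (hm : Lf R (zz a b) m = -((n : ℤ) + 1)) (e : ℤ) (he : |e| ≤ n) (hpar : (e - n) % 2 = 0) :
    ∑ᶠ t : ℤ, ((-1 : F) ^ t * v ^ (e * t)) • FN R v x N (m + t • zz a b) = 0 := by
  simp only [smul_eq_mul]
  exact D_zero hR hab hcov hRab hv x N m n hm e he hpar

end main

/-- the skew form as a bundled map. -/
def Lh (R : ι → ι → Prop) [DecidableRel R] : (ι → ℤ) →+ (ι → ℤ) →+ ℤ where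
  toFun c := { toFun := fun k => Lf R c k
               map_zero' := by
                 have := Lf_smul_right (R := R) 0 c 0
                 rw [zero_smul, zero_mul] at this
                 exact this
               map_add' := fun a b => Lf_add_right c a b }
  map_zero' := by
    ext k
    show Lf R 0 _ = 0
    unfold Lf
    simp
  map_add' a b := by
    ext k
    exact Lf_add_left a b _

theorem Lh_apply (c k : ι → ℤ) : Lh R c k = Lf R c k := rfl

theorem Lf_single (a b : ι) (hR : UI R) : Lf R (ind {a}) (ind {b}) =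
    if R a b then 1 else if R b a then -1 else 0 := by
  rw [Lf_ind, Finset.sum_singleton, nf_ind hR, nb_ind hR]
  · simp only [Finset.mem_singleton, exists_eq_left]
    by_cases h1 : R a b
    · have h2 : ¬ R b a := fun h => lt_asymm (hR.lt h) (hR.lt h1)
      simp [h1, h2]
    · by_cases h2 : R b a
      · simp [h1, h2]
      · simp [h1, h2]
  · intro c hc d hd h
    rw [Finset.mem_singleton] at hc hd
    rw [hc, hd] at h
    exact lt_irrefl _ (hR.lt h)
  · intro c hc d hd h
    rw [Finset.mem_singleton] at hc hd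
    rw [hc, hd] at h
    exact lt_irrefl _ (hR.lt h)

/-- finite support of the initial functions. -/
theorem FN_supp_finite {v : F} (hv : v ≠ 0) (x : ℕ → F) (N : ℕ) :
    (Function.support (FN R v x N)).Finite := by
  classical
  have h : ∀ N : ℕ, ∀ k : ι → ℤ, FN R v x N k ≠ 0 → ∀ j, 0 ≤ k j ∧ k j ≤ N := by
    intro N
    induction N with
    | zero =>
      intro k hk j
      rw [FN_zero] at hk
      by_cases h0 : k = 0
      · subst h0; simp
      · rw [if_neg h0] at hk; exact absurd rfl hk
    | succ N ih =>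
      intro k hk j
      have h1 : W R (v ^ 2) x (N + 1) k ≠ 0 := right_ne_zero_of_mul hk
      have h2 : W R (v ^ 2) x (N + 1) k =
        ∑ S ∈ (Finset.univ : Finset ι).powerset.filter (fun S => St R S),
          x N ^ S.card * (v ^ 2) ^ (∑ b ∈ S, nb R k b) * W R (v ^ 2) x N (k - ind S) := rfl
      rw [h2] at h1
      obtain ⟨S, _, hS⟩ := Finset.exists_ne_zero_of_sum_ne_zero h1
      have h3 : W R (v ^ 2) x N (k - ind S) ≠ 0 := right_ne_zero_of_mul hS
      have h4 : FN R v x N (k - ind S) ≠ 0 := mul_ne_zero (zpow_ne_zero _ hv) h3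
      have h5 := ih (k - ind S) h4 j
      have h6 : (ind S) j = 0 ∨ (ind S) j = 1 := by
        unfold ind; split_ifs <;> simp
      simp only [Pi.sub_apply] at h5
      push_cast
      omega
  have hfin : (Set.Icc (0 : ι → ℤ) (fun _ => (N : ℤ))).Finite := Set.finite_Icc _ _
  apply hfin.subset
  intro k hk
  rw [Function.mem_support] at hk
  rw [Set.mem_Icc]
  exact ⟨fun j => (h N k hk j).1, fun j => (h N k hk j).2⟩

end Crest.Agent.R059.MutInit
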