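import Crest.Agent.R059.EPos


set_option autoImplicit false

open Crest.CombinatoricsR.UnitInterval

namespace Crest.Agent.R059.Open

/-- states with open vertices: functions of the colours of the open vertices (newest first). Only the
values on duplicate-free lists matter. -/
abbrev St : Type := ∀ N : ℕ, List (Fin N) → MvPolynomial (Fin N) (Polynomial ℤ)

/-- the empty state. -/
noncomputable def vac : St := fun _ l => if l = [] then 1 else 0

/-- weight of a new vertex of colour `c` against the open colours `l`. -/
noncomputable def wl {N : ℕ} (c : Fin N) (l : List (Fin N)) : Polynomial ℤ :=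
  (l.map (fun a => w a c)).prod

/-- add a vertex adjacent to all open vertices. -/
noncomputable def U (S : St) : St := fun N l =>
  match l with
  | [] => 0
  | c :: l' => MvPolynomial.C (wl c l') * S N l'

/-- close the oldest open vertex. -/
noncomputable def D (S : St) : St := fun N l =>
  ∑ c ∈ Finset.univ.filter (fun c => c ∉ l), MvPolynomial.X c * S N (l ++ [c])

/-- multiplication by a family. -/
noncomputable def smul (G : Fam) (S : St) : St := fun N l => G N * S N l

theorem U_nil (S : St) (N : ℕ) : U S N [] = 0 := rfl

theorem U_cons (S : St) (N : ℕ) (c : Fin N) (l : List (Fin N)) :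
    U S N (c :: l) = MvPolynomial.C (wl c l) * S N l := rfl

theorem U_zero : U (fun _ _ => 0) = fun _ _ => 0 := by
  funext N l
  cases l with
  | nil => rfl
  | cons c l => simp [U_cons]

theorem U_add (S T : St) : U (fun N l => S N l + T N l) = fun N l => U S N l + U T N l := by
  funext N l
  cases l with
  | nil => simp [U_nil]
  | cons c l => simp only [U_cons, mul_add]

theorem U_smul (G : Fam) (S : St) : U (smul G S) = smul G (U S) := by
  funext N l
  cases l with
  | nil => simp [U_nil, smul]
  | cons c l => simp only [U_cons, smul]; ring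

theorem D_zero : D (fun _ _ => 0) = fun _ _ => 0 := by
  funext N l; simp [D]

theorem D_add (S T : St) : D (fun N l => S N l + T N l) = fun N l => D S N l + D T N l := by
  funext N l; simp only [D, mul_add, Finset.sum_add_distrib]

theorem D_smul (G : Fam) (S : St) : D (smul G S) = smul G (D S) := by
  funext N l
  simp only [D, smul, Finset.mul_sum]
  apply Finset.sum_congr rfl
  intro c _
  ring

/-- `S` and `T` agree on duplicate-free lists of length `k`. -/
def Agree (k : ℕ) (S T : St) : Prop := ∀ (N : ℕ) (l : List (Fin N)), l.Nodup → l.length = k →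
  S N l = T N l

theorem Agree.U {k : ℕ} {S T : St} (h : Agree k S T) : Agree (k + 1) (U S) (U T) := by
  intro N l hl hk
  cases l with
  | nil => simp at hk
  | cons c l =>
    rw [U_cons, U_cons, h N l (List.nodup_cons.1 hl).2 (by simpa using hk)]

theorem Agree.D {k : ℕ} {S T : St} (h : Agree (k + 1) S T) : Agree k (D S) (D T) := by
  intro N l hl hk
  unfold Open.D
  apply Finset.sum_congr rfl
  intro c hc
  rw [h N (l ++ [c]) _ (by simp [hk])]
  rw [List.nodup_append]
  refine ⟨hl, List.nodup_singleton c, ?_⟩
  intro a ha b hb hab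
  simp only [List.mem_singleton] at hb
  subst hb; subst hab
  simp only [Finset.mem_filter] at hc
  exact hc.2 ha

/-- the cone generated by the families `B k n` (`k` open vertices, degree `n`) over the `e`-positive
families. -/
inductive Cone (B : ℕ → ℕ → St → Prop) : ℕ → ℕ → St → Prop
  | zero (k n : ℕ) : Cone B k n (fun _ _ => 0)
  | gen {k n : ℕ} {S : St} (h : B k n S) : Cone B k n S
  | add {k n : ℕ} {S T : St} (hS : Cone B k n S) (hT : Cone B k n T) :
      Cone B k n (fun N l => S N l + T N l)
  | mul {k n m : ℕ} {G : Fam} {S : St} (hG : EP m G) (hS : Cone B k n S) :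
      Cone B k (m + n) (smul G S)
  | congr {k n : ℕ} {S T : St} (hS : Cone B k n S) (h : Agree k S T) : Cone B k n T

variable {B : ℕ → ℕ → St → Prop}

theorem Cone.of_eq {k n m : ℕ} {S : St} (h : Cone B k n S) (hnm : n = m) : Cone B k m S :=
  hnm ▸ h

theorem Cone.smulq {k n : ℕ} {S : St} (a : Polynomial ℕ) (hS : Cone B k n S) :
    Cone B k n (fun N l => MvPolynomial.C (cast a) * S N l) := by
  have h := Cone.mul (B := B) (G := fun N => MvPolynomial.C (cast a)) (m := 0)
    ((EP.one.smul a).congr rfl (fun N => by simp)) hS
  exact (h.of_eq (by omega))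

theorem Cone.sum {k n : ℕ} {ι : Type*} (s : Finset ι) (F : ι → St)
    (hF : ∀ i ∈ s, Cone B k n (F i)) : Cone B k n (fun N l => ∑ i ∈ s, F i N l) := by
  classical
  induction s using Finset.induction_on with
  | empty => simpa using Cone.zero k n
  | insert a s ha ih =>
    simp only [Finset.sum_insert ha]
    exact (hF a (Finset.mem_insert_self a s)).add
      (ih (fun i hi => hF i (Finset.mem_insert_of_mem hi)))

theorem Cone.esymm {k n : ℕ} {S : St} (j : ℕ) (hS : Cone B k n S) :
    Cone B k (j + n) (fun N l => MvPolynomial.esymm (Fin N) (Polynomial ℤ) j * S N l) :=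
  Cone.mul (EP.esymm j) hS

theorem Cone.U {k n : ℕ} {S : St} (hU : ∀ k n S, B k n S → Cone B (k + 1) (n + 1) (U S))
    (hS : Cone B k n S) : Cone B (k + 1) (n + 1) (Open.U S) := by
  induction hS with
  | zero n => rw [U_zero]; exact Cone.zero _ _
  | gen h => exact hU _ _ _ h
  | add _ _ ih1 ih2 => rw [U_add]; exact ih1.add ih2
  | mul hG _ ih => rw [U_smul]; exact (Cone.mul hG ih).of_eq (by omega)
  | congr _ h ih => exact Cone.congr ih h.U

theorem Cone.D' {k n : ℕ} {S : St} (hD : ∀ k n S, B (k + 1) n S → Cone B k n (D S))
    (hS : Cone B k n S) : ∀ j, k = j + 1 → Cone B j n (Open.D S) := by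
  induction hS with
  | zero n => intro j _; rw [D_zero]; exact Cone.zero _ _
  | gen h => intro j hj; subst hj; exact hD _ _ _ h
  | add _ _ ih1 ih2 => intro j hj; rw [D_add]; exact (ih1 j hj).add (ih2 j hj)
  | mul hG _ ih => intro j hj; rw [D_smul]; exact Cone.mul hG (ih j hj)
  | congr _ h ih => intro j hj; subst hj; exact Cone.congr (ih j rfl) h.D

theorem Cone.D {k n : ℕ} {S : St} (hD : ∀ k n S, B (k + 1) n S → Cone B k n (D S))
    (hS : Cone B (k + 1) n S) : Cone B k n (Open.D S) := hS.D' hD k rfl

theorem Cone.EP0 (h0 : ∀ n S, B 0 n S → EP n (fun N => S N [])) {k n : ℕ} {S : St}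
    (hS : Cone B k n S) : k = 0 → EP n (fun N => S N []) := by
  induction hS with
  | zero n => intro _; exact EP.zero n
  | gen h => intro hk; subst hk; exact h0 _ _ h
  | add _ _ ih1 ih2 => intro hk; exact (ih1 hk).add (ih2 hk)
  | mul hG _ ih => intro hk; exact hG.mul (ih hk)
  | congr _ h ih =>
    intro hk
    subst hk
    exact (ih rfl).congr rfl (fun N => (h N [] List.nodup_nil rfl).symm)

/-! ### the evolution -/

/-- states before opening vertex `m`, when `kk m` vertices are open. -/
noncomputable def A (kk : ℕ → ℕ) : ℕ → St
  | 0 => vac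
  | m + 1 => (Open.D)^[kk m + 1 - kk (m + 1)] (U (A kk m))

theorem cone_iter (hD : ∀ k n S, B (k + 1) n S → Cone B k n (D S)) (n j : ℕ) :
    ∀ (k : ℕ) (S : St), Cone B (k + j) n S → Cone B k n ((Open.D)^[j] S) := by
  induction j with
  | zero => intro k S hS; exact hS
  | succ j ih =>
    intro k S hS
    rw [Function.iterate_succ_apply]
    apply ih k
    exact Cone.D hD (k := k + j) hS

theorem cone_A (hU : ∀ k n S, B k n S → Cone B (k + 1) (n + 1) (U S))
    (hD : ∀ k n S, B (k + 1) n S → Cone B k n (D S)) (h1 : Cone B 0 0 vac)
    (kk : ℕ → ℕ) (hk0 : kk 0 = 0) (hk : ∀ m, kk (m + 1) ≤ kk m + 1) (m : ℕ) :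
    Cone B (kk m) m (A kk m) := by
  induction m with
  | zero => rw [hk0]; exact h1
  | succ m ih =>
    have h2 := ih.U hU
    apply cone_iter hD
    rw [show kk (m + 1) + (kk m + 1 - kk (m + 1)) = kk m + 1 from by have := hk m; omega]
    exact h2

/-- iterated sum over lists of colours. -/
noncomputable def sumL {N : ℕ} {M : Type*} [AddCommMonoid M] : ℕ → (List (Fin N) → M) → M
  | 0, F => F []
  | c + 1, F => ∑ a : Fin N, sumL c (fun L => F (a :: L))

theorem sumL_congr {N : ℕ} {M : Type*} [AddCommMonoid M] (c : ℕ) : ∀ (F G : List (Fin N) → M),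
    (∀ L, F L = G L) → sumL c F = sumL c G := by
  intro F G h
  have : F = G := funext h
  rw [this]

theorem sumL_zero {N : ℕ} {M : Type*} [AddCommMonoid M] (c : ℕ) :
    sumL (N := N) (M := M) c (fun _ => 0) = 0 := by
  induction c with
  | zero => rfl
  | succ c ih => simp only [sumL, ih, Finset.sum_const_zero]

theorem sumL_mul {N : ℕ} {M : Type*} [CommSemiring M] (c : ℕ) (x : M) : ∀ (F : List (Fin N) → M),
    sumL c (fun L => x * F L) = x * sumL c F := by
  induction c with
  | zero => intro F; rfl
  | succ c ih =>
    intro F
    simp only [sumL, Finset.mul_sum]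
    apply Finset.sum_congr rfl
    intro a _
    exact ih (fun L => F (a :: L))

theorem sumL_eq {N : ℕ} {M : Type*} [AddCommMonoid M] (c : ℕ) : ∀ (F : List (Fin N) → M),
    sumL c F = ∑ f : Fin c → Fin N, F (List.ofFn f) := by
  induction c with
  | zero =>
    intro F
    simp [sumL]
  | succ c ih =>
    intro F
    simp only [sumL]
    rw [← (Fin.consEquiv (fun _ : Fin (c + 1) => Fin N)).sum_comp, Fintype.sum_prod_type]
    apply Finset.sum_congr rfl
    intro a _
    rw [ih]
    apply Finset.sum_congr rfl
    intro f _
    congr 1
    simp [Fin.consEquiv, List.ofFn_succ]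

/-- weight of a complete colouring, newest vertex first. -/
noncomputable def Phi (kk : ℕ → ℕ) {N : ℕ} : List (Fin N) → Polynomial ℤ
  | [] => 1
  | c :: L => wl c (L.take (kk L.length)) * Phi kk L

theorem wl_zero {N : ℕ} {c : Fin N} {l : List (Fin N)} (h : c ∈ l) : wl c l = 0 := by
  unfold wl
  apply List.prod_eq_zero
  rw [List.mem_map]
  exact ⟨c, h, w_self c⟩

theorem Phi_zero (kk : ℕ → ℕ) (hk : ∀ m, kk (m + 1) ≤ kk m + 1) {N : ℕ} :
    ∀ (c : Fin N) (L : List (Fin N)) (j : ℕ), j ≤ kk L.length + 1 →
      ¬ ((c :: L).take j).Nodup → Phi kk (c :: L) = 0 := by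
  intro c L
  induction L generalizing c with
  | nil =>
    intro j _ hnd
    exfalso; apply hnd
    exact (List.nodup_singleton c).sublist (List.take_sublist _ _)
  | cons a L ih =>
    intro j hj hnd
    cases j with
    | zero => simp at hnd
    | succ j =>
      rw [List.take_succ_cons, List.nodup_cons, not_and_or] at hnd
      rcases hnd with hnd | hnd
      · push Not at hnd
        rw [Phi, wl_zero, zero_mul]
        exact List.take_subset_take_left _ (by omega) hnd
      · rw [Phi, ih a j _ hnd, mul_zero]
        have := hk L.length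
        simp only [List.length_cons] at hj
        omega

theorem A_eq (kk : ℕ → ℕ) (hk0 : kk 0 = 0) (hk : ∀ m, kk (m + 1) ≤ kk m + 1) (N : ℕ) (m : ℕ) :
    kk m ≤ m ∧ ∀ l : List (Fin N), l.Nodup → l.length = kk m →
      A kk m N l = sumL (m - kk m) (fun L => MvPolynomial.C (Phi kk (l ++ L)) *
        (L.map MvPolynomial.X).prod) := by
  induction m with
  | zero =>
    refine ⟨by omega, ?_⟩
    intro l _ hl
    rw [hk0] at hl
    have : l = [] := List.length_eq_zero_iff.1 hl
    subst this
    simp [A, vac, sumL, Phi]
  | succ m ih =>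
    obtain ⟨hm, ih⟩ := ih
    have hkm := hk m
    refine ⟨by omega, ?_⟩
    -- after opening
    have h1 : ∀ l : List (Fin N), l.Nodup → l.length = kk m + 1 →
        U (A kk m) N l = sumL (m - kk m) (fun L => MvPolynomial.C (Phi kk (l ++ L)) *
          (L.map MvPolynomial.X).prod) := by
      intro l hl hlk
      cases l with
      | nil => simp at hlk
      | cons c l =>
        have hlk' : l.length = kk m := by simpa using hlk
        rw [U_cons, ih l (List.nodup_cons.1 hl).2 hlk', ← sumL_mul]
        rw [sumL_eq, sumL_eq]
        apply Finset.sum_congr rfl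
        intro f _
        rw [List.cons_append, Phi, MvPolynomial.C_mul]
        have hlen : (l ++ List.ofFn f).length = m := by
          rw [List.length_append, List.length_ofFn, hlk']; omega
        rw [hlen, List.take_append_of_le_length (by omega), List.take_of_length_le (by omega)]
        ring
    -- closing
    have h2 : ∀ j, j ≤ kk m + 1 → ∀ l : List (Fin N), l.Nodup → l.length = kk m + 1 - j →
        (Open.D)^[j] (U (A kk m)) N l = sumL (m - kk m + j)
          (fun L => MvPolynomial.C (Phi kk (l ++ L)) * (L.map MvPolynomial.X).prod) := by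
      intro j
      induction j with
      | zero => intro _ l hl hlk; simpa using h1 l hl (by simpa using hlk)
      | succ j ihj =>
        intro hj l hl hlk
        rw [Function.iterate_succ_apply']
        show ∑ c ∈ Finset.univ.filter (fun c => c ∉ l), MvPolynomial.X c *
          ((Open.D)^[j] (U (A kk m))) N (l ++ [c]) = _
        rw [show m - kk m + (j + 1) = (m - kk m + j) + 1 from rfl, sumL]
        rw [← Finset.sum_filter_add_sum_filter_not Finset.univ (fun c => c ∉ l)
          (fun a => sumL (m - kk m + j) (fun L => MvPolynomial.C (Phi kk (l ++ a :: L)) *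
            ((a :: L).map MvPolynomial.X).prod))]
        have hz : ∑ a ∈ Finset.univ.filter (fun c => ¬ c ∉ l),
            sumL (m - kk m + j) (fun L => MvPolynomial.C (Phi kk (l ++ a :: L)) *
              ((a :: L).map (MvPolynomial.X (R := Polynomial ℤ))).prod) = 0 := by
          apply Finset.sum_eq_zero
          intro a ha
          simp only [Finset.mem_filter, Finset.mem_univ, true_and, not_not] at ha
          rw [sumL_eq]
          apply Finset.sum_eq_zero
          intro f _
          have hP : Phi kk (l ++ a :: List.ofFn f) = 0 := by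
            cases l with
            | nil => simp at ha
            | cons c l =>
              rw [List.cons_append]
              have hlen : (l ++ a :: List.ofFn f).length = m := by
                rw [List.length_append, List.length_cons, List.length_ofFn]
                simp only [List.length_cons] at hlk
                omega
              apply Phi_zero kk hk c _ (l.length + 2)
              · rw [hlen]
                simp only [List.length_cons] at hlk
                omega
              · intro hnd
                have h3 : (c :: (l ++ a :: List.ofFn f)).take (l.length + 2) = (c :: l) ++ [a] := by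
                  have h4 : c :: (l ++ a :: List.ofFn f) = ((c :: l) ++ [a]) ++ List.ofFn f := by simp
                  rw [h4, List.take_left' (by simp)]
                rw [h3, List.nodup_append] at hnd
                exact hnd.2.2 a ha a (by simp) rfl
          rw [hP, map_zero, zero_mul]
        rw [hz, add_zero]
        apply Finset.sum_congr rfl
        intro c hc
        simp only [Finset.mem_filter, Finset.mem_univ, true_and] at hc
        rw [ihj (by omega) (l ++ [c]) _ (by simp; omega), ← sumL_mul]
        · apply sumL_congr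
          intro L
          rw [List.append_assoc, List.singleton_append, List.map_cons, List.prod_cons]
          ring
        · rw [List.nodup_append]
          refine ⟨hl, List.nodup_singleton c, ?_⟩
          intro a ha b hb hab
          simp only [List.mem_singleton] at hb
          subst hb; subst hab
          exact hc ha
    intro l hl hlk
    have h3 := h2 (kk m + 1 - kk (m + 1)) (by omega) l hl (by omega)
    rw [show m - kk m + (kk m + 1 - kk (m + 1)) = m + 1 - kk (m + 1) by omega] at h3
    exact h3

/-! ### comparison with the chromatic function -/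

theorem take_prod {N : ℕ} (c : Fin N) (n : ℕ) : ∀ (k : ℕ) (g : Fin n → Fin N),
    wl c ((List.ofFn g).reverse.take k) =
      ∏ u : Fin n, (if n ≤ u.val + k then w (g u) c else 1) := by
  induction n with
  | zero => intro k g; simp [wl]
  | succ n ih =>
    intro k g
    rw [List.ofFn_succ_last, List.reverse_append, List.reverse_singleton, List.singleton_append]
    cases k with
    | zero =>
      rw [List.take_zero]
      rw [Finset.prod_eq_one]
      · simp [wl]
      · intro u _
        rw [if_neg]
        have := u.isLt
        omega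
    | succ k =>
      rw [List.take_succ_cons, Fin.prod_univ_castSucc]
      unfold wl
      rw [List.map_cons, List.prod_cons]
      have h1 := ih k (fun i => g (Fin.castSucc i))
      unfold wl at h1
      rw [h1, if_pos (by simp), mul_comm]
      congr 1
      apply Finset.prod_congr rfl
      intro u _
      simp only [Fin.val_castSucc]
      congr 1
      apply propext
      constructor <;> intro h <;> omega

theorem Phi_eq (kk : ℕ → ℕ) {N : ℕ} (n : ℕ) : ∀ (f : Fin n → Fin N),
    Phi kk (List.ofFn f).reverse =
      ∏ v : Fin n, ∏ u : Fin n, (if u.val < v.val ∧ v.val ≤ u.val + kk v.val then w (f u) (f v)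
        else 1) := by
  induction n with
  | zero => intro f; simp [Phi]
  | succ n ih =>
    intro f
    rw [List.ofFn_succ_last, List.reverse_append, List.reverse_singleton, List.singleton_append, Phi,
      take_prod, ih, Fin.prod_univ_castSucc (n := n) (f := fun v : Fin (n + 1) =>
        ∏ u : Fin (n + 1), (if u.val < v.val ∧ v.val ≤ u.val + kk v.val then w (f u) (f v)
        else 1)), mul_comm]
    congr 1
    · apply Finset.prod_congr rfl
      intro v _
      rw [Fin.prod_univ_castSucc]
      rw [if_neg (by simp only [Fin.val_last, Fin.val_castSucc]; omega), mul_one]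
      simp only [Fin.val_castSucc]
    · rw [Fin.prod_univ_castSucc, if_neg (by simp), mul_one]
      apply Finset.prod_congr rfl
      intro u _
      simp only [List.length_reverse, List.length_ofFn, Fin.val_last, Fin.val_castSucc]
      congr 1
      apply propext
      have := u.isLt
      constructor <;> intro h <;> omega

/-- number of open neighbours of vertex `m` (0-indexed). -/
def kh {n : ℕ} (h : Fin n → ℕ) (m : ℕ) : ℕ :=
  (Finset.univ.filter (fun u : Fin n => u.val < m ∧ m + 1 ≤ h u)).card

theorem kh_zero {n : ℕ} (h : Fin n → ℕ) : kh h 0 = 0 := by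
  unfold kh; simp

theorem kh_succ {n : ℕ} (h : Fin n → ℕ) (m : ℕ) : kh h (m + 1) ≤ kh h m + 1 := by
  classical
  unfold kh
  have h1 : Finset.univ.filter (fun u : Fin n => u.val < m + 1 ∧ m + 1 + 1 ≤ h u) ⊆
      Finset.univ.filter (fun u : Fin n => u.val < m ∧ m + 1 ≤ h u) ∪
        Finset.univ.filter (fun u : Fin n => u.val = m) := by
    intro u hu
    simp only [Finset.mem_filter, Finset.mem_univ, true_and, Finset.mem_union] at hu ⊢
    by_cases h2 : u.val = m
    · exact Or.inr h2
    · left; omega
  refine (Finset.card_le_card h1).trans ((Finset.card_union_le _ _).trans ?_)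
  have h2 : (Finset.univ.filter (fun u : Fin n => u.val = m)).card ≤ 1 := by
    rw [Finset.card_le_one]
    intro a ha b hb
    simp only [Finset.mem_filter, Finset.mem_univ, true_and] at ha hb
    exact Fin.ext (by omega)
  omega

theorem kh_top {n : ℕ} {h : Fin n → ℕ} (hh : IsHessenberg h) : kh h n = 0 := by
  unfold kh
  rw [Finset.card_eq_zero, Finset.filter_eq_empty_iff]
  intro u _ h1
  have := (hh.2 u).2
  omega

theorem kh_iff {n : ℕ} {h : Fin n → ℕ} (hh : IsHessenberg h) (u v : Fin n) :
    (u.val < v.val ∧ v.val ≤ u.val + kh h v.val) ↔ (u < v ∧ v.val + 1 ≤ h u) := by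
  classical
  rw [Fin.lt_def]
  constructor
  · rintro ⟨h1, h2⟩
    refine ⟨h1, ?_⟩
    by_contra h3
    push Not at h3
    have h4 : Finset.univ.filter (fun a : Fin n => a.val < v.val ∧ v.val + 1 ≤ h a) ⊆
        Finset.Ioo u v := by
      intro a ha
      simp only [Finset.mem_filter, Finset.mem_univ, true_and] at ha
      rw [Finset.mem_Ioo]
      refine ⟨?_, ha.1⟩
      by_contra h5
      have := hh.1 (not_lt.1 h5)
      omega
    have h5 := Finset.card_le_card h4
    rw [Fin.card_Ioo] at h5
    unfold kh at h2
    omega
  · rintro ⟨h1, h2⟩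
    refine ⟨h1, ?_⟩
    have h4 : Finset.Ico u v ⊆
        Finset.univ.filter (fun a : Fin n => a.val < v.val ∧ v.val + 1 ≤ h a) := by
      intro a ha
      rw [Finset.mem_Ico] at ha
      simp only [Finset.mem_filter, Finset.mem_univ, true_and]
      exact ⟨ha.2, h2.trans (hh.1 ha.1)⟩
    have h5 := Finset.card_le_card h4
    rw [Fin.card_Ico] at h5
    unfold kh
    omega

theorem chromaticQSym_open {n : ℕ} {h : Fin n → ℕ} (hh : IsHessenberg h) (N : ℕ) :
    A (kh h) n N [] = chromaticQSym h N := by
  classical
  obtain ⟨_, h1⟩ := A_eq (kh h) (kh_zero h) (kh_succ h) N n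
  rw [h1 [] List.nodup_nil (by rw [kh_top hh]; rfl), kh_top hh, Nat.sub_zero, sumL_eq,
    chromaticQSym_eq]
  unfold chromE
  rw [← (Equiv.arrowCongr Fin.revPerm (Equiv.refl (Fin N))).sum_comp]
  apply Finset.sum_congr rfl
  intro f _
  have h2 : List.ofFn ((Equiv.arrowCongr Fin.revPerm (Equiv.refl (Fin N))) f) =
      (List.ofFn f).reverse := by
    apply List.ext_getElem
    · simp
    · intro i h3 h4
      simp only [List.getElem_ofFn, List.getElem_reverse, Equiv.arrowCongr_apply, Equiv.coe_refl,
        Function.comp_apply, id_eq, Fin.revPerm_symm, Fin.revPerm_apply, List.length_ofFn]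
      congr 1
      apply Fin.ext
      simp [Fin.rev]
      omega
  rw [h2, List.nil_append, Phi_eq, List.map_reverse, List.prod_reverse, List.map_ofFn, List.prod_ofFn]
  congr 1
  congr 1
  rw [Finset.prod_comm, ← Finset.prod_product']
  unfold edges
  rw [Finset.prod_filter, Finset.univ_product_univ]
  apply Finset.prod_congr rfl
  intro p _
  rw [if_congr (kh_iff hh p.1 p.2) rfl rfl]

/-- interface theorem: generators closed under `U` and `D` up to the cone give `EPos`. -/
theorem epos_of_cone (hU : ∀ k n S, B k n S → Cone B (k + 1) (n + 1) (U S))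
    (hD : ∀ k n S, B (k + 1) n S → Cone B k n (D S)) (h1 : Cone B 0 0 vac)
    (h0 : ∀ n S, B 0 n S → EP n (fun N => S N []))
    {n : ℕ} {h : Fin n → ℕ} (hh : IsHessenberg h) : EPos h := by
  rw [EPos_iff]
  have h2 := cone_A hU hD h1 (kh h) (kh_zero h) (kh_succ h) n
  rw [kh_top hh] at h2
  exact (h2.EP0 h0 rfl).congr rfl (fun N => (chromaticQSym_open hh N).symm)

/-- **interface theorem**: S0081 from a family of states closed under `U` and `D`. -/
theorem main_of_cone (hU : ∀ k n S, B k n S → Cone B (k + 1) (n + 1) (U S))
    (hD : ∀ k n S, B (k + 1) n S → Cone B k n (D S)) (h1 : Cone B 0 0 vac)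
    (h0 : ∀ n S, B 0 n S → EP n (fun N => S N [])) :
    ∀ (n : ℕ) (h : Fin n → ℕ), IsHessenberg h →
      ∃ θ : {σ : Equiv.Perm (Fin n) // σ ∈ descentSet h} → Nat.Partition n,
        ∀ N : ℕ, chromaticQSym h N =
          ∑ σ : {σ : Equiv.Perm (Fin n) // σ ∈ descentSet h},
            MvPolynomial.C (Polynomial.X ^ ginv h σ.1) *
              MvPolynomial.esymmPart (Fin N) (Polynomial ℤ) (θ σ) :=
  main_of_EPos (fun _ _ hh => epos_of_cone hU hD h1 h0 hh)

end Crest.Agent.R059.Open
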