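import Mathlib
import Crest.Prelude.Def_ChromaticQSym

set_option autoImplicit false

open Crest.CombinatoricsR.UnitInterval

/-! Linear independence of the `esymmPart`s, palindromicity of the `e`-coefficients. -/

namespace Crest.Agent.R059.Palin

open MvPolynomial

/-- exponent vector of a partition. -/
noncomputable def expo {n : ℕ} (N : ℕ) (μ : Nat.Partition n) : Fin N →₀ ℕ :=
  Finsupp.equivFunOnFinite.symm (fun i => μ.parts.count (i.val + 1))

theorem part_le {n : ℕ} (μ : Nat.Partition n) {p : ℕ} (hp : p ∈ μ.parts) : p ≤ n := by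
  have := Multiset.single_le_sum (s := μ.parts) (fun x _ => Nat.zero_le x) p hp
  rwa [μ.parts_sum] at this

theorem expo_inj {n N : ℕ} (hN : n ≤ N) : Function.Injective (expo (n := n) N) := by
  intro μ ν h
  apply Nat.Partition.ext
  ext p
  by_cases hp : 1 ≤ p ∧ p ≤ N
  · have := DFunLike.congr_fun h ⟨p - 1, by omega⟩
    simp only [expo, Finsupp.equivFunOnFinite_symm_apply_apply] at this
    rwa [show p - 1 + 1 = p by omega] at this
  · have h1 : ∀ κ : Nat.Partition n, κ.parts.count p = 0 := by
      intro κ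
      rw [Multiset.count_eq_zero]
      intro hk
      exact hp ⟨κ.parts_pos hk, (part_le κ hk).trans hN⟩
    rw [h1, h1]

theorem esymmPart_eq_prod {R : Type*} [CommRing R] {n N : ℕ} (hN : n ≤ N) (μ : Nat.Partition n) :
    esymmPart (Fin N) R μ = ((esymmAlgHom (Fin N) R N) (monomial (expo N μ) 1)).val := by
  rw [esymmAlgHom_apply, aeval_monomial, map_one, one_mul]
  unfold esymmPart
  rw [Finset.prod_multiset_map_count, Finsupp.prod_fintype _ _ (fun i => pow_zero _)]
  symm
  have h1 : ∏ i : Fin N, esymm (Fin N) R (i.val + 1) ^ (expo N μ i) =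
      ∏ p ∈ Finset.univ.image (fun i : Fin N => i.val + 1),
        esymm (Fin N) R p ^ (μ.parts.count p) := by
    rw [Finset.prod_image]
    · apply Finset.prod_congr rfl
      intro i _
      simp [expo]
    · intro a _ b _ hab
      exact Fin.ext (by simpa using hab)
  rw [h1]
  symm
  apply Finset.prod_subset
  · intro p hp
    rw [Multiset.mem_toFinset] at hp
    have h2 := μ.parts_pos hp
    have h3 := (part_le μ hp).trans hN
    rw [Finset.mem_image]
    exact ⟨⟨p - 1, by omega⟩, Finset.mem_univ _, by simp; omega⟩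
  · intro p _ hp
    rw [Multiset.mem_toFinset] at hp
    rw [Multiset.count_eq_zero.2 hp, pow_zero]

/-- **linear independence** of the `esymmPart`s of degree `n` in `N ≥ n` variables. -/
theorem esymmPart_indep {R : Type*} [CommRing R] {n N : ℕ} (hN : n ≤ N)
    (c : Nat.Partition n → R)
    (h : ∑ μ, C (c μ) * esymmPart (Fin N) R μ = 0) : ∀ μ, c μ = 0 := by
  classical
  have h1 : (esymmAlgHom (Fin N) R N) (∑ μ, monomial (expo N μ) (c μ)) = 0 := by
    apply Subtype.ext
    rw [map_sum]
    have : ∀ μ, (esymmAlgHom (Fin N) R N) (monomial (expo N μ) (c μ)) =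
        c μ • (esymmAlgHom (Fin N) R N) (monomial (expo N μ) 1) := by
      intro μ
      rw [← map_smul, smul_monomial, smul_eq_mul, mul_one]
    simp only [this]
    rw [ZeroMemClass.coe_zero, ← h, AddSubmonoidClass.coe_finsetSum]
    apply Finset.sum_congr rfl
    intro μ _
    rw [esymmPart_eq_prod hN μ, ← smul_eq_C_mul]
    rfl
  have h2 := esymmAlgHom_injective (σ := Fin N) R (n := N) (by simp)
  have h3 : ∑ μ, monomial (expo N μ) (c μ) = 0 := h2 (h1.trans (map_zero _).symm)
  intro μ
  have h4 := congrArg (coeff (expo N μ)) h3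
  rw [coeff_sum, Finset.sum_eq_single μ] at h4
  · simpa using h4
  · intro ν _ hν
    rw [coeff_monomial, if_neg]
    intro h5
    exact hν (expo_inj hN h5)
  · intro h5
    exact absurd (Finset.mem_univ _) h5

theorem coeff_esymmPart {n N : ℕ} (μ : Nat.Partition n) (m : Fin N →₀ ℕ) :
    coeff m (esymmPart (Fin N) (Polynomial ℤ) μ) =
      Polynomial.C (coeff m (esymmPart (Fin N) ℤ μ)) := by
  have h1 : esymmPart (Fin N) (Polynomial ℤ) μ =
      MvPolynomial.map Polynomial.C (esymmPart (Fin N) ℤ μ) := by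
    unfold esymmPart
    rw [map_multiset_prod, Multiset.map_map]
    congr 1
    apply Multiset.map_congr rfl
    intro p _
    exact (map_esymm (Fin N) ℤ p Polynomial.C).symm
  rw [h1, coeff_map]

/-- an additive functional that kills all coefficients of `F` kills the `e`-coefficients. -/
theorem functional {n N : ℕ} (hN : n ≤ N) (c : Nat.Partition n → Polynomial ℤ)
    (T : Polynomial ℤ →+ ℤ)
    (hT : ∀ m : Fin N →₀ ℕ,
      T (coeff m (∑ μ, C (c μ) * esymmPart (Fin N) (Polynomial ℤ) μ)) = 0) :
    ∀ μ, T (c μ) = 0 := by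
  apply esymmPart_indep (R := ℤ) hN
  ext m
  rw [coeff_zero, ← hT m, coeff_sum, coeff_sum, map_sum]
  apply Finset.sum_congr rfl
  intro μ _
  rw [coeff_C_mul, coeff_C_mul, coeff_esymmPart, mul_comm (c μ), ← Polynomial.smul_eq_C_mul,
    mul_comm, ← smul_eq_mul, ← map_zsmul]

variable {n : ℕ}

/-- number of edges. -/
def ne (h : Fin n → ℕ) : ℕ :=
  (Finset.univ.filter (fun p : Fin n × Fin n => p.1 < p.2 ∧ IsEdge h p.1 p.2)).card

theorem ascents_le {N : ℕ} (h : Fin n → ℕ) (f : Fin n → Fin N) : ascents h f ≤ ne h := by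
  unfold ascents ne
  apply Finset.card_le_card
  intro p hp
  rw [Finset.mem_filter] at hp ⊢
  exact ⟨hp.1, hp.2.1, hp.2.2.1⟩

theorem ascents_rev {N : ℕ} (h : Fin n → ℕ) (f : Fin n → Fin N)
    (hf : ∀ a b : Fin n, IsEdge h a b → f a ≠ f b) :
    ascents h f + ascents h (fun a => Fin.rev (f a)) = ne h := by
  unfold ascents ne
  rw [← Finset.card_union_of_disjoint]
  · congr 1
    ext p
    simp only [Finset.mem_union, Finset.mem_filter, Finset.mem_univ, true_and, Fin.rev_lt_rev]
    constructor
    · rintro (h1 | h1)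
      · exact ⟨h1.1, h1.2.1⟩
      · exact ⟨h1.1, h1.2.1⟩
    · rintro ⟨h1, h2⟩
      rcases lt_or_gt_of_ne (hf p.1 p.2 h2) with h3 | h3
      · exact Or.inl ⟨h1, h2, h3⟩
      · exact Or.inr ⟨h1, h2, h3⟩
  · rw [Finset.disjoint_left]
    intro p h1 h2
    rw [Finset.mem_filter] at h1 h2
    have h3 := h1.2.2.2
    have h4 := h2.2.2.2
    rw [Fin.rev_lt_rev] at h4
    exact lt_asymm h3 h4

/-- content of a colouring. -/
noncomputable def cont {N : ℕ} (f : Fin n → Fin N) : Fin N →₀ ℕ := ∑ a, Finsupp.single (f a) 1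

theorem prod_X_eq {N : ℕ} (f : Fin n → Fin N) :
    (∏ a, X (f a) : MvPolynomial (Fin N) (Polynomial ℤ)) = monomial (cont f) 1 := by
  unfold cont
  rw [monomial_sum_one]
  rfl

theorem coeff_coeff {N : ℕ} (h : Fin n → ℕ) (m : Fin N →₀ ℕ) (k : ℕ) :
    (coeff m (chromaticQSym h N)).coeff k =
      (((Finset.univ : Finset (Fin n → Fin N)).filter
        (fun f => (∀ a b : Fin n, IsEdge h a b → f a ≠ f b) ∧ cont f = m ∧ ascents h f = k)).card
        : ℤ) := by
  classical
  unfold chromaticQSym
  rw [coeff_sum, Polynomial.finsetSum_coeff]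
  have h1 : ∀ f : Fin n → Fin N, (coeff m (C (Polynomial.X ^ ascents h f) *
      ∏ a, X (f a) : MvPolynomial (Fin N) (Polynomial ℤ))).coeff k =
      if cont f = m ∧ ascents h f = k then 1 else 0 := by
    intro f
    rw [prod_X_eq, coeff_C_mul, coeff_monomial]
    by_cases h2 : cont f = m
    · rw [if_pos h2, mul_one, Polynomial.coeff_X_pow]
      by_cases h3 : ascents h f = k
      · rw [if_pos h3.symm, if_pos ⟨h2, h3⟩]
      · rw [if_neg (fun h4 => h3 h4.symm), if_neg (fun h4 => h3 h4.2)]
    · rw [if_neg h2, mul_zero, Polynomial.coeff_zero, if_neg (fun h4 => h2 h4.1)]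
  rw [Finset.sum_congr rfl (fun f _ => h1 f), Finset.sum_ite, Finset.sum_const_zero, add_zero,
    Finset.filter_filter, Finset.sum_const, nsmul_eq_mul, mul_one]

theorem cont_rev {N : ℕ} (f : Fin n → Fin N) :
    cont (fun a => Fin.rev (f a)) = (cont f).mapDomain Fin.rev := by
  unfold cont
  rw [Finsupp.mapDomain_finsetSum]
  apply Finset.sum_congr rfl
  intro a _
  rw [Finsupp.mapDomain_single]

theorem rev_coeff {N : ℕ} (h : Fin n → ℕ) (m : Fin N →₀ ℕ) (k : ℕ) (hk : k ≤ ne h) :
    (coeff m (chromaticQSym h N)).coeff k =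
      (coeff (m.mapDomain Fin.rev) (chromaticQSym h N)).coeff (ne h - k) := by
  classical
  rw [coeff_coeff, coeff_coeff]
  congr 1
  apply Finset.card_bij (fun f _ a => Fin.rev (f a))
  · intro f hf
    rw [Finset.mem_filter] at hf ⊢
    refine ⟨Finset.mem_univ _, ?_, ?_, ?_⟩
    · intro a b hab
      have := hf.2.1 a b hab
      exact fun h1 => this (Fin.rev_injective h1)
    · rw [cont_rev, hf.2.2.1]
    · have := ascents_rev h f hf.2.1
      have h2 := hf.2.2.2
      omega
  · intro f _ g _ hfg
    funext a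
    exact Fin.rev_injective (congrFun hfg a)
  · intro g hg
    rw [Finset.mem_filter] at hg
    have hp : ∀ a b : Fin n, IsEdge h a b → Fin.rev (g a) ≠ Fin.rev (g b) := by
      intro a b hab h1
      exact hg.2.1 a b hab (Fin.rev_injective h1)
    refine ⟨fun a => Fin.rev (g a), ?_, ?_⟩
    · rw [Finset.mem_filter]
      refine ⟨Finset.mem_univ _, hp, ?_, ?_⟩
      · rw [cont_rev, hg.2.2.1, ← Finsupp.mapDomain_comp]
        have : (Fin.rev ∘ Fin.rev : Fin N → Fin N) = id := by
          funext x; simp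
        rw [this, Finsupp.mapDomain_id]
      · have := ascents_rev h g hg.2.1
        have h2 := hg.2.2.2
        omega
    · funext a
      simp

/-- **degree bound and palindromicity** of the `e`-coefficients. -/
theorem palin {N : ℕ} (hN : n ≤ N) (h : Fin n → ℕ) (c : Nat.Partition n → Polynomial ℤ)
    (hc : chromaticQSym h N =
      ∑ μ, C (c μ) * esymmPart (Fin N) (Polynomial ℤ) μ) (μ : Nat.Partition n) :
    (∀ k, ne h < k → (c μ).coeff k = 0) ∧
      ∀ k, k ≤ ne h → (c μ).coeff k = (c μ).coeff (ne h - k) := by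
  have hsym : ∀ m : Fin N →₀ ℕ, coeff (m.mapDomain Fin.rev) (chromaticQSym h N) =
      coeff m (chromaticQSym h N) := by
    intro m
    have h1 : rename Fin.rev (chromaticQSym h N) = chromaticQSym h N := by
      rw [hc, map_sum]
      apply Finset.sum_congr rfl
      intro ν _
      rw [map_mul, rename_C]
      congr 1
      unfold esymmPart
      rw [map_multiset_prod, Multiset.map_map]
      congr 1
      apply Multiset.map_congr rfl
      intro p _
      exact esymm_isSymmetric (Fin N) (Polynomial ℤ) p Fin.revPerm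
    rw [← coeff_rename_mapDomain Fin.rev Fin.rev_injective (chromaticQSym h N) m, h1]
  constructor
  · intro k hk
    have := functional hN c (Polynomial.lcoeff ℤ k).toAddMonoidHom (by
      intro m
      rw [← hc]
      change (coeff m (chromaticQSym h N)).coeff k = 0
      rw [coeff_coeff, Finset.filter_false_of_mem]
      · simp
      · intro f _ h1
        have := ascents_le h f
        omega) μ
    exact this
  · intro k hk
    have := functional hN c ((Polynomial.lcoeff ℤ k).toAddMonoidHom -
      (Polynomial.lcoeff ℤ (ne h - k)).toAddMonoidHom) (by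
      intro m
      rw [← hc]
      change (coeff m (chromaticQSym h N)).coeff k -
        (coeff m (chromaticQSym h N)).coeff (ne h - k) = 0
      rw [rev_coeff h m k hk, hsym, sub_self]) μ
    exact sub_eq_zero.1 this

/-- the degree bound, `natDegree` form. -/
theorem natDegree_le {N : ℕ} (hN : n ≤ N) (h : Fin n → ℕ) (c : Nat.Partition n → Polynomial ℤ)
    (hc : chromaticQSym h N =
      ∑ μ, C (c μ) * esymmPart (Fin N) (Polynomial ℤ) μ) (μ : Nat.Partition n) :
    (c μ).natDegree ≤ ne h :=
  Polynomial.natDegree_le_iff_coeff_eq_zero.2 (fun k hk => (palin hN h c hc μ).1 k hk)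

/-- the lower half decides positivity. -/
theorem nonneg_of_half {N : ℕ} (hN : n ≤ N) (h : Fin n → ℕ) (c : Nat.Partition n → Polynomial ℤ)
    (hc : chromaticQSym h N =
      ∑ μ, C (c μ) * esymmPart (Fin N) (Polynomial ℤ) μ) (μ : Nat.Partition n)
    (hpos : ∀ k, 2 * k ≤ ne h → 0 ≤ (c μ).coeff k) : ∀ k, 0 ≤ (c μ).coeff k := by
  intro k
  obtain ⟨h1, h2⟩ := palin hN h c hc μ
  rcases lt_or_ge (ne h) k with h3 | h3
  · rw [h1 k h3]
  · rcases le_or_gt (2 * k) (ne h) with h4 | h4
    · exact hpos k h4
    · rw [h2 k h3]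
      exact hpos _ (by omega)

end Crest.Agent.R059.Palin
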