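import Crest.Agent.R059.Theta
import Crest.Agent.R059.Graph

set_option autoImplicit false

open Crest.CombinatoricsR.UnitInterval

namespace Crest.Agent.R059.Pieri

variable {n : ℕ}

/-- oriented adjacency `a < b`. -/
def Adj (h : Fin n → ℕ) (a b : Fin n) : Prop := a < b ∧ b.val + 1 ≤ h a

instance (h : Fin n → ℕ) (a b : Fin n) : Decidable (Adj h a b) := by
  unfold Adj; infer_instance

/-- stable sets. -/
def Stable (h : Fin n → ℕ) (S : Finset (Fin n)) : Prop := ∀ a ∈ S, ∀ b ∈ S, ¬ Adj h a b

instance (h : Fin n → ℕ) (S : Finset (Fin n)) : Decidable (Stable h S) := by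
  unfold Stable; infer_instance

/-- number of edges with small end in `T` and large end in `S`. -/
def cross (h : Fin n → ℕ) (T S : Finset (Fin n)) : ℕ :=
  ((T ×ˢ S).filter (fun p => Adj h p.1 p.2)).card

/-- edges inside `U`. -/
def edg (h : Fin n → ℕ) (U : Finset (Fin n)) : Finset (Fin n × Fin n) :=
  (U ×ˢ U).filter (fun p => Adj h p.1 p.2)

/-- colourings of `U` with colours `< N` (value `0` outside). -/
def col (U : Finset (Fin n)) (N : ℕ) : Finset (Fin n → ℕ) :=
  Fintype.piFinset (fun v : Fin n => if v ∈ U then Finset.range N else {0})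

theorem mem_col {U : Finset (Fin n)} {N : ℕ} {f : Fin n → ℕ} :
    f ∈ col U N ↔ (∀ v ∈ U, f v < N) ∧ (∀ v ∉ U, f v = 0) := by
  unfold col
  rw [Fintype.mem_piFinset]
  constructor
  · intro H
    refine ⟨fun v hv => ?_, fun v hv => ?_⟩
    · have := H v
      rw [if_pos hv] at this
      exact Finset.mem_range.1 this
    · have := H v
      rw [if_neg hv] at this
      exact Finset.mem_singleton.1 this
  · rintro ⟨h1, h2⟩ v
    split_ifs with hv
    · exact Finset.mem_range.2 (h1 v hv)
    · exact Finset.mem_singleton.2 (h2 v hv)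

variable {R : Type*} [CommRing R]

/-- edge weight. -/
def ew (q : R) (x y : ℕ) : R := if x < y then q else if x = y then 0 else 1

/-- weighted colouring sum of the graph induced on `U`. -/
noncomputable def chr (q : R) (x : ℕ → R) (h : Fin n → ℕ) (U : Finset (Fin n)) (N : ℕ) : R :=
  ∑ f ∈ col U N, (∏ p ∈ edg h U, ew q (f p.1) (f p.2)) * ∏ v ∈ U, x (f v)

/-- extension of a colouring by the new colour `N` on `S`. -/
def extc (S : Finset (Fin n)) (N : ℕ) (f : Fin n → ℕ) : Fin n → ℕ :=
  fun v => if v ∈ S then N else f v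

/-- weight of the extended colouring. -/
theorem wt_extc (q : R) (h : Fin n → ℕ) {U S : Finset (Fin n)} (hS : S ⊆ U) {N : ℕ}
    {f : Fin n → ℕ} (hf : f ∈ col (U \ S) N) :
    ∏ p ∈ edg h U, ew q (extc S N f p.1) (extc S N f p.2) =
      if Stable h S then q ^ cross h (U \ S) S * ∏ p ∈ edg h (U \ S), ew q (f p.1) (f p.2)
      else 0 := by
  classical
  rw [mem_col] at hf
  have hlt : ∀ v ∈ U \ S, f v < N := hf.1
  split_ifs with hst
  · -- decompose the edges
    have e1 : edg h U = (edg h (U \ S) ∪ ((U \ S) ×ˢ S).filter (fun p => Adj h p.1 p.2)) ∪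
        (S ×ˢ (U \ S)).filter (fun p => Adj h p.1 p.2) := by
      ext ⟨a, b⟩
      simp only [edg, Finset.mem_filter, Finset.mem_product, Finset.mem_union, Finset.mem_sdiff]
      constructor
      · rintro ⟨⟨ha, hb⟩, hab⟩
        by_cases haS : a ∈ S
        · by_cases hbS : b ∈ S
          · exact absurd hab (hst a haS b hbS)
          · right; exact ⟨⟨haS, hb, hbS⟩, hab⟩
        · by_cases hbS : b ∈ S
          · left; right; exact ⟨⟨⟨ha, haS⟩, hbS⟩, hab⟩
          · left; left; exact ⟨⟨⟨ha, haS⟩, hb, hbS⟩, hab⟩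
      · rintro ((⟨⟨⟨ha, _⟩, hb, _⟩, hab⟩ | ⟨⟨⟨ha, _⟩, hb⟩, hab⟩) | ⟨⟨ha, hb, _⟩, hab⟩)
        · exact ⟨⟨ha, hb⟩, hab⟩
        · exact ⟨⟨ha, hS hb⟩, hab⟩
        · exact ⟨⟨hS ha, hb⟩, hab⟩
    have d1 : Disjoint (edg h (U \ S)) (((U \ S) ×ˢ S).filter (fun p => Adj h p.1 p.2)) := by
      rw [Finset.disjoint_left]
      rintro ⟨a, b⟩ h1 h2
      simp only [edg, Finset.mem_filter, Finset.mem_product, Finset.mem_sdiff] at h1 h2
      exact h1.1.2.2 h2.1.2
    have d2 : Disjoint (edg h (U \ S) ∪ ((U \ S) ×ˢ S).filter (fun p => Adj h p.1 p.2))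
        ((S ×ˢ (U \ S)).filter (fun p => Adj h p.1 p.2)) := by
      rw [Finset.disjoint_left]
      rintro ⟨a, b⟩ h1 h2
      simp only [edg, Finset.mem_filter, Finset.mem_product, Finset.mem_sdiff,
        Finset.mem_union] at h1 h2
      rcases h1 with h1 | h1
      · exact h1.1.1.2 h2.1.1
      · exact h1.1.1.2 h2.1.1
    rw [e1, Finset.prod_union d2, Finset.prod_union d1]
    have p1 : ∏ p ∈ edg h (U \ S), ew q (extc S N f p.1) (extc S N f p.2) =
        ∏ p ∈ edg h (U \ S), ew q (f p.1) (f p.2) := by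
      apply Finset.prod_congr rfl
      rintro ⟨a, b⟩ hp
      simp only [edg, Finset.mem_filter, Finset.mem_product, Finset.mem_sdiff] at hp
      simp [extc, hp.1.1.2, hp.1.2.2]
    have p2 : ∏ p ∈ ((U \ S) ×ˢ S).filter (fun p => Adj h p.1 p.2),
        ew q (extc S N f p.1) (extc S N f p.2) = q ^ cross h (U \ S) S := by
      unfold cross
      rw [← Finset.prod_const]
      apply Finset.prod_congr rfl
      rintro ⟨a, b⟩ hp
      simp only [Finset.mem_filter, Finset.mem_product] at hp
      have ha : a ∉ S := (Finset.mem_sdiff.1 hp.1.1).2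
      have := hlt a hp.1.1
      simp [extc, ha, hp.1.2, ew, this]
    have p3 : ∏ p ∈ (S ×ˢ (U \ S)).filter (fun p => Adj h p.1 p.2),
        ew q (extc S N f p.1) (extc S N f p.2) = 1 := by
      apply Finset.prod_eq_one
      rintro ⟨a, b⟩ hp
      simp only [Finset.mem_filter, Finset.mem_product] at hp
      have hb : b ∉ S := (Finset.mem_sdiff.1 hp.1.2).2
      have := hlt b hp.1.2
      simp [extc, hb, hp.1.1, ew, not_lt.2 this.le, this.ne']
    rw [p1, p2, p3]
    ring
  · unfold Stable at hst
    push Not at hst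
    obtain ⟨a, ha, b, hb, hab⟩ := hst
    apply Finset.prod_eq_zero (i := (a, b))
    · simp only [edg, Finset.mem_filter, Finset.mem_product]
      exact ⟨⟨hS ha, hS hb⟩, hab⟩
    · simp [extc, ha, hb, ew]

/-- splitting off the largest colour. -/
theorem chr_succ (q : R) (x : ℕ → R) (h : Fin n → ℕ) (U : Finset (Fin n)) (N : ℕ) :
    chr q x h U (N + 1) =
      ∑ S ∈ U.powerset.filter (fun S => Stable h S),
        x N ^ S.card * q ^ cross h (U \ S) S * chr q x h (U \ S) N := by
  classical
  unfold chr
  rw [← Finset.sum_fiberwise_of_maps_to (s := col U (N + 1)) (t := U.powerset)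
    (g := fun f => U.filter (fun v => f v = N))
    (fun f _ => Finset.mem_powerset.2 (Finset.filter_subset _ _)), Finset.sum_filter]
  apply Finset.sum_congr rfl
  intro S hS
  rw [Finset.mem_powerset] at hS
  have key : ∑ f ∈ (col U (N + 1)).filter (fun f => U.filter (fun v => f v = N) = S),
      (∏ p ∈ edg h U, ew q (f p.1) (f p.2)) * ∏ v ∈ U, x (f v) =
      ∑ f ∈ col (U \ S) N, (∏ p ∈ edg h U, ew q (extc S N f p.1) (extc S N f p.2)) *
        ∏ v ∈ U, x (extc S N f v) := by
    symm
    apply Finset.sum_bij' (fun f _ => extc S N f) (fun f _ => fun v => if v ∈ S then 0 else f v)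
    · intro f hf
      rw [mem_col] at hf
      rw [Finset.mem_filter, mem_col]
      refine ⟨⟨fun v hv => ?_, fun v hv => ?_⟩, ?_⟩
      · unfold extc
        split_ifs with hvS
        · omega
        · have := hf.1 v (Finset.mem_sdiff.2 ⟨hv, hvS⟩)
          omega
      · have hvS : v ∉ S := fun h' => hv (hS h')
        simp only [extc, hvS, if_false]
        exact hf.2 v (fun h' => hv (Finset.mem_sdiff.1 h').1)
      · ext v
        rw [Finset.mem_filter]
        simp only [extc]
        constructor
        · rintro ⟨hv, hvN⟩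
          by_contra hvS
          rw [if_neg hvS] at hvN
          have := hf.1 v (Finset.mem_sdiff.2 ⟨hv, hvS⟩)
          omega
        · intro hvS
          exact ⟨hS hvS, by simp [hvS]⟩
    · intro f hf
      rw [Finset.mem_filter, mem_col] at hf
      rw [mem_col]
      refine ⟨fun v hv => ?_, fun v hv => ?_⟩
      · obtain ⟨hvU, hvS⟩ := Finset.mem_sdiff.1 hv
        simp only [hvS, if_false]
        have h1 := hf.1.1 v hvU
        have h2 : f v ≠ N := by
          intro h3
          apply hvS
          rw [← hf.2]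
          exact Finset.mem_filter.2 ⟨hvU, h3⟩
        omega
      · by_cases hvS : v ∈ S
        · simp [hvS]
        · simp only [hvS, if_false]
          exact hf.1.2 v (fun h' => hv (Finset.mem_sdiff.2 ⟨h', hvS⟩))
    · intro f hf
      rw [mem_col] at hf
      funext v
      by_cases hvS : v ∈ S
      · simp only [hvS, if_true]
        exact (hf.2 v (fun h' => (Finset.mem_sdiff.1 h').2 hvS)).symm
      · simp [extc, hvS]
    · intro f hf
      rw [Finset.mem_filter, mem_col] at hf
      funext v
      by_cases hvS : v ∈ S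
      · simp only [extc, hvS, if_true]
        have : v ∈ U.filter (fun v => f v = N) := by rw [hf.2]; exact hvS
        exact (Finset.mem_filter.1 this).2.symm
      · simp [extc, hvS]
    · intro f hf
      rfl
  rw [key]
  have hx : ∀ f ∈ col (U \ S) N, ∏ v ∈ U, x (extc S N f v) =
      x N ^ S.card * ∏ v ∈ U \ S, x (f v) := by
    intro f _
    rw [← Finset.prod_sdiff hS, mul_comm]
    congr 1
    · rw [← Finset.prod_const]
      apply Finset.prod_congr rfl
      intro v hv
      simp [extc, hv]
    · apply Finset.prod_congr rfl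
      intro v hv
      simp [extc, (Finset.mem_sdiff.1 hv).2]
  split_ifs with hst
  · rw [Finset.mul_sum]
    apply Finset.sum_congr rfl
    intro f hf
    rw [wt_extc q h hS hf, if_pos hst, hx f hf]
    ring
  · apply Finset.sum_eq_zero
    intro f hf
    rw [wt_extc q h hS hf, if_neg hst, zero_mul]

theorem chr_zero (q : R) (x : ℕ → R) (h : Fin n → ℕ) (U : Finset (Fin n)) :
    chr q x h U 0 = if U = ∅ then 1 else 0 := by
  classical
  split_ifs with hU
  · subst hU
    unfold chr
    have h1 : col (∅ : Finset (Fin n)) 0 = {fun _ => 0} := by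
      ext f
      rw [mem_col, Finset.mem_singleton]
      constructor
      · rintro ⟨_, h2⟩
        funext v
        exact h2 v (Finset.notMem_empty v)
      · rintro rfl
        exact ⟨fun v hv => absurd hv (Finset.notMem_empty v), fun _ _ => rfl⟩
    rw [h1, Finset.sum_singleton]
    simp [edg]
  · unfold chr
    apply Finset.sum_eq_zero
    intro f hf
    obtain ⟨v, hv⟩ := Finset.nonempty_iff_ne_empty.2 hU
    exact absurd ((mem_col.1 hf).1 v hv) (Nat.not_lt_zero _)

/-- elementary symmetric polynomials of `x 0, …, x (N-1)`. -/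
def E (x : ℕ → R) : ℕ → ℕ → R
  | 0, 0 => 1
  | 0, (_ + 1) => 0
  | (_ + 1), 0 => 1
  | (N + 1), (k + 1) => E x N (k + 1) + x N * E x N k

theorem E_zero (x : ℕ → R) (N : ℕ) : E x N 0 = 1 := by
  cases N <;> rfl

theorem E_succ (x : ℕ → R) (N : ℕ) {k : ℕ} (hk : 0 < k) :
    E x (N + 1) k = E x N k + x N * E x N (k - 1) := by
  cases k with
  | zero => omega
  | succ k => rfl

theorem E_esymm (x : ℕ → R) (N k : ℕ) : E x N k = ((Multiset.range N).map x).esymm k := by
  induction N generalizing k with
  | zero =>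
    cases k with
    | zero => simp [E, Multiset.esymm]
    | succ k =>
      simp [E, Multiset.esymm, Multiset.powersetCard_zero_right]
  | succ N ih =>
    cases k with
    | zero => simp [E, Multiset.esymm]
    | succ k =>
      rw [Multiset.range_succ, Multiset.map_cons]
      unfold Multiset.esymm
      rw [Multiset.powersetCard_cons, Multiset.map_add, Multiset.sum_add]
      show E x N (k + 1) + x N * E x N k = _
      rw [ih, ih]
      unfold Multiset.esymm
      congr 1
      rw [Multiset.map_map, ← Multiset.sum_map_mul_left]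
      congr 1
      apply Multiset.map_congr rfl
      intro s _
      simp

/-- drop the zero parts. -/
def strip (m : Multiset ℕ) : Multiset ℕ := m.filter (fun p => p ≠ 0)

theorem prod_strip (e : ℕ → R) (he : e 0 = 1) (m : Multiset ℕ) :
    ((strip m).map e).prod = (m.map e).prod := by
  unfold strip
  induction m using Multiset.induction_on with
  | empty => simp
  | cons a m ih =>
    by_cases ha : a = 0
    · subst ha
      simp [he, ih]
    · rw [Multiset.filter_cons_of_pos _ (by simpa using ha)]
      simp [ih]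

/-- left side of the Pieri identity of one object `(g, m)`. -/
def pl (x : ℕ × Multiset ℕ) : Multiset (ℕ × ℕ × Multiset ℕ) :=
  x.2.antidiagonal.map (fun y => (x.1, Multiset.card y.2, strip (y.1 + y.2.map Nat.pred)))

/-- value of `(g, k, m)`. -/
def val3 (q t : R) (e : ℕ → R) (z : ℕ × ℕ × Multiset ℕ) : R :=
  q ^ z.1 * (t ^ z.2.1 * (z.2.2.map e).prod)

/-- value of `(g, m)`. -/
def val2 (q : R) (e : ℕ → R) (z : ℕ × Multiset ℕ) : R :=
  q ^ z.1 * (z.2.map e).prod

theorem sum_pl (q : R) (x : ℕ → R) (N : ℕ) (z : ℕ × Multiset ℕ) (hz : ∀ p ∈ z.2, 0 < p) :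
    ((pl z).map (val3 q (x N) (E x N))).sum = val2 q (E x (N + 1)) z := by
  unfold pl val3 val2
  rw [Multiset.map_map]
  have h1 : (z.2.map (E x (N + 1))).prod =
      (z.2.map (fun p => E x N p + x N * E x N (p - 1))).prod := by
    congr 1
    apply Multiset.map_congr rfl
    intro p hp
    exact E_succ x N (hz p hp)
  rw [h1, Multiset.prod_map_add, ← Multiset.sum_map_mul_left]
  congr 1
  apply Multiset.map_congr rfl
  rintro ⟨y1, y2⟩ _
  simp only [Function.comp]
  rw [prod_strip _ (E_zero x N), Multiset.map_add, Multiset.prod_add, Multiset.prod_map_mul,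
    Multiset.map_map]
  simp only [Multiset.map_const', Multiset.prod_replicate]
  have h2 : (y2.map (fun i => E x N (i - 1))).prod = (y2.map (E x N ∘ Nat.pred)).prod := rfl
  rw [h2]
  ring

/-- all terms of the left side. -/
def PL (A : Finset (Fin n) → Multiset (ℕ × Multiset ℕ)) (U : Finset (Fin n)) :
    Multiset (ℕ × ℕ × Multiset ℕ) := (A U).bind pl

/-- all terms of the right side. -/
def PR (h : Fin n → ℕ) (A : Finset (Fin n) → Multiset (ℕ × Multiset ℕ)) (U : Finset (Fin n)) :
    Multiset (ℕ × ℕ × Multiset ℕ) :=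
  (U.powerset.filter (fun S => Stable h S)).val.bind
    (fun S => (A (U \ S)).map (fun z => (z.1 + cross h (U \ S) S, S.card, z.2)))

/-- the Pieri criterion, evaluated form. -/
theorem chr_eq (q : R) (x : ℕ → R) (h : Fin n → ℕ)
    (A : Finset (Fin n) → Multiset (ℕ × Multiset ℕ))
    (hpos : ∀ U, ∀ z ∈ A U, ∀ p ∈ z.2, 0 < p)
    (hsum : ∀ U, ∀ z ∈ A U, z.2.sum = U.card)
    (h0 : A ∅ = {(0, 0)})
    (hP : ∀ U, PL A U = PR h A U) (N : ℕ) (U : Finset (Fin n)) :
    chr q x h U N = ((A U).map (val2 q (E x N))).sum := by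
  classical
  induction N generalizing U with
  | zero =>
    rw [chr_zero]
    split_ifs with hU
    · subst hU
      rw [h0]
      simp [val2]
    · symm
      apply Multiset.sum_eq_zero
      intro y hy
      rw [Multiset.mem_map] at hy
      obtain ⟨z, hz, rfl⟩ := hy
      unfold val2
      have hne : z.2 ≠ 0 := by
        intro h1
        have := hsum U z hz
        rw [h1, Multiset.sum_zero] at this
        exact hU (Finset.card_eq_zero.1 this.symm)
      obtain ⟨p, hp⟩ := Multiset.exists_mem_of_ne_zero hne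
      have hp0 := hpos U z hz p hp
      have : (0 : R) ∈ z.2.map (E x 0) := by
        rw [Multiset.mem_map]
        refine ⟨p, hp, ?_⟩
        cases p with
        | zero => omega
        | succ p => rfl
      rw [Multiset.prod_eq_zero this, mul_zero]
  | succ N ih =>
    rw [chr_succ]
    have h1 : ((A U).map (val2 q (E x (N + 1)))).sum =
        ((PL A U).map (val3 q (x N) (E x N))).sum := by
      unfold PL
      rw [Multiset.map_bind, Multiset.sum_bind]
      congr 1
      apply Multiset.map_congr rfl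
      intro z hz
      exact (sum_pl q x N z (hpos U z hz)).symm
    rw [h1, hP]
    unfold PR
    rw [Multiset.map_bind, Multiset.sum_bind]
    show _ = ∑ S ∈ U.powerset.filter (fun S => Stable h S), _
    apply Finset.sum_congr rfl
    intro S _
    rw [ih, Multiset.map_map, ← Multiset.sum_map_mul_left]
    congr 1
    apply Multiset.map_congr rfl
    intro z _
    simp only [Function.comp, val3, val2]
    rw [pow_add]
    ring

/-- the variables as a sequence. -/
noncomputable def xv (N : ℕ) (i : ℕ) : MvPolynomial (Fin N) (Polynomial ℤ) :=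
  if hi : i < N then MvPolynomial.X ⟨i, hi⟩ else 0

theorem xv_val {N : ℕ} (i : Fin N) : xv N i.val = MvPolynomial.X i := by
  unfold xv
  rw [dif_pos i.isLt]

theorem E_xv (N k : ℕ) : E (xv N) N k = MvPolynomial.esymm (Fin N) (Polynomial ℤ) k := by
  rw [E_esymm, MvPolynomial.esymm_eq_multiset_esymm]
  congr 1
  rw [Fin.univ_val_map, ← Multiset.coe_range, Multiset.map_coe]
  congr 1
  rw [List.ofFn_eq_map, ← List.map_coe_finRange_eq_range, List.map_map]
  apply List.map_congr_left
  intro a _
  exact xv_val a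

theorem edg_univ (h : Fin n → ℕ) : edg h Finset.univ = edges h := by
  ext ⟨a, b⟩
  simp [edg, edges, Adj]

theorem w_eq_ew {N : ℕ} (a b : Fin N) :
    (MvPolynomial.C (w a b) : MvPolynomial (Fin N) (Polynomial ℤ)) =
      ew (MvPolynomial.C Polynomial.X) a.val b.val := by
  unfold w ew
  by_cases h1 : a < b
  · rw [if_pos h1, if_pos (Fin.lt_def.1 h1)]
  · rw [if_neg h1, if_neg (fun h2 => h1 (Fin.lt_def.2 h2))]
    by_cases h2 : a = b
    · rw [if_pos h2, if_pos (congrArg Fin.val h2), map_zero]
    · rw [if_neg h2, if_neg (fun h3 => h2 (Fin.ext h3)), map_one]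

theorem chromatic_eq_chr (h : Fin n → ℕ) (N : ℕ) :
    chromaticQSym h N = chr (MvPolynomial.C Polynomial.X) (xv N) h Finset.univ N := by
  classical
  rw [chromaticQSym_eq]
  unfold chromE chr
  refine Finset.sum_bij' (fun f _ => fun v => (f v).val)
    (fun f hf => fun v => ⟨f v, (mem_col.1 hf).1 v (Finset.mem_univ v)⟩) ?_ ?_ ?_ ?_ ?_
  · intro f _
    rw [mem_col]
    exact ⟨fun v _ => (f v).isLt, fun v hv => absurd (Finset.mem_univ v) hv⟩
  · intro f _
    exact Finset.mem_univ _
  · intro f _
    rfl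
  · intro f _
    rfl
  · intro f _
    rw [edg_univ, map_prod]
    congr 1
    · apply Finset.prod_congr rfl
      intro p _
      exact w_eq_ew _ _
    · apply Finset.prod_congr rfl
      intro v _
      exact (xv_val (f v)).symm

theorem sum_by_partition {ι κ M : Type*} [AddCommMonoid M] [DecidableEq κ] [Fintype ι]
    (P : ι → κ) (hP : Function.Injective P) (A : Multiset (ℕ × κ)) (F : ℕ × κ → M)
    (hA : ∀ z ∈ A, ∃ μ, z.2 = P μ) :
    (A.map F).sum = ∑ μ, ((A.filter (fun z => z.2 = P μ)).map F).sum := by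
  classical
  induction A using Multiset.induction_on with
  | empty => simp
  | cons a A ih =>
    obtain ⟨μ, hμ⟩ := hA a (Multiset.mem_cons_self a A)
    rw [Multiset.map_cons, Multiset.sum_cons,
      ih (fun z hz => hA z (Multiset.mem_cons_of_mem hz))]
    have h1 : ∀ ν, (((a ::ₘ A).filter (fun z => z.2 = P ν)).map F).sum =
        (if ν = μ then F a else 0) + ((A.filter (fun z => z.2 = P ν)).map F).sum := by
      intro ν
      by_cases hν : ν = μ
      · subst hν
        rw [Multiset.filter_cons_of_pos (p := fun z : ℕ × κ => z.2 = P ν) _ hμ, if_pos rfl]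
        simp
      · have : ¬ a.2 = P ν := fun h2 => hν (hP (h2.symm.trans hμ))
        rw [Multiset.filter_cons_of_neg (p := fun z : ℕ × κ => z.2 = P ν) _ this, if_neg hν, zero_add]
    simp only [h1]
    rw [Finset.sum_add_distrib]
    simp

/-- the coefficient polynomial of a multiset of exponents. -/
noncomputable def cf (B : Multiset (ℕ × Multiset ℕ)) : Polynomial ℕ :=
  (B.map (fun z => (Polynomial.X : Polynomial ℕ) ^ z.1)).sum

theorem cf_map (B : Multiset (ℕ × Multiset ℕ)) :
    (cf B).map (Nat.castRingHom ℤ) = (B.map (fun z => (Polynomial.X : Polynomial ℤ) ^ z.1)).sum := by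
  unfold cf
  induction B using Multiset.induction_on with
  | empty => simp
  | cons a B ih =>
    rw [Multiset.map_cons, Multiset.sum_cons, Polynomial.map_add, ih, Multiset.map_cons,
      Multiset.sum_cons, Polynomial.map_pow, Polynomial.map_X]

theorem sum_val2_const {N : ℕ} (e : ℕ → MvPolynomial (Fin N) (Polynomial ℤ)) (m : Multiset ℕ)
    (B : Multiset (ℕ × Multiset ℕ)) (hB : ∀ z ∈ B, z.2 = m) :
    (B.map (val2 (MvPolynomial.C Polynomial.X) e)).sum =
      MvPolynomial.C ((cf B).map (Nat.castRingHom ℤ)) * (m.map e).prod := by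
  rw [cf_map]
  induction B using Multiset.induction_on with
  | empty => simp
  | cons a B ih =>
    have h1 : val2 (MvPolynomial.C Polynomial.X) e a =
        MvPolynomial.C ((Polynomial.X : Polynomial ℤ) ^ a.1) * (m.map e).prod := by
      unfold val2
      rw [hB a (Multiset.mem_cons_self a B), MvPolynomial.C_pow]
    rw [Multiset.map_cons, Multiset.sum_cons, ih (fun z hz => hB z (Multiset.mem_cons_of_mem hz)),
      Multiset.map_cons, Multiset.sum_cons, h1, MvPolynomial.C_add, add_mul]

theorem esymmPart_eq {n N : ℕ} (μ : Nat.Partition n) :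
    MvPolynomial.esymmPart (Fin N) (Polynomial ℤ) μ = (μ.parts.map (E (xv N) N)).prod := by
  unfold MvPolynomial.esymmPart
  congr 1
  apply Multiset.map_congr rfl
  intro k _
  exact (E_xv N k).symm

/-- **Pieri criterion ⇒ e-positivity.** -/
theorem epos_of_pieri (h : Fin n → ℕ)
    (A : Finset (Fin n) → Multiset (ℕ × Multiset ℕ))
    (hpos : ∀ U, ∀ z ∈ A U, ∀ p ∈ z.2, 0 < p)
    (hsum : ∀ U, ∀ z ∈ A U, z.2.sum = U.card)
    (h0 : A ∅ = {(0, 0)})
    (hP : ∀ U, PL A U = PR h A U) : EPos h := by
  classical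
  refine ⟨fun μ => cf ((A Finset.univ).filter (fun z => z.2 = μ.parts)), ?_⟩
  intro N
  have hex : ∀ z ∈ A Finset.univ, ∃ μ : Nat.Partition n, z.2 = μ.parts := by
    intro z hz
    have hs : z.2.sum = n := by
      rw [hsum _ z hz, Finset.card_univ, Fintype.card_fin]
    exact ⟨⟨z.2, fun {p} hp => hpos _ z hz p hp, hs⟩, rfl⟩
  have hinj : Function.Injective (fun μ : Nat.Partition n => μ.parts) :=
    fun μ ν hμν => Nat.Partition.ext hμν
  have h2 := sum_by_partition (fun μ : Nat.Partition n => μ.parts) hinj (A Finset.univ)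
    (val2 (MvPolynomial.C Polynomial.X) (E (xv N) N)) hex
  rw [chromatic_eq_chr, chr_eq _ _ h A hpos hsum h0 hP N Finset.univ, h2]
  apply Finset.sum_congr rfl
  intro μ _
  rw [sum_val2_const (E (xv N) N) μ.parts _ (fun z hz => (Multiset.mem_filter.1 hz).2),
    esymmPart_eq]

/-- the whole statement of S0081 from a family satisfying the Pieri identities. -/
theorem main_of_pieri
    (A : ∀ (n : ℕ) (_ : Fin n → ℕ), Finset (Fin n) → Multiset (ℕ × Multiset ℕ))
    (hpos : ∀ n h, IsHessenberg h → ∀ U, ∀ z ∈ A n h U, ∀ p ∈ z.2, 0 < p)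
    (hsum : ∀ n h, IsHessenberg h → ∀ U, ∀ z ∈ A n h U, z.2.sum = U.card)
    (h0 : ∀ n h, IsHessenberg h → A n h ∅ = {(0, 0)})
    (hP : ∀ n h, IsHessenberg h → ∀ U, PL (A n h) U = PR h (A n h) U) :
    ∀ (n : ℕ) (h : Fin n → ℕ), IsHessenberg h →
      ∃ θ : {σ : Equiv.Perm (Fin n) // σ ∈ descentSet h} → Nat.Partition n,
        ∀ N : ℕ, chromaticQSym h N =
          ∑ σ : {σ : Equiv.Perm (Fin n) // σ ∈ descentSet h},
            MvPolynomial.C (Polynomial.X ^ ginv h σ.1) *
              MvPolynomial.esymmPart (Fin N) (Polynomial ℤ) (θ σ) :=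
  main_of_EPos (fun n h hh => epos_of_pieri h (A n h) (hpos n h hh) (hsum n h hh) (h0 n h hh)
    (hP n h hh))

end Crest.Agent.R059.Pieri
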