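import Crest.Agent.R059.Count2

set_option autoImplicit false

open Crest.CombinatoricsR.UnitInterval

namespace Crest.Agent.R059

variable {n : ℕ}

/-- binomial polynomial. -/
noncomputable def Bin (k : ℕ) : Polynomial ℚ :=
  Polynomial.C ((k.factorial : ℚ)⁻¹) * descPochhammer ℚ k

theorem Bin_eval_nat (k m : ℕ) : (Bin k).eval (m : ℚ) = (m.choose k : ℚ) := by
  unfold Bin
  rw [Polynomial.eval_mul, Polynomial.eval_C, descPochhammer_eval_eq_descFactorial,
    Nat.descFactorial_eq_factorial_mul_choose]
  have : (k.factorial : ℚ) ≠ 0 := by exact_mod_cast k.factorial_ne_zero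
  push_cast
  field_simp

theorem desc_neg_one (k : ℕ) : (descPochhammer ℚ k).eval (-1) = (-1) ^ k * k.factorial := by
  induction k with
  | zero => simp
  | succ m ih =>
    rw [descPochhammer_succ_eval, ih, Nat.factorial_succ]
    push_cast
    ring

theorem Bin_neg_one (k : ℕ) : (Bin k).eval (-1) = (-1) ^ k := by
  unfold Bin
  rw [Polynomial.eval_mul, Polynomial.eval_C, desc_neg_one]
  have : (k.factorial : ℚ) ≠ 0 := by exact_mod_cast k.factorial_ne_zero
  field_simp

theorem eval_one_esymm (N k : ℕ) :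
    MvPolynomial.eval (fun _ => (1 : Polynomial ℤ)) (MvPolynomial.esymm (Fin N) (Polynomial ℤ) k) =
      (N.choose k : Polynomial ℤ) := by
  unfold MvPolynomial.esymm
  simp

theorem eval_one_esymmPart (N : ℕ) (μ : Nat.Partition n) :
    MvPolynomial.eval (fun _ => (1 : Polynomial ℤ))
      (MvPolynomial.esymmPart (Fin N) (Polynomial ℤ) μ) =
      (μ.parts.map (fun k => (N.choose k : Polynomial ℤ))).prod := by
  unfold MvPolynomial.esymmPart
  rw [map_multiset_prod, Multiset.map_map]
  congr 1
  apply Multiset.map_congr rfl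
  intro k _
  exact eval_one_esymm N k

theorem eval_one_chromatic (h : Fin n → ℕ) (N : ℕ) :
    MvPolynomial.eval (fun _ => (1 : Polynomial ℤ)) (chromaticQSym h N) =
      ∑ f ∈ (Finset.univ : Finset (Fin n → Fin N)).filter
      (fun f => ∀ a b : Fin n, IsEdge h a b → f a ≠ f b),
      (Polynomial.X : Polynomial ℤ) ^ ascents h f := by
  unfold chromaticQSym
  simp

theorem prod_choose_coe (N : ℕ) (s : Multiset ℕ) :
    (s.map (fun k => (N.choose k : Polynomial ℤ))).prod =
      (((s.map (fun k => N.choose k)).prod : ℕ) : Polynomial ℤ) := by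
  rw [Nat.cast_multiset_prod, Multiset.map_map]
  rfl

/-- The sum of all `e`-coefficients. -/
theorem sum_coeff {h : Fin n → ℕ} (hm : Monotone h) (c : Nat.Partition n → Polynomial ℤ)
    (hc : ∀ N : ℕ, chromaticQSym h N =
      ∑ μ : Nat.Partition n, MvPolynomial.C (c μ) *
        MvPolynomial.esymmPart (Fin N) (Polynomial ℤ) μ) :
    ∑ μ, c μ = ∑ σ ∈ descentSet h, (Polynomial.X : Polynomial ℤ) ^ ginv h σ := by
  classical
  -- values at all ones
  have h1 : ∀ N : ℕ, ∑ σ : Equiv.Perm (Fin n), ((N + (pdes h σ).card).choose n : Polynomial ℤ) *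
      (Polynomial.X : Polynomial ℤ) ^ ginv h σ =
      ∑ μ, c μ * (((μ.parts.map (fun k => N.choose k)).prod : ℕ) : Polynomial ℤ) := by
    intro N
    rw [← sum_qasc hm, ← eval_one_chromatic, hc N, map_sum]
    apply Finset.sum_congr rfl
    intro μ _
    rw [map_mul, MvPolynomial.eval_C, eval_one_esymmPart, prod_choose_coe]
  ext j
  -- take the coefficient of `q^j`
  have h2 : ∀ N : ℕ, ∑ σ : Equiv.Perm (Fin n), (((N + (pdes h σ).card).choose n : ℕ) : ℤ) *
      (if j = ginv h σ then 1 else 0) =
      ∑ μ, (c μ).coeff j * (((μ.parts.map (fun k => N.choose k)).prod : ℕ) : ℤ) := by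
    intro N
    have := congrArg (fun p : Polynomial ℤ => p.coeff j) (h1 N)
    simp only [Polynomial.finsetSum_coeff] at this
    convert this using 2 with σ _ μ _
    · rw [Polynomial.natCast_mul, Polynomial.coeff_smul, Polynomial.coeff_X_pow]
      simp
    · rw [mul_comm (c μ), Polynomial.natCast_mul, Polynomial.coeff_smul]
      simp [mul_comm]
  -- polynomial identity in `N`
  let PL : Polynomial ℚ := ∑ σ : Equiv.Perm (Fin n),
    (Bin n).comp (Polynomial.X + Polynomial.C (((pdes h σ).card : ℕ) : ℚ)) *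
      Polynomial.C (if j = ginv h σ then (1 : ℚ) else 0)
  let PR : Polynomial ℚ := ∑ μ : Nat.Partition n, Polynomial.C ((((c μ).coeff j : ℤ)) : ℚ) *
    (μ.parts.map (fun k => Bin k)).prod
  have hPL : ∀ x : ℚ, PL.eval x = ∑ σ : Equiv.Perm (Fin n),
      (Bin n).eval (x + (((pdes h σ).card : ℕ) : ℚ)) *
        (if j = ginv h σ then (1 : ℚ) else 0) := by
    intro x
    simp only [PL, Polynomial.eval_finsetSum, Polynomial.eval_mul, Polynomial.eval_comp,
      Polynomial.eval_add, Polynomial.eval_X, Polynomial.eval_C]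
  have hPR : ∀ x : ℚ, PR.eval x = ∑ μ : Nat.Partition n, ((((c μ).coeff j : ℤ)) : ℚ) *
      (μ.parts.map (fun k => (Bin k).eval x)).prod := by
    intro x
    simp only [PR, Polynomial.eval_finsetSum, Polynomial.eval_mul, Polynomial.eval_C]
    apply Finset.sum_congr rfl
    intro μ _
    congr 1
    rw [Polynomial.eval_multiset_prod, Multiset.map_map]
    rfl
  have hagree : ∀ N : ℕ, PL.eval (N : ℚ) = PR.eval (N : ℚ) := by
    intro N
    rw [hPL, hPR]
    have h3 := congrArg (fun z : ℤ => (z : ℚ)) (h2 N)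
    simp only [Int.cast_sum, Int.cast_mul, Int.cast_natCast] at h3
    convert h3 using 2 with σ _ μ _
    · rw [← Nat.cast_add, Bin_eval_nat]
      split_ifs <;> simp
    · congr 1
      rw [Nat.cast_multiset_prod, Multiset.map_map]
      congr 1
      apply Multiset.map_congr rfl
      intro k _
      simp [Bin_eval_nat]
  have hEq : PL = PR := by
    apply Polynomial.eq_of_infinite_eval_eq
    apply Set.Infinite.mono (s := Set.range (fun N : ℕ => (N : ℚ)))
    · rintro _ ⟨N, rfl⟩
      exact hagree N
    · exact Set.infinite_range_of_injective Nat.cast_injective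
  have hfin : PL.eval (-1) = PR.eval (-1) := by rw [hEq]
  rw [hPL, hPR] at hfin
  have hL : ∑ σ : Equiv.Perm (Fin n), (Bin n).eval (-1 + (((pdes h σ).card : ℕ) : ℚ)) *
        (if j = ginv h σ then (1 : ℚ) else 0) =
      (-1) ^ n * ∑ σ ∈ descentSet h, (if j = ginv h σ then (1 : ℚ) else 0) := by
    rw [Finset.mul_sum, ← Finset.sum_subset (Finset.subset_univ (descentSet h))]
    · apply Finset.sum_congr rfl
      intro σ hσ
      rw [(pdes_eq_empty_iff h σ).2 hσ]
      simp only [Nat.cast_zero, add_zero]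
      rw [Bin_neg_one]
    · intro σ _ hσ
      have hne : (pdes h σ).card ≠ 0 := fun hh => hσ ((pdes_eq_empty_iff h σ).1 hh)
      have hn : 0 < n := by
        rcases Nat.eq_zero_or_pos n with h0 | h0
        · exfalso
          subst h0
          apply hne
          rw [Finset.card_eq_zero]
          exact Finset.eq_empty_of_isEmpty _
        · exact h0
      have hlt := pdes_card_lt h σ hn
      obtain ⟨d, hd⟩ : ∃ d, (pdes h σ).card = d + 1 := ⟨(pdes h σ).card - 1, by omega⟩
      have : (-1 + (((pdes h σ).card : ℕ) : ℚ)) = (d : ℚ) := by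
        rw [hd]; push_cast; ring
      rw [this, Bin_eval_nat, Nat.choose_eq_zero_of_lt (by omega)]
      simp
  have hR : ∑ μ : Nat.Partition n, ((((c μ).coeff j : ℤ)) : ℚ) *
      (μ.parts.map (fun k => (Bin k).eval (-1))).prod =
      (-1) ^ n * ∑ μ : Nat.Partition n, ((((c μ).coeff j : ℤ)) : ℚ) := by
    rw [Finset.mul_sum]
    apply Finset.sum_congr rfl
    intro μ _
    have : (μ.parts.map (fun k => (Bin k).eval (-1))).prod = (-1 : ℚ) ^ n := by
      have h5 : μ.parts.map (fun k => (Bin k).eval (-1)) = μ.parts.map (fun k => (-1 : ℚ) ^ k) := by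
        apply Multiset.map_congr rfl
        intro k _
        exact Bin_neg_one k
      have h8 : ∀ s : Multiset ℕ, (s.map (fun k => (-1 : ℚ) ^ k)).prod = (-1 : ℚ) ^ s.sum := by
        intro s
        induction s using Multiset.induction_on with
        | empty => simp
        | cons a t ih => rw [Multiset.map_cons, Multiset.prod_cons, ih, Multiset.sum_cons, pow_add]
      rw [h5, h8, μ.parts_sum]
    rw [this]; ring
  rw [hL, hR] at hfin
  have hne : ((-1 : ℚ)) ^ n ≠ 0 := by
    apply pow_ne_zero; norm_num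
  have h6 := mul_left_cancel₀ hne hfin
  simp only [Polynomial.finsetSum_coeff, Polynomial.coeff_X_pow]
  have h7 : ((∑ σ ∈ descentSet h, (if j = ginv h σ then (1 : ℤ) else 0) : ℤ) : ℚ) =
      ((∑ μ, (c μ).coeff j : ℤ) : ℚ) := by
    push_cast
    exact h6
  exact (Int.cast_injective h7).symm

end Crest.Agent.R059
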