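/-
Row 59 (S0081), desk T1: the thick modular law for functions on Hessenberg functions (helper864).
-/
import Crest.Agent.R059.ThickAlg
import Crest.Agent.R059.Uniq

set_option autoImplicit false

namespace Crest.Agent.R059.ThickH

open Crest.Agent.R059.ThickAlg Finset

variable {K : Type*} [Field K] {M : Type*} [AddCommGroup M] [Module K M]

/-- the two modular laws, for a function of Hessenberg functions with values in a vector space. -/
structure ML (q : K) (n : ℕ) (D : (ℕ → ℕ) → M) : Prop where
  ext : ∀ H H' : ℕ → ℕ, (∀ v, 1 ≤ v → v ≤ n → H v = H' v) → D H = D H'
  typeI : ∀ (H : ℕ → ℕ) (i j : ℕ), 1 ≤ i → i < j → j + 1 ≤ n → H j = H (j + 1) →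
    Hs n (Function.update H i (j - 1)) → Hs n (Function.update H i (j + 1)) →
    (1 + q) • D (Function.update H i j) =
      q • D (Function.update H i (j - 1)) + D (Function.update H i (j + 1))
  typeII : ∀ (H : ℕ → ℕ) (t b : ℕ), 1 ≤ t → t + 1 ≤ b → b + 1 ≤ n →
    (∀ v, 1 ≤ v → v ≤ n → v ≠ t → v ≠ t + 1 → H v ≠ t) →
    Hs n (Function.update (Function.update H t b) (t + 1) b) →
    Hs n (Function.update (Function.update H t (b + 1)) (t + 1) (b + 1)) →
    (1 + q) • D (Function.update (Function.update H t b) (t + 1) (b + 1)) =
      q • D (Function.update (Function.update H t b) (t + 1) b) +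
        D (Function.update (Function.update H t (b + 1)) (t + 1) (b + 1))

/-! ### window words: `true = a` (a closing step of `L`), `false = b` (an opening step of `B`) -/

/-- number of `b`'s before the `i`-th `a` (0-based). -/
def nb : List Bool → ℕ → ℕ
  | [], _ => 0
  | false :: w, i => nb w i + 1
  | true :: _, 0 => 0
  | true :: w, i + 1 => nb w i

lemma nb_append (p s : List Bool) (i : ℕ) :
    nb (p ++ s) i = if i < p.count true then nb p i else p.count false + nb s (i - p.count true) := by
  induction p generalizing i with
  | nil => simp
  | cons c p ih =>
    cases c with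
    | false =>
      simp only [List.cons_append, nb, ih, List.count_cons, beq_self_eq_true, if_true]
      simp only [show (false == true) = false from rfl, Bool.false_eq_true, if_false, add_zero]
      split_ifs <;> omega
    | true =>
      cases i with
      | zero =>
        simp [nb]
      | succ i =>
        simp only [List.cons_append, nb, ih, List.count_cons, beq_self_eq_true, if_true]
        simp only [show (true == false) = false from rfl, Bool.false_eq_true, if_false, add_zero,
          Nat.add_lt_add_iff_right, Nat.add_sub_add_right]

lemma nb_le (w : List Bool) (i : ℕ) : nb w i ≤ w.count false := by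
  induction w generalizing i with
  | nil => simp [nb]
  | cons c w ih =>
    cases c with
    | false => simp only [nb, List.count_cons_self]; have := ih i; omega
    | true =>
      cases i with
      | zero => simp [nb]
      | succ i => simp only [nb]; have := ih i; rw [List.count_cons_of_ne (by decide)]; exact this

lemma nb_mono (w : List Bool) (i : ℕ) (hi : i + 1 < w.count true) : nb w i ≤ nb w (i + 1) := by
  induction w generalizing i with
  | nil => simp at hi
  | cons c w ih =>
    cases c with
    | false =>
      simp only [nb]
      rw [List.count_cons_of_ne (by decide)] at hi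
      have := ih i hi; omega
    | true =>
      rw [List.count_cons_self] at hi
      cases i with
      | zero => simp [nb]
      | succ i => simp only [nb]; exact ih i (by omega)

/-- the Hessenberg function of a window word. -/
def HW (H : ℕ → ℕ) (x m y : ℕ) (w : List Bool) : ℕ → ℕ := fun v =>
  if x < v ∧ v ≤ x + m then y + nb w (v - x - 1) else H v

/-- the setting of a window: `L = [x+1, x+m]` left twins, `B = [y+1, y+k]` right twins. -/
structure Win (n : ℕ) (H : ℕ → ℕ) (x m y k : ℕ) : Prop where
  hH : Hs n H
  hxy : x + m ≤ y
  hyn : y + k ≤ n
  hl : 1 ≤ x → H x ≤ y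
  hr : x + m < n → y + k ≤ H (x + m + 1)
  hL : ∀ v, 1 ≤ v → v ≤ n → (v ≤ x ∨ x + m < v) → ¬ (x < H v ∧ H v < x + m)
  hB : ∀ v, y + 1 ≤ v → v + 1 ≤ y + k → H v = H (v + 1)

variable {n : ℕ} {H : ℕ → ℕ} {x m y k : ℕ}

lemma HW_Hs (W : Win n H x m y k) (w : List Bool) (hm : w.count true = m)
    (hk : w.count false = k) : Hs n (HW H x m y w) := by
  have hxy := W.hxy
  have hyn := W.hyn
  constructor
  · intro v hv hvn
    unfold HW
    split_ifs with h
    · have := nb_le w (v - x - 1); omega
    · exact W.hH.1 v hv hvn
  · intro v hv hvn
    unfold HW
    split_ifs with h h' h'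
    · have := nb_mono w (v - x - 1) (by omega)
      have e : v + 1 - x - 1 = v - x - 1 + 1 := by omega
      rw [e]; omega
    · have e : v = x + m := by omega
      subst e
      have := W.hr (by omega)
      have := nb_le w (x + m - x - 1)
      omega
    · have e : v = x := by omega
      subst e
      have := W.hl hv
      omega
    · exact W.hH.2 v hv hvn


/-! ### the three-letter words in a context -/

section words

variable (p s : List Bool) (i : ℕ)

lemma nb_aba : nb (p ++ [true, false, true] ++ s) i =
    if i < p.count true then nb p i else if i = p.count true then p.count false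
    else if i = p.count true + 1 then p.count false + 1
    else p.count false + 1 + nb s (i - p.count true - 2) := by
  rw [List.append_assoc, nb_append]
  split_ifs with h1 h2 h3
  · rfl
  · subst h2; simp [nb]
  · subst h3; simp [nb]
  · obtain ⟨j, rfl⟩ : ∃ j, i = p.count true + j + 2 := ⟨i - p.count true - 2, by omega⟩
    rw [show p.count true + j + 2 - p.count true = j + 1 + 1 by omega,
      show j + 1 + 1 - 2 = j by omega]
    simp [nb]; omega

lemma nb_aab : nb (p ++ [true, true, false] ++ s) i =
    if i < p.count true then nb p i else if i = p.count true then p.count false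
    else if i = p.count true + 1 then p.count false
    else p.count false + 1 + nb s (i - p.count true - 2) := by
  rw [List.append_assoc, nb_append]
  split_ifs with h1 h2 h3
  · rfl
  · subst h2; simp [nb]
  · subst h3; simp [nb]
  · obtain ⟨j, rfl⟩ : ∃ j, i = p.count true + j + 2 := ⟨i - p.count true - 2, by omega⟩
    rw [show p.count true + j + 2 - p.count true = j + 1 + 1 by omega,
      show j + 1 + 1 - 2 = j by omega]
    simp [nb]; omega

lemma nb_baa : nb (p ++ [false, true, true] ++ s) i =
    if i < p.count true then nb p i else if i = p.count true then p.count false + 1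
    else if i = p.count true + 1 then p.count false + 1
    else p.count false + 1 + nb s (i - p.count true - 2) := by
  rw [List.append_assoc, nb_append]
  split_ifs with h1 h2 h3
  · rfl
  · subst h2; simp [nb]
  · subst h3; simp [nb]
  · obtain ⟨j, rfl⟩ : ∃ j, i = p.count true + j + 2 := ⟨i - p.count true - 2, by omega⟩
    rw [show p.count true + j + 2 - p.count true = j + 1 + 1 by omega,
      show j + 1 + 1 - 2 = j by omega]
    simp [nb]; omega

lemma nb_bab : nb (p ++ [false, true, false] ++ s) i =
    if i < p.count true then nb p i else if i = p.count true then p.count false + 1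
    else p.count false + 2 + nb s (i - p.count true - 1) := by
  rw [List.append_assoc, nb_append]
  split_ifs with h1 h2
  · rfl
  · subst h2; simp [nb]
  · obtain ⟨j, rfl⟩ : ∃ j, i = p.count true + j + 1 := ⟨i - p.count true - 1, by omega⟩
    rw [show p.count true + j + 1 - p.count true = j + 1 by omega,
      show j + 1 - 1 = j by omega]
    simp [nb]; omega

lemma nb_abb : nb (p ++ [true, false, false] ++ s) i =
    if i < p.count true then nb p i else if i = p.count true then p.count false
    else p.count false + 2 + nb s (i - p.count true - 1) := by
  rw [List.append_assoc, nb_append]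
  split_ifs with h1 h2
  · rfl
  · subst h2; simp [nb]
  · obtain ⟨j, rfl⟩ : ∃ j, i = p.count true + j + 1 := ⟨i - p.count true - 1, by omega⟩
    rw [show p.count true + j + 1 - p.count true = j + 1 by omega,
      show j + 1 - 1 = j by omega]
    simp [nb]; omega

lemma nb_bba : nb (p ++ [false, false, true] ++ s) i =
    if i < p.count true then nb p i else if i = p.count true then p.count false + 2
    else p.count false + 2 + nb s (i - p.count true - 1) := by
  rw [List.append_assoc, nb_append]
  split_ifs with h1 h2
  · rfl
  · subst h2; simp [nb]
  · obtain ⟨j, rfl⟩ : ∃ j, i = p.count true + j + 1 := ⟨i - p.count true - 1, by omega⟩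
    rw [show p.count true + j + 1 - p.count true = j + 1 by omega,
      show j + 1 - 1 = j by omega]
    simp [nb]; omega

end words

/-! ### the two laws along a window -/

section laws

variable {q : K} {D : (ℕ → ℕ) → M}

theorem win_typeII (L : ML q n D) (W : Win n H x m y k) (p s : List Bool)
    (hm : p.count true + 2 + s.count true = m) (hk : p.count false + 1 + s.count false = k) :
    (1 + q) • D (HW H x m y (p ++ [true, false, true] ++ s)) =
      q • D (HW H x m y (p ++ [true, true, false] ++ s)) +
        D (HW H x m y (p ++ [false, true, true] ++ s)) := by
  have hxy := W.hxy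
  have hyn := W.hyn
  set G := HW H x m y (p ++ [true, false, true] ++ s) with hG
  set t := x + p.count true + 1 with ht
  set b := y + p.count false with hb
  have e1 : G = Function.update (Function.update G t b) (t + 1) (b + 1) := by
    funext v
    simp only [Function.update_apply]
    split_ifs with h1 h2
    · subst h1
      rw [hG]; unfold HW
      rw [if_pos (by omega), nb_aba, show t + 1 - x - 1 = p.count true + 1 by omega]
      simp; omega
    · subst h2
      rw [hG]; unfold HW
      rw [if_pos (by omega), nb_aba, show t - x - 1 = p.count true by omega]
      simp; omega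
    · rfl
  have e2 : HW H x m y (p ++ [true, true, false] ++ s) =
      Function.update (Function.update G t b) (t + 1) b := by
    funext v
    simp only [Function.update_apply]
    split_ifs with h1 h2
    · subst h1
      unfold HW
      rw [if_pos (by omega), nb_aab, show t + 1 - x - 1 = p.count true + 1 by omega]
      simp; omega
    · subst h2
      unfold HW
      rw [if_pos (by omega), nb_aab, show t - x - 1 = p.count true by omega]
      simp; omega
    · rw [hG]; unfold HW
      split_ifs with h3
      · rw [nb_aab, nb_aba]
        split_ifs <;> omega
      · rfl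
  have e3 : HW H x m y (p ++ [false, true, true] ++ s) =
      Function.update (Function.update G t (b + 1)) (t + 1) (b + 1) := by
    funext v
    simp only [Function.update_apply]
    split_ifs with h1 h2
    · subst h1
      unfold HW
      rw [if_pos (by omega), nb_baa, show t + 1 - x - 1 = p.count true + 1 by omega]
      simp; omega
    · subst h2
      unfold HW
      rw [if_pos (by omega), nb_baa, show t - x - 1 = p.count true by omega]
      simp; omega
    · rw [hG]; unfold HW
      split_ifs with h3
      · rw [nb_baa, nb_aba]
        split_ifs <;> omega
      · rfl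
  have hs2 : Hs n (Function.update (Function.update G t b) (t + 1) b) := by
    rw [← e2]
    apply HW_Hs W
    · simp [List.count_append]; omega
    · simp [List.count_append]; omega
  have hs3 : Hs n (Function.update (Function.update G t (b + 1)) (t + 1) (b + 1)) := by
    rw [← e3]
    apply HW_Hs W
    · simp [List.count_append]; omega
    · simp [List.count_append]; omega
  have key := L.typeII G t b (by omega) (by omega) (by omega) (by
    intro v hv hvn h1 h2
    rw [hG]; unfold HW
    split_ifs with h3
    · omega
    · have := W.hL v hv hvn (by omega)
      omega) hs2 hs3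
  rw [← e1, ← e2, ← e3] at key
  exact key

theorem win_typeI (L : ML q n D) (W : Win n H x m y k) (p s : List Bool)
    (hm : p.count true + 1 + s.count true = m) (hk : p.count false + 2 + s.count false = k) :
    (1 + q) • D (HW H x m y (p ++ [false, true, false] ++ s)) =
      q • D (HW H x m y (p ++ [true, false, false] ++ s)) +
        D (HW H x m y (p ++ [false, false, true] ++ s)) := by
  have hxy := W.hxy
  have hyn := W.hyn
  set G := HW H x m y (p ++ [false, true, false] ++ s) with hG
  set i := x + p.count true + 1 with hi
  set j := y + p.count false + 1 with hj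
  have e1 : G = Function.update G i j := by
    funext v
    simp only [Function.update_apply]
    split_ifs with h1
    · subst h1
      rw [hG]; unfold HW
      rw [if_pos (by omega), nb_bab, show i - x - 1 = p.count true by omega]
      simp; omega
    · rfl
  have e2 : HW H x m y (p ++ [true, false, false] ++ s) = Function.update G i (j - 1) := by
    funext v
    simp only [Function.update_apply]
    split_ifs with h1
    · subst h1
      unfold HW
      rw [if_pos (by omega), nb_abb, show i - x - 1 = p.count true by omega]
      simp; omega
    · rw [hG]; unfold HW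
      split_ifs with h3
      · rw [nb_bab, nb_abb]
        split_ifs <;> omega
      · rfl
  have e3 : HW H x m y (p ++ [false, false, true] ++ s) = Function.update G i (j + 1) := by
    funext v
    simp only [Function.update_apply]
    split_ifs with h1
    · subst h1
      unfold HW
      rw [if_pos (by omega), nb_bba, show i - x - 1 = p.count true by omega]
      simp; omega
    · rw [hG]; unfold HW
      split_ifs with h3
      · rw [nb_bab, nb_bba]
        split_ifs <;> omega
      · rfl
  have hs2 : Hs n (Function.update G i (j - 1)) := by
    rw [← e2]
    apply HW_Hs W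
    · simp [List.count_append]; omega
    · simp [List.count_append]; omega
  have hs3 : Hs n (Function.update G i (j + 1)) := by
    rw [← e3]
    apply HW_Hs W
    · simp [List.count_append]; omega
    · simp [List.count_append]; omega
  have key := L.typeI G i j (by omega) (by omega) (by omega) (by
    rw [hG]; unfold HW
    rw [if_neg (by omega), if_neg (by omega)]
    exact W.hB j (by omega) (by omega)) hs2 hs3
  rw [← e1, ← e2, ← e3] at key
  exact key

end laws

/-! ### the operators -/

/-- functions on words satisfying the two relations in every context. -/
def VV (q : K) (M : Type*) [AddCommGroup M] [Module K M] : Submodule K (List Bool → M) where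
  carrier := {f | ∀ p s : List Bool,
    ((1 + q) • f (p ++ [false, true, false] ++ s) =
      q • f (p ++ [true, false, false] ++ s) + f (p ++ [false, false, true] ++ s)) ∧
    ((1 + q) • f (p ++ [true, false, true] ++ s) =
      q • f (p ++ [true, true, false] ++ s) + f (p ++ [false, true, true] ++ s))}
  add_mem' := by
    intro f g hf hg p s
    refine ⟨?_, ?_⟩
    · simp only [Pi.add_apply, smul_add, (hf p s).1, (hg p s).1]; abel
    · simp only [Pi.add_apply, smul_add, (hf p s).2, (hg p s).2]; abel
  zero_mem' := by intro p s; simp
  smul_mem' := by
    intro c f hf p s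
    refine ⟨?_, ?_⟩
    · simp only [Pi.smul_apply, smul_comm _ c, (hf p s).1, smul_add]
    · simp only [Pi.smul_apply, smul_comm _ c, (hf p s).2, smul_add]

/-- append a letter. -/
def R (q : K) (M : Type*) [AddCommGroup M] [Module K M] (c : Bool) : Module.End K (VV q M) where
  toFun f := ⟨fun w => f.1 (w ++ [c]), by
    intro p s
    have := f.2 p (s ++ [c])
    simpa [List.append_assoc] using this⟩
  map_add' f g := rfl
  map_smul' c f := rfl

variable {q : K}

@[simp] lemma R_apply (c : Bool) (f : VV q M) (w : List Bool) :
    ((R q M c) f).1 w = f.1 (w ++ [c]) := rfl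

lemma R_pow (c : Bool) (t : ℕ) (f : VV q M) (w : List Bool) :
    (((R q M c) ^ t) f).1 w = f.1 (w ++ List.replicate t c) := by
  induction t generalizing w with
  | zero => simp
  | succ t ih =>
    rw [pow_succ', Module.End.mul_apply, R_apply, ih, List.append_assoc]
    rfl

lemma R_hI : (1 + q) • (R q M false * R q M true * R q M false) =
    q • (R q M true * R q M false * R q M false) + R q M false * R q M false * R q M true := by
  ext f w
  have := (f.2 w []).1
  simpa [List.append_assoc] using this

lemma R_hII : (1 + q) • (R q M true * R q M false * R q M true) =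
    q • (R q M true * R q M true * R q M false) + R q M false * R q M true * R q M true := by
  ext f w
  have := (f.2 w []).2
  simpa [List.append_assoc] using this

/-- the word function of a window. -/
def fD (D : (ℕ → ℕ) → M) (H : ℕ → ℕ) (x m y k : ℕ) : List Bool → M := fun w =>
  if w.count true = m ∧ w.count false = k then D (HW H x m y w) else 0

lemma fD_mem {D : (ℕ → ℕ) → M} (L : ML q n D) (W : Win n H x m y k) :
    fD D H x m y k ∈ VV q M := by
  intro p s
  constructor
  · by_cases h : p.count true + 1 + s.count true = m ∧ p.count false + 2 + s.count false = k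
    · have h1 := win_typeI L W p s h.1 h.2
      unfold fD
      rw [if_pos, if_pos, if_pos, h1]
      all_goals (simp [List.count_append]; omega)
    · unfold fD
      rw [if_neg, if_neg, if_neg]
      · simp
      all_goals (simp [List.count_append]; omega)
  · by_cases h : p.count true + 2 + s.count true = m ∧ p.count false + 1 + s.count false = k
    · have h1 := win_typeII L W p s h.1 h.2
      unfold fD
      rw [if_pos, if_pos, if_pos, h1]
      all_goals (simp [List.count_append]; omega)
    · unfold fD
      rw [if_neg, if_neg, if_neg]
      · simp
      all_goals (simp [List.count_append]; omega)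


/-! ### the thick laws -/

lemma nb_rep_true (t i : ℕ) : nb (List.replicate t true) i = 0 := by
  have := nb_le (List.replicate t true) i
  simpa [List.count_replicate] using this

lemma nb_rep_false (t i : ℕ) : nb (List.replicate t false) i = t := by
  induction t with
  | zero => rfl
  | succ t ih => rw [List.replicate_succ, nb, ih]

/-- all of `L` at level `c`. -/
def H1 (H : ℕ → ℕ) (x m y c : ℕ) : ℕ → ℕ := fun v =>
  if x < v ∧ v ≤ x + m then y + c else H v

/-- the first `α` of `L` at level `0`, the last `γ` at level `k`. -/
def H2 (H : ℕ → ℕ) (x α γ y k : ℕ) : ℕ → ℕ := fun v =>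
  if x < v ∧ v ≤ x + α then y else if x + α < v ∧ v ≤ x + α + γ then y + k else H v

lemma HW_two (H : ℕ → ℕ) (x α γ y k : ℕ) :
    HW H x (α + γ) y (List.replicate α true ++ List.replicate k false ++ List.replicate γ true) =
      H2 H x α γ y k := by
  funext v
  unfold HW H2
  by_cases h : x < v ∧ v ≤ x + (α + γ)
  · rw [if_pos h, List.append_assoc, nb_append, nb_append, nb_rep_true, nb_rep_false, nb_rep_true]
    simp only [List.count_replicate_self, List.count_replicate, beq_self_eq_true, if_true,
      show (false == true) = false from rfl, show (true == false) = false from rfl,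
      Bool.false_eq_true, if_false, Nat.not_lt_zero]
    split_ifs <;> omega
  · rw [if_neg h, if_neg (by omega), if_neg (by omega)]

lemma HW_one (H : ℕ → ℕ) (x m y c s : ℕ) :
    HW H x m y (List.replicate c false ++ List.replicate m true ++ List.replicate s false) =
      H1 H x m y c := by
  funext v
  unfold HW H1
  by_cases h : x < v ∧ v ≤ x + m
  · rw [if_pos h, if_pos h, List.append_assoc, nb_append, nb_append, nb_rep_true, nb_rep_false,
      nb_rep_false]
    simp only [List.count_replicate_self, List.count_replicate, beq_self_eq_true, if_true,
      show (false == true) = false from rfl, show (true == false) = false from rfl,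
      Bool.false_eq_true, if_false, Nat.not_lt_zero]
    split_ifs <;> omega
  · rw [if_neg h, if_neg h]

lemma dp3 (c d : Bool) (u v w : ℕ) (f : VV q M) :
    ((dp q (R q M c) u * dp q (R q M d) v * dp q (R q M c) w) f).1 [] =
      ((qf q u)⁻¹ * (qf q v)⁻¹ * (qf q w)⁻¹) •
        f.1 (List.replicate u c ++ List.replicate v d ++ List.replicate w c) := by
  unfold dp
  simp only [smul_mul_assoc, mul_smul_comm, smul_smul, LinearMap.smul_apply, Submodule.coe_smul,
    Pi.smul_apply, Module.End.mul_apply, R_pow, List.nil_append]
  congr 1
  ring

/-- THE THICK LAW: two levels `(α at 0, γ at k)` as a combination of the one-level ones. -/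
theorem thick_H (g : Gen q) {D : (ℕ → ℕ) → M} (L : ML q n D) {α γ : ℕ}
    (W : Win n H x (α + γ) y k) :
    ((qf q α)⁻¹ * (qf q k)⁻¹ * (qf q γ)⁻¹) • D (H2 H x α γ y k) =
      ∑ s ∈ range (k + 1),
        (q ^ ((s : ℤ) * (s + γ - k)) * gb q ((α : ℤ) + γ - k) (α - s) *
          ((qf q (k - s))⁻¹ * (qf q (α + γ))⁻¹ * (qf q s)⁻¹)) • D (H1 H x (α + γ) y (k - s)) := by
  have h := thick g (A := Module.End K (VV q M)) (a := R q M true) (b := R q M false)
    R_hI R_hII α k γ
  have h2 := congrArg (fun T : Module.End K (VV q M) => (T ⟨_, fD_mem L W⟩).1 []) h
  simp only [dp3, LinearMap.sum_apply, LinearMap.smul_apply, Submodule.coe_smul,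
    AddSubmonoidClass.coe_finsetSum, Finset.sum_apply, Pi.smul_apply, smul_smul] at h2
  rw [show fD D H x (α + γ) y k
      (List.replicate α true ++ List.replicate k false ++ List.replicate γ true) =
      D (H2 H x α γ y k) from by
    unfold fD
    rw [if_pos, HW_two]
    simp [List.count_append, List.count_replicate]] at h2
  rw [h2]
  refine sum_congr rfl fun s hs => ?_
  have hs' : s ≤ k := by simpa [Nat.lt_succ_iff] using hs
  rw [show fD D H x (α + γ) y k
      (List.replicate (k - s) false ++ List.replicate (α + γ) true ++ List.replicate s false) =
      D (H1 H x (α + γ) y (k - s)) from by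
    unfold fD
    rw [if_pos, HW_one]
    simp [List.count_append, List.count_replicate]; omega]

/-- THE MIRROR THICK LAW: one level `γ` as a combination of the two-level ones. -/
theorem thick_H' (g : Gen q) {D : (ℕ → ℕ) → M} (L : ML q n D) {α γ : ℕ}
    (W : Win n H x m y (α + γ)) :
    ((qf q γ)⁻¹ * (qf q m)⁻¹ * (qf q α)⁻¹) • D (H1 H x m y γ) =
      ∑ s ∈ range (m + 1),
        (q ^ ((s : ℤ) * (s + γ - m)) * gb q ((α : ℤ) + γ - m) (α - s) *
          ((qf q s)⁻¹ * (qf q (α + γ))⁻¹ * (qf q (m - s))⁻¹)) •
            D (H2 H x s (m - s) y (α + γ)) := by
  have h := thick g (A := (Module.End K (VV q M))ᵐᵒᵖ) (a := MulOpposite.op (R q M false))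
    (b := MulOpposite.op (R q M true))
    (by
      have := congrArg MulOpposite.op (R_hII (q := q) (M := M))
      simpa [mul_assoc] using this)
    (by
      have := congrArg MulOpposite.op (R_hI (q := q) (M := M))
      simpa [mul_assoc] using this) α m γ
  have hop : ∀ (T : Module.End K (VV q M)) (t : ℕ),
      dp q (MulOpposite.op T) t = MulOpposite.op (dp q T t) := by
    intro T t
    simp [dp]
  have h1 := congrArg MulOpposite.unop h
  simp only [hop, MulOpposite.unop_mul, MulOpposite.unop_op, Finset.unop_sum,
    MulOpposite.unop_smul, ← mul_assoc] at h1
  have h2 := congrArg (fun T : Module.End K (VV q M) => (T ⟨_, fD_mem L W⟩).1 []) h1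
  simp only [dp3, LinearMap.sum_apply, LinearMap.smul_apply, Submodule.coe_smul,
    AddSubmonoidClass.coe_finsetSum, Finset.sum_apply, Pi.smul_apply, smul_smul] at h2
  rw [show fD D H x m y (α + γ)
      (List.replicate γ false ++ List.replicate m true ++ List.replicate α false) =
      D (H1 H x m y γ) from by
    unfold fD
    rw [if_pos, HW_one]
    simp [List.count_append, List.count_replicate]; omega] at h2
  rw [h2]
  refine sum_congr rfl fun s hs => ?_
  have hs' : s ≤ m := by simpa [Nat.lt_succ_iff] using hs
  rw [show fD D H x m y (α + γ)
      (List.replicate s true ++ List.replicate (α + γ) false ++ List.replicate (m - s) true) =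
      D (H2 H x s (m - s) y (α + γ)) from by
    unfold fD
    rw [if_pos]
    · have e : m = s + (m - s) := by omega
      have := HW_two H x s (m - s) y (α + γ)
      rw [← e] at this
      rw [this]
    · simp [List.count_append, List.count_replicate]; omega]

end Crest.Agent.R059.ThickH
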