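/-
Row 59 (S0081), desk T1: the thick laws for the chromatic quasisymmetric function (helper864).
-/
import Crest.Agent.R059.ThickH
import Crest.Agent.R059.UniqGen

set_option autoImplicit false

namespace Crest.Agent.R059.ThickChrom

open Crest.Agent.R059 Crest.Agent.R059.ThickAlg Crest.Agent.R059.ThickH Crest.Agent.R059.Gen
open Crest.CombinatoricsR.UnitInterval Function Finset

/-- a family with the two laws, values in a `K`-algebra, satisfies `ML`. -/
theorem ML_of_GLaws {K : Type*} [Field K] {A : Type*} [CommRing A] [Algebra K A] {q : K}
    {F : ∀ n : ℕ, (Fin n → ℕ) → A} (L : GLaws (algebraMap K A q) F) (n : ℕ) :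
    ML q n (fun H => F n (toFin n H)) where
  ext := by
    intro H H' hHH
    have : toFin n H = toFin n H' := by
      funext a
      exact hHH (a.val + 1) (by omega) (by have := a.isLt; omega)
    simp only [this]
  typeI := by
    intro H i j hi hij hjn heq H0 H2
    have H1 : Hs n (update H i j) := by
      constructor
      · intro v hv hvn
        have h0 := H0.1 v hv hvn
        have h2 := H2.1 v hv hvn
        by_cases hvi : v = i
        · subst hvi
          simp only [update_self] at h0 h2 ⊢
          omega
        · rw [update_of_ne hvi] at h0 ⊢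
          exact h0
      · intro v hv hvn
        have h0 := H0.2 v hv hvn
        have h2 := H2.2 v hv hvn
        by_cases hvi : v = i
        · subst hvi
          rw [update_self, update_of_ne (by omega)] at h0 h2 ⊢
          omega
        · by_cases hvi' : v + 1 = i
          · subst hvi'
            rw [update_of_ne hvi, update_self] at h0 h2 ⊢
            omega
          · rw [update_of_ne hvi, update_of_ne hvi'] at h0 ⊢
            exact h0
    have hI := L.typeI n (toFin n (update H i (j - 1))) (toFin n (update H i j))
      (toFin n (update H i (j + 1))) (toFin_hess H0) (toFin_hess H1) (toFin_hess H2)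
      ⟨i - 1, by omega⟩ ⟨j - 1, by omega⟩ ⟨j, by omega⟩ (by simp only; omega)
      (by rw [toFin_update_eq _ (by simp only; omega)])
      (by rw [toFin_update_eq _ (by simp only; omega)]; simp only; omega)
      (by rw [toFin_update_eq _ (by simp only; omega)]; simp only; omega)
      (by
        intro a ha
        have : a.val + 1 ≠ i := fun h => ha (Fin.ext (by simp only; omega))
        rw [toFin_update_of_ne a this, toFin_update_of_ne a this])
      (by
        intro a ha
        have : a.val + 1 ≠ i := fun h => ha (Fin.ext (by simp only; omega))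
        rw [toFin_update_of_ne a this, toFin_update_of_ne a this])
      (by
        rw [toFin_update_of_ne _ (by simp only; omega), toFin_update_of_ne _ (by simp only; omega)]
        simp only
        rw [show j - 1 + 1 = j by omega]
        exact heq)
    simpa only [Algebra.smul_def, map_add, map_one] using hI
  typeII := by
    intro H t b ht htb hbn hleft H0 H2
    have H1 : Hs n (update (update H t b) (t + 1) (b + 1)) := by
      constructor
      · intro v hv hvn
        have h0 := H0.1 v hv hvn
        have h2 := H2.1 v hv hvn
        by_cases hv1 : v = t + 1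
        · subst hv1
          simp only [update_self] at h0 h2 ⊢
          omega
        · rw [update_of_ne hv1] at h0 ⊢
          exact h0
      · intro v hv hvn
        have h0 := H0.2 v hv hvn
        have h2 := H2.2 v hv hvn
        by_cases hv1 : v = t + 1
        · subst hv1
          rw [update_self, update_of_ne (by omega), update_of_ne (by omega)] at h2 ⊢
          exact h2
        · by_cases hv2 : v + 1 = t + 1
          · have hvt : v = t := by omega
            subst hvt
            rw [update_of_ne (by omega), update_self, update_self]
            omega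
          · rw [update_of_ne hv1, update_of_ne hv2] at h0 ⊢
            exact h0
    have hlt : ∀ a : Fin n, toFin n (update (update H t b) (t + 1) b) a ≠ t := by
      intro a
      by_cases h1 : a.val + 1 = t + 1
      · rw [toFin_update_eq _ h1]; omega
      · rw [toFin_update_of_ne _ h1]
        by_cases h2 : a.val + 1 = t
        · rw [h2, update_self]; omega
        · rw [update_of_ne h2]
          exact hleft (a.val + 1) (by omega) (by have := a.isLt; omega) h2 h1
    have g1 : ∀ (x y : ℕ) (a : Fin n), a.val + 1 = t →
        toFin n (update (update H t x) (t + 1) y) a = x := by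
      intro x y a ha
      rw [toFin_update_of_ne _ (by omega), ha, update_self]
    have g2 : ∀ (x y : ℕ) (a : Fin n), a.val + 1 = t + 1 →
        toFin n (update (update H t x) (t + 1) y) a = y := by
      intro x y a ha
      rw [toFin_update_eq _ ha]
    have g3 : ∀ (x y : ℕ) (a : Fin n), a.val + 1 ≠ t → a.val + 1 ≠ t + 1 →
        toFin n (update (update H t x) (t + 1) y) a = H (a.val + 1) := by
      intro x y a h1 h2
      rw [toFin_update_of_ne _ h2, update_of_ne h1]
    have hoff : ∀ (x y x' y' : ℕ) (a : Fin n), a ≠ (⟨t - 1, by omega⟩ : Fin n) →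
        a ≠ (⟨t, by omega⟩ : Fin n) →
        toFin n (update (update H t x) (t + 1) y) a =
        toFin n (update (update H t x') (t + 1) y') a := by
      intro x y x' y' a h1 h2
      have h1' : a.val + 1 ≠ t := fun h => h1 (Fin.ext (by simp only; omega))
      have h2' : a.val + 1 ≠ t + 1 := fun h => h2 (Fin.ext (by simp only; omega))
      rw [g3 _ _ _ h1' h2', g3 _ _ _ h1' h2']
    have hI := L.typeII n _ _ _ (toFin_hess H0) (toFin_hess H1) (toFin_hess H2)
      ⟨t - 1, by omega⟩ ⟨t, by omega⟩ ⟨b, by omega⟩ (by simp only; omega)
      (by rw [Fin.lt_def]; simp only; omega)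
      (g1 _ _ _ (by simp only; omega)) (g2 _ _ _ (by simp only))
      (g1 _ _ _ (by simp only; omega)) (g2 _ _ _ (by simp only))
      (g1 _ _ _ (by simp only; omega)) (g2 _ _ _ (by simp only))
      (hoff _ _ _ _) (hoff _ _ _ _) hlt
    simpa only [Algebra.smul_def, map_add, map_one] using hI

/-- the field `Frac ℤ[q]`. -/
abbrev KK : Type := FractionRing (Polynomial ℤ)

/-- `q`. -/
noncomputable def qq : KK := algebraMap (Polynomial ℤ) KK Polynomial.X

theorem gen_qq : Gen qq := by
  have hinj : Function.Injective (algebraMap (Polynomial ℤ) KK) :=
    IsFractionRing.injective (Polynomial ℤ) KK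
  have hpow : ∀ m : ℕ, qq ^ (m + 1) ≠ 1 := by
    intro m h
    have h1 : algebraMap (Polynomial ℤ) KK (Polynomial.X ^ (m + 1)) = algebraMap _ KK 1 := by
      rw [map_pow, map_one]; exact h
    have h2 := hinj h1
    have h3 := congrArg Polynomial.natDegree h2
    simp at h3
  have h1 : qq ≠ 1 := by simpa using hpow 0
  refine ⟨?_, h1, ?_⟩
  · intro h
    have : algebraMap (Polynomial ℤ) KK Polynomial.X =
        algebraMap (Polynomial ℤ) KK 0 := by
      rw [map_zero]; exact h
    exact Polynomial.X_ne_zero (hinj this)
  · intro m
    unfold ThickAlg.qz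
    have h2 : (qq ^ ((m : ℤ) + 1) : KK) = qq ^ (m + 1) := by
      have := zpow_natCast qq (m + 1)
      rw [← this]; push_cast; rfl
    rw [h2]
    exact div_ne_zero (sub_ne_zero.mpr (hpow m)) (sub_ne_zero.mpr h1)

/-- the chromatic quasisymmetric function over `Frac ℤ[q]`. -/
noncomputable def DX (n N : ℕ) (H : ℕ → ℕ) : MvPolynomial (Fin N) KK :=
  MvPolynomial.map (algebraMap (Polynomial ℤ) KK) (chromaticQSym (toFin n H) N)

theorem ML_chromatic (n N : ℕ) : ML qq n (DX n N) := by
  have L : GLaws (algebraMap KK (MvPolynomial (Fin N) KK) qq)
      (fun n h => MvPolynomial.map (algebraMap (Polynomial ℤ) KK) (chromaticQSym (n := n) h N)) :=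
    GLaws_chromatic _ (by rw [MvPolynomial.map_C]; rfl)
  exact ML_of_GLaws L n

/-- any linear functional of the chromatic function. -/
theorem ML.comp {K : Type*} [Field K] {M M' : Type*} [AddCommGroup M] [Module K M]
    [AddCommGroup M'] [Module K M'] {q : K} {n : ℕ} {D : (ℕ → ℕ) → M} (L : ML q n D)
    (φ : M →ₗ[K] M') : ML q n (fun H => φ (D H)) where
  ext H H' h := by rw [L.ext H H' h]
  typeI H i j h1 h2 h3 h4 h5 h6 := by
    have := congrArg φ (L.typeI H i j h1 h2 h3 h4 h5 h6)
    simpa only [map_add, map_smul] using this
  typeII H t b h1 h2 h3 h4 h5 h6 := by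
    have := congrArg φ (L.typeII H t b h1 h2 h3 h4 h5 h6)
    simpa only [map_add, map_smul] using this

end Crest.Agent.R059.ThickChrom
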