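import Mathlib

set_option autoImplicit false

/-! Palindromic unimodal polynomials with non-negative integer coefficients, and 'Lemma U':
if such a polynomial is divisible by a `q`-integer then the quotient has non-negative
coefficients. -/

namespace Crest.Agent.R059.Unim

open Polynomial

/-- the `q`-integer `1 + q + ... + q^(d-1)`. -/
noncomputable def qi (d : ℕ) : Polynomial ℤ := ∑ i ∈ Finset.range d, X ^ i

/-- palindromic with centre `c/2`, unimodal, non-negative. -/
structure PU (c : ℕ) (f : Polynomial ℤ) : Prop where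
  pal : ∀ i, i ≤ c → f.coeff i = f.coeff (c - i)
  zero : ∀ i, c < i → f.coeff i = 0
  nonneg : ∀ i, 0 ≤ f.coeff i
  mono : ∀ i j, i ≤ j → i + j ≤ c → f.coeff i ≤ f.coeff j

theorem coeff_qi (d i : ℕ) : (qi d).coeff i = if i < d then 1 else 0 := by
  unfold qi
  rw [finsetSum_coeff]
  simp only [coeff_X_pow]
  rw [Finset.sum_ite_eq]
  simp only [Finset.mem_range]

theorem PU.of_eq {c c' : ℕ} {f g : Polynomial ℤ} (h : PU c f) (hc : c = c') (hf : f = g) :
    PU c' g := by
  subst hc; subst hf; exact h

theorem PU.zero' (c : ℕ) : PU c 0 :=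
  ⟨by simp, by simp, by simp, by simp⟩

theorem PU.add {c : ℕ} {f g : Polynomial ℤ} (hf : PU c f) (hg : PU c g) : PU c (f + g) where
  pal i hi := by rw [coeff_add, coeff_add, hf.pal i hi, hg.pal i hi]
  zero i hi := by rw [coeff_add, hf.zero i hi, hg.zero i hi, add_zero]
  nonneg i := by rw [coeff_add]; exact add_nonneg (hf.nonneg i) (hg.nonneg i)
  mono i j h1 h2 := by
    rw [coeff_add, coeff_add]; exact add_le_add (hf.mono i j h1 h2) (hg.mono i j h1 h2)

theorem PU.sum {ι : Type*} {c : ℕ} (s : Finset ι) (f : ι → Polynomial ℤ)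
    (hf : ∀ i ∈ s, PU c (f i)) : PU c (∑ i ∈ s, f i) := by
  classical
  induction s using Finset.induction_on with
  | empty => simpa using PU.zero' c
  | insert a s ha ih =>
    rw [Finset.sum_insert ha]
    exact (hf a (Finset.mem_insert_self a s)).add
      (ih (fun i hi => hf i (Finset.mem_insert_of_mem hi)))

theorem PU.C_mul {c : ℕ} {f : Polynomial ℤ} (hf : PU c f) {a : ℤ} (ha : 0 ≤ a) :
    PU c (C a * f) where
  pal i hi := by rw [coeff_C_mul, coeff_C_mul, hf.pal i hi]
  zero i hi := by rw [coeff_C_mul, hf.zero i hi, mul_zero]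
  nonneg i := by rw [coeff_C_mul]; exact mul_nonneg ha (hf.nonneg i)
  mono i j h1 h2 := by
    rw [coeff_C_mul, coeff_C_mul]; exact mul_le_mul_of_nonneg_left (hf.mono i j h1 h2) ha

theorem PU.nat_mul {c : ℕ} {f : Polynomial ℤ} (hf : PU c f) (m : ℕ) :
    PU c ((m : Polynomial ℤ) * f) := by
  have := hf.C_mul (a := (m : ℤ)) (by positivity)
  simpa using this

theorem PU.X_mul {c : ℕ} {f : Polynomial ℤ} (hf : PU c f) : PU (c + 2) (X * f) := by
  have h0 : ∀ i, (X * f).coeff (i + 1) = f.coeff i := fun i => by
    rw [mul_comm, coeff_mul_X]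
  have h1 : (X * f).coeff 0 = 0 := by simp
  have hz : ∀ i, c + 2 < i → (X * f).coeff i = 0 := by
    intro i hi
    obtain ⟨i, rfl⟩ : ∃ j, i = j + 1 := ⟨i - 1, by omega⟩
    rw [h0, hf.zero i (by omega)]
  have hz' : (X * f).coeff (c + 2) = 0 := by
    rw [show c + 2 = (c + 1) + 1 from rfl, h0, hf.zero _ (by omega)]
  refine ⟨?_, hz, ?_, ?_⟩
  · intro i hi
    rcases Nat.eq_zero_or_pos i with rfl | hp
    · rw [h1, Nat.sub_zero, hz']
    · obtain ⟨i, rfl⟩ : ∃ j, i = j + 1 := ⟨i - 1, by omega⟩
      rcases Nat.lt_or_ge i (c + 1) with hlt | hge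
      · rw [h0, show c + 2 - (i + 1) = (c - i) + 1 by omega, h0, hf.pal i (by omega)]
      · have : i = c + 1 := by omega
        subst this
        rw [show c + 1 + 1 = c + 2 from rfl, hz', Nat.sub_self, h1]
  · intro i
    rcases Nat.eq_zero_or_pos i with rfl | hp
    · rw [h1]
    · obtain ⟨i, rfl⟩ : ∃ j, i = j + 1 := ⟨i - 1, by omega⟩
      rw [h0]; exact hf.nonneg i
  · intro i j hij hc
    rcases Nat.eq_zero_or_pos i with rfl | hp
    · rw [h1]
      rcases Nat.eq_zero_or_pos j with rfl | hp
      · rw [h1]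
      · obtain ⟨j, rfl⟩ : ∃ k, j = k + 1 := ⟨j - 1, by omega⟩
        rw [h0]; exact hf.nonneg j
    · obtain ⟨i, rfl⟩ : ∃ j, i = j + 1 := ⟨i - 1, by omega⟩
      obtain ⟨j, rfl⟩ : ∃ k, j = k + 1 := ⟨j - 1, by omega⟩
      rw [h0, h0]; exact hf.mono i j (by omega) (by omega)

theorem PU.X_pow_mul {c : ℕ} {f : Polynomial ℤ} (hf : PU c f) (a : ℕ) :
    PU (c + 2 * a) (X ^ a * f) := by
  induction a with
  | zero => simpa using hf
  | succ a ih =>
    exact ih.X_mul.of_eq (by ring) (by rw [pow_succ]; ring)

theorem qi_succ (a : ℕ) : qi (a + 1) = qi a + X ^ a := by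
  unfold qi; rw [Finset.sum_range_succ]

theorem qi_zero : qi 0 = 0 := by simp [qi]

theorem qi_one : qi 1 = 1 := by simp [qi]

theorem one_sub_X_mul_qi (d : ℕ) : (1 - X) * qi d = 1 - X ^ d := by
  induction d with
  | zero => simp [qi_zero]
  | succ d ih => rw [qi_succ, mul_add, ih, pow_succ]; ring

theorem coeff_sub_shift (d : ℕ) (V : Polynomial ℤ) (i : ℕ) :
    ((1 - X ^ d) * V).coeff i = V.coeff i - (if d ≤ i then V.coeff (i - d) else 0) := by
  rw [sub_mul, one_mul, coeff_sub, mul_comm (X ^ d) V, coeff_mul_X_pow']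

/-- the difference relation for a product with a `q`-integer. -/
theorem coeff_qi_mul_diff (d : ℕ) (V : Polynomial ℤ) (i : ℕ) :
    (qi d * V).coeff (i + 1) - (qi d * V).coeff i =
      V.coeff (i + 1) - (if d ≤ i + 1 then V.coeff (i + 1 - d) else 0) := by
  have h : (1 - X ^ 1) * (qi d * V) = (1 - X ^ d) * V := by
    rw [pow_one, ← mul_assoc, one_sub_X_mul_qi]
  have h2 := congrArg (fun p => p.coeff (i + 1)) h
  simp only [coeff_sub_shift] at h2
  rw [if_pos (by omega)] at h2
  simpa using h2

theorem coeff_qi_mul_zero (d : ℕ) (hd : 0 < d) (V : Polynomial ℤ) :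
    (qi d * V).coeff 0 = V.coeff 0 := by
  rw [mul_coeff_zero, coeff_qi, if_pos hd, one_mul]

/-- multiplication by a `q`-integer preserves `PU`. -/
theorem PU.qi_mul {c : ℕ} {f : Polynomial ℤ} (hf : PU c f) (a : ℕ) :
    PU (c + a) (qi (a + 1) * f) := by
  have hd := coeff_qi_mul_diff (a + 1) f
  -- coefficients as sums
  have hs : ∀ i, (qi (a + 1) * f).coeff i =
      ∑ t ∈ Finset.range (a + 1), (if t ≤ i then f.coeff (i - t) else 0) := by
    intro i
    unfold qi
    rw [Finset.sum_mul, finsetSum_coeff]
    apply Finset.sum_congr rfl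
    intro t _
    rw [mul_comm, coeff_mul_X_pow']
  have hz : ∀ i, c + a < i → (qi (a + 1) * f).coeff i = 0 := by
    intro i hi
    rw [hs]
    apply Finset.sum_eq_zero
    intro t ht
    rw [Finset.mem_range] at ht
    rw [if_pos (by omega), hf.zero _ (by omega)]
  have hn : ∀ i, 0 ≤ (qi (a + 1) * f).coeff i := by
    intro i
    rw [hs]
    apply Finset.sum_nonneg
    intro t _
    split_ifs
    · exact hf.nonneg _
    · exact le_refl 0
  have hp : ∀ i, i ≤ c + a → (qi (a + 1) * f).coeff i = (qi (a + 1) * f).coeff (c + a - i) := by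
    intro i hi
    rw [hs, hs, ← Finset.sum_range_reflect]
    apply Finset.sum_congr rfl
    intro t ht
    rw [Finset.mem_range] at ht
    have e1 : a + 1 - 1 - t = a - t := by omega
    rw [e1]
    by_cases h1 : a - t ≤ i
    · rw [if_pos h1]
      by_cases h2 : t ≤ c + a - i
      · rw [if_pos h2, hf.pal _ (by omega)]
        congr 1
        omega
      · rw [if_neg h2, hf.zero _ (by omega)]
    · rw [if_neg h1]
      by_cases h2 : t ≤ c + a - i
      · rw [if_pos h2, hf.zero _ (by omega)]
      · rw [if_neg h2]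
  -- one step monotonicity in the lower half
  have hstep : ∀ i, 2 * i + 1 ≤ c + a →
      (qi (a + 1) * f).coeff i ≤ (qi (a + 1) * f).coeff (i + 1) := by
    intro i hi
    have := hd i
    have h3 : (if a + 1 ≤ i + 1 then f.coeff (i + 1 - (a + 1)) else 0) ≤ f.coeff (i + 1) := by
      split_ifs with h4
      · exact hf.mono _ _ (by omega) (by omega)
      · exact hf.nonneg _
    linarith
  have hhalf : ∀ i j, i ≤ j → 2 * j ≤ c + a + 1 →
      (qi (a + 1) * f).coeff i ≤ (qi (a + 1) * f).coeff j := by
    intro i j hij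
    induction j, hij using Nat.le_induction with
    | base => intro _; exact le_refl _
    | succ j hj ih => intro h; exact (ih (by omega)).trans (hstep j (by omega))
  refine ⟨hp, hz, hn, ?_⟩
  intro i j hij hc
  by_cases h : 2 * j ≤ c + a + 1
  · exact hhalf i j hij h
  · rw [hp j (by omega)]
    exact hhalf i _ (by omega) (by omega)

theorem PU.one : PU 0 1 where
  pal i hi := by rw [Nat.le_zero.mp hi]
  zero i hi := by rw [coeff_one, if_neg (by omega)]
  nonneg i := by rw [coeff_one]; split_ifs <;> norm_num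
  mono i j h1 h2 := by
    have : i = 0 := by omega
    have : j = 0 := by omega
    subst_vars; exact le_refl _

theorem PU.qi (a : ℕ) : PU a (qi (a + 1)) :=
  (PU.one.qi_mul a).of_eq (by simp) (by rw [mul_one])

/-- products of palindromic unimodal polynomials. -/
theorem PU.mul {c c' : ℕ} {f g : Polynomial ℤ} (hf : PU c f) (hg : PU c' g) :
    PU (c + c') (f * g) := by
  induction c using Nat.strong_induction_on generalizing f with
  | _ c ih =>
    -- f = f_0 [c+1] + X f'
    have hext : ∀ p : Polynomial ℤ, (∀ i, p.coeff i = 0) → p = 0 := fun p hp => by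
      ext i; rw [hp, coeff_zero]
    rcases Nat.lt_or_ge c 2 with h2 | h2
    · -- c = 0 or 1 : f = f_0 [c+1]
      have hf0 : f = C (f.coeff 0) * Unim.qi (c + 1) := by
        ext i
        rw [coeff_C_mul, coeff_qi]
        by_cases hi : i < c + 1
        · rw [if_pos hi, mul_one]
          interval_cases c
          · rw [show i = 0 by omega]
          · rcases Nat.eq_zero_or_pos i with rfl | hp
            · rfl
            · have : i = 1 := by omega
              subst this
              rw [hf.pal 1 (le_refl _)]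
        · rw [if_neg hi, mul_zero, hf.zero i (by omega)]
      have h3 := (hg.qi_mul c).C_mul (hf.nonneg 0)
      exact h3.of_eq (by ring) (by rw [← mul_assoc, ← hf0])
    · obtain ⟨b, rfl⟩ : ∃ b, c = b + 2 := ⟨c - 2, by omega⟩
      set r : Polynomial ℤ := f - C (f.coeff 0) * Unim.qi (b + 2 + 1) with hr
      have hrc : ∀ i, r.coeff i = f.coeff i - (if i < b + 3 then f.coeff 0 else 0) := by
        intro i
        rw [hr, coeff_sub, coeff_C_mul, coeff_qi]
        split_ifs <;> simp
      have hr0 : r.coeff 0 = 0 := by rw [hrc]; simp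
      obtain ⟨f', hf'⟩ : ∃ f', r = X * f' := by
        have : (X : Polynomial ℤ) ∣ r := X_dvd_iff.mpr hr0
        exact this
      have hcf : ∀ i, f'.coeff i = f.coeff (i + 1) - (if i < b + 2 then f.coeff 0 else 0) := by
        intro i
        have h4 : r.coeff (i + 1) = f'.coeff i := by rw [hf', mul_comm, coeff_mul_X]
        rw [← h4, hrc]
        congr 1
        by_cases h5 : i < b + 2
        · rw [if_pos h5, if_pos (by omega)]
        · rw [if_neg h5, if_neg (by omega)]
      have hend : f.coeff (b + 2) = f.coeff 0 := by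
        rw [hf.pal (b + 2) (le_refl _), Nat.sub_self]
      have hPf' : PU b f' := by
        refine ⟨?_, ?_, ?_, ?_⟩
        · intro i hi
          rw [hcf, hcf, if_pos (by omega), if_pos (by omega), hf.pal (i + 1) (by omega)]
          congr 2
          omega
        · intro i hi
          rw [hcf]
          by_cases h5 : i < b + 2
          · have : i = b + 1 := by omega
            subst this
            rw [if_pos h5, show b + 1 + 1 = b + 2 from rfl, hend, sub_self]
          · rw [if_neg h5, hf.zero _ (by omega), sub_zero]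
        · intro i
          rw [hcf]
          by_cases h5 : i < b + 2
          · rw [if_pos h5]
            have : f.coeff 0 ≤ f.coeff (i + 1) := hf.mono 0 (i + 1) (by omega) (by omega)
            linarith
          · rw [if_neg h5, sub_zero]; exact hf.nonneg _
        · intro i j h1 h3
          rw [hcf, hcf, if_pos (by omega), if_pos (by omega)]
          have := hf.mono (i + 1) (j + 1) (by omega) (by omega)
          linarith
      have h6 := (hg.qi_mul (b + 2)).C_mul (hf.nonneg 0)
      have h7 := (ih b (by omega) hPf').X_mul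
      have h8 := (h6.of_eq (show c' + (b + 2) = b + 2 + c' by ring) rfl).add
        (h7.of_eq (show b + c' + 2 = b + 2 + c' by ring) rfl)
      refine h8.of_eq rfl ?_
      have h9 : f = C (f.coeff 0) * Unim.qi (b + 2 + 1) + X * f' := by
        rw [← hf', hr]; ring
      calc C (f.coeff 0) * (Unim.qi (b + 2 + 1) * g) + X * (f' * g)
          = (C (f.coeff 0) * Unim.qi (b + 2 + 1) + X * f') * g := by ring
        _ = f * g := by rw [← h9]

theorem PU.prod {ι : Type*} (s : Finset ι) (c : ι → ℕ) (f : ι → Polynomial ℤ)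
    (hf : ∀ i ∈ s, PU (c i) (f i)) : PU (∑ i ∈ s, c i) (∏ i ∈ s, f i) := by
  classical
  induction s using Finset.induction_on with
  | empty => simpa using PU.one
  | insert a s ha ih =>
    rw [Finset.sum_insert ha, Finset.prod_insert ha]
    exact (hf a (Finset.mem_insert_self a s)).mul
      (ih (fun i hi => hf i (Finset.mem_insert_of_mem hi)))

/-- **Lemma U.** If `U` is palindromic unimodal non-negative and `U = [d] V`, then all the
coefficients of `V` are non-negative. -/
theorem lemmaU {c d : ℕ} {U V : Polynomial ℤ} (hU : PU c U) (hd : 0 < d) (h : U = qi d * V)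
    (i : ℕ) : 0 ≤ V.coeff i := by
  have hdiff : ∀ i, U.coeff (i + 1) - U.coeff i =
      V.coeff (i + 1) - (if d ≤ i + 1 then V.coeff (i + 1 - d) else 0) := by
    intro i; rw [h]; exact coeff_qi_mul_diff d V i
  have h0 : V.coeff 0 = U.coeff 0 := by rw [h, coeff_qi_mul_zero d hd]
  -- lower half
  have low : ∀ i, 2 * i ≤ c → 0 ≤ V.coeff i := by
    intro i
    induction i using Nat.strong_induction_on with
    | _ i ih =>
      intro hi
      rcases Nat.eq_zero_or_pos i with rfl | hp
      · rw [h0]; exact hU.nonneg 0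
      · obtain ⟨j, rfl⟩ : ∃ j, i = j + 1 := ⟨i - 1, by omega⟩
        have h1 := hdiff j
        have h2 : U.coeff j ≤ U.coeff (j + 1) := hU.mono j (j + 1) (by omega) (by omega)
        have h3 : 0 ≤ (if d ≤ j + 1 then V.coeff (j + 1 - d) else 0) := by
          split_ifs with h4
          · exact ih (j + 1 - d) (by omega) (by omega)
          · exact le_refl 0
        linarith
  -- upper half, downward induction
  have up : ∀ k i, V.natDegree < i + k → c < 2 * i → 0 ≤ V.coeff i := by
    intro k
    induction k with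
    | zero =>
      intro i hi _
      rw [coeff_eq_zero_of_natDegree_lt (by simpa using hi)]
    | succ k ih =>
      intro i hi hc
      have h1 := hdiff (i + d - 1)
      rw [show i + d - 1 + 1 = i + d by omega, if_pos (by omega),
        show i + d - d = i by omega] at h1
      have h2 : 0 ≤ V.coeff (i + d) := ih (i + d) (by omega) (by omega)
      have h3 : U.coeff (i + d) ≤ U.coeff (i + d - 1) := by
        by_cases h4 : i + d ≤ c
        · rw [hU.pal (i + d) h4, hU.pal (i + d - 1) (by omega)]
          exact hU.mono _ _ (by omega) (by omega)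
        · rw [hU.zero (i + d) (by omega)]
          exact hU.nonneg _
      linarith
  rcases Nat.lt_or_ge c (2 * i) with hc | hc
  · exact up (V.natDegree + 1) i (by omega) hc
  · exact low i hc

/-! ### Power series form (lower half) -/

/-- lower half non-negativity, centre `c/2`. -/
def LH (c : ℕ) (T : PowerSeries ℤ) : Prop := ∀ i, 2 * i ≤ c → 0 ≤ PowerSeries.coeff i T

theorem LH.add {c : ℕ} {S T : PowerSeries ℤ} (hS : LH c S) (hT : LH c T) : LH c (S + T) := by
  intro i hi
  rw [map_add]
  exact add_nonneg (hS i hi) (hT i hi)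

theorem LH.sum {ι : Type*} {c : ℕ} (s : Finset ι) (T : ι → PowerSeries ℤ)
    (hT : ∀ j ∈ s, LH c (T j)) : LH c (∑ j ∈ s, T j) := by
  intro i hi
  rw [map_sum]
  exact Finset.sum_nonneg (fun j hj => hT j hj i hi)

theorem LH.of_PU {c : ℕ} {P : Polynomial ℤ} (hP : PU c P) : LH c (P : PowerSeries ℤ) := by
  intro i _
  rw [Polynomial.coeff_coe]
  exact hP.nonneg i

/-- a palindromic unimodal polynomial divided by one `q`-integer is non-negative in its lower
half (as a power series). -/
theorem LH.of_div {c d : ℕ} {P : Polynomial ℤ} {T : PowerSeries ℤ} (hP : PU c P) (hd : 0 < d)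
    (hT : ((qi d : Polynomial ℤ) : PowerSeries ℤ) * T = (P : PowerSeries ℤ)) : LH c T := by
  have hX : (1 - (PowerSeries.X : PowerSeries ℤ)) * ((qi d : Polynomial ℤ) : PowerSeries ℤ) =
      1 - PowerSeries.X ^ d := by
    have := congrArg (fun p : Polynomial ℤ => (p : PowerSeries ℤ)) (one_sub_X_mul_qi d)
    simpa using this
  have key : (1 - (PowerSeries.X : PowerSeries ℤ)) * (P : PowerSeries ℤ) =
      (1 - PowerSeries.X ^ d) * T := by
    rw [← hT, ← mul_assoc, hX]
  have hc1 : ∀ (a : ℕ) (F : PowerSeries ℤ) (i : ℕ), PowerSeries.coeff i ((1 - PowerSeries.X ^ a) * F)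
      = PowerSeries.coeff i F - (if a ≤ i then PowerSeries.coeff (i - a) F else 0) := by
    intro a F i
    rw [sub_mul, one_mul, map_sub, PowerSeries.coeff_X_pow_mul']
  have h1 : ∀ i, PowerSeries.coeff i T = (if d ≤ i then PowerSeries.coeff (i - d) T else 0) +
      (P.coeff i - (if 1 ≤ i then P.coeff (i - 1) else 0)) := by
    intro i
    have h2 := congrArg (PowerSeries.coeff i) key
    rw [hc1 d T i, show (1 - (PowerSeries.X : PowerSeries ℤ)) = 1 - PowerSeries.X ^ 1 by
      rw [pow_one], hc1 1 _ i, Polynomial.coeff_coe, Polynomial.coeff_coe] at h2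
    linarith
  intro i
  induction i using Nat.strong_induction_on with
  | _ i ih =>
    intro hi
    rw [h1 i]
    apply add_nonneg
    · split_ifs with h2
      · exact ih (i - d) (by omega) (by omega)
      · exact le_refl 0
    · split_ifs with h2
      · have := hP.mono (i - 1) i (by omega) (by omega)
        linarith
      · have := hP.nonneg i
        linarith

/-- lower half non-negativity only needs to be checked for a smaller centre. -/
theorem LH.mono {c c' : ℕ} {T : PowerSeries ℤ} (h : LH c T) (hc : c' ≤ c) : LH c' T :=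
  fun i hi => h i (by omega)

/-- a palindromic polynomial with non-negative lower half is non-negative. -/
theorem nonneg_of_LH {c : ℕ} {S : Polynomial ℤ} (hS : LH c (S : PowerSeries ℤ))
    (hp : ∀ i, i ≤ c → S.coeff i = S.coeff (c - i)) (hz : ∀ i, c < i → S.coeff i = 0) (i : ℕ) :
    0 ≤ S.coeff i := by
  rcases Nat.lt_or_ge c i with h | h
  · rw [hz i h]
  · rcases Nat.lt_or_ge c (2 * i) with h2 | h2
    · rw [hp i h]
      have := hS (c - i) (by omega)
      rwa [Polynomial.coeff_coe] at this
    · have := hS i h2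
      rwa [Polynomial.coeff_coe] at this

/-- **COR 1.** A palindromic polynomial (centre `c/2`) which is a sum of terms `P_j / [d_j]` with
`P_j` palindromic unimodal with centre `(c + d_j - 1)/2` has non-negative coefficients. -/
theorem nonneg_of_sum {ι : Type*} (s : Finset ι) {c : ℕ} (d : ι → ℕ) (P : ι → Polynomial ℤ)
    (T : ι → PowerSeries ℤ) {S : Polynomial ℤ} (hd : ∀ j ∈ s, 0 < d j)
    (hP : ∀ j ∈ s, PU (c + d j - 1) (P j))
    (hT : ∀ j ∈ s, ((qi (d j) : Polynomial ℤ) : PowerSeries ℤ) * T j = (P j : PowerSeries ℤ))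
    (hS : (S : PowerSeries ℤ) = ∑ j ∈ s, T j)
    (hp : ∀ i, i ≤ c → S.coeff i = S.coeff (c - i)) (hz : ∀ i, c < i → S.coeff i = 0) (i : ℕ) :
    0 ≤ S.coeff i := by
  apply nonneg_of_LH (c := c) _ hp hz
  rw [hS]
  apply LH.sum
  intro j hj
  have h1 := hd j hj
  exact (LH.of_div (hP j hj) h1 (hT j hj)).mono (by omega)

end Crest.Agent.R059.Unim
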