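import Crest.Agent.R059.Modular2

/-!
# Row 59: words (permutations), descent sets and graph inversions under the local moves

* `AddEdge h h' x y`: the graph of `h'` is the graph of `h` plus the edge `x y` (`x < y`).
* `Twin h j k`: `k = j+1`, `j ~ k` and every other vertex has the same adjacency to `j` and `k`.
* `sw j k σ`: the word `σ` with the letters `j`, `k` exchanged.
-/

set_option autoImplicit false

open Crest.CombinatoricsR.UnitInterval

namespace Crest.Agent.R059

variable {n : ℕ}

theorem isEdge_comm (h : Fin n → ℕ) (a b : Fin n) : IsEdge h a b ↔ IsEdge h b a := by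
  unfold IsEdge; exact Or.comm

theorem not_isEdge_self (h : Fin n → ℕ) (a : Fin n) : ¬ IsEdge h a a := by
  unfold IsEdge; simp

/-- the word `σ` with the letters `j` and `k` exchanged. -/
def sw (j k : Fin n) (σ : Equiv.Perm (Fin n)) : Equiv.Perm (Fin n) :=
  σ.trans (Equiv.swap j k)

@[simp] theorem sw_apply (j k : Fin n) (σ : Equiv.Perm (Fin n)) (p : Fin n) :
    sw j k σ p = Equiv.swap j k (σ p) := rfl

@[simp] theorem sw_symm_apply (j k : Fin n) (σ : Equiv.Perm (Fin n)) (x : Fin n) :
    (sw j k σ).symm x = σ.symm (Equiv.swap j k x) := by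
  simp [sw, Equiv.symm_trans_apply]

@[simp] theorem sw_sw (j k : Fin n) (σ : Equiv.Perm (Fin n)) : sw j k (sw j k σ) = σ := by
  ext p; simp

theorem sw_symm_left (j k : Fin n) (σ : Equiv.Perm (Fin n)) :
    (sw j k σ).symm j = σ.symm k := by simp

theorem sw_symm_right (j k : Fin n) (σ : Equiv.Perm (Fin n)) :
    (sw j k σ).symm k = σ.symm j := by simp

theorem sw_symm_of_ne {j k x : Fin n} (hj : x ≠ j) (hk : x ≠ k) (σ : Equiv.Perm (Fin n)) :
    (sw j k σ).symm x = σ.symm x := by
  simp [Equiv.swap_apply_of_ne_of_ne hj hk]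

theorem mem_descentSet {h : Fin n → ℕ} {σ : Equiv.Perm (Fin n)} :
    σ ∈ descentSet h ↔
      ∀ p q : Fin n, q.val = p.val + 1 → σ q < σ p → IsEdge h (σ q) (σ p) := by
  unfold descentSet; simp

/-- the set of graph inversions. -/
def invSet (h : Fin n → ℕ) (σ : Equiv.Perm (Fin n)) : Finset (Fin n × Fin n) :=
  Finset.univ.filter (fun p : Fin n × Fin n =>
    p.1 < p.2 ∧ σ p.2 < σ p.1 ∧ IsEdge h (σ p.1) (σ p.2))

theorem ginv_eq (h : Fin n → ℕ) (σ : Equiv.Perm (Fin n)) : ginv h σ = (invSet h σ).card := rfl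

theorem mem_invSet {h : Fin n → ℕ} {σ : Equiv.Perm (Fin n)} {p : Fin n × Fin n} :
    p ∈ invSet h σ ↔ p.1 < p.2 ∧ σ p.2 < σ p.1 ∧ IsEdge h (σ p.1) (σ p.2) := by
  simp [invSet]

/-- `h'` is `h` plus the edge `x y`, `x < y`. -/
structure AddEdge (h h' : Fin n → ℕ) (x y : Fin n) : Prop where
  lt : x < y
  not_edge : ¬ IsEdge h x y
  edge_iff : ∀ a b, IsEdge h' a b ↔ IsEdge h a b ∨ (a = x ∧ b = y) ∨ (a = y ∧ b = x)

theorem AddEdge.mem {h h' : Fin n → ℕ} {x y : Fin n} (A : AddEdge h h' x y)
    (σ : Equiv.Perm (Fin n)) :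
    σ ∈ descentSet h ↔ σ ∈ descentSet h' ∧ (σ.symm x).val ≠ (σ.symm y).val + 1 := by
  rw [mem_descentSet, mem_descentSet]
  constructor
  · intro hs
    refine ⟨fun p q hpq hlt => (A.edge_iff _ _).2 (Or.inl (hs p q hpq hlt)), ?_⟩
    intro hcon
    have := hs (σ.symm y) (σ.symm x) hcon (by simpa using A.lt)
    simp only [Equiv.apply_symm_apply] at this
    exact A.not_edge this
  · rintro ⟨hs, hne⟩ p q hpq hlt
    rcases (A.edge_iff _ _).1 (hs p q hpq hlt) with h1 | ⟨h1, h2⟩ | ⟨h1, h2⟩
    · exact h1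
    · exfalso
      apply hne
      rw [← h1, ← h2]
      simpa using hpq
    · exfalso
      rw [h1, h2] at hlt
      exact absurd hlt (not_lt.2 A.lt.le)

theorem AddEdge.ginv {h h' : Fin n → ℕ} {x y : Fin n} (A : AddEdge h h' x y)
    (σ : Equiv.Perm (Fin n)) :
    ginv h' σ = ginv h σ + if σ.symm y < σ.symm x then 1 else 0 := by
  classical
  rw [ginv_eq, ginv_eq]
  split_ifs with hpos
  · have hnot : (σ.symm y, σ.symm x) ∉ invSet h σ := by
      rw [mem_invSet]
      rintro ⟨_, _, h3⟩
      simp only [Equiv.apply_symm_apply] at h3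
      exact A.not_edge ((isEdge_comm _ _ _).1 h3)
    rw [← Finset.card_insert_of_notMem hnot]
    congr 1
    ext ⟨p, q⟩
    rw [Finset.mem_insert, mem_invSet, mem_invSet]
    constructor
    · rintro ⟨h1, h2, h3⟩
      rcases (A.edge_iff _ _).1 h3 with h4 | ⟨h4, h5⟩ | ⟨h4, h5⟩
      · exact Or.inr ⟨h1, h2, h4⟩
      · exfalso
        simp only [h4, h5] at h2
        exact absurd h2 (not_lt.2 A.lt.le)
      · left
        simp only at h4 h5
        rw [← h4, ← h5]
        simp
    · rintro (h1 | ⟨h1, h2, h3⟩)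
      · obtain ⟨rfl, rfl⟩ := Prod.mk.inj h1
        refine ⟨hpos, ?_, ?_⟩
        · simpa using A.lt
        · rw [A.edge_iff]
          simp
      · exact ⟨h1, h2, (A.edge_iff _ _).2 (Or.inl h3)⟩
  · rw [add_zero]
    congr 1
    ext ⟨p, q⟩
    rw [mem_invSet, mem_invSet]
    constructor
    · rintro ⟨h1, h2, h3⟩
      rcases (A.edge_iff _ _).1 h3 with h4 | ⟨h4, h5⟩ | ⟨h4, h5⟩
      · exact ⟨h1, h2, h4⟩
      · exfalso
        simp only [h4, h5] at h2
        exact absurd h2 (not_lt.2 A.lt.le)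
      · exfalso
        apply hpos
        simp only at h4 h5 h1
        rw [← h4, ← h5]
        simpa using h1
    · rintro ⟨h1, h2, h3⟩
      exact ⟨h1, h2, (A.edge_iff _ _).2 (Or.inl h3)⟩

/-- `j`, `k = j+1` are adjacent twins. -/
structure Twin (h : Fin n → ℕ) (j k : Fin n) : Prop where
  succ : k.val = j.val + 1
  edge : IsEdge h j k
  twin : ∀ a, a ≠ j → a ≠ k → (IsEdge h a j ↔ IsEdge h a k)

theorem Twin.ne {h : Fin n → ℕ} {j k : Fin n} (T : Twin h j k) : j ≠ k := by
  intro h1
  have := T.succ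
  rw [h1] at this
  omega

/-- a transposition of twins does not change adjacency. -/
theorem Twin.edge_swap {h : Fin n → ℕ} {j k : Fin n} (T : Twin h j k) (x y : Fin n) :
    IsEdge h (Equiv.swap j k x) (Equiv.swap j k y) ↔ IsEdge h x y := by
  have hne := T.ne
  rcases eq_or_ne x j with rfl | hxj
  · rw [Equiv.swap_apply_left]
    rcases eq_or_ne y x with rfl | hyj
    · rw [Equiv.swap_apply_left]
      simp [not_isEdge_self]
    · rcases eq_or_ne y k with rfl | hyk
      · rw [Equiv.swap_apply_right]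
        exact isEdge_comm _ _ _
      · rw [Equiv.swap_apply_of_ne_of_ne hyj hyk, isEdge_comm, ← T.twin y hyj hyk, isEdge_comm]
  · rcases eq_or_ne x k with rfl | hxk
    · rw [Equiv.swap_apply_right]
      rcases eq_or_ne y j with rfl | hyj
      · rw [Equiv.swap_apply_left]
        exact isEdge_comm _ _ _
      · rcases eq_or_ne y x with rfl | hyk
        · rw [Equiv.swap_apply_right]
          simp [not_isEdge_self]
        · rw [Equiv.swap_apply_of_ne_of_ne hyj hyk, isEdge_comm, T.twin y hyj hyk, isEdge_comm]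
    · rw [Equiv.swap_apply_of_ne_of_ne hxj hxk]
      rcases eq_or_ne y j with rfl | hyj
      · rw [Equiv.swap_apply_left]
        exact (T.twin x hxj hxk).symm
      · rcases eq_or_ne y k with rfl | hyk
        · rw [Equiv.swap_apply_right]
          exact T.twin x hxj hxk
        · rw [Equiv.swap_apply_of_ne_of_ne hyj hyk]

theorem swap_lt_swap {j k : Fin n} (hk : k.val = j.val + 1) (x y : Fin n)
    (hxy : ¬ (x = j ∧ y = k)) (hyx : ¬ (x = k ∧ y = j)) :
    Equiv.swap j k x < Equiv.swap j k y ↔ x < y := by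
  have hne : j ≠ k := by
    intro h1
    rw [h1] at hk
    omega
  have e : ∀ z : Fin n, (Equiv.swap j k z).val =
      if z.val = j.val then j.val + 1 else if z.val = j.val + 1 then j.val else z.val := by
    intro z
    rcases eq_or_ne z j with rfl | hzj
    · rw [Equiv.swap_apply_left]; simp [hk]
    · rcases eq_or_ne z k with rfl | hzk
      · rw [Equiv.swap_apply_right]; simp [hk]
      · rw [Equiv.swap_apply_of_ne_of_ne hzj hzk]
        have h1 : z.val ≠ j.val := fun h => hzj (Fin.ext h)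
        have h2 : z.val ≠ j.val + 1 := fun h => hzk (Fin.ext (h.trans hk.symm))
        simp [h1, h2]
  rw [Fin.lt_def, Fin.lt_def, e x, e y]
  have h1 : ¬ (x.val = j.val ∧ y.val = j.val + 1) := by
    rintro ⟨h1, h2⟩
    exact hxy ⟨Fin.ext h1, Fin.ext (h2.trans hk.symm)⟩
  have h2 : ¬ (x.val = j.val + 1 ∧ y.val = j.val) := by
    rintro ⟨h1, h2⟩
    exact hyx ⟨Fin.ext (h1.trans hk.symm), Fin.ext h2⟩
  split_ifs <;> omega

theorem Twin.mem {h : Fin n → ℕ} {j k : Fin n} (T : Twin h j k) (σ : Equiv.Perm (Fin n)) :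
    sw j k σ ∈ descentSet h ↔ σ ∈ descentSet h := by
  have key : ∀ τ : Equiv.Perm (Fin n), τ ∈ descentSet h → sw j k τ ∈ descentSet h := by
    intro τ hτ
    rw [mem_descentSet] at hτ ⊢
    intro p q hpq hlt
    simp only [sw_apply] at hlt ⊢
    by_cases h1 : τ q = j ∧ τ p = k
    · rw [h1.1, h1.2]
      simp only [Equiv.swap_apply_left, Equiv.swap_apply_right]
      exact (isEdge_comm _ _ _).1 T.edge
    · by_cases h2 : τ q = k ∧ τ p = j
      · rw [h2.1, h2.2]
        simp only [Equiv.swap_apply_left, Equiv.swap_apply_right]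
        exact T.edge
      · rw [swap_lt_swap T.succ _ _ h1 h2] at hlt
        exact (T.edge_swap _ _).2 (hτ p q hpq hlt)
  constructor
  · intro h1
    have := key _ h1
    rwa [sw_sw] at this
  · exact key σ

theorem Twin.ginv {h : Fin n → ℕ} {j k : Fin n} (T : Twin h j k) (σ : Equiv.Perm (Fin n))
    (hpos : σ.symm j < σ.symm k) : ginv h (sw j k σ) = ginv h σ + 1 := by
  classical
  rw [ginv_eq, ginv_eq]
  have hnot : (σ.symm j, σ.symm k) ∉ invSet h σ := by
    rw [mem_invSet]
    rintro ⟨_, h2, _⟩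
    simp only [Equiv.apply_symm_apply, Fin.lt_def] at h2
    have := T.succ
    omega
  rw [← Finset.card_insert_of_notMem hnot]
  congr 1
  ext ⟨p, q⟩
  rw [Finset.mem_insert, mem_invSet, mem_invSet]
  simp only [sw_apply]
  by_cases h1 : σ p = j ∧ σ q = k
  · have e1 : p = σ.symm j := by rw [← h1.1]; simp
    have e2 : q = σ.symm k := by rw [← h1.2]; simp
    constructor
    · intro _; left; rw [e1, e2]
    · intro _
      rw [h1.1, h1.2]
      simp only [Equiv.swap_apply_left, Equiv.swap_apply_right]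
      refine ⟨by rw [e1, e2]; exact hpos, ?_, (isEdge_comm _ _ _).1 T.edge⟩
      rw [Fin.lt_def]
      have := T.succ
      omega
  · by_cases h2 : σ p = k ∧ σ q = j
    · have e1 : p = σ.symm k := by rw [← h2.1]; simp
      have e2 : q = σ.symm j := by rw [← h2.2]; simp
      constructor
      · rintro ⟨h3, _, _⟩
        rw [e1, e2] at h3
        exact absurd h3 (not_lt.2 hpos.le)
      · rintro (h3 | ⟨h3, _, _⟩)
        · rw [e1, e2] at h3
          have := (Prod.mk.inj h3).1
          have := T.ne (σ.symm.injective this).symm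
          exact this.elim
        · rw [e1, e2] at h3
          exact absurd h3 (not_lt.2 hpos.le)
    · have h1' : ¬ (σ q = k ∧ σ p = j) := fun h => h1 ⟨h.2, h.1⟩
      have h2' : ¬ (σ q = j ∧ σ p = k) := fun h => h2 ⟨h.2, h.1⟩
      rw [swap_lt_swap T.succ _ _ h2' h1', T.edge_swap]
      constructor
      · intro h3; exact Or.inr h3
      · rintro (h3 | h3)
        · exfalso
          obtain ⟨rfl, rfl⟩ := Prod.mk.inj h3
          apply h1
          simp
        · exact h3

end Crest.Agent.R059
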